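import Vale.Agent.P240.MathlibUsed
import Vale.Agent.P240.K.Defs
import Vale.Agent.P240.K.FamDefs
import Vale.Agent.P240.V.LDefs
import Vale.Agent.P240.V.PADefs
import Vale.Agent.P240.V.RDefs

set_option linter.all false

section

namespace Vale.Agent.P240.K

open Finsupp

variable {𝕜 : Type*} [Field 𝕜]

variable {α β γ : Type*}

/-- Rational chains. -/
abbrev Ch (𝕜 : Type*) [Field 𝕜] (α : Type*) := List α →₀ 𝕜

/-- Linear maps out of `Ch 𝕜 α` agree if they agree on lists. -/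
lemma lin_ext {M : Type*} [AddCommGroup M] [Module 𝕜 M] {f g : Ch 𝕜 α →ₗ[𝕜] M}
    (h : ∀ l, f (single l 1) = g (single l 1)) : f = g :=
  Finsupp.lhom_ext' fun l => LinearMap.ext_ring (h l)

lemma lin_ext_apply {M : Type*} [AddCommGroup M] [Module 𝕜 M] {f g : Ch 𝕜 α →ₗ[𝕜] M}
    (h : ∀ l, f (single l 1) = g (single l 1)) (c : Ch 𝕜 α) : f c = g c := by
  rw [lin_ext h]

/-- Prepend an element. -/
noncomputable def cons (x : α) : Ch 𝕜 α →ₗ[𝕜] Ch 𝕜 α := Finsupp.lmapDomain 𝕜 𝕜 (List.cons x)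

/-- Apply a map to all entries. -/
noncomputable def mp (f : α → β) : Ch 𝕜 α →ₗ[𝕜] Ch 𝕜 β := Finsupp.lmapDomain 𝕜 𝕜 (List.map f)

/-- Append an element at the end. -/
noncomputable def ap (x : α) : Ch 𝕜 α →ₗ[𝕜] Ch 𝕜 α := Finsupp.lmapDomain 𝕜 𝕜 (fun l => l ++ [x])

/-- Sign operator. -/
noncomputable def sg : Ch 𝕜 α →ₗ[𝕜] Ch 𝕜 α :=
  Finsupp.linearCombination 𝕜 fun l : List α => (-1 : 𝕜) ^ l.length • single l (1 : 𝕜)

/-- Append an element at the end, with sign. -/
noncomputable def sn (x : α) : Ch 𝕜 α →ₗ[𝕜] Ch 𝕜 α := (ap x).comp sg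

@[simp] lemma cons_single (x : α) (l : List α) (r : 𝕜) :
    cons x (single l r) = single (x :: l) r := by
  simp [cons, Finsupp.lmapDomain_apply, Finsupp.mapDomain_single]

@[simp] lemma mp_single (f : α → β) (l : List α) (r : 𝕜) :
    mp f (single l r) = single (l.map f) r := by
  simp [mp, Finsupp.lmapDomain_apply, Finsupp.mapDomain_single]

@[simp] lemma ap_single (x : α) (l : List α) (r : 𝕜) :
    ap x (single l r) = single (l ++ [x]) r := by
  simp [ap, Finsupp.lmapDomain_apply, Finsupp.mapDomain_single]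

@[simp] lemma sg_single (l : List α) (r : 𝕜) :
    sg (single l r) = (-1 : 𝕜) ^ l.length • single l r := by
  simp [sg, Finsupp.linearCombination_single, mul_comm]

@[simp] lemma sn_single (x : α) (l : List α) (r : 𝕜) :
    sn x (single l r) = (-1 : 𝕜) ^ l.length • single (l ++ [x]) r := by
  rw [sn, LinearMap.comp_apply, sg_single, map_smul, ap_single]

lemma bd_single (l : List α) (r : 𝕜) :
    bd (single l r) =
      r • ∑ i ∈ Finset.range l.length, (-1 : 𝕜) ^ i • single (l.eraseIdx i) (1 : 𝕜) := by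
  simp [bd, Finsupp.linearCombination_single]

@[simp] lemma bd_single_nil (r : 𝕜) : bd (single ([] : List α) r) = 0 := by
  simp [bd_single]

lemma bd_single_cons (x : α) (l : List α) (r : 𝕜) :
    bd (single (x :: l) r) = single l r - cons x (bd (single l r)) := by
  rw [bd_single, bd_single, List.length_cons, Finset.sum_range_succ']
  simp only [List.eraseIdx_cons_succ, List.eraseIdx_cons_zero, pow_zero, one_smul, smul_add,
    map_sum, cons_single, Finset.smul_sum, smul_single, smul_eq_mul, mul_one, pow_succ]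
  rw [add_comm, sub_eq_add_neg]
  congr 1
  rw [← Finset.sum_neg_distrib]
  refine Finset.sum_congr rfl fun i _ => ?_
  rw [← single_neg]
  congr 1
  ring

@[simp] lemma bd_cons (x : α) (c : Ch 𝕜 α) : bd (cons x c) = c - cons x (bd c) := by
  have := lin_ext_apply (f := bd.comp (cons x)) (g := LinearMap.id - (cons x).comp bd)
    (fun l => by simp [bd_single_cons]) c
  simpa using this

/-- Induction principle for equality of linear maps. -/
lemma ch_ext {M : Type*} [AddCommGroup M] [Module 𝕜 M] {F G : Ch 𝕜 α →ₗ[𝕜] M}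
    (h0 : F (single [] 1) = G (single [] 1))
    (hc : ∀ (y : α) (c : Ch 𝕜 α), F c = G c → F (cons y c) = G (cons y c)) : F = G := by
  refine lin_ext fun l => ?_
  induction l with
  | nil => exact h0
  | cons y l ih => simpa using hc y _ ih

lemma ch_ext_apply {M : Type*} [AddCommGroup M] [Module 𝕜 M] {F G : Ch 𝕜 α →ₗ[𝕜] M}
    (h0 : F (single [] 1) = G (single [] 1))
    (hc : ∀ (y : α) (c : Ch 𝕜 α), F c = G c → F (cons y c) = G (cons y c)) (c : Ch 𝕜 α) :
    F c = G c := by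
  rw [ch_ext h0 hc]

lemma bd_bd (c : Ch 𝕜 α) : bd (bd c) = 0 := by
  have := ch_ext_apply (F := bd.comp bd) (G := (0 : Ch 𝕜 α →ₗ[𝕜] Ch 𝕜 α)) (by simp)
    (fun y c h => by
      simp only [LinearMap.comp_apply, LinearMap.zero_apply] at h
      simp [h]) c
  simpa using this

@[simp] lemma mp_cons (f : α → β) (x : α) (c : Ch 𝕜 α) : mp f (cons x c) = cons (f x) (mp f c) := by
  have := lin_ext_apply (f := (mp f).comp (cons x)) (g := (cons (f x)).comp (mp f))
    (fun l => by simp) c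
  simpa using this

lemma bd_mp (f : α → β) (c : Ch 𝕜 α) : bd (mp f c) = mp f (bd c) := by
  have := ch_ext_apply (F := bd.comp (mp f)) (G := (mp f).comp bd) (by simp)
    (fun y c h => by
      simp only [LinearMap.comp_apply] at h
      simp [h]) c
  simpa using this

@[simp] lemma mp_mp (f : α → β) (g : β → γ) (c : Ch 𝕜 α) : mp g (mp f c) = mp (g ∘ f) c := by
  have := lin_ext_apply (f := (mp g).comp (mp f)) (g := mp (g ∘ f))
    (fun l => by simp) c
  simpa using this

@[simp] lemma ap_cons (x y : α) (c : Ch 𝕜 α) : ap x (cons y c) = cons y (ap x c) := by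
  have := lin_ext_apply (f := (ap x).comp (cons y)) (g := (cons y).comp (ap x))
    (fun l => by simp) c
  simpa using this

@[simp] lemma sg_cons (y : α) (c : Ch 𝕜 α) : sg (cons y c) = - cons y (sg c) := by
  have := lin_ext_apply (f := (sg (𝕜 := 𝕜)).comp (cons y)) (g := - (cons y).comp (sg (𝕜 := 𝕜)))
    (fun l => by simp [pow_succ]) c
  simpa using this

@[simp] lemma sg_ap (y : α) (c : Ch 𝕜 α) : sg (ap y c) = - ap y (sg c) := by
  have := lin_ext_apply (f := (sg (𝕜 := 𝕜)).comp (ap y)) (g := - (ap y).comp (sg (𝕜 := 𝕜)))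
    (fun l => by simp [pow_succ]) c
  simpa using this

@[simp] lemma sg_sg (c : Ch 𝕜 α) : sg (sg c) = c := by
  have := lin_ext_apply (f := (sg).comp sg) (g := (LinearMap.id : Ch 𝕜 α →ₗ[𝕜] Ch 𝕜 α))
    (fun l => by simp [← pow_add, ← two_mul]) c
  simpa using this

lemma bd_sg (c : Ch 𝕜 α) : bd (sg c) = - sg (bd c) := by
  have := ch_ext_apply (F := (bd (𝕜 := 𝕜)).comp sg) (G := - (sg (𝕜 := 𝕜)).comp bd) (by simp)
    (fun y c h => by
      simp only [LinearMap.comp_apply, LinearMap.neg_apply] at h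
      simp [h]) c
  simpa using this

@[simp] lemma sn_cons (x y : α) (c : Ch 𝕜 α) : sn x (cons y c) = - cons y (sn x c) := by
  simp [sn]

@[simp] lemma bd_sn (x : α) (c : Ch 𝕜 α) : bd (sn x c) = c - sn x (bd c) := by
  have := ch_ext_apply (F := bd.comp (sn x)) (G := LinearMap.id - (sn x).comp bd)
    (by simp [bd_single_cons])
    (fun y c h => by
      simp only [LinearMap.comp_apply, LinearMap.sub_apply, LinearMap.id_apply] at h
      simp only [LinearMap.comp_apply, LinearMap.sub_apply, LinearMap.id_apply, sn_cons, map_neg,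
        bd_cons, h, map_sub]
      abel) c
  simpa using this

lemma bd_ap (x : α) (c : Ch 𝕜 α) : bd (ap x c) = ap x (bd c) + sg c := by
  have h := bd_sn x (sg c)
  simp only [sn, LinearMap.comp_apply, sg_sg, bd_sg, map_neg] at h
  rw [h]; abel

end Vale.Agent.P240.K
end

section

namespace Vale.Agent.P240.K

open Finsupp

variable {𝕜 : Type*} [Field 𝕜]

variable {α β γ : Type*}

/-- chains supported on lists satisfying `P`. -/
noncomputable abbrev Sp (𝕜 : Type*) [Field 𝕜] (P : List α → Prop) : Submodule 𝕜 (Ch 𝕜 α) :=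
  Finsupp.supported 𝕜 𝕜 {l | P l}

lemma single_mem_Sp {P : List α → Prop} {l : List α} (h : P l) (r : 𝕜) : single l r ∈ Sp 𝕜 P :=
  Finsupp.single_mem_supported 𝕜 r h

lemma map_mem {M : Type*} [AddCommGroup M] [Module 𝕜 M] {N : Submodule 𝕜 M}
    {P : List α → Prop} (F : Ch 𝕜 α →ₗ[𝕜] M) (h : ∀ l, P l → F (single l (1 : 𝕜)) ∈ N) {c : Ch 𝕜 α}
    (hc : c ∈ Sp 𝕜 P) : F c ∈ N := by
  have : Sp 𝕜 P ≤ N.comap F := by
    rw [Sp, Finsupp.supported_eq_span_single]
    refine Submodule.span_le.2 ?_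
    rintro _ ⟨l, hl, rfl⟩
    exact h l hl
  exact this hc

lemma eq_of_Sp {M : Type*} [AddCommGroup M] [Module 𝕜 M] {P : List α → Prop}
    {F G : Ch 𝕜 α →ₗ[𝕜] M} (h : ∀ l, P l → F (single l (1 : 𝕜)) = G (single l (1 : 𝕜))) {c : Ch 𝕜 α}
    (hc : c ∈ Sp 𝕜 P) : F c = G c := by
  have := map_mem (N := ⊥) (F - G) (fun l hl => by simp [h l hl]) hc
  simpa [sub_eq_zero] using this

lemma Sp_mono {P Q : List α → Prop} (h : ∀ l, P l → Q l) : Sp 𝕜 P ≤ Sp 𝕜 Q :=
  Finsupp.supported_mono fun l hl => h l hl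

lemma mem_Sp {P : List α → Prop} {c : Ch 𝕜 α} : c ∈ Sp 𝕜 P ↔ ∀ l ∈ c.support, P l := by
  rw [Finsupp.mem_supported]; rfl

lemma mem_Sp_inf {P Q : List α → Prop} {c : Ch 𝕜 α} (h : c ∈ Sp 𝕜 P) (h' : c ∈ Sp 𝕜 Q) :
    c ∈ Sp 𝕜 (fun l => P l ∧ Q l) := by
  rw [mem_Sp] at *
  exact fun l hl => ⟨h l hl, h' l hl⟩

lemma cons_mem {P Q : List α → Prop} {x : α} (h : ∀ l, P l → Q (x :: l)) {c : Ch 𝕜 α}
    (hc : c ∈ Sp 𝕜 P) : cons x c ∈ Sp 𝕜 Q :=
  map_mem _ (fun l hl => by rw [cons_single]; exact single_mem_Sp (h l hl) _) hc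

lemma ap_mem {P Q : List α → Prop} {x : α} (h : ∀ l, P l → Q (l ++ [x])) {c : Ch 𝕜 α}
    (hc : c ∈ Sp 𝕜 P) : ap x c ∈ Sp 𝕜 Q :=
  map_mem _ (fun l hl => by rw [ap_single]; exact single_mem_Sp (h l hl) _) hc

lemma mp_mem {P : List α → Prop} {Q : List β → Prop} {f : α → β} (h : ∀ l, P l → Q (l.map f))
    {c : Ch 𝕜 α} (hc : c ∈ Sp 𝕜 P) : mp f c ∈ Sp 𝕜 Q :=
  map_mem _ (fun l hl => by rw [mp_single]; exact single_mem_Sp (h l hl) _) hc

lemma sg_mem {P : List α → Prop} {c : Ch 𝕜 α} (hc : c ∈ Sp 𝕜 P) : sg c ∈ Sp 𝕜 P :=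
  map_mem _ (fun l hl => by
    rw [sg_single]; exact Submodule.smul_mem _ _ (single_mem_Sp hl _)) hc

lemma sn_mem {P Q : List α → Prop} {x : α} (h : ∀ l, P l → Q (l ++ [x])) {c : Ch 𝕜 α}
    (hc : c ∈ Sp 𝕜 P) : sn x c ∈ Sp 𝕜 Q := ap_mem h (sg_mem hc)

/-- `bd` preserves `Sp 𝕜 P` if `P` passes to sublists. -/
lemma bd_mem {P : List α → Prop} (h : ∀ l l' : List α, l'.Sublist l → P l → P l') {c : Ch 𝕜 α}
    (hc : c ∈ Sp 𝕜 P) : bd c ∈ Sp 𝕜 P :=
  map_mem _ (fun l hl => by
    rw [bd_single, one_smul]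
    refine Submodule.sum_mem _ fun i _ => Submodule.smul_mem _ _ (single_mem_Sp ?_ _)
    exact h _ _ (List.eraseIdx_sublist l i) hl) hc

/-- weakly decreasing lists in `S` -/
def wk [LE α] (S : Set α) (l : List α) : Prop := l.Pairwise (· ≥ ·) ∧ ∀ a ∈ l, a ∈ S

/-- strictly decreasing lists in `S` -/
def st [LT α] (S : Set α) (l : List α) : Prop := l.Pairwise (· > ·) ∧ ∀ a ∈ l, a ∈ S

lemma wk_sub [LE α] {S : Set α} (l l' : List α) (h : l'.Sublist l) (hl : wk S l) : wk S l' :=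
  ⟨hl.1.sublist h, fun a ha => hl.2 a (h.subset ha)⟩

lemma st_sub [LT α] {S : Set α} (l l' : List α) (h : l'.Sublist l) (hl : st S l) : st S l' :=
  ⟨hl.1.sublist h, fun a ha => hl.2 a (h.subset ha)⟩

lemma st_wk [Preorder α] {S : Set α} (l : List α) (hl : st S l) : wk S l :=
  ⟨hl.1.imp fun h => le_of_lt h, hl.2⟩

lemma wk_mono [LE α] {S T : Set α} (h : S ⊆ T) (l : List α) (hl : wk S l) : wk T l :=
  ⟨hl.1, fun a ha => h (hl.2 a ha)⟩

lemma st_mono [LT α] {S T : Set α} (h : S ⊆ T) (l : List α) (hl : st S l) : st T l :=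
  ⟨hl.1, fun a ha => h (hl.2 a ha)⟩

lemma bd_wk [LE α] {S : Set α} {c : Ch 𝕜 α} (hc : c ∈ Sp 𝕜 (wk S)) : bd c ∈ Sp 𝕜 (wk S) :=
  bd_mem wk_sub hc

lemma bd_st [LT α] {S : Set α} {c : Ch 𝕜 α} (hc : c ∈ Sp 𝕜 (st S)) : bd c ∈ Sp 𝕜 (st S) :=
  bd_mem st_sub hc

/-! ### Strictification -/

open Classical in
/-- keep only strictly decreasing lists -/
noncomputable def pi [LT α] : Ch 𝕜 α →ₗ[𝕜] Ch 𝕜 α :=
  Finsupp.linearCombination 𝕜 fun l : List α =>
    if l.Pairwise (· > ·) then single l (1 : 𝕜) else 0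

open Classical in
lemma pi_single [LT α] (l : List α) :
    pi (single l (1 : 𝕜)) = if l.Pairwise (· > ·) then single l (1 : 𝕜) else 0 := by
  simp [pi, Finsupp.linearCombination_single]

lemma pi_of_st [LT α] {S : Set α} {c : Ch 𝕜 α} (hc : c ∈ Sp 𝕜 (st S)) : pi c = c := by
  have := eq_of_Sp (F := pi) (G := LinearMap.id) (fun l (hl : st S l) => by
    rw [pi_single, if_pos hl.1]; rfl) hc
  simpa using this

lemma pi_mem [Preorder α] {S : Set α} {c : Ch 𝕜 α} (hc : c ∈ Sp 𝕜 (wk S)) : pi c ∈ Sp 𝕜 (st S) :=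
  map_mem _ (fun l hl => by
    rw [pi_single]
    split_ifs with h
    · exact single_mem_Sp ⟨h, hl.2⟩ _
    · exact Submodule.zero_mem _) hc

/-- more generally `pi` maps `Sp 𝕜 (P ∧ weak)` to `Sp 𝕜 (P ∧ strict)`. -/
lemma pi_mem' [LT α] {P : List α → Prop} {c : Ch 𝕜 α} (hc : c ∈ Sp 𝕜 P) : pi c ∈ Sp 𝕜 P :=
  map_mem _ (fun l hl => by
    rw [pi_single]
    split_ifs with h
    · exact single_mem_Sp hl _
    · exact Submodule.zero_mem _) hc

lemma pi_dup [Preorder α] (x : α) (c : Ch 𝕜 α) : pi (cons x (cons x c)) = 0 := by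
  have := lin_ext_apply (f := pi.comp ((cons x).comp (cons x))) (g := (0 : Ch 𝕜 α →ₗ[𝕜] Ch 𝕜 α))
    (fun l => by
      simp only [LinearMap.comp_apply, cons_single, LinearMap.zero_apply]
      rw [pi_single, if_neg]
      intro h
      rw [List.pairwise_cons] at h
      exact lt_irrefl x (h.1 x (by simp))) c
  simpa using this

lemma pi_cons_lt [Preorder α] {x : α} {c : Ch 𝕜 α} (hc : c ∈ Sp 𝕜 (fun l => ∀ a ∈ l, x > a)) :
    pi (cons x c) = cons x (pi c) := by
  have := eq_of_Sp (F := pi.comp (cons x)) (G := (cons x).comp pi)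
    (fun l (hl : ∀ a ∈ l, x > a) => by
      simp only [LinearMap.comp_apply, cons_single, pi_single]
      by_cases h : l.Pairwise (· > ·)
      · rw [if_pos h, if_pos (List.pairwise_cons.2 ⟨hl, h⟩), cons_single]
      · rw [if_neg h, if_neg (fun h' => h (List.pairwise_cons.1 h').2), map_zero]) hc
  simpa using this

lemma bd_pi_list [PartialOrder α] (l : List α) (h : l.Pairwise (· ≥ ·)) :
    pi (bd (single l (1 : 𝕜))) = bd (pi (single l (1 : 𝕜))) := by
  induction l with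
  | nil => simp [pi_single]
  | cons x l ih =>
    rcases l with _ | ⟨y, l⟩
    · simp [pi_single, bd_single_cons]
    · have h1 := List.pairwise_cons.1 h
      have h2 := List.pairwise_cons.1 h1.2
      have ih' := ih h1.2
      rcases (lt_or_eq_of_le (h1.1 y (by simp))) with hxy | hxy
      · -- strict
        have hall : ∀ a ∈ y :: l, x > a := by
          intro a ha
          rcases List.mem_cons.1 ha with rfl | ha
          · exact hxy
          · exact lt_of_le_of_lt (h2.1 a ha) hxy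
        have hm : single (y :: l) (1 : 𝕜) ∈ Sp 𝕜 (fun l : List α => ∀ a ∈ l, x > a) :=
          single_mem_Sp hall 1
        have hm' : bd (single (y :: l) (1 : 𝕜)) ∈ Sp 𝕜 (fun l : List α => ∀ a ∈ l, x > a) :=
          bd_mem (fun l l' hs hl a ha => hl a (hs.subset ha)) hm
        rw [bd_single_cons x, map_sub, pi_cons_lt hm', ih', ← cons_single x, pi_cons_lt hm,
          bd_cons]
      · subst hxy
        have e : single (y :: y :: l) (1 : 𝕜) = cons y (cons y (single l (1 : 𝕜))) := by simp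
        rw [e, pi_dup, bd_cons, bd_cons, map_zero]
        simp only [map_sub, pi_dup]
        abel

lemma bd_pi [PartialOrder α] {S : Set α} {c : Ch 𝕜 α} (hc : c ∈ Sp 𝕜 (wk S)) :
    bd (pi c) = pi (bd c) := by
  have := eq_of_Sp (F := bd.comp pi) (G := pi.comp bd)
    (fun l (hl : wk S l) => by simp [bd_pi_list l hl.1]) hc
  simpa using this

/-! ### Cone homotopy -/

/-- prism operator for `id ≤ φ` on lists -/
noncomputable def h1L (φ : α → α) : List α → Ch 𝕜 α
  | [] => 0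
  | x :: l => single (φ x :: x :: l) 1 - cons (φ x) (h1L φ l)

/-- prism operator for `id ≤ φ` -/
noncomputable def h1 (φ : α → α) : Ch 𝕜 α →ₗ[𝕜] Ch 𝕜 α := Finsupp.linearCombination 𝕜 (h1L φ)

lemma h1_single (φ : α → α) (l : List α) : h1 φ (single l (1 : 𝕜)) = h1L φ l := by
  simp [h1, Finsupp.linearCombination_single]

lemma h1_cons (φ : α → α) (x : α) (c : Ch 𝕜 α) :
    h1 φ (cons x c) = cons (φ x) (cons x c) - cons (φ x) (h1 φ c) := by
  have := lin_ext_apply (f := (h1 φ).comp (cons x))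
    (g := (cons (φ x)).comp (cons x) - (cons (φ x)).comp (h1 φ))
    (fun l => by simp [h1_single, h1L]) c
  simpa using this

lemma bd_h1 (φ : α → α) (c : Ch 𝕜 α) : bd (h1 φ c) + h1 φ (bd c) = c - mp φ c := by
  have := ch_ext_apply (F := bd.comp (h1 φ) + (h1 φ).comp bd)
    (G := LinearMap.id - mp φ) (by simp [h1_single, h1L])
    (fun y c h => by
      simp only [LinearMap.comp_apply, LinearMap.sub_apply, LinearMap.id_apply,
        LinearMap.add_apply] at h
      simp only [LinearMap.comp_apply, LinearMap.sub_apply, LinearMap.id_apply,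
        LinearMap.add_apply, h1_cons, map_sub, bd_cons, mp_cons]
      have h' : bd (h1 φ c) = c - mp φ c - h1 φ (bd c) := by rw [← h]; abel
      rw [h']
      simp only [map_sub]
      abel) c
  simpa using this

/-- cone homotopy attached to `x ≤ φ x ≥ F` -/
noncomputable def hc (φ : α → α) (F : α) : Ch 𝕜 α →ₗ[𝕜] Ch 𝕜 α := h1 φ + (sn F).comp (mp φ)

lemma bd_hc (φ : α → α) (F : α) (c : Ch 𝕜 α) : bd (hc φ F c) + hc φ F (bd c) = c := by
  have h := bd_h1 φ c
  simp only [hc, LinearMap.add_apply, LinearMap.comp_apply, map_add, bd_sn, bd_mp]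
  calc _ = (bd (h1 φ c) + h1 φ (bd c)) + mp φ c := by abel
    _ = c := by rw [h]; abel

/-- support of the prism operator -/
lemma h1_mem [Preorder α] {T S : Set α} {φ : α → α} (hTS : T ⊆ S) (hφS : ∀ x ∈ T, φ x ∈ S)
    (hle : ∀ x ∈ T, x ≤ φ x) (hmono : ∀ x ∈ T, ∀ y ∈ T, x ≤ y → φ x ≤ φ y) {c : Ch 𝕜 α}
    (hc : c ∈ Sp 𝕜 (wk T)) : h1 φ c ∈ Sp 𝕜 (wk S) := by
  refine map_mem _ (fun l hl => ?_) hc
  rw [h1_single]
  -- prove the stronger statement about heads
  have key : ∀ l : List α, wk T l → h1L φ l ∈ Sp 𝕜 (fun m : List α => wk S m ∧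
      ∀ a ∈ m, ∃ b ∈ l, a ≤ φ b) := by
    intro l
    induction l with
    | nil => intro _; exact Submodule.zero_mem _
    | cons x l ih =>
      intro hl
      have hp := List.pairwise_cons.1 hl.1
      have hxT : x ∈ T := hl.2 x (by simp)
      have hlT : wk T l := ⟨hp.2, fun a ha => hl.2 a (by simp [ha])⟩
      have c1 : wk S (φ x :: x :: l) ∧ ∀ a ∈ φ x :: x :: l, ∃ b ∈ x :: l, a ≤ φ b := by
        refine ⟨⟨?_, ?_⟩, ?_⟩
        · rw [List.pairwise_cons]
          refine ⟨?_, hl.1⟩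
          intro a ha
          rcases List.mem_cons.1 ha with h | ha
          · rw [h]; exact hle _ hxT
          · exact le_trans (hp.1 a ha) (hle _ hxT)
        · intro a ha
          rcases List.mem_cons.1 ha with h | ha
          · rw [h]; exact hφS _ hxT
          · exact hTS (hl.2 a ha)
        · intro a ha
          refine ⟨x, by simp, ?_⟩
          rcases List.mem_cons.1 ha with h | ha
          · rw [h]
          rcases List.mem_cons.1 ha with h | ha
          · rw [h]; exact hle _ hxT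
          · exact le_trans (hp.1 a ha) (hle _ hxT)
      have c2 : ∀ m : List α, (wk S m ∧ ∀ a ∈ m, ∃ b ∈ l, a ≤ φ b) →
          (wk S (φ x :: m) ∧ ∀ a ∈ φ x :: m, ∃ b ∈ x :: l, a ≤ φ b) := by
        rintro m ⟨hm, hm'⟩
        refine ⟨⟨?_, ?_⟩, ?_⟩
        · rw [List.pairwise_cons]
          refine ⟨?_, hm.1⟩
          intro a ha
          obtain ⟨b, hb, hab⟩ := hm' a ha
          exact le_trans hab (hmono _ (hlT.2 b hb) _ hxT (hp.1 b hb))
        · intro a ha
          rcases List.mem_cons.1 ha with h | ha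
          · rw [h]; exact hφS _ hxT
          · exact hm.2 a ha
        · intro a ha
          rcases List.mem_cons.1 ha with h | ha
          · rw [h]; exact ⟨x, by simp, le_refl _⟩
          · obtain ⟨b, hb, hab⟩ := hm' a ha
            exact ⟨b, by simp [hb], hab⟩
      exact Submodule.sub_mem _ (single_mem_Sp c1 _) (cons_mem c2 (ih hlT))
  exact Sp_mono (fun m hm => hm.1) (key l hl)

lemma hc_mem [Preorder α] {T S : Set α} {φ : α → α} {F : α} (hTS : T ⊆ S) (hFS : F ∈ S)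
    (hφS : ∀ x ∈ T, φ x ∈ S) (hF : ∀ x ∈ T, F ≤ φ x)
    (hle : ∀ x ∈ T, x ≤ φ x) (hmono : ∀ x ∈ T, ∀ y ∈ T, x ≤ y → φ x ≤ φ y) {c : Ch 𝕜 α}
    (hc' : c ∈ Sp 𝕜 (wk T)) : hc φ F c ∈ Sp 𝕜 (wk S) := by
  refine Submodule.add_mem _ (h1_mem hTS hφS hle hmono hc') ?_
  have h1 : mp φ c ∈ Sp 𝕜 (fun m : List α => wk S m ∧ ∀ a ∈ m, F ≤ a) := by
    refine mp_mem (P := wk T) ?_ hc'
    intro l hl
    refine ⟨⟨?_, ?_⟩, ?_⟩
    · rw [List.pairwise_map]
      exact hl.1.imp_of_mem fun {a b} ha hb hab => hmono _ (hl.2 b hb) _ (hl.2 a ha) hab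
    · intro a ha
      obtain ⟨b, hb, rfl⟩ := List.mem_map.1 ha
      exact hφS _ (hl.2 b hb)
    · intro a ha
      obtain ⟨b, hb, rfl⟩ := List.mem_map.1 ha
      exact hF _ (hl.2 b hb)
  refine sn_mem ?_ h1
  rintro m ⟨hm, hm'⟩
  refine ⟨?_, ?_⟩
  · rw [List.pairwise_append]
    refine ⟨hm.1, by simp, ?_⟩
    intro a ha b hb
    rw [List.mem_singleton] at hb
    subst hb
    exact hm' a ha
  · intro a ha
    rcases List.mem_append.1 ha with ha | ha
    · exact hm.2 a ha
    · rw [List.mem_singleton] at ha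
      subst ha
      exact hFS

end Vale.Agent.P240.K
end

section

namespace Vale.Agent.P240.K

open Finsupp

variable {𝕜 : Type*} [Field 𝕜]

variable {α β γ : Type*}

/-- `S` is not `𝕜`-acyclic: some strict cycle in `S` is not a boundary. -/
def NA (𝕜 : Type*) [Field 𝕜] [PartialOrder α] (S : Set α) : Prop :=
  ∃ z ∈ Sp 𝕜 (st S), bd z = 0 ∧ ∀ c ∈ Sp 𝕜 (st S), bd c ≠ z

/-! ### Homogeneous components -/

open Classical in
/-- component of length `n` -/
noncomputable def len (n : ℕ) : Ch 𝕜 α →ₗ[𝕜] Ch 𝕜 α :=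
  Finsupp.linearCombination 𝕜 fun l : List α => if l.length = n then single l (1 : 𝕜) else 0

lemma len_single (n : ℕ) (l : List α) :
    len n (single l (1 : 𝕜)) = if l.length = n then single l (1 : 𝕜) else 0 := by
  simp [len, Finsupp.linearCombination_single]

lemma len_of_mem {n : ℕ} {c : Ch 𝕜 α} (hc : c ∈ Sp 𝕜 (fun l : List α => l.length = n)) :
    len n c = c := by
  have := eq_of_Sp (F := len n) (G := LinearMap.id) (fun l (hl : l.length = n) => by
    rw [len_single, if_pos hl]; rfl) hc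
  simpa using this

lemma len_of_ne {n : ℕ} {c : Ch 𝕜 α} (hc : c ∈ Sp 𝕜 (fun l : List α => l.length ≠ n)) :
    len n c = 0 := by
  have := eq_of_Sp (F := len n) (G := 0) (fun l (hl : l.length ≠ n) => by
    rw [len_single, if_neg hl]; rfl) hc
  simpa using this

lemma len_mem {P : List α → Prop} {n : ℕ} {c : Ch 𝕜 α} (hc : c ∈ Sp 𝕜 P) :
    len n c ∈ Sp 𝕜 (fun l => l.length = n ∧ P l) :=
  map_mem _ (fun l hl => by
    rw [len_single]
    split_ifs with h
    · exact single_mem_Sp ⟨h, hl⟩ _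
    · exact Submodule.zero_mem _) hc

lemma bd_single_len (l : List α) :
    bd (single l (1 : 𝕜)) ∈ Sp 𝕜 (fun m : List α => m.length + 1 = l.length) := by
  induction l with
  | nil => simp
  | cons x l ih =>
    rw [bd_single_cons]
    refine Submodule.sub_mem _ (single_mem_Sp (by simp) _) (cons_mem ?_ ih)
    intro m hm
    simp [hm]

lemma bd_len (n : ℕ) (c : Ch 𝕜 α) : bd (len (n + 1) c) = len n (bd c) := by
  have := lin_ext_apply (f := bd.comp (len (n + 1))) (g := (len n).comp bd)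
    (fun l => by
      simp only [LinearMap.comp_apply]
      rw [len_single]
      have h := bd_single_len (𝕜 := 𝕜) l
      split_ifs with hl
      · rw [len_of_mem]
        refine Sp_mono (fun m hm => ?_) h
        rw [hl] at hm
        exact Nat.add_right_cancel hm
      · rw [map_zero, len_of_ne]
        refine Sp_mono (fun m hm => ?_) h
        intro hmn
        rw [hmn] at hm
        exact hl hm.symm) c
  simpa using this

lemma bd_len_zero (c : Ch 𝕜 α) : bd (len 0 c) = 0 := by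
  have := lin_ext_apply (f := bd.comp (len 0)) (g := (0 : Ch 𝕜 α →ₗ[𝕜] Ch 𝕜 α))
    (fun l => by
      simp only [LinearMap.comp_apply]
      rw [len_single]
      split_ifs with hl
      · have : l = [] := List.length_eq_zero_iff.1 hl
        subst this
        simp
      · simp) c
  simpa using this

lemma sum_len (N : ℕ) {c : Ch 𝕜 α} (hc : c ∈ Sp 𝕜 (fun l : List α => l.length < N)) :
    ∑ n ∈ Finset.range N, len n c = c := by
  have := eq_of_Sp (F := ∑ n ∈ Finset.range N, len n) (G := LinearMap.id)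
    (fun l (hl : l.length < N) => by
      simp only [LinearMap.sum_apply, len_single, LinearMap.id_apply]
      rw [Finset.sum_ite_eq]
      rw [if_pos (Finset.mem_range.2 hl)]) hc
  simpa using this

lemma exists_len_bound (c : Ch 𝕜 α) : ∃ N, c ∈ Sp 𝕜 (fun l : List α => l.length < N) := by
  refine ⟨c.support.sup List.length + 1, ?_⟩
  rw [mem_Sp]
  intro l hl
  exact Nat.lt_succ_of_le (Finset.le_sup (f := List.length) hl)

/-! ### Reversal -/

/-- signed reversal of a list -/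
noncomputable def rvL : List α → Ch 𝕜 α
  | [] => single [] (1 : 𝕜)
  | x :: l => sn x (rvL l)

/-- signed reversal -/
noncomputable def rv : Ch 𝕜 α →ₗ[𝕜] Ch 𝕜 α := Finsupp.linearCombination 𝕜 rvL

lemma rv_single (l : List α) : rv (single l (1 : 𝕜)) = rvL l := by
  simp [rv, Finsupp.linearCombination_single]

lemma rv_nil : rv (single ([] : List α) (1 : 𝕜)) = single [] (1 : 𝕜) := by
  rw [rv_single, rvL]

lemma rv_cons (x : α) (c : Ch 𝕜 α) : rv (cons x c) = sn x (rv c) := by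
  have := lin_ext_apply (f := rv.comp (cons x)) (g := (sn x).comp rv)
    (fun l => by simp [rv_single, rvL]) c
  simpa using this

lemma bd_rv (c : Ch 𝕜 α) : bd (rv c) = rv (bd c) := by
  have := ch_ext_apply (F := bd.comp rv) (G := rv.comp bd) (by simp [rv_nil])
    (fun y c h => by
      simp only [LinearMap.comp_apply] at h
      simp [rv_cons, h]) c
  simpa using this

lemma rv_sn (x : α) (c : Ch 𝕜 α) : rv (sn x c) = cons x (rv c) := by
  have := ch_ext_apply (F := rv.comp (sn x)) (G := (cons x).comp rv)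
    (by
      have e : single [x] (1 : 𝕜) = cons x (single [] (1 : 𝕜)) := by simp
      simp only [LinearMap.comp_apply, sn_single, List.length_nil, pow_zero, one_smul,
        List.nil_append]
      rw [e, rv_cons, rv_nil]
      simp)
    (fun y c h => by
      simp only [LinearMap.comp_apply] at h
      simp [rv_cons, h]) c
  simpa using this

lemma rv_rv (c : Ch 𝕜 α) : rv (rv c) = c := by
  have := ch_ext_apply (F := rv.comp rv) (G := (LinearMap.id : Ch 𝕜 α →ₗ[𝕜] Ch 𝕜 α))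
    (by simp [rv_nil])
    (fun y c h => by
      simp only [LinearMap.comp_apply, LinearMap.id_apply] at h
      simp [rv_cons, rv_sn, h]) c
  simpa using this

lemma rvL_mem (l : List α) : rvL l ∈ Sp 𝕜 (fun m : List α => m = l.reverse) := by
  induction l with
  | nil => exact single_mem_Sp (by simp) _
  | cons x l ih =>
    rw [rvL]
    refine sn_mem ?_ ih
    rintro m rfl
    simp

lemma rv_mem {P Q : List α → Prop} (h : ∀ l, P l → Q l.reverse) {c : Ch 𝕜 α} (hc : c ∈ Sp 𝕜 P) :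
    rv c ∈ Sp 𝕜 Q :=
  map_mem _ (fun l hl => by
    rw [rv_single]
    refine Sp_mono ?_ (rvL_mem l)
    rintro m rfl
    exact h l hl) hc

/-! ### Comparison with the official definition -/

lemma isChain_iff [Preorder α] {n : ℕ} {c : Ch 𝕜 α} :
    IsChain n c ↔ c ∈ Sp 𝕜 (fun l : List α => l.length = n ∧ l.Pairwise (· < ·)) := by
  rw [mem_Sp]; rfl

lemma official_iff [PartialOrder α] : HomologyNonzero 𝕜 α ↔ NA 𝕜 (Set.univ : Set α) := by
  have hrev : ∀ l : List α, l.Pairwise (· < ·) → st (Set.univ : Set α) l.reverse := by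
    intro l hl
    refine ⟨?_, fun _ _ => trivial⟩
    rw [List.pairwise_reverse]
    exact hl
  have hrev' : ∀ l : List α, st (Set.univ : Set α) l → l.reverse.Pairwise (· < ·) := by
    intro l hl
    rw [List.pairwise_reverse]
    exact hl.1
  constructor
  · rintro ⟨n, z, hz, hbz, hne⟩
    rw [isChain_iff] at hz
    refine ⟨rv z, rv_mem (fun l hl => hrev l hl.2) hz, by rw [bd_rv, hbz, map_zero], ?_⟩
    intro c hc hcz
    refine hne (len (n + 1) (rv c)) ?_ ?_
    · rw [isChain_iff]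
      exact len_mem (P := fun l : List α => l.Pairwise (· < ·)) (rv_mem hrev' hc)
    · rw [bd_len, bd_rv, hcz, rv_rv]
      exact len_of_mem (Sp_mono (fun l hl => hl.1) hz)
  · rintro ⟨z, hz, hbz, hne⟩
    by_contra hcon
    have hz' : rv z ∈ Sp 𝕜 (fun l : List α => l.Pairwise (· < ·)) := rv_mem hrev' hz
    have hb : bd (rv z) = 0 := by rw [bd_rv, hbz, map_zero]
    have key : ∀ n, ∃ c, IsChain (n + 1) c ∧ bd c = len n (rv z) := by
      intro n
      by_contra hn
      push Not at hn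
      refine hcon ⟨n, len n (rv z), ?_, ?_, hn⟩
      · rw [isChain_iff]
        exact len_mem hz'
      · rcases n with _ | n
        · exact bd_len_zero _
        · rw [bd_len, hb, map_zero]
    choose c hc hbc using key
    obtain ⟨N, hN⟩ := exists_len_bound (rv z)
    refine hne (rv (∑ n ∈ Finset.range N, c n)) ?_ ?_
    · refine rv_mem hrev ?_
      refine Submodule.sum_mem _ fun n _ => ?_
      have := hc n
      rw [isChain_iff] at this
      exact Sp_mono (fun l hl => hl.2) this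
    · rw [bd_rv, map_sum]
      simp only [hbc]
      rw [sum_len N hN, rv_rv]

/-! ### Transport along order embeddings -/

lemma mp_injOn {S : Set α} {f : α → β} (hf : Set.InjOn f S) {c d : Ch 𝕜 α}
    (hc : c ∈ Sp 𝕜 (fun l : List α => ∀ a ∈ l, a ∈ S))
    (hd : d ∈ Sp 𝕜 (fun l : List α => ∀ a ∈ l, a ∈ S)) (h : mp f c = mp f d) : c = d := by
  have hinj : Set.InjOn (List.map f) {l : List α | ∀ a ∈ l, a ∈ S} := by
    intro l hl m hm hlm
    have hlm' : l.map f = m.map f := hlm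
    clear hlm
    induction l generalizing m with
    | nil =>
      symm
      simpa using hlm'.symm
    | cons x l ih =>
      rcases m with _ | ⟨y, m⟩
      · simp at hlm'
      · simp only [List.map_cons, List.cons.injEq] at hlm'
        have hl' : ∀ a ∈ x :: l, a ∈ S := hl
        have hm' : ∀ a ∈ y :: m, a ∈ S := hm
        rw [hf (hl' x (by simp)) (hm' y (by simp)) hlm'.1,
          ih (fun a ha => hl' a (by simp [ha])) (fun a ha => hm' a (by simp [ha])) hlm'.2]
  exact Finsupp.mapDomain_injOn _ hinj hc hd h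

lemma exists_lift {S : Set α} {f : α → β} [PartialOrder α] [PartialOrder β]
    (hlt : ∀ x ∈ S, ∀ y ∈ S, f x < f y → x < y) {c : Ch 𝕜 β} (hc : c ∈ Sp 𝕜 (st (f '' S))) :
    ∃ c' ∈ Sp 𝕜 (st S), mp f c' = c := by
  have key : ∀ l : List β, st (f '' S) l → ∃ l' : List α, st S l' ∧ l'.map f = l := by
    intro l
    induction l with
    | nil => intro _; exact ⟨[], ⟨by simp, by simp⟩, rfl⟩
    | cons y l ih =>
      intro hl
      have hp := List.pairwise_cons.1 hl.1
      obtain ⟨l', hl', rfl⟩ := ih ⟨hp.2, fun a ha => hl.2 a (by simp [ha])⟩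
      obtain ⟨x, hx, rfl⟩ := hl.2 y (by simp)
      refine ⟨x :: l', ⟨?_, ?_⟩, rfl⟩
      · rw [List.pairwise_cons]
        refine ⟨fun a ha => hlt _ (hl'.2 a ha) _ hx (hp.1 _ (List.mem_map_of_mem ha)), hl'.1⟩
      · intro a ha
        rcases List.mem_cons.1 ha with h | ha
        · rw [h]; exact hx
        · exact hl'.2 a ha
  have h2 : Sp 𝕜 (st (f '' S)) ≤ (Sp 𝕜 (st S)).map (mp f) := by
    rw [Sp, Finsupp.supported_eq_span_single]
    refine Submodule.span_le.2 ?_
    rintro _ ⟨l, hl, rfl⟩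
    obtain ⟨l', hl', rfl⟩ := key l hl
    exact ⟨single l' (1 : 𝕜), single_mem_Sp hl' _, by simp⟩
  obtain ⟨c', h, h'⟩ := h2 hc
  exact ⟨c', h, h'⟩

lemma st_map {S : Set α} {T : Set β} {f : α → β} [PartialOrder α] [PartialOrder β]
    (hT : ∀ x ∈ S, f x ∈ T)
    (hlt : ∀ x ∈ S, ∀ y ∈ S, x < y → f x < f y) (l : List α) (hl : st S l) :
    st T (l.map f) := by
  refine ⟨?_, ?_⟩
  · rw [List.pairwise_map]
    exact hl.1.imp_of_mem fun {a b} ha hb hab => hlt _ (hl.2 b hb) _ (hl.2 a ha) hab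
  · intro a ha
    obtain ⟨b, hb, rfl⟩ := List.mem_map.1 ha
    exact hT _ (hl.2 b hb)

lemma wk_map {S : Set α} {T : Set β} {f : α → β} [Preorder α] [Preorder β]
    (hT : ∀ x ∈ S, f x ∈ T)
    (hle : ∀ x ∈ S, ∀ y ∈ S, x ≤ y → f x ≤ f y) (l : List α) (hl : wk S l) :
    wk T (l.map f) := by
  refine ⟨?_, ?_⟩
  · rw [List.pairwise_map]
    exact hl.1.imp_of_mem fun {a b} ha hb hab => hle _ (hl.2 b hb) _ (hl.2 a ha) hab
  · intro a ha
    obtain ⟨b, hb, rfl⟩ := List.mem_map.1 ha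
    exact hT _ (hl.2 b hb)

lemma NA_image [PartialOrder α] [PartialOrder β] {S : Set α} {f : α → β}
    (hf : Set.InjOn f S) (hlt : ∀ x ∈ S, ∀ y ∈ S, x < y ↔ f x < f y) :
    NA 𝕜 (f '' S) ↔ NA 𝕜 S := by
  have hin : ∀ {c : Ch 𝕜 α}, c ∈ Sp 𝕜 (st S) → c ∈ Sp 𝕜 (fun l : List α => ∀ a ∈ l, a ∈ S) :=
    fun hc => Sp_mono (fun l hl => hl.2) hc
  constructor
  · rintro ⟨z, hz, hbz, hne⟩
    obtain ⟨z', hz', rfl⟩ := exists_lift (fun x hx y hy h => (hlt x hx y hy).2 h) hz
    refine ⟨z', hz', ?_, ?_⟩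
    · refine mp_injOn hf (hin (bd_st hz')) (Submodule.zero_mem _) ?_
      rw [← bd_mp, hbz, map_zero]
    · intro c hc h
      refine hne (mp f c) (mp_mem (st_map (T := f '' S) (fun x hx => Set.mem_image_of_mem f hx)
        fun x hx y hy h => (hlt x hx y hy).1 h) hc) ?_
      rw [bd_mp, h]
  · rintro ⟨z, hz, hbz, hne⟩
    refine ⟨mp f z, mp_mem (st_map (T := f '' S) (fun x hx => Set.mem_image_of_mem f hx)
        fun x hx y hy h => (hlt x hx y hy).1 h) hz, by rw [bd_mp, hbz, map_zero], ?_⟩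
    intro c hc h
    obtain ⟨c', hc', rfl⟩ := exists_lift (fun x hx y hy h => (hlt x hx y hy).2 h) hc
    rw [bd_mp] at h
    exact hne c' hc' (mp_injOn hf (hin (bd_st hc')) (hin hz) h)

end Vale.Agent.P240.K
end

section

namespace Vale.Agent.P240.K

open Finsupp

section Perm

variable {𝕜 : Type*} [Field 𝕜] {ι : Type*}

/-- linear extension of a map -/
noncomputable def TT (F : ι → ι) : (ι →₀ 𝕜) →ₗ[𝕜] (ι →₀ 𝕜) := Finsupp.lmapDomain 𝕜 𝕜 F

/-- `1 - F` -/
noncomputable def sg1 (F : ι → ι) : (ι →₀ 𝕜) →ₗ[𝕜] (ι →₀ 𝕜) := LinearMap.id - TT F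

/-- `1 + F + ⋯ + F^(r-1)` -/
noncomputable def tau (F : ι → ι) (r : ℕ) : (ι →₀ 𝕜) →ₗ[𝕜] (ι →₀ 𝕜) :=
  ∑ i ∈ Finset.range r, TT (F^[i])

lemma TT_single (F : ι → ι) (l : ι) (a : 𝕜) : TT F (single l a) = single (F l) a := by
  simp [TT, Finsupp.lmapDomain_apply, Finsupp.mapDomain_single]

lemma TT_comp (F G : ι → ι) (c : ι →₀ 𝕜) : TT F (TT G c) = TT (F ∘ G) c := by
  simp [TT, Finsupp.lmapDomain_apply, Finsupp.mapDomain_comp]

variable {r : ℕ} {F : ι → ι} {P : Set ι} (hF : ∀ l ∈ P, F l ∈ P) (hr : ∀ l ∈ P, F^[r] l = l)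

include hF in
lemma iter_mem (i : ℕ) : ∀ l ∈ P, F^[i] l ∈ P := by
  induction i with
  | zero => exact fun l hl => hl
  | succ i ih =>
    intro l hl
    rw [Function.iterate_succ_apply']
    exact hF _ (ih l hl)

include hF hr in
lemma F_injOn (hr0 : 0 < r) : Set.InjOn F P := by
  intro l hl m hm h
  rw [← hr l hl, ← hr m hm]
  obtain ⟨s, rfl⟩ := Nat.exists_eq_succ_of_ne_zero hr0.ne'
  rw [Function.iterate_succ_apply, Function.iterate_succ_apply, h]

include hF hr in
lemma iter_injOn (hr0 : 0 < r) (i : ℕ) : Set.InjOn (F^[i]) P := by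
  induction i with
  | zero => exact fun l _ m _ h => h
  | succ i ih =>
    intro l hl m hm h
    rw [Function.iterate_succ_apply', Function.iterate_succ_apply'] at h
    exact ih hl hm (F_injOn hF hr hr0 (iter_mem hF i l hl) (iter_mem hF i m hm) h)

include hF hr in
lemma TT_apply (hr0 : 0 < r) (i : ℕ) {c : ι →₀ 𝕜} (hc : c ∈ Finsupp.supported 𝕜 𝕜 P) {l : ι}
    (hl : l ∈ P) : TT (F^[i]) c (F^[i] l) = c l := by
  rw [TT, Finsupp.lmapDomain_apply]
  exact Finsupp.mapDomain_apply' P c hc (iter_injOn hF hr hr0 i) hl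

include hF in
lemma TT_mem (i : ℕ) {c : ι →₀ 𝕜} (hc : c ∈ Finsupp.supported 𝕜 𝕜 P) :
    TT (F^[i]) c ∈ Finsupp.supported 𝕜 𝕜 P := by
  have : Finsupp.supported 𝕜 𝕜 P ≤ (Finsupp.supported 𝕜 𝕜 P).comap (TT (F^[i])) := by
    rw [Finsupp.supported_eq_span_single, Submodule.span_le]
    rintro _ ⟨l, hl, rfl⟩
    have h1 : TT (F^[i]) (single l (1 : 𝕜)) ∈ Finsupp.supported 𝕜 𝕜 P := by
      rw [TT_single]
      exact Finsupp.single_mem_supported 𝕜 _ (iter_mem hF i l hl)
    rw [Finsupp.supported_eq_span_single] at h1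
    exact h1
  exact this hc

include hF in
lemma sg1_mem {c : ι →₀ 𝕜} (hc : c ∈ Finsupp.supported 𝕜 𝕜 P) :
    sg1 F c ∈ Finsupp.supported 𝕜 𝕜 P := by
  rw [sg1, LinearMap.sub_apply]
  exact Submodule.sub_mem _ hc (by simpa using TT_mem hF 1 hc)

include hF in
lemma tau_mem {c : ι →₀ 𝕜} (hc : c ∈ Finsupp.supported 𝕜 𝕜 P) :
    tau F r c ∈ Finsupp.supported 𝕜 𝕜 P := by
  rw [tau, LinearMap.sum_apply]
  exact Submodule.sum_mem _ fun i _ => TT_mem hF i hc

include hr in
lemma TT_r {c : ι →₀ 𝕜} (hc : c ∈ Finsupp.supported 𝕜 𝕜 P) : TT (F^[r]) c = c := by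
  have : Finsupp.supported 𝕜 𝕜 P ≤ LinearMap.ker (TT (𝕜 := 𝕜) (F^[r]) - LinearMap.id) := by
    rw [Finsupp.supported_eq_span_single, Submodule.span_le]
    rintro _ ⟨l, hl, rfl⟩
    simp [TT_single, hr l hl]
  have h := this hc
  rwa [LinearMap.mem_ker, LinearMap.sub_apply, LinearMap.id_apply, sub_eq_zero] at h

lemma TT_tau (c : ι →₀ 𝕜) : TT F (tau F r c) + c = tau F r c + TT (F^[r]) c := by
  induction r with
  | zero => simp [tau, TT, Finsupp.lmapDomain_apply]
  | succ r ih =>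
    have h1 : tau F (r + 1) c = tau F r c + TT (F^[r]) c := by
      rw [tau, Finset.sum_range_succ]; rfl
    have h2 : TT F (TT (F^[r]) c) = TT (F^[r + 1]) c := by
      rw [TT_comp]
      congr 2
      funext x
      rw [Function.comp_apply, Function.iterate_succ_apply']
    rw [h1, map_add, h2]
    calc TT F (tau F r c) + TT F^[r + 1] c + c
        = (TT F (tau F r c) + c) + TT F^[r + 1] c := by abel
      _ = _ := by rw [ih]

lemma TT_comm_tau (c : ι →₀ 𝕜) : tau F r (TT F c) = TT F (tau F r c) := by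
  simp only [tau, LinearMap.sum_apply, map_sum]
  refine Finset.sum_congr rfl fun i _ => ?_
  rw [TT_comp, TT_comp]
  congr 2
  funext x
  rw [Function.comp_apply, Function.comp_apply, ← Function.iterate_succ_apply,
    Function.iterate_succ_apply']

include hF hr in
lemma sg1_tau {c : ι →₀ 𝕜} (hc : c ∈ Finsupp.supported 𝕜 𝕜 P) : sg1 F (tau F r c) = 0 := by
  have h := TT_tau (r := r) (F := F) c
  rw [TT_r hr hc] at h
  rw [sg1, LinearMap.sub_apply, LinearMap.id_apply, add_right_cancel h, sub_self]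

include hF hr in
lemma tau_sg1 {c : ι →₀ 𝕜} (hc : c ∈ Finsupp.supported 𝕜 𝕜 P) : tau F r (sg1 F c) = 0 := by
  rw [sg1, LinearMap.sub_apply, map_sub, TT_comm_tau, LinearMap.id_apply]
  have h := sg1_tau hF hr hc
  rwa [sg1, LinearMap.sub_apply, LinearMap.id_apply] at h

/-- the orbit part of a chain -/
lemma orbit_part [hp : Fact r.Prime] (c : ι →₀ 𝕜) (l : ι)
    (hper : F^[r] l = l) (hnf : F l ≠ l) :
    ∃ c' : ι →₀ 𝕜, c = c' + ∑ i ∈ Finset.range r, single (F^[i] l) (c (F^[i] l)) ∧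
      c'.support ⊆ c.support ∧ c' l = 0 := by
  classical
  have hpp : Function.IsPeriodicPt F r l := hper
  have hmin : Function.minimalPeriod F l = r := by
    rcases (Nat.dvd_prime hp.out).1 hpp.minimalPeriod_dvd with h | h
    · exact absurd (Function.minimalPeriod_eq_one_iff_isFixedPt.1 h) hnf
    · exact h
  have hinj : Set.InjOn (fun i => F^[i] l) (Finset.range r : Set ℕ) := by
    intro i hi j hj hij
    have hi' : i < r := by simpa using hi
    have hj' : j < r := by simpa using hj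
    exact Function.iterate_injOn_Iio_minimalPeriod (by simpa [hmin] using hi')
      (by simpa [hmin] using hj') hij
  set O : Finset ι := (Finset.range r).image fun i => F^[i] l with hO
  refine ⟨c.filter (fun m => m ∉ O), ?_, ?_, ?_⟩
  · have h1 : ∑ i ∈ Finset.range r, single (F^[i] l) (c (F^[i] l)) = ∑ m ∈ O, single m (c m) := by
      rw [hO, Finset.sum_image hinj]
    rw [h1]
    ext m
    rw [Finsupp.add_apply, Finsupp.finsetSum_apply, Finsupp.filter_apply]
    by_cases hm : m ∈ O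
    · rw [if_neg (by simpa using hm), zero_add, Finset.sum_eq_single m]
      · simp
      · intro b _ hb
        simp [hb]
      · intro h; exact absurd hm h
    · rw [if_pos hm, Finset.sum_eq_zero, add_zero]
      intro b hb
      rw [Finsupp.single_apply, if_neg]
      rintro rfl
      exact hm hb
  · rw [Finsupp.support_filter]
    exact Finset.filter_subset _ _
  · rw [Finsupp.filter_apply, if_neg]
    simp only [not_not]
    rw [hO, Finset.mem_image]
    exact ⟨0, Finset.mem_range.2 hp.out.pos, rfl⟩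

include hF hr in
/-- kernel of `1 - F` -/
lemma ker_sg1 [hp : Fact r.Prime] (n : ℕ) : ∀ c : ι →₀ 𝕜, c.support.card ≤ n →
    c ∈ Finsupp.supported 𝕜 𝕜 P → sg1 F c = 0 →
    ∃ a ∈ Finsupp.supported 𝕜 𝕜 P, ∃ d ∈ Finsupp.supported 𝕜 𝕜 {l | l ∈ P ∧ F l = l},
      c = tau F r a + d := by
  induction n with
  | zero =>
    intro c hcard _ _
    have : c = 0 := by
      rw [← Finsupp.support_eq_empty, ← Finset.card_eq_zero]
      omega
    exact ⟨0, Submodule.zero_mem _, 0, Submodule.zero_mem _, by simp [this]⟩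
  | succ n ih =>
    intro c hcard hc hsc
    by_cases hfix : ∀ l ∈ c.support, F l = l
    · refine ⟨0, Submodule.zero_mem _, c, ?_, by simp⟩
      intro l hl
      exact ⟨hc hl, hfix l hl⟩
    · push Not at hfix
      obtain ⟨l, hl, hnf⟩ := hfix
      have hlP : l ∈ P := hc hl
      obtain ⟨c', hcc', hsub, hl0⟩ := orbit_part c l (hr l hlP) hnf
      have hinv : TT F c = c := by
        rw [sg1, LinearMap.sub_apply, LinearMap.id_apply, sub_eq_zero] at hsc
        exact hsc.symm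
      have hval : ∀ i, c (F^[i] l) = c l := by
        intro i
        induction i with
        | zero => rfl
        | succ i ih =>
          rw [← ih]
          have h1 := TT_apply hF hr hp.out.pos 1 hc (iter_mem hF i l hlP)
          rw [Function.iterate_one, hinv, ← Function.iterate_succ_apply' F i l] at h1
          exact h1
      have hsum : ∑ i ∈ Finset.range r, single (F^[i] l) (c (F^[i] l)) =
          c l • tau F r (single l (1 : 𝕜)) := by
        rw [tau, LinearMap.sum_apply, Finset.smul_sum]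
        refine Finset.sum_congr rfl fun i _ => ?_
        rw [hval, TT_single, Finsupp.smul_single, smul_eq_mul, mul_one]
      have hs1 : single l (1 : 𝕜) ∈ Finsupp.supported 𝕜 𝕜 P :=
        Finsupp.single_mem_supported 𝕜 _ hlP
      have hc'P : c' ∈ Finsupp.supported 𝕜 𝕜 P := fun m hm => hc (hsub hm)
      have hc'0 : sg1 F c' = 0 := by
        have h2 : c' = c - c l • tau F r (single l (1 : 𝕜)) := by
          rw [← hsum]; exact eq_sub_of_add_eq hcc'.symm
        rw [h2, map_sub, hsc, map_smul, sg1_tau hF hr hs1, smul_zero, sub_zero]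
      have hcard' : c'.support.card ≤ n := by
        have : c'.support ⊂ c.support := by
          refine Finset.ssubset_iff_subset_ne.2 ⟨hsub, ?_⟩
          intro h
          rw [← h, Finsupp.mem_support_iff] at hl
          exact hl hl0
        have := Finset.card_lt_card this
        omega
      obtain ⟨a, ha, d, hd, had⟩ := ih c' hcard' hc'P hc'0
      refine ⟨a + c l • single l 1, Submodule.add_mem _ ha (Submodule.smul_mem _ _ hs1), d, hd, ?_⟩
      have e1 : c = c' + c l • tau F r (single l (1 : 𝕜)) := by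
        rw [← hsum]; exact hcc'
      have e2 : c' + c l • tau F r (single l (1 : 𝕜)) =
          tau F r (a + c l • single l 1) + d := by
        rw [had, map_add, map_smul]
        abel
      exact e1.trans e2

include hF hr in
/-- kernel of the norm -/
lemma ker_tau [hp : Fact r.Prime] (n : ℕ) : ∀ c : ι →₀ 𝕜, c.support.card ≤ n →
    c ∈ Finsupp.supported 𝕜 𝕜 P → tau F r c = 0 →
    ∃ a ∈ Finsupp.supported 𝕜 𝕜 P, ∃ d ∈ Finsupp.supported 𝕜 𝕜 {l | l ∈ P ∧ F l = l},
      c = sg1 F a + d := by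
  induction n with
  | zero =>
    intro c hcard _ _
    have : c = 0 := by
      rw [← Finsupp.support_eq_empty, ← Finset.card_eq_zero]
      omega
    exact ⟨0, Submodule.zero_mem _, 0, Submodule.zero_mem _, by simp [this]⟩
  | succ n ih =>
    intro c hcard hc hsc
    by_cases hfix : ∀ l ∈ c.support, F l = l
    · refine ⟨0, Submodule.zero_mem _, c, ?_, by simp⟩
      intro l hl
      exact ⟨hc hl, hfix l hl⟩
    · push Not at hfix
      obtain ⟨l, hl, hnf⟩ := hfix
      have hlP : l ∈ P := hc hl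
      obtain ⟨c', hcc', hsub, hl0⟩ := orbit_part c l (hr l hlP) hnf
      -- the sum of the coefficients on the orbit
      have hsum0 : ∑ i ∈ Finset.range r, c (F^[i] l) = 0 := by
        have h1 : (tau F r c) (F^[r] l) = 0 := by rw [hsc]; rfl
        rw [tau, LinearMap.sum_apply, Finsupp.finsetSum_apply] at h1
        rw [← Finset.sum_range_reflect, Finset.sum_congr rfl] at h1
        rotate_left
        · exact fun i _ => rfl
        have h2 : ∀ j ∈ Finset.range r, (TT (F^[r - 1 - j]) c) (F^[r] l) = c (F^[j + 1] l) := by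
          intro j hj
          have hj' : j < r := Finset.mem_range.1 hj
          have h3 : F^[r] l = F^[r - 1 - j] (F^[j + 1] l) := by
            rw [← Function.iterate_add_apply]
            congr 1
            omega
          rw [h3]
          exact TT_apply hF hr hp.out.pos _ hc (iter_mem hF _ l hlP)
        rw [Finset.sum_congr rfl h2] at h1
        have h4 := Finset.sum_range_succ (fun i => c (F^[i] l)) r
        have h5 := Finset.sum_range_succ' (fun i => c (F^[i] l)) r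
        rw [h4] at h5
        rw [h1, zero_add, Function.iterate_zero_apply, hr l hlP] at h5
        exact add_right_cancel (h5.trans (zero_add _).symm)
      have hs1 : ∀ i, single (F^[i] l) (1 : 𝕜) ∈ Finsupp.supported 𝕜 𝕜 P := fun i =>
        Finsupp.single_mem_supported 𝕜 _ (iter_mem hF i l hlP)
      have htel : ∀ i, single (F^[i] l) (1 : 𝕜) =
          single l 1 - sg1 F (∑ j ∈ Finset.range i, single (F^[j] l) 1) := by
        intro i
        induction i with
        | zero => simp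
        | succ i ih =>
          rw [Finset.sum_range_succ, map_add]
          have h6 : sg1 F (single (F^[i] l) (1 : 𝕜)) =
              single (F^[i] l) 1 - single (F^[i + 1] l) 1 := by
            rw [sg1, LinearMap.sub_apply, LinearMap.id_apply, TT_single,
              Function.iterate_succ_apply']
          have h7 : sg1 F (∑ j ∈ Finset.range i, single (F^[j] l) (1 : 𝕜)) =
              single l 1 - single (F^[i] l) 1 := by
            rw [ih]; abel
          rw [h6, h7]; abel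
      set b : ι →₀ 𝕜 := - ∑ i ∈ Finset.range r, c (F^[i] l) •
        ∑ j ∈ Finset.range i, single (F^[j] l) (1 : 𝕜) with hb
      have hbP : b ∈ Finsupp.supported 𝕜 𝕜 P := by
        refine Submodule.neg_mem _ (Submodule.sum_mem _ fun i _ => Submodule.smul_mem _ _ ?_)
        exact Submodule.sum_mem _ fun j _ => hs1 j
      have horb : ∑ i ∈ Finset.range r, single (F^[i] l) (c (F^[i] l)) = sg1 F b := by
        have h8 : ∀ i ∈ Finset.range r, single (F^[i] l) (c (F^[i] l)) =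
            c (F^[i] l) • single l (1 : 𝕜) -
              sg1 F (c (F^[i] l) • ∑ j ∈ Finset.range i, single (F^[j] l) 1) := by
          intro i _
          rw [map_smul, ← smul_sub, ← htel, Finsupp.smul_single, smul_eq_mul, mul_one]
        rw [Finset.sum_congr rfl h8, Finset.sum_sub_distrib, ← Finset.sum_smul, hsum0, zero_smul,
          zero_sub, ← map_sum, hb, map_neg]
      have hc'P : c' ∈ Finsupp.supported 𝕜 𝕜 P := fun m hm => hc (hsub hm)
      have hc'0 : tau F r c' = 0 := by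
        have h2 : c' = c - sg1 F b := by
          rw [← horb]; exact eq_sub_of_add_eq hcc'.symm
        rw [h2, map_sub, hsc, tau_sg1 hF hr hbP, sub_zero]
      have hcard' : c'.support.card ≤ n := by
        have : c'.support ⊂ c.support := by
          refine Finset.ssubset_iff_subset_ne.2 ⟨hsub, ?_⟩
          intro h
          rw [← h, Finsupp.mem_support_iff] at hl
          exact hl hl0
        have := Finset.card_lt_card this
        omega
      obtain ⟨a, ha, d, hd, had⟩ := ih c' hcard' hc'P hc'0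
      refine ⟨a + b, Submodule.add_mem _ ha hbP, d, hd, ?_⟩
      have e1 : c = c' + sg1 F b := by
        rw [← horb]; exact hcc'
      have e2 : c' + sg1 F b = sg1 F (a + b) + d := by
        rw [had, map_add]
        abel
      exact e1.trans e2

include hF hr in
lemma fix_sg1 [hp : Fact r.Prime] {a d : ι →₀ 𝕜} (ha : a ∈ Finsupp.supported 𝕜 𝕜 P)
    (hd : d ∈ Finsupp.supported 𝕜 𝕜 {l | l ∈ P ∧ F l = l}) (h : d = sg1 F a) : d = 0 := by
  rw [← Finsupp.support_eq_empty, Finset.eq_empty_iff_forall_notMem]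
  intro l hl
  have hl' := hd hl
  rw [Finsupp.mem_support_iff] at hl
  apply hl
  rw [h, sg1, LinearMap.sub_apply, LinearMap.id_apply, Finsupp.sub_apply]
  have h1 := TT_apply hF hr hp.out.pos 1 ha hl'.1
  rw [Function.iterate_one, hl'.2] at h1
  rw [h1, sub_self]

include hF hr in
lemma fix_tau [hp : Fact r.Prime] (hchar : (r : 𝕜) = 0) {a d : ι →₀ 𝕜}
    (ha : a ∈ Finsupp.supported 𝕜 𝕜 P)
    (hd : d ∈ Finsupp.supported 𝕜 𝕜 {l | l ∈ P ∧ F l = l}) (h : d = tau F r a) : d = 0 := by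
  rw [← Finsupp.support_eq_empty, Finset.eq_empty_iff_forall_notMem]
  intro l hl
  have hl' := hd hl
  rw [Finsupp.mem_support_iff] at hl
  apply hl
  rw [h, tau, LinearMap.sum_apply, Finsupp.finsetSum_apply]
  have h1 : ∀ i ∈ Finset.range r, (TT (F^[i]) a) l = a l := by
    intro i _
    have h2 := TT_apply hF hr hp.out.pos i ha hl'.1
    rwa [Function.iterate_fixed hl'.2 i] at h2
  rw [Finset.sum_congr rfl h1, Finset.sum_const, Finset.card_range, nsmul_eq_mul, hchar, zero_mul]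

end Perm

end Vale.Agent.P240.K
end

section

namespace Vale.Agent.P240.K

open Finsupp

variable {𝕜 : Type*} [Field 𝕜] {α : Type*}

/-- lists of length `n` -/
def stn [LT α] (S : Set α) (n : ℕ) : Set (List α) := {l | l.length = n ∧ st S l}

lemma not_NA_iff [PartialOrder α] {S : Set α} :
    ¬ NA 𝕜 S ↔ ∀ z ∈ Sp 𝕜 (st S), bd z = 0 → ∃ c ∈ Sp 𝕜 (st S), bd c = z := by
  unfold NA
  push Not
  rfl

lemma not_NA_hom [PartialOrder α] {S : Set α} (h : ¬ NA 𝕜 S) (n : ℕ) {z : Ch 𝕜 α}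
    (hz : z ∈ Finsupp.supported 𝕜 𝕜 (stn S n)) (hb : bd z = 0) :
    ∃ c ∈ Finsupp.supported 𝕜 𝕜 (stn S (n + 1)), bd c = z := by
  rw [not_NA_iff] at h
  obtain ⟨c, hc, hcz⟩ := h z (Sp_mono (fun l (hl : l ∈ stn S n) => hl.2) hz) hb
  refine ⟨len (n + 1) c, len_mem hc, ?_⟩
  rw [bd_len, hcz]
  exact len_of_mem (Sp_mono (fun l (hl : l ∈ stn S n) => hl.1) hz)

lemma not_NA_of_hom [PartialOrder α] {S : Set α}
    (h : ∀ n, ∀ z ∈ Finsupp.supported 𝕜 𝕜 (stn S n), bd z = 0 → ∃ c ∈ Sp 𝕜 (st S), bd c = z) :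
    ¬ NA 𝕜 S := by
  rw [not_NA_iff]
  intro z hz hb
  have key : ∀ n, ∃ c ∈ Sp 𝕜 (st S), bd c = len n z := by
    intro n
    refine h n _ (len_mem hz) ?_
    rcases n with _ | n
    · exact bd_len_zero _
    · rw [bd_len, hb, map_zero]
  choose c hc hbc using key
  obtain ⟨N, hN⟩ := exists_len_bound z
  refine ⟨∑ n ∈ Finset.range N, c n, Submodule.sum_mem _ fun n _ => hc n, ?_⟩
  rw [map_sum]
  simp only [hbc]
  exact sum_len N hN

lemma map_iter (f : α → α) (n : ℕ) : (List.map f)^[n] = List.map (f^[n]) := by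
  induction n with
  | zero => funext l; simp
  | succ n ih =>
    funext l
    rw [Function.iterate_succ_apply, ih, List.map_map, Function.iterate_succ]

lemma bd_TT (f : α → α) (i : ℕ) (c : Ch 𝕜 α) :
    bd (TT ((List.map f)^[i]) c) = TT ((List.map f)^[i]) (bd c) := by
  rw [map_iter]
  exact bd_mp _ c

lemma bd_sg1 (f : α → α) (c : Ch 𝕜 α) : bd (sg1 (List.map f) c) = sg1 (List.map f) (bd c) := by
  have := bd_TT f 1 c
  rw [Function.iterate_one] at this
  simp only [sg1, LinearMap.sub_apply, LinearMap.id_apply, map_sub, this]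

lemma bd_tau (f : α → α) (r : ℕ) (c : Ch 𝕜 α) :
    bd (tau (List.map f) r c) = tau (List.map f) r (bd c) := by
  simp only [tau, LinearMap.sum_apply, map_sum, bd_TT]

lemma st_length_le [PartialOrder α] {S : Set α} (hS : S.Finite) {l : List α} (hl : st S l) :
    l.length ≤ hS.toFinset.card := by
  classical
  have hnd : l.Nodup := hl.1.imp fun h => (ne_of_lt h).symm
  rw [← List.toFinset_card_of_nodup hnd]
  refine Finset.card_le_card ?_
  intro a ha
  rw [Set.Finite.mem_toFinset]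
  exact hl.2 a (by simpa using ha)

lemma supported_stn_zero [PartialOrder α] {S : Set α} (hS : S.Finite) {n : ℕ}
    (hn : hS.toFinset.card < n) {z : Ch 𝕜 α} (hz : z ∈ Finsupp.supported 𝕜 𝕜 (stn S n)) :
    z = 0 := by
  rw [← Finsupp.support_eq_empty, Finset.eq_empty_iff_forall_notMem]
  intro l hl
  have h1 := hz hl
  have h2 := st_length_le hS h1.2
  rw [h1.1] at h2
  omega

lemma bd_stn [PartialOrder α] {S : Set α} {n : ℕ} {z : Ch 𝕜 α}
    (hz : z ∈ Finsupp.supported 𝕜 𝕜 (stn S (n + 1))) :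
    bd z ∈ Finsupp.supported 𝕜 𝕜 (stn S n) := by
  have h1 : z = len (n + 1) z :=
    (len_of_mem (Sp_mono (fun l (hl : l ∈ stn S (n + 1)) => hl.1) hz)).symm
  rw [h1, bd_len]
  exact len_mem (bd_st (Sp_mono (fun l (hl : l ∈ stn S (n + 1)) => hl.2) hz))

/-- **Smith's theorem** for an order automorphism of prime order `r` of a finite poset `S` that is
acyclic over a field of characteristic `r`: the fixed points are acyclic as well. -/
theorem smith [PartialOrder α] {r : ℕ} [hp : Fact r.Prime] (hchar : (r : 𝕜) = 0) {S : Set α}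
    (hS : S.Finite) (f : α → α) (hf : ∀ x ∈ S, f x ∈ S) (hr : ∀ x ∈ S, f^[r] x = x)
    (hlt : ∀ x ∈ S, ∀ y ∈ S, x < y → f x < f y) (hac : ¬ NA 𝕜 S) :
    ¬ NA 𝕜 {x | x ∈ S ∧ f x = x} := by
  set F : List α → List α := List.map f with hFdef
  have hFn : ∀ n, ∀ l ∈ stn S n, F l ∈ stn S n := by
    rintro n l ⟨h1, h2⟩
    refine ⟨by rw [hFdef, List.length_map, h1], ?_, ?_⟩
    · rw [hFdef, List.pairwise_map]
      exact h2.1.imp_of_mem fun {a b} ha hb hab => hlt _ (h2.2 b hb) _ (h2.2 a ha) hab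
    · intro a ha
      obtain ⟨b, hb, rfl⟩ := List.mem_map.1 ha
      exact hf _ (h2.2 b hb)
  have hFr : ∀ n, ∀ l ∈ stn S n, F^[r] l = l := by
    rintro n l ⟨h1, h2⟩
    rw [hFdef, map_iter]
    conv_rhs => rw [← List.map_id l]
    exact List.map_congr_left fun a ha => hr a (h2.2 a ha)
  -- fixed lists
  have hfixbd : ∀ n, ∀ d ∈ Finsupp.supported 𝕜 𝕜 {l | l ∈ stn S (n + 1) ∧ F l = l},
      bd d ∈ Finsupp.supported 𝕜 𝕜 {l | l ∈ stn S n ∧ F l = l} := by
    intro n d hd
    have h1 : bd d ∈ Sp 𝕜 (fun l => l ∈ stn S n) :=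
      bd_stn (Sp_mono (fun l (hl : l ∈ stn S (n + 1) ∧ F l = l) => hl.1) hd)
    have h2 : bd d ∈ Sp 𝕜 (fun l => ∀ a ∈ l, f a = a) := by
      refine bd_mem (fun l l' hs hl a ha => hl a (hs.subset ha)) (Sp_mono ?_ hd)
      rintro l ⟨_, hl⟩ a ha
      have := List.map_eq_map_iff.1 ((hl : l.map f = l).trans (List.map_id l).symm) a ha
      exact this
    refine Sp_mono ?_ (mem_Sp_inf h1 h2)
    rintro l ⟨hl, hl'⟩
    refine ⟨hl, ?_⟩
    rw [hFdef]
    conv_rhs => rw [← List.map_id l]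
    exact List.map_congr_left fun a ha => hl' a ha
  have key : ∀ m n : ℕ, hS.toFinset.card + 1 ≤ n + m →
      (∀ a ∈ Finsupp.supported 𝕜 𝕜 (stn S n), bd (sg1 F a) = 0 →
        ∃ b ∈ Finsupp.supported 𝕜 𝕜 (stn S (n + 1)), sg1 F a = bd (sg1 F b)) ∧
      (∀ a ∈ Finsupp.supported 𝕜 𝕜 (stn S n), bd (tau F r a) = 0 →
        ∃ b ∈ Finsupp.supported 𝕜 𝕜 (stn S (n + 1)), tau F r a = bd (tau F r b)) := by
    intro m
    induction m with
    | zero =>
      intro n hn
      constructor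
      · intro a ha _
        have : a = 0 := supported_stn_zero hS (by omega) ha
        exact ⟨0, Submodule.zero_mem _, by simp [this]⟩
      · intro a ha _
        have : a = 0 := supported_stn_zero hS (by omega) ha
        exact ⟨0, Submodule.zero_mem _, by simp [this]⟩
    | succ m ih =>
      intro n hn
      obtain ⟨ih1, ih2⟩ := ih (n + 1) (by omega)
      constructor
      · intro a ha hb
        obtain ⟨c, hc, hcz⟩ := not_NA_hom hac n (sg1_mem (hFn n) ha) hb
        obtain ⟨b, hb', hbe⟩ := ih2 c hc (by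
          rw [bd_tau, hcz]
          exact tau_sg1 (hFn n) (hFr n) ha)
        have hcb : c - bd b ∈ Finsupp.supported 𝕜 𝕜 (stn S (n + 1)) :=
          Submodule.sub_mem _ hc (bd_stn hb')
        obtain ⟨a', ha', d, hd, hcd⟩ := ker_tau (hFn (n + 1)) (hFr (n + 1)) _ (c - bd b) le_rfl hcb
          (by rw [map_sub, hbe, bd_tau, sub_self])
        have hz : bd (sg1 F a') + bd d = sg1 F a := by
          rw [← map_add, ← hcd, map_sub, bd_bd, sub_zero, hcz]
        have hd0 : bd d = 0 := by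
          refine fix_sg1 (hFn n) (hFr n) (a := a - bd a') (Submodule.sub_mem _ ha (bd_stn ha'))
            (hfixbd n d hd) ?_
          rw [map_sub, ← hz, bd_sg1]
          abel
        refine ⟨a', ha', ?_⟩
        rw [← hz, hd0, add_zero]
      · intro a ha hb
        obtain ⟨c, hc, hcz⟩ := not_NA_hom hac n (tau_mem (hFn n) ha) hb
        obtain ⟨b, hb', hbe⟩ := ih1 c hc (by
          rw [bd_sg1, hcz]
          exact sg1_tau (hFn n) (hFr n) ha)
        have hcb : c - bd b ∈ Finsupp.supported 𝕜 𝕜 (stn S (n + 1)) :=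
          Submodule.sub_mem _ hc (bd_stn hb')
        obtain ⟨a', ha', d, hd, hcd⟩ := ker_sg1 (hFn (n + 1)) (hFr (n + 1)) _ (c - bd b) le_rfl hcb
          (by rw [map_sub, hbe, bd_sg1, sub_self])
        have hz : bd (tau F r a') + bd d = tau F r a := by
          rw [← map_add, ← hcd, map_sub, bd_bd, sub_zero, hcz]
        have hd0 : bd d = 0 := by
          refine fix_tau (hFn n) (hFr n) hchar (a := a - bd a')
            (Submodule.sub_mem _ ha (bd_stn ha')) (hfixbd n d hd) ?_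
          rw [map_sub, ← hz, bd_tau]
          abel
        refine ⟨a', ha', ?_⟩
        rw [← hz, hd0, add_zero]
  refine not_NA_of_hom fun n z hz hb => ?_
  have hzS : z ∈ Finsupp.supported 𝕜 𝕜 (stn S n) :=
    Sp_mono (fun l (hl : l ∈ stn {x | x ∈ S ∧ f x = x} n) =>
      (⟨hl.1, hl.2.1, fun a ha => (hl.2.2 a ha).1⟩ : l ∈ stn S n)) hz
  have hzfix : z ∈ Finsupp.supported 𝕜 𝕜 {l | l ∈ stn S n ∧ F l = l} := by
    refine Sp_mono (fun l (hl : l ∈ stn {x | x ∈ S ∧ f x = x} n) =>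
      (⟨⟨hl.1, hl.2.1, fun a ha => (hl.2.2 a ha).1⟩, ?_⟩ : l ∈ stn S n ∧ F l = l)) hz
    rw [hFdef]
    conv_rhs => rw [← List.map_id l]
    exact List.map_congr_left fun a ha => (hl.2.2 a ha).2
  obtain ⟨c, hc, hcz⟩ := not_NA_hom hac n hzS hb
  have hsz : sg1 F z = 0 := by
    have := eq_of_Sp (F := sg1 F) (G := 0) (P := fun l => l ∈ stn S n ∧ F l = l)
      (fun l hl => by
        rw [sg1, LinearMap.sub_apply, LinearMap.id_apply, TT_single, hl.2, sub_self]; rfl) hzfix
    simpa using this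
  obtain ⟨b, hb', hbe⟩ := (key (hS.toFinset.card + 1) (n + 1) (by omega)).1 c hc (by
    rw [bd_sg1, hcz, hsz])
  have hcb : c - bd b ∈ Finsupp.supported 𝕜 𝕜 (stn S (n + 1)) :=
    Submodule.sub_mem _ hc (bd_stn hb')
  obtain ⟨a', ha', d, hd, hcd⟩ := ker_sg1 (hFn (n + 1)) (hFr (n + 1)) _ (c - bd b) le_rfl hcb
    (by rw [map_sub, hbe, bd_sg1, sub_self])
  have hz' : bd (tau F r a') + bd d = z := by
    rw [← map_add, ← hcd, map_sub, bd_bd, sub_zero, hcz]
  have h0 : z - bd d = 0 := by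
    refine fix_tau (hFn n) (hFr n) hchar (a := bd a') (bd_stn ha')
      (Submodule.sub_mem _ hzfix (hfixbd n d hd)) ?_
    rw [← bd_tau, ← hz']
    abel
  refine ⟨d, ?_, (sub_eq_zero.1 h0).symm⟩
  refine Sp_mono ?_ hd
  rintro l ⟨⟨_, hl1, hl2⟩, hl3⟩
  refine ⟨hl1, fun a ha => ⟨hl2 a ha, ?_⟩⟩
  exact List.map_eq_map_iff.1 ((hl3 : l.map f = l).trans (List.map_id l).symm) a ha

end Vale.Agent.P240.K
end

section

namespace Vale.Agent.P240.K

open Finsupp

variable {𝕜 : Type*} [Field 𝕜]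

variable {α β γ : Type*}

/-! ### Shuffle product -/

/-- shuffle product of two lists in a join semilattice -/
noncomputable def shL [Max α] : List α → List α → Ch 𝕜 α
  | [], t => single t (1 : 𝕜)
  | a :: s, [] => single (a :: s) (1 : 𝕜)
  | a :: s, b :: t =>
      cons (a ⊔ b) (shL s (b :: t) + (-1 : 𝕜) ^ (s.length + 1) • shL (a :: s) t)
termination_by s t => s.length + t.length

/-- bilinear shuffle product -/
noncomputable def sh [Max α] : Ch 𝕜 α →ₗ[𝕜] Ch 𝕜 α →ₗ[𝕜] Ch 𝕜 α :=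
  Finsupp.linearCombination 𝕜 fun s => Finsupp.linearCombination 𝕜 fun t => shL s t

/-- bilinear extensionality -/
lemma bilin_ext {M : Type*} [AddCommGroup M] [Module 𝕜 M] {f g : Ch 𝕜 α →ₗ[𝕜] Ch 𝕜 α →ₗ[𝕜] M}
    (h : ∀ s t, f (single s (1 : 𝕜)) (single t (1 : 𝕜)) = g (single s (1 : 𝕜)) (single t (1 : 𝕜))) : f = g :=
  lin_ext fun s => lin_ext fun t => h s t

variable [Max α]

lemma sh_single (s t : List α) : sh (single s (1 : 𝕜)) (single t (1 : 𝕜)) = shL s t := by
  simp [sh, Finsupp.linearCombination_single]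

lemma sh_nil_left (y : Ch 𝕜 α) : sh (single [] (1 : 𝕜)) y = y := by
  have := lin_ext_apply (f := sh (single ([] : List α) (1 : 𝕜))) (g := LinearMap.id)
    (fun l => by rw [sh_single, shL]; rfl) y
  simpa using this

lemma sh_nil_right (x : Ch 𝕜 α) : sh x (single [] (1 : 𝕜)) = x := by
  have := lin_ext_apply (f := (sh (𝕜 := 𝕜) (α := α)).flip (single ([] : List α) (1 : 𝕜))) (g := LinearMap.id)
    (fun l => by
      rw [LinearMap.flip_apply, sh_single]
      cases l with
      | nil => rw [shL]; rfl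
      | cons a l => rw [shL]; rfl) x
  simpa using this

lemma sh_cons_cons (a b : α) (c d : Ch 𝕜 α) :
    sh (cons a c) (cons b d) =
      cons (a ⊔ b) (sh c (cons b d) + sh (sg (cons a c)) d) := by
  have := bilin_ext
    (f := (sh (𝕜 := 𝕜) (α := α)).compl₁₂ (cons a) (cons b))
    (g := ((sh (𝕜 := 𝕜) (α := α)).compl₁₂ LinearMap.id (cons b) +
      (sh (𝕜 := 𝕜) (α := α)).compl₁₂ (sg.comp (cons a)) LinearMap.id).compr₂ (cons (a ⊔ b)))
    (fun s t => by
      simp only [LinearMap.compl₁₂_apply, LinearMap.compr₂_apply, LinearMap.add_apply,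
        LinearMap.id_apply, LinearMap.comp_apply, cons_single, sg_single, map_smul,
        LinearMap.smul_apply, sh_single, List.length_cons]
      rw [shL])
  have h := congrArg (fun F => F c d) this
  simpa only [LinearMap.compl₁₂_apply, LinearMap.compr₂_apply, LinearMap.add_apply,
        LinearMap.id_apply, LinearMap.comp_apply] using h

/-- `bd` is a graded derivation for the shuffle product, on lists. -/
lemma bd_sh_list (n : ℕ) : ∀ s t : List α, s.length + t.length = n →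
    bd (sh (single s (1 : 𝕜)) (single t (1 : 𝕜))) =
      sh (bd (single s (1 : 𝕜))) (single t (1 : 𝕜)) + sh (sg (single s (1 : 𝕜))) (bd (single t (1 : 𝕜))) := by
  induction n with
  | zero =>
    intro s t h
    have hs : s = [] := List.length_eq_zero_iff.1 (by omega)
    have ht : t = [] := List.length_eq_zero_iff.1 (by omega)
    subst hs ht
    simp [sh_nil_left]
  | succ n ih =>
    intro s t h
    rcases s with _ | ⟨a, s⟩
    · simp [sh_nil_left]
    rcases t with _ | ⟨b, t⟩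
    · simp [sh_nil_right]
    have h1 := ih s (b :: t) (by simp only [List.length_cons] at h ⊢; omega)
    have h2 := ih (a :: s) t (by simp only [List.length_cons] at h ⊢; omega)
    -- write everything with cons
    obtain ⟨c, hcdef⟩ : ∃ c : Ch 𝕜 α, c = single s (1 : 𝕜) := ⟨_, rfl⟩
    obtain ⟨d, hddef⟩ : ∃ d : Ch 𝕜 α, d = single t (1 : 𝕜) := ⟨_, rfl⟩
    have ea : single (a :: s) (1 : 𝕜) = cons a c := by simp [hcdef]
    have eb : single (b :: t) (1 : 𝕜) = cons b d := by simp [hddef]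
    have e : sg (cons a c) = ((-1 : 𝕜) ^ (s.length + 1)) • cons a c := by
      simp [hcdef, pow_succ]
    rw [← hcdef, eb] at h1
    rw [← hddef, ea] at h2
    rw [ea, eb]
    have h2' : bd (sh (sg (cons a c)) d) = sh (bd (sg (cons a c))) d + sh (cons a c) (bd d) := by
      have e2 : sh (cons a c) (bd d) = ((-1 : 𝕜) ^ (s.length + 1)) •
          sh (sg (cons a c)) (bd d) := by
        rw [e, map_smul, LinearMap.smul_apply, smul_smul, ← pow_add, ← two_mul]
        simp
      rw [e2]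
      rw [e] at h2 ⊢
      simp only [map_smul, LinearMap.smul_apply] at h2 ⊢
      rw [h2, smul_add]
    have s1 := sh_cons_cons a b (bd c) d
    have s2 := sh_cons_cons a b (-(sg c)) (bd d)
    have e3 : cons a (-(sg c)) = sg (cons a c) := by rw [map_neg, sg_cons]
    have e4 : sg (cons a (-(sg c))) = cons a c := by rw [e3, sg_sg]
    rw [e3, sg_sg, map_neg (sh (𝕜 := 𝕜)), LinearMap.neg_apply] at s2
    have e5 : bd (sg (cons a c)) = sg (cons a (bd c)) - sg c := by
      rw [bd_sg, bd_cons, map_sub]; abel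
    rw [e5, map_sub (sh (𝕜 := 𝕜)), LinearMap.sub_apply] at h2'
    rw [bd_cons, map_sub (sh (sg c))] at h1
    rw [sh_cons_cons, bd_cons, map_add (bd (𝕜 := 𝕜)), h1, h2', bd_cons, bd_cons, map_sub (sh (𝕜 := 𝕜)),
      LinearMap.sub_apply, map_sub (sh (sg (cons a c))), s1, s2]
    generalize sh (bd c) (cons b d) = X1
    generalize sh (sg c) d = X2
    generalize sh (sg c) (cons b (bd d)) = X3
    generalize sh (sg (cons a (bd c))) d = X4
    generalize sh (cons a c) (bd d) = X5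
    generalize sh c (cons b d) = X6
    generalize sh (sg (cons a c)) d = X7
    have e6 : X1 + (X2 - X3) + (X4 - X2 + X5) = (X1 + X4) + (-X3 + X5) := by abel
    rw [e6, map_add (cons (a ⊔ b)) (X1 + X4)]
    generalize cons (a ⊔ b) (X1 + X4) = Y1
    generalize cons (a ⊔ b) (-X3 + X5) = Y2
    abel

lemma bd_sh (x y : Ch 𝕜 α) : bd (sh x y) = sh (bd x) y + sh (sg x) (bd y) := by
  have := bilin_ext
    (f := (sh (𝕜 := 𝕜) (α := α)).compr₂ bd)
    (g := (sh (𝕜 := 𝕜) (α := α)).compl₁₂ bd LinearMap.id + (sh (𝕜 := 𝕜) (α := α)).compl₁₂ sg bd)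
    (fun s t => by
      simp only [LinearMap.compl₁₂_apply, LinearMap.compr₂_apply, LinearMap.add_apply,
        LinearMap.id_apply]
      exact bd_sh_list _ s t rfl)
  have h := congrArg (fun F => F x y) this
  simpa only [LinearMap.compl₁₂_apply, LinearMap.compr₂_apply, LinearMap.add_apply,
        LinearMap.id_apply] using h

end Vale.Agent.P240.K
end

section

namespace Vale.Agent.P240.K

open Finsupp

variable {𝕜 : Type*} [Field 𝕜]

variable {α β γ : Type*}

/-- a functional vanishing on lists that are not strictly decreasing -/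
def Nrm [LT α] (lam : Ch 𝕜 α →ₗ[𝕜] 𝕜) : Prop :=
  ∀ l : List α, ¬ l.Pairwise (· > ·) → lam (single l (1 : 𝕜)) = 0

/-- a functional vanishing on boundaries of weak chains in `S` -/
def Coc [LE α] (S : Set α) (lam : Ch 𝕜 α →ₗ[𝕜] 𝕜) : Prop :=
  ∀ c ∈ Sp 𝕜 (wk S), lam (bd c) = 0

/-! ### Existence of functionals -/

lemma exists_functional {V : Type*} [AddCommGroup V] [Module 𝕜 V] (B : Submodule 𝕜 V) (z : V)
    (hz : z ∉ B) : ∃ mu : V →ₗ[𝕜] 𝕜, (∀ b ∈ B, mu b = 0) ∧ mu z ≠ 0 := by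
  obtain ⟨f, hf, hfB⟩ := Submodule.exists_dual_map_eq_bot_of_notMem hz inferInstance
  refine ⟨f, fun b hb => ?_, hf⟩
  have : f b ∈ B.map f := ⟨b, hb, rfl⟩
  rw [hfB] at this
  simpa using this

/-- boundaries of strict chains in `S` -/
noncomputable def Bst (𝕜 : Type*) [Field 𝕜] [LT α] (S : Set α) : Submodule 𝕜 (Ch 𝕜 α) := (Sp 𝕜 (st S)).map bd

lemma exists_cocycle [PartialOrder α] (S : Set α) (V : Submodule 𝕜 (Ch 𝕜 α)) (z : Ch 𝕜 α)
    (hz : pi z ∉ Bst 𝕜 S ⊔ V) :
    ∃ lam : Ch 𝕜 α →ₗ[𝕜] 𝕜, Nrm lam ∧ Coc S lam ∧ (∀ v, pi v ∈ V → lam v = 0) ∧ lam z ≠ 0 := by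
  obtain ⟨mu, h1, h2⟩ := exists_functional _ _ hz
  refine ⟨mu.comp pi, ?_, ?_, ?_, h2⟩
  · intro l hl
    rw [LinearMap.comp_apply, pi_single, if_neg hl, map_zero]
  · intro c hc
    rw [LinearMap.comp_apply, ← bd_pi hc]
    exact h1 _ (Submodule.mem_sup_left ⟨pi c, pi_mem hc, rfl⟩)
  · intro v hv
    exact h1 _ (Submodule.mem_sup_right hv)

lemma NA_of_functional [PartialOrder α] {S : Set α} (lam : Ch 𝕜 α →ₗ[𝕜] 𝕜)
    (hn : ∀ l, wk S l → ¬ l.Pairwise (· > ·) → lam (single l (1 : 𝕜)) = 0)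
    (hc : Coc S lam) (z : Ch 𝕜 α) (hz : z ∈ Sp 𝕜 (wk S)) (hb : bd z = 0) (hl : lam z ≠ 0) : NA 𝕜 S := by
  refine ⟨pi z, pi_mem hz, by rw [bd_pi hz, hb, map_zero], ?_⟩
  intro c hc' h
  have h1 : lam (pi z) = lam z := by
    have := eq_of_Sp (F := lam.comp Vale.Agent.P240.K.pi) (G := lam)
      (fun l (hl : wk S l) => by
        rw [LinearMap.comp_apply, pi_single]
        split_ifs with h
        · rfl
        · rw [map_zero, hn l hl h]) hz
    simpa using this
  rw [← h] at h1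
  rw [hc c (Sp_mono st_wk hc')] at h1
  exact hl h1.symm

/-! ### The detection functional -/

open Classical in
/-- detection functional on lists, with values in functionals of a prefix -/
noncomputable def PhiL (D : Set α) (f : α → β) (lW : Ch 𝕜 β →ₗ[𝕜] 𝕜) (lD : Ch 𝕜 α →ₗ[𝕜] 𝕜) :
    List α → (Ch 𝕜 β →ₗ[𝕜] 𝕜)
  | [] => lD (single [] (1 : 𝕜)) • lW
  | x :: l => if x ∈ D then lD (single (x :: l) (1 : 𝕜)) • lW else (PhiL D f lW lD l).comp (ap (f x))

/-- detection functional -/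
noncomputable def Phi (D : Set α) (f : α → β) (lW : Ch 𝕜 β →ₗ[𝕜] 𝕜) (lD : Ch 𝕜 α →ₗ[𝕜] 𝕜) :
    Ch 𝕜 α →ₗ[𝕜] (Ch 𝕜 β →ₗ[𝕜] 𝕜) := Finsupp.linearCombination 𝕜 (PhiL D f lW lD)

/-- detection functional -/
noncomputable def phi (D : Set α) (f : α → β) (lW : Ch 𝕜 β →ₗ[𝕜] 𝕜) (lD : Ch 𝕜 α →ₗ[𝕜] 𝕜) :
    Ch 𝕜 α →ₗ[𝕜] 𝕜 := (Phi D f lW lD).flip (single [] (1 : 𝕜))

section
variable {D : Set α} {f : α → β} {lW : Ch 𝕜 β →ₗ[𝕜] 𝕜} {lD : Ch 𝕜 α →ₗ[𝕜] 𝕜}

lemma Phi_single (l : List α) : Phi D f lW lD (single l (1 : 𝕜)) = PhiL D f lW lD l := by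
  simp [Phi, Finsupp.linearCombination_single]

lemma phi_single (l : List α) : phi D f lW lD (single l (1 : 𝕜)) = PhiL D f lW lD l (single [] (1 : 𝕜)) := by
  rw [phi, LinearMap.flip_apply, Phi_single]

lemma PhiL_cons_not {x : α} (hx : x ∉ D) (l : List α) :
    PhiL D f lW lD (x :: l) = (PhiL D f lW lD l).comp (ap (f x)) := by
  rw [PhiL, if_neg hx]

lemma PhiL_cons_mem {x : α} (hx : x ∈ D) (l : List α) :
    PhiL D f lW lD (x :: l) = lD (single (x :: l) (1 : 𝕜)) • lW := by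
  rw [PhiL, if_pos hx]

lemma PhiL_of_D {l : List α} (hl : ∀ a ∈ l, a ∈ D) :
    PhiL D f lW lD l = lD (single l (1 : 𝕜)) • lW := by
  cases l with
  | nil => rw [PhiL]
  | cons x l => rw [PhiL_cons_mem (hl x (by simp))]

lemma Phi_of_D {c : Ch 𝕜 α} (hc : c ∈ Sp 𝕜 (fun l : List α => ∀ a ∈ l, a ∈ D)) :
    Phi D f lW lD c = lD c • lW := by
  have := eq_of_Sp (F := Phi D f lW lD) (G := lD.smulRight lW)
    (fun l (hl : ∀ a ∈ l, a ∈ D) => by
      rw [Phi_single, PhiL_of_D hl]; rfl) hc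
  simpa using this

lemma Phi_cons_not {x : α} (hx : x ∉ D) (c : Ch 𝕜 α) (P : Ch 𝕜 β) :
    Phi D f lW lD (cons x c) P = Phi D f lW lD c (ap (f x) P) := by
  have := lin_ext_apply (f := (Phi D f lW lD).comp (cons x))
    (g := (LinearMap.lcomp 𝕜 𝕜 (ap (f x))).comp (Phi D f lW lD))
    (fun l => by
      simp only [LinearMap.comp_apply, cons_single, Phi_single, PhiL_cons_not hx]
      rfl) c
  have h := congrArg (fun F => F P) this
  simpa using h

/-- the cocycle property of the detection functional -/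
lemma Phi_bd [PartialOrder α] [PartialOrder β] {S : Set α} {SW : Set β}
    (hlow : ∀ x ∈ S, ∀ y ∈ S, x ≤ y → y ∈ D → x ∈ D)
    (hf : ∀ x ∈ S, x ∉ D → f x ∈ SW)
    (hmono : ∀ x ∈ S, x ∉ D → ∀ y ∈ S, y ∉ D → x ≤ y → f x ≤ f y)
    (hW : Coc SW lW) (hD : Coc (S ∩ D) lD) :
    ∀ (l : List α), wk S l → ∀ P : Ch 𝕜 β,
      P ∈ Sp 𝕜 (fun p : List β => wk SW p ∧ ∀ b ∈ p, ∀ x ∈ l, x ∉ D → f x ≤ b) →
      Phi D f lW lD (bd (single l (1 : 𝕜))) P = PhiL D f lW lD l (sg (bd P)) := by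
  have hW' : ∀ P ∈ Sp 𝕜 (wk SW), lW (sg (bd P)) = 0 := by
    intro P hP
    have := hW (sg P) (sg_mem hP)
    rw [bd_sg, map_neg, neg_eq_zero] at this
    exact this
  intro l
  induction l with
  | nil =>
    intro _ P hP
    rw [PhiL, bd_single_nil, map_zero, LinearMap.zero_apply, LinearMap.smul_apply,
      hW' P (Sp_mono (fun p hp => hp.1) hP), smul_zero]
  | cons x l ih =>
    intro hl P hP
    have hp := List.pairwise_cons.1 hl.1
    have hxS : x ∈ S := hl.2 x (by simp)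
    have hlS : wk S l := ⟨hp.2, fun a ha => hl.2 a (by simp [ha])⟩
    by_cases hx : x ∈ D
    · have hall : ∀ a ∈ x :: l, a ∈ D := by
        intro a ha
        rcases List.mem_cons.1 ha with h | ha'
        · rw [h]; exact hx
        · exact hlow a (hl.2 a ha) x hxS (hp.1 a ha') hx
      have hm : single (x :: l) (1 : 𝕜) ∈ Sp 𝕜 (wk (S ∩ D)) :=
        single_mem_Sp ⟨hl.1, fun a ha => ⟨hl.2 a ha, hall a ha⟩⟩ _
      rw [PhiL_of_D hall, Phi_of_D, hD _ hm, LinearMap.smul_apply, LinearMap.smul_apply,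
        hW' P (Sp_mono (fun p hp => hp.1) hP), zero_smul, smul_zero]
      exact Sp_mono (fun l hl a ha => (hl.2 a ha).2) (bd_wk hm)
    · have hP' : ap (f x) P ∈ Sp 𝕜 (fun p : List β => wk SW p ∧
          ∀ b ∈ p, ∀ y ∈ l, y ∉ D → f y ≤ b) := by
        refine ap_mem ?_ hP
        rintro p ⟨hp1, hp2⟩
        refine ⟨⟨?_, ?_⟩, ?_⟩
        · rw [List.pairwise_append]
          refine ⟨hp1.1, by simp, ?_⟩
          intro a ha b hb
          rw [List.mem_singleton] at hb
          rw [hb]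
          exact hp2 a ha x (by simp) hx
        · intro a ha
          rcases List.mem_append.1 ha with ha | ha
          · exact hp1.2 a ha
          · rw [List.mem_singleton] at ha
            rw [ha]
            exact hf x hxS hx
        · intro b hb y hy hyD
          rcases List.mem_append.1 hb with hb | hb
          · exact hp2 b hb y (by simp [hy]) hyD
          · rw [List.mem_singleton] at hb
            rw [hb]
            exact hmono y (hlS.2 y hy) hyD x hxS hx (hp.1 y hy)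
      rw [bd_single_cons, map_sub, LinearMap.sub_apply, Phi_cons_not hx, ih hlS _ hP',
        PhiL_cons_not hx, Phi_single, LinearMap.comp_apply, bd_ap, map_add, sg_sg, sg_ap, map_add,
        map_neg]
      abel

lemma phi_coc [PartialOrder α] [PartialOrder β] {S : Set α} {SW : Set β}
    (hlow : ∀ x ∈ S, ∀ y ∈ S, x ≤ y → y ∈ D → x ∈ D)
    (hf : ∀ x ∈ S, x ∉ D → f x ∈ SW)
    (hmono : ∀ x ∈ S, x ∉ D → ∀ y ∈ S, y ∉ D → x ≤ y → f x ≤ f y)
    (hW : Coc SW lW) (hD : Coc (S ∩ D) lD) : Coc S (phi D f lW lD) := by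
  intro c hc
  have := eq_of_Sp (F := (phi D f lW lD).comp bd) (G := 0) (fun l (hl : wk S l) => by
    rw [LinearMap.comp_apply, phi, LinearMap.flip_apply,
      Phi_bd hlow hf hmono hW hD l hl _ (single_mem_Sp ⟨⟨by simp, by simp⟩, by simp⟩ _)]
    simp) hc
  simpa using this

lemma PhiL_prefix [LT β] (hn : Nrm lW) (l : List α) :
    ∀ p : List β, ¬ p.Pairwise (· > ·) → PhiL D f lW lD l (single p 1) = 0 := by
  induction l with
  | nil => intro p hp; rw [PhiL, LinearMap.smul_apply, hn p hp, smul_zero]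
  | cons x l ih =>
    intro p hp
    by_cases hx : x ∈ D
    · rw [PhiL_cons_mem hx, LinearMap.smul_apply, hn p hp, smul_zero]
    · rw [PhiL_cons_not hx, LinearMap.comp_apply, ap_single]
      refine ih _ fun h => hp ?_
      exact (List.pairwise_append.1 h).1

lemma PhiL_nrm [PartialOrder α] [PartialOrder β] {S : Set α} (hnW : Nrm lW) (hnD : Nrm lD) :
    ∀ l : List α, wk S l → ¬ l.Pairwise (· > ·) → ∀ p : List β,
      PhiL D f lW lD l (single p 1) = 0 := by
  intro l
  induction l with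
  | nil => intro _ h; exact absurd List.Pairwise.nil h
  | cons x l ih =>
    intro hl hns p
    have hp := List.pairwise_cons.1 hl.1
    have hxS : x ∈ S := hl.2 x (by simp)
    have hlS : wk S l := ⟨hp.2, fun a ha => hl.2 a (by simp [ha])⟩
    by_cases hx : x ∈ D
    · rw [PhiL_cons_mem hx, LinearMap.smul_apply, hnD _ hns, zero_smul]
    · rw [PhiL_cons_not hx, LinearMap.comp_apply, ap_single]
      by_cases hls : l.Pairwise (· > ·)
      · rcases l with _ | ⟨y, l⟩
        · exact absurd (List.pairwise_singleton _ _) hns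
        · have hxy : x = y := by
            by_contra hne
            apply hns
            have hyx : y < x := lt_of_le_of_ne (hp.1 y (by simp)) (Ne.symm hne)
            rw [List.pairwise_cons]
            refine ⟨?_, hls⟩
            intro a ha
            rcases List.mem_cons.1 ha with h | ha
            · rw [h]; exact hyx
            · exact lt_of_le_of_lt (le_of_lt ((List.pairwise_cons.1 hls).1 a ha)) hyx
          subst hxy
          rw [PhiL_cons_not hx, LinearMap.comp_apply, ap_single]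
          refine PhiL_prefix hnW _ _ fun h => ?_
          rw [List.append_assoc, List.pairwise_append] at h
          have := h.2.1
          simp at this
      · exact ih hlS hls _

/-- evaluation of the detection functional on shuffle products -/
lemma PhiL_shuffle [PartialOrder β] [Max α] {A B : Set α}
    (hA : ∀ a ∈ A, a ∉ D) (hB : ∀ b ∈ B, b ∈ D)
    (hAB : ∀ a ∈ A, ∀ b ∈ B, a ⊔ b ∉ D ∧ f (a ⊔ b) = f a) (hnW : Nrm lW) (n : ℕ) :
    ∀ s t : List α, s.length + t.length = n → (∀ a ∈ s, a ∈ A) → (∀ b ∈ t, b ∈ B) →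
      ∀ p : List β, Phi D f lW lD (sh (single s (1 : 𝕜)) (single t (1 : 𝕜))) (single p 1) =
        lW (single (p ++ s.map f) 1) * lD (single t (1 : 𝕜)) := by
  induction n with
  | zero =>
    intro s t h _ _ p
    have hs : s = [] := List.length_eq_zero_iff.1 (by omega)
    have ht : t = [] := List.length_eq_zero_iff.1 (by omega)
    subst hs ht
    rw [sh_nil_left, Phi_single, PhiL]
    simp [mul_comm]
  | succ n ih =>
    intro s t h hs ht p
    rcases s with _ | ⟨a, s⟩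
    · rw [sh_nil_left, Phi_single, PhiL_of_D fun b hb => hB b (ht b hb)]
      simp [mul_comm]
    rcases t with _ | ⟨b, t⟩
    · rw [sh_nil_right]
      have : ∀ (s : List α) (hs : ∀ a ∈ s, a ∈ A) (p : List β),
          PhiL D f lW lD s (single p 1) = lW (single (p ++ s.map f) 1) * lD (single [] (1 : 𝕜)) := by
        intro s
        induction s with
        | nil => intro _ p; rw [PhiL]; simp [mul_comm]
        | cons a s ih' =>
          intro hs p
          rw [PhiL_cons_not (hA a (hs a (by simp))), LinearMap.comp_apply, ap_single,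
            ih' (fun x hx => hs x (by simp [hx]))]
          simp
      rw [Phi_single, this _ hs]
    have h1 := ih s (b :: t) (by simp only [List.length_cons] at h ⊢; omega)
      (fun x hx => hs x (by simp [hx])) ht (p ++ [f a])
    have h2 := ih (a :: s) t (by simp only [List.length_cons] at h ⊢; omega) hs
      (fun x hx => ht x (by simp [hx])) (p ++ [f a])
    have hab := hAB a (hs a (by simp)) b (ht b (by simp))
    rw [← cons_single a s, ← cons_single b t, sh_cons_cons, Phi_cons_not hab.1, hab.2, ap_single,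
      map_add, LinearMap.add_apply, cons_single, cons_single, h1, sg_single, map_smul sh,
      LinearMap.smul_apply, map_smul (Phi D f lW lD), LinearMap.smul_apply, h2]
    have h3 : lW (single (p ++ [f a] ++ List.map f (a :: s)) 1) = 0 := by
      refine hnW _ fun h => ?_
      rw [List.append_assoc, List.pairwise_append] at h
      have := h.2.1
      simp at this
    rw [h3]
    simp

lemma phi_shuffle [PartialOrder β] [Max α] {A B : Set α}
    (hA : ∀ a ∈ A, a ∉ D) (hB : ∀ b ∈ B, b ∈ D)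
    (hAB : ∀ a ∈ A, ∀ b ∈ B, a ⊔ b ∉ D ∧ f (a ⊔ b) = f a) (hnW : Nrm lW)
    {x y : Ch 𝕜 α} (hx : x ∈ Sp 𝕜 (fun l : List α => ∀ a ∈ l, a ∈ A))
    (hy : y ∈ Sp 𝕜 (fun l : List α => ∀ b ∈ l, b ∈ B)) :
    phi D f lW lD (sh x y) = lW (mp f x) * lD y := by
  have h1 : ∀ s : List α, (∀ a ∈ s, a ∈ A) → ∀ {y : Ch 𝕜 α},
      y ∈ Sp 𝕜 (fun l : List α => ∀ b ∈ l, b ∈ B) →
      phi D f lW lD (sh (single s (1 : 𝕜)) y) = lW (mp f (single s (1 : 𝕜))) * lD y := by
    intro s hs y hy
    have := eq_of_Sp (F := (phi D f lW lD).comp (sh (single s (1 : 𝕜))))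
      (G := (lW (mp f (single s (1 : 𝕜)))) • lD)
      (fun t (ht : ∀ b ∈ t, b ∈ B) => by
        have := PhiL_shuffle (lD := lD) hA hB hAB hnW _ s t rfl hs ht []
        rw [LinearMap.comp_apply, phi, LinearMap.flip_apply, this, LinearMap.smul_apply,
          mp_single, smul_eq_mul, List.nil_append]) hy
    simpa using this
  have := eq_of_Sp (F := ((phi D f lW lD).comp ((sh).flip y)))
      (G := (lD y) • (lW.comp (mp f)))
      (fun s (hs : ∀ a ∈ s, a ∈ A) => by
        rw [LinearMap.comp_apply, LinearMap.flip_apply, h1 s hs hy, LinearMap.smul_apply,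
          LinearMap.comp_apply, smul_eq_mul, mul_comm]) hx
  simp only [LinearMap.comp_apply, LinearMap.flip_apply, LinearMap.smul_apply, smul_eq_mul] at this
  rw [this, mul_comm]

end

/-! ### Extension by zero over movers -/

section ext
open Classical in
/-- keep lists all of whose entries lie in `U` -/
noncomputable def res (U : Set α) : Ch 𝕜 α →ₗ[𝕜] Ch 𝕜 α :=
  Finsupp.linearCombination 𝕜 fun l : List α => if ∀ a ∈ l, a ∈ U then single l (1 : 𝕜) else 0

open Classical in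
lemma res_single (U : Set α) (l : List α) :
    res U (single l (1 : 𝕜)) = if ∀ a ∈ l, a ∈ U then single l (1 : 𝕜) else 0 := by
  simp [res, Finsupp.linearCombination_single]

lemma res_of_mem {U : Set α} {c : Ch 𝕜 α} (hc : c ∈ Sp 𝕜 (fun l : List α => ∀ a ∈ l, a ∈ U)) :
    res U c = c := by
  have := eq_of_Sp (F := res U) (G := LinearMap.id) (fun l (hl : ∀ a ∈ l, a ∈ U) => by
    rw [res_single, if_pos hl]; rfl) hc
  simpa using this

lemma res_of_not {U : Set α} {c : Ch 𝕜 α} (hc : c ∈ Sp 𝕜 (fun l : List α => ∃ a ∈ l, a ∉ U)) :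
    res U c = 0 := by
  have := eq_of_Sp (F := res U) (G := 0) (fun l (hl : ∃ a ∈ l, a ∉ U) => by
    rw [res_single, if_neg (fun h => by
      obtain ⟨a, ha, hau⟩ := hl
      exact hau (h a ha))]; rfl) hc
  simpa using this

lemma ext_coc [PartialOrder α] [Preorder β] {S U : Set α} {T : Set β} {rho : α → β}
    {psi : Ch 𝕜 β →ₗ[𝕜] 𝕜}
    (hU : ∀ x ∈ S, x ∈ U → ∀ y ∈ S, x ≤ y → y ∈ U)
    (hrho : ∀ x ∈ S, x ∈ U → rho x ∈ T)
    (hmono : ∀ x ∈ S, x ∈ U → ∀ y ∈ S, y ∈ U → x ≤ y → rho x ≤ rho y)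
    (hpsi : Coc T psi)
    (hvan : ∀ l, wk S l → (∀ a ∈ l, a ∈ U) → ∀ e ∈ S, e ∉ U → (∀ a ∈ l, e ≤ a) →
      psi (single (l.map rho) (1 : 𝕜)) = 0) :
    Coc S ((psi.comp (mp rho)).comp (res U)) := by
  intro c hc
  have := eq_of_Sp (F := ((psi.comp (mp rho)).comp (res U)).comp bd) (G := 0)
    (fun l (hl : wk S l) => ?_) hc
  · simpa using this
  simp only [LinearMap.comp_apply, LinearMap.zero_apply]
  by_cases hall : ∀ a ∈ l, a ∈ U
  · have hm : single l (1 : 𝕜) ∈ Sp 𝕜 (fun l : List α => ∀ a ∈ l, a ∈ U) := single_mem_Sp hall _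
    rw [res_of_mem (bd_mem (fun l l' hs h a ha => h a (hs.subset ha)) hm), ← bd_mp, mp_single]
    refine hpsi _ (single_mem_Sp ⟨?_, ?_⟩ _)
    · rw [List.pairwise_map]
      exact hl.1.imp_of_mem fun {a b} ha hb hab =>
        hmono _ (hl.2 b hb) (hall b hb) _ (hl.2 a ha) (hall a ha) hab
    · intro a ha
      obtain ⟨b, hb, rfl⟩ := List.mem_map.1 ha
      exact hrho _ (hl.2 b hb) (hall b hb)
  · push Not at hall
    obtain ⟨e0, he0, he0U⟩ := hall
    rcases List.eq_nil_or_concat l with rfl | ⟨l1, e, rfl⟩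
    · simp at he0
    rw [List.concat_eq_append] at *
    have hp := List.pairwise_append.1 hl.1
    have heS : e ∈ S := hl.2 e (by simp)
    have heU : e ∉ U := by
      rcases List.mem_append.1 he0 with h | h
      · intro he
        exact he0U (hU e heS he e0 (hl.2 e0 he0) (hp.2.2 e0 h e (by simp)))
      · rw [List.mem_singleton] at h
        rw [← h]; exact he0U
    have e1 : single (l1 ++ [e]) (1 : 𝕜) = ap e (single l1 1) := by simp
    rw [e1, bd_ap, map_add, res_of_not, zero_add]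
    · by_cases hl1 : ∀ a ∈ l1, a ∈ U
      · rw [sg_single, map_smul, res_of_mem (single_mem_Sp hl1 _), map_smul, map_smul, mp_single,
          hvan l1 ⟨hp.1, fun a ha => hl.2 a (by simp [ha])⟩ hl1 e heS heU
            (fun a ha => hp.2.2 a ha e (by simp)), smul_zero]
      · push Not at hl1
        rw [sg_single, map_smul, res_of_not (single_mem_Sp hl1 _), smul_zero, map_zero, map_zero]
    · have hm : bd (single l1 (1 : 𝕜)) ∈ Sp 𝕜 (fun _ : List α => True) :=
        bd_mem (fun _ _ _ _ => trivial) (single_mem_Sp trivial _)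
      exact ap_mem (fun l _ => ⟨e, by simp, heU⟩) hm

end ext

end Vale.Agent.P240.K
end

section

namespace Vale.Agent.P240.K

open Finsupp

variable {𝕜 : Type*} [Field 𝕜]

variable {α β γ : Type*}

/-- Chains in a union of cones bound in the ambient poset. -/
lemma rel_zero [SemilatticeSup α] {ι : Type*} [DecidableEq ι] (S : Set α) (T : ι → Set α)
    (F : ι → α) (hTS : ∀ i, T i ⊆ S) (hFS : ∀ i, F i ∈ S) (hφ : ∀ i, ∀ x ∈ T i, x ⊔ F i ∈ S)
    (hFT : ∀ i j, i ≠ j → F i ∈ T j) (hφT : ∀ i j, i ≠ j → ∀ x ∈ T i, x ∈ T j → x ⊔ F i ∈ T j)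
    (s : Finset ι) : ∀ z : Ch 𝕜 α, z ∈ Sp 𝕜 (fun l => ∃ i ∈ s, wk (T i) l) → bd z = 0 →
      ∃ c ∈ Sp 𝕜 (wk S), bd c = z := by
  induction s using Finset.induction_on with
  | empty =>
    intro z hz _
    refine ⟨0, Submodule.zero_mem _, ?_⟩
    rw [mem_Sp] at hz
    have : z.support = ∅ := by
      rw [Finset.eq_empty_iff_forall_notMem]
      intro l hl
      obtain ⟨i, hi, _⟩ := hz l hl
      simp at hi
    rw [Finsupp.support_eq_empty] at this
    rw [this, map_zero]
  | insert a s ha ih =>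
    intro z hz hb
    -- split `z`
    have hsplit : z ∈ Sp 𝕜 (fun l => ∃ i ∈ s, wk (T i) l) ⊔ Sp 𝕜 (wk (T a)) := by
      rw [Sp, Sp, ← Finsupp.supported_union]
      refine Finsupp.supported_mono ?_ hz
      rintro l ⟨i, hi, hl⟩
      rcases Finset.mem_insert.1 hi with h | h
      · right
        rw [h] at hl
        exact hl
      · left
        exact ⟨i, h, hl⟩
    obtain ⟨z1, hz1, z2, hz2, rfl⟩ := Submodule.mem_sup.1 hsplit
    have hb1 : bd z1 = - bd z2 := by
      rw [map_add] at hb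
      exact eq_neg_of_add_eq_zero_left hb
    set h := hc (𝕜 := 𝕜) (fun x => x ⊔ F a) (F a) with hh
    have hm2 : h z2 ∈ Sp 𝕜 (wk S) :=
      hc_mem (hTS a) (hFS a) (hφ a) (fun x _ => le_sup_right) (fun x _ => le_sup_left)
        (fun x _ y _ hxy => sup_le_sup_right hxy _) hz2
    have hmb : bd z1 ∈ Sp 𝕜 (fun l => (∃ i ∈ s, wk (T i) l) ∧ wk (T a) l) := by
      refine mem_Sp_inf (bd_mem ?_ hz1) ?_
      · rintro l l' hs ⟨i, hi, hl⟩
        exact ⟨i, hi, wk_sub l l' hs hl⟩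
      · rw [hb1]
        exact Submodule.neg_mem _ (bd_wk hz2)
    have hmh : h (bd z1) ∈ Sp 𝕜 (fun l => ∃ i ∈ s, wk (T i) l) := by
      refine map_mem h ?_ hmb
      rintro l ⟨⟨i, hi, hl⟩, hl'⟩
      have hia : a ≠ i := fun h => ha (h ▸ hi)
      have h1 : single l (1 : 𝕜) ∈ Sp 𝕜 (wk (T i ∩ T a)) :=
        single_mem_Sp ⟨hl.1, fun b hb => ⟨hl.2 b hb, hl'.2 b hb⟩⟩ _
      have h2 : h (single l (1 : 𝕜)) ∈ Sp 𝕜 (wk (T i)) :=
        hc_mem (Set.inter_subset_left) (hFT a i hia) (fun x hx => hφT a i hia x hx.2 hx.1)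
          (fun x _ => le_sup_right) (fun x _ => le_sup_left)
          (fun x _ y _ hxy => sup_le_sup_right hxy _) h1
      exact Sp_mono (fun l hl => ⟨i, hi, hl⟩) h2
    obtain ⟨c, hcS, hbc⟩ := ih (z1 - h (bd z1)) (Submodule.sub_mem _ hz1 hmh) (by
      have h3 := bd_hc (fun x => x ⊔ F a) (F a) (bd z1)
      rw [bd_bd, map_zero, add_zero] at h3
      rw [map_sub, hh, h3, sub_self])
    refine ⟨c + h z2, Submodule.add_mem _ hcS hm2, ?_⟩
    have h4 := bd_hc (fun x => x ⊔ F a) (F a) z2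
    rw [← hh] at h4
    have h5 : bd (h z2) = z2 - h (bd z2) := eq_sub_of_add_eq h4
    have h6 : h (bd z2) = - h (bd z1) := by rw [hb1, map_neg, neg_neg]
    rw [map_add, hbc, h5, h6]
    generalize h (bd z1) = w
    abel

/-! ### The exactness argument -/

open Classical in
/-- remove the head `X` -/
noncomputable def hdL (X : α) : List α → Ch 𝕜 α
  | [] => 0
  | y :: l => if y = X then single l (1 : 𝕜) else 0

/-- remove the head `X` -/
noncomputable def hd (X : α) : Ch 𝕜 α →ₗ[𝕜] Ch 𝕜 α := Finsupp.linearCombination 𝕜 (hdL X)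

lemma hd_single (X : α) (l : List α) : hd X (single l (1 : 𝕜)) = hdL X l := by
  simp [hd, Finsupp.linearCombination_single]

lemma hd_cons_self (X : α) (c : Ch 𝕜 α) : hd X (cons X c) = c := by
  have := lin_ext_apply (f := (hd X).comp (cons X)) (g := LinearMap.id)
    (fun l => by simp [hd_single, hdL]) c
  simpa using this

lemma hd_cons_ne {X y : α} (h : y ≠ X) (c : Ch 𝕜 α) : hd X (cons y c) = 0 := by
  have := lin_ext_apply (f := (hd X).comp (cons y)) (g := 0)
    (fun l => by simp [hd_single, hdL, h]) c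
  simpa using this

open Classical in
/-- lists whose head is not in `P` -/
noncomputable def nh (P : Set α) : Ch 𝕜 α →ₗ[𝕜] Ch 𝕜 α :=
  Finsupp.linearCombination 𝕜 fun l : List α =>
    if ∃ x ∈ l.head?, x ∈ P then 0 else single l (1 : 𝕜)

open Classical in
lemma nh_single (P : Set α) (l : List α) :
    nh P (single l (1 : 𝕜)) = if ∃ x ∈ l.head?, x ∈ P then 0 else single l (1 : 𝕜) := by
  simp [nh, Finsupp.linearCombination_single]

lemma exact_split [PartialOrder α] {S P : Set α} (hP : ∀ X ∈ P, ∀ Y ∈ S, Y ≤ X → Y = X)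
    {c z : Ch 𝕜 α} (hc : c ∈ Sp 𝕜 (st S)) (hz : z ∈ Sp 𝕜 (st (S \ P))) (hcz : bd c = z) :
    ∃ c0 ∈ Sp 𝕜 (st (S \ P)), ∃ (s : Finset α) (e : α → Ch 𝕜 α), (∀ X ∈ s, X ∈ P ∧ X ∈ S) ∧
      (∀ X ∈ s, e X ∈ Sp 𝕜 (st {Y | Y ∈ S ∧ X < Y}) ∧ bd (e X) = 0) ∧
      z = bd c0 + ∑ X ∈ s, e X := by
  classical
  let si : Set α → List α → Prop := fun S l => l.Pairwise (· < ·) ∧ ∀ a ∈ l, a ∈ S
  have hst_si : ∀ (S : Set α) (l : List α), st S l → si S l.reverse := by
    intro S l hl
    refine ⟨?_, fun a ha => hl.2 a (by simpa using ha)⟩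
    rw [List.pairwise_reverse]
    exact hl.1
  have hsi_st : ∀ (S : Set α) (l : List α), si S l → st S l.reverse := by
    intro S l hl
    refine ⟨?_, fun a ha => hl.2 a (by simpa using ha)⟩
    rw [List.pairwise_reverse]
    exact hl.1
  have hc' : rv c ∈ Sp 𝕜 (si S) := rv_mem (hst_si S) hc
  have hz' : rv z ∈ Sp 𝕜 (si (S \ P)) := rv_mem (hst_si _) hz
  have hbc : bd (rv c) = rv z := by rw [bd_rv, hcz]
  -- the heads
  let s : Finset α := ((rv c).support.biUnion fun l => l.toFinset).filter fun x => x ∈ P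
  have hs : ∀ X ∈ s, X ∈ P ∧ X ∈ S := by
    intro X hX
    rw [Finset.mem_filter, Finset.mem_biUnion] at hX
    obtain ⟨⟨l, hl, hXl⟩, hXP⟩ := hX
    exact ⟨hXP, ((mem_Sp.1 hc') l hl).2 X (by simpa using hXl)⟩
  have hc'' : rv c ∈ Sp 𝕜 (fun l => si S l ∧ ∀ x ∈ l, x ∈ P → x ∈ s) := by
    refine mem_Sp_inf hc' ?_
    rw [mem_Sp]
    intro l hl x hx hxP
    rw [Finset.mem_filter, Finset.mem_biUnion]
    exact ⟨⟨l, hl, by simpa using hx⟩, hxP⟩
  -- decomposition
  have hdec : rv c = nh P (rv c) + ∑ X ∈ s, cons X (hd X (rv c)) := by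
    have := eq_of_Sp (F := (LinearMap.id : Ch 𝕜 α →ₗ[𝕜] Ch 𝕜 α))
      (G := nh P + ∑ X ∈ s, (cons X).comp (hd X))
      (fun l (hl : si S l ∧ ∀ x ∈ l, x ∈ P → x ∈ s) => ?_) hc''
    · simpa using this
    simp only [LinearMap.id_apply, LinearMap.add_apply, LinearMap.sum_apply,
      LinearMap.comp_apply, nh_single]
    rcases l with _ | ⟨y, l⟩
    · simp [hd_single, hdL]
    · by_cases hy : y ∈ P
      · rw [if_pos ⟨y, by simp, hy⟩, zero_add, Finset.sum_eq_single y]
        · rw [← cons_single, hd_cons_self]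
        · intro b _ hb
          rw [← cons_single, hd_cons_ne (Ne.symm hb), map_zero]
        · intro h
          exact absurd (hl.2 y (by simp) hy) h
      · rw [if_neg (by simpa using hy), Finset.sum_eq_zero, add_zero]
        intro b hb
        rw [← cons_single, hd_cons_ne, map_zero]
        rintro rfl
        exact hy (hs _ hb).1
  -- `bd` and `hd`
  have hbh : ∀ X ∈ s, bd (hd X (rv c)) = 0 := by
    intro X hX
    have h1 : bd (hd X (rv c)) = - hd X (bd (rv c)) := by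
      have := eq_of_Sp (F := (bd (𝕜 := 𝕜)).comp (hd X)) (G := - (hd (𝕜 := 𝕜) X).comp bd)
        (fun l (hl : si S l) => ?_) hc'
      · simpa using this
      simp only [LinearMap.comp_apply, LinearMap.neg_apply]
      rcases l with _ | ⟨y, l⟩
      · simp [hd_single, hdL]
      · have hp := List.pairwise_cons.1 hl.1
        rw [← cons_single, bd_cons, map_sub]
        by_cases hy : y = X
        · subst hy
          rw [hd_cons_self, hd_cons_self]
          have : hd y (single l (1 : 𝕜)) = 0 := by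
            rcases l with _ | ⟨w, l⟩
            · simp [hd_single, hdL]
            · rw [← cons_single, hd_cons_ne]
              exact (ne_of_lt (hp.1 w (by simp))).symm
          rw [this]; abel
        · rw [hd_cons_ne hy, hd_cons_ne hy]
          have : hd X (single l (1 : 𝕜)) = 0 := by
            rcases l with _ | ⟨w, l⟩
            · simp [hd_single, hdL]
            · rw [← cons_single, hd_cons_ne]
              rintro rfl
              exact hy (hP w (hs _ hX).1 y (hl.2 y (by simp)) (le_of_lt (hp.1 w (by simp))))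
          rw [this]; simp
    rw [h1, hbc]
    have h2 := eq_of_Sp (F := hd X) (G := 0) (fun l (hl : si (S \ P) l) => by
      rcases l with _ | ⟨w, l⟩
      · simp [hd_single, hdL]
      · rw [← cons_single, hd_cons_ne]
        · rfl
        rintro rfl
        exact (hl.2 w (by simp)).2 (hs _ hX).1) hz'
    rw [h2]; simp
  have hmem : ∀ X ∈ s, hd X (rv c) ∈ Sp 𝕜 (si {Y | Y ∈ S ∧ X < Y}) := by
    intro X hX
    refine map_mem _ (fun l (hl : si S l) => ?_) hc'
    rcases l with _ | ⟨w, l⟩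
    · simp [hd_single, hdL]
    · have hp := List.pairwise_cons.1 hl.1
      by_cases hw : w = X
      · subst hw
        rw [← cons_single, hd_cons_self]
        exact single_mem_Sp ⟨hp.2, fun a ha => ⟨hl.2 a (by simp [ha]), hp.1 a ha⟩⟩ _
      · rw [← cons_single, hd_cons_ne hw]
        exact Submodule.zero_mem _
  have hnh : nh P (rv c) ∈ Sp 𝕜 (si (S \ P)) := by
    refine map_mem _ (fun l (hl : si S l) => ?_) hc'
    rw [nh_single]
    split_ifs with h
    · exact Submodule.zero_mem _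
    · refine single_mem_Sp ⟨hl.1, fun a ha => ⟨hl.2 a ha, fun haP => ?_⟩⟩ _
      rcases l with _ | ⟨w, l⟩
      · simp at ha
      · have hp := List.pairwise_cons.1 hl.1
        apply h
        refine ⟨w, by simp, ?_⟩
        rcases List.mem_cons.1 ha with h' | h'
        · rw [← h']; exact haP
        · rw [hP a haP w (hl.2 w (by simp)) (le_of_lt (hp.1 a h'))]
          exact haP
  refine ⟨rv (nh P (rv c)), rv_mem (hsi_st _) hnh, s, fun X => rv (hd X (rv c)), hs, ?_, ?_⟩
  · intro X hX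
    refine ⟨rv_mem (hsi_st _) (hmem X hX), ?_⟩
    rw [bd_rv, hbh X hX, map_zero]
  · have h1 : rv z = bd (nh P (rv c)) + ∑ X ∈ s, hd X (rv c) := by
      rw [← hbc]
      conv_lhs => rw [hdec]
      rw [map_add, map_sum]
      congr 1
      refine Finset.sum_congr rfl fun X hX => ?_
      rw [bd_cons, hbh X hX, map_zero, sub_zero]
    have h2 := congrArg rv h1
    rw [rv_rv, map_add, map_sum, ← bd_rv] at h2
    exact h2

end Vale.Agent.P240.K
end

section

namespace Vale.Agent.P240.K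

open Finsupp Subgroup

variable {𝕜 : Type*} [Field 𝕜]

/-- The set of nontrivial elementary abelian `p`-subgroups. -/
def ApS (p : ℕ) (G : Type*) [Group G] : Set (Subgroup G) :=
  {E | E ≠ ⊥ ∧ (∀ x ∈ E, ∀ y ∈ E, x * y = y * x) ∧ ∀ x ∈ E, x ^ p = 1}

/-- those contained in `H` -/
def Ain (p : ℕ) {G : Type*} [Group G] (H : Subgroup G) : Set (Subgroup G) :=
  {E | E ∈ ApS p G ∧ E ≤ H}

variable {G Q : Type*} [Group G] [Group Q] {p : ℕ}

lemma HQ_iff : HQ 𝕜 p G ↔ NA 𝕜 (ApS p G) := by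
  rw [HQ, official_iff]
  have h : (Subtype.val '' (Set.univ : Set (Ap p G))) = ApS p G := by
    ext E
    simp [ApS]
  rw [← h]
  exact (NA_image Subtype.val_injective.injOn fun x _ y _ => Iff.rfl).symm

lemma HQ_sub_iff (H : Subgroup G) : HQ 𝕜 p H ↔ NA 𝕜 (Ain p H) := by
  rw [HQ_iff]
  have h : (fun E : Subgroup H => E.map H.subtype) '' (ApS p H) = Ain p H := by
    ext E
    constructor
    · rintro ⟨F, ⟨h1, h2, h3⟩, rfl⟩
      refine ⟨⟨?_, ?_, ?_⟩, ?_⟩
      · intro h
        exact h1 ((Subgroup.map_eq_bot_iff_of_injective _ H.subtype_injective).1 h)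
      · rintro _ ⟨x, hx, rfl⟩ _ ⟨y, hy, rfl⟩
        rw [← map_mul, ← map_mul, h2 x hx y hy]
      · rintro _ ⟨x, hx, rfl⟩
        rw [← map_pow, h3 x hx, map_one]
      · exact Subgroup.map_subtype_le F
    · rintro ⟨⟨h1, h2, h3⟩, h4⟩
      refine ⟨E.subgroupOf H, ⟨?_, ?_, ?_⟩, ?_⟩
      · intro h
        apply h1
        rw [Subgroup.subgroupOf_eq_bot] at h
        exact disjoint_self.1 (h.mono_right h4)
      · intro x hx y hy
        rw [Subgroup.mem_subgroupOf] at hx hy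
        exact Subtype.ext (h2 _ hx _ hy)
      · intro x hx
        rw [Subgroup.mem_subgroupOf] at hx
        exact Subtype.ext (h3 _ hx)
      · exact Subgroup.map_subgroupOf_eq_of_le h4
  rw [← h]
  refine (NA_image (Subgroup.map_injective H.subtype_injective).injOn fun x _ y _ => ?_).symm
  constructor
  · intro hxy
    refine lt_of_le_of_ne (Subgroup.map_mono hxy.le) fun h => hxy.ne ?_
    exact Subgroup.map_injective H.subtype_injective h
  · intro hxy
    refine lt_of_le_of_ne ((Subgroup.map_le_map_iff_of_injective H.subtype_injective).1 hxy.le) ?_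
    rintro rfl
    exact lt_irrefl _ hxy

lemma sup_mem_ApS {E F : Subgroup G} (hE : E ∈ ApS p G) (hF : F ∈ ApS p G)
    (h : ∀ x ∈ E, ∀ y ∈ F, x * y = y * x) : E ⊔ F ∈ ApS p G := by
  have hEE : E ≤ centralizer (E : Set G) := fun x hx => by
    rw [Subgroup.mem_centralizer_iff]
    exact fun y hy => hE.2.1 y hy x hx
  have hFF : F ≤ centralizer (F : Set G) := fun x hx => by
    rw [Subgroup.mem_centralizer_iff]
    exact fun y hy => hF.2.1 y hy x hx
  have hEF : E ≤ centralizer (F : Set G) := fun x hx => by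
    rw [Subgroup.mem_centralizer_iff]
    exact fun y hy => (h x hx y hy).symm
  have hFE : F ≤ centralizer (E : Set G) := fun x hx => by
    rw [Subgroup.mem_centralizer_iff]
    exact fun y hy => h y hy x hx
  have h1 : E ⊔ F ≤ centralizer (E : Set G) := sup_le hEE hFE
  have h2 : E ⊔ F ≤ centralizer (F : Set G) := sup_le hEF hFF
  have h3 : E ⊔ F ≤ centralizer ((E ⊔ F : Subgroup G) : Set G) := by
    rw [Subgroup.le_centralizer_iff]
    exact sup_le (Subgroup.le_centralizer_iff.1 h1) (Subgroup.le_centralizer_iff.1 h2)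
  have hcomm : ∀ x ∈ E ⊔ F, ∀ y ∈ E ⊔ F, x * y = y * x := by
    intro x hx y hy
    exact (Subgroup.mem_centralizer_iff.1 (h3 hy)) x hx
  refine ⟨?_, hcomm, ?_⟩
  · intro hb
    exact hE.1 (le_bot_iff.1 (hb ▸ le_sup_left))
  · let P : Subgroup G :=
      { carrier := {x | x ∈ E ⊔ F ∧ x ^ p = 1}
        one_mem' := ⟨one_mem _, one_pow _⟩
        mul_mem' := by
          rintro x y ⟨hx, hx'⟩ ⟨hy, hy'⟩
          refine ⟨mul_mem hx hy, ?_⟩
          have : Commute x y := hcomm x hx y hy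
          rw [this.mul_pow, hx', hy', one_mul]
        inv_mem' := by
          rintro x ⟨hx, hx'⟩
          exact ⟨inv_mem hx, by rw [inv_pow, hx', inv_one]⟩ }
    have hle : E ⊔ F ≤ P := sup_le
      (fun x hx => ⟨Subgroup.mem_sup_left hx, hE.2.2 x hx⟩)
      (fun x hx => ⟨Subgroup.mem_sup_right hx, hF.2.2 x hx⟩)
    exact fun x hx => (hle hx).2

lemma mem_ApS_of_le {E F : Subgroup G} (hE : E ∈ ApS p G) (hF : F ≤ E) (h : F ≠ ⊥) :
    F ∈ ApS p G :=
  ⟨h, fun x hx y hy => hE.2.1 x (hF hx) y (hF hy), fun x hx => hE.2.2 x (hF hx)⟩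

/-- image of (the part in `N` of) a subgroup under a homomorphism defined on `N` -/
def fq (N : Subgroup G) (π : N →* Q) (E : Subgroup G) : Subgroup Q := (E.subgroupOf N).map π

lemma mem_fq {N : Subgroup G} {π : N →* Q} {E : Subgroup G} {q : Q} :
    q ∈ fq N π E ↔ ∃ n : N, (n : G) ∈ E ∧ π n = q := by
  rw [fq, Subgroup.mem_map]
  simp [Subgroup.mem_subgroupOf]

lemma fq_mono {N : Subgroup G} {π : N →* Q} {E F : Subgroup G} (h : E ≤ F) :
    fq N π E ≤ fq N π F := by
  intro q hq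
  rw [mem_fq] at *
  obtain ⟨n, hn, rfl⟩ := hq
  exact ⟨n, h hn, rfl⟩

lemma fq_sup {N M : Subgroup G} {π : N →* Q} (hπ : ∀ n : N, π n = 1 ↔ (n : G) ∈ M)
    {E F : Subgroup G} (hE : E ≤ N) (hF : F ≤ N) (hFM : F ≤ M) :
    fq N π (E ⊔ F) = fq N π E := by
  refine le_antisymm ?_ (fq_mono le_sup_left)
  rw [fq, Subgroup.subgroupOf_sup hE hF, Subgroup.map_sup]
  refine sup_le le_rfl ?_
  rintro _ ⟨n, hn, rfl⟩
  rw [(hπ n).2 (hFM hn)]
  exact one_mem _

lemma fq_mem_ApS {N M : Subgroup G} {π : N →* Q} (hπ : ∀ n : N, π n = 1 ↔ (n : G) ∈ M)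
    {E : Subgroup G} (hE : E ∈ ApS p G) (hEN : E ≤ N) (hEM : ¬ E ≤ M) : fq N π E ∈ ApS p Q := by
  refine ⟨?_, ?_, ?_⟩
  · intro h
    apply hEM
    intro x hx
    have : π ⟨x, hEN hx⟩ ∈ fq N π E := mem_fq.2 ⟨⟨x, hEN hx⟩, hx, rfl⟩
    rw [h, Subgroup.mem_bot, hπ] at this
    exact this
  · intro x hx y hy
    obtain ⟨m, hm, rfl⟩ := mem_fq.1 hx
    obtain ⟨n, hn, rfl⟩ := mem_fq.1 hy
    rw [← map_mul, ← map_mul]
    congr 1
    exact Subtype.ext (hE.2.1 _ hm _ hn)
  · intro x hx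
    obtain ⟨m, hm, rfl⟩ := mem_fq.1 hx
    rw [← map_pow]
    have : m ^ p = 1 := Subtype.ext (hE.2.2 _ hm)
    rw [this, map_one]

/-- shuffle products of weak chains in commuting families are weak chains -/
lemma shL_mem {α : Type*} [SemilatticeSup α] {A B S : Set α} (hA : A ⊆ S) (hB : B ⊆ S)
    (hAB : ∀ a ∈ A, ∀ b ∈ B, a ⊔ b ∈ S) (n : ℕ) :
    ∀ s t : List α, s.length + t.length = n → wk A s → wk B t → ∀ u : α, (∀ a ∈ s, a ≤ u) →
      (∀ b ∈ t, b ≤ u) → shL s t ∈ Sp 𝕜 (fun l => wk S l ∧ ∀ x ∈ l, x ≤ u) := by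
  induction n with
  | zero =>
    intro s t h _ _ u _ _
    have hs : s = [] := List.length_eq_zero_iff.1 (by omega)
    have ht : t = [] := List.length_eq_zero_iff.1 (by omega)
    subst hs ht
    rw [shL]
    exact single_mem_Sp ⟨⟨by simp, by simp⟩, by simp⟩ _
  | succ n ih =>
    intro s t h hs ht u hsu htu
    rcases s with _ | ⟨a, s⟩
    · rw [shL]
      exact single_mem_Sp ⟨wk_mono hB _ ht, htu⟩ _
    rcases t with _ | ⟨b, t⟩
    · rw [shL]
      exact single_mem_Sp ⟨wk_mono hA _ hs, hsu⟩ _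
    have hps := List.pairwise_cons.1 hs.1
    have hpt := List.pairwise_cons.1 ht.1
    have h1 := ih s (b :: t) (by simp only [List.length_cons] at h ⊢; omega)
      ⟨hps.2, fun x hx => hs.2 x (by simp [hx])⟩ ht (a ⊔ b)
      (fun x hx => le_sup_of_le_left (hps.1 x hx))
      (fun x hx => by
        rcases List.mem_cons.1 hx with h | h
        · rw [h]; exact le_sup_right
        · exact le_sup_of_le_right (hpt.1 x h))
    have h2 := ih (a :: s) t (by simp only [List.length_cons] at h ⊢; omega) hs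
      ⟨hpt.2, fun x hx => ht.2 x (by simp [hx])⟩ (a ⊔ b)
      (fun x hx => by
        rcases List.mem_cons.1 hx with h | h
        · rw [h]; exact le_sup_left
        · exact le_sup_of_le_left (hps.1 x h))
      (fun x hx => le_sup_of_le_right (hpt.1 x hx))
    rw [shL]
    refine cons_mem ?_ (Submodule.add_mem _ h1 (Submodule.smul_mem _ _ h2))
    rintro l ⟨hl, hl'⟩
    have hu : a ⊔ b ≤ u := sup_le (hsu a (by simp)) (htu b (by simp))
    refine ⟨⟨List.pairwise_cons.2 ⟨hl', hl.1⟩, ?_⟩, ?_⟩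
    · intro x hx
      rcases List.mem_cons.1 hx with h | h
      · rw [h]; exact hAB a (hs.2 a (by simp)) b (ht.2 b (by simp))
      · exact hl.2 x h
    · intro x hx
      rcases List.mem_cons.1 hx with h | h
      · rw [h]; exact hu
      · exact le_trans (hl' x h) hu

lemma sh_mem {α : Type*} [SemilatticeSup α] [OrderTop α] {A B S : Set α} (hA : A ⊆ S) (hB : B ⊆ S)
    (hAB : ∀ a ∈ A, ∀ b ∈ B, a ⊔ b ∈ S) {x y : Ch 𝕜 α} (hx : x ∈ Sp 𝕜 (wk A)) (hy : y ∈ Sp 𝕜 (wk B)) :
    sh x y ∈ Sp 𝕜 (wk S) := by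
  have h1 : ∀ s : List α, wk A s → sh (single s (1 : 𝕜)) y ∈ Sp 𝕜 (wk S) := by
    intro s hs
    refine map_mem _ (fun t ht => ?_) hy
    rw [sh_single]
    exact Sp_mono (fun l hl => hl.1) (shL_mem hA hB hAB _ s t rfl hs ht ⊤ (fun _ _ => le_top)
      (fun _ _ => le_top))
  exact map_mem ((sh).flip y) (fun s hs => h1 s hs) hx

/-- The main detection theorem. -/
theorem detect (N M : Subgroup G) (hMN : M ≤ N) (π : N →* Q)
    (hπ : ∀ n : N, π n = 1 ↔ (n : G) ∈ M)
    (SW : Set (Subgroup Q)) (hSW : ∀ E ∈ Ain p N, ¬ E ≤ M → fq N π E ∈ SW)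
    (lW : Ch 𝕜 (Subgroup Q) →ₗ[𝕜] 𝕜) (lD : Ch 𝕜 (Subgroup G) →ₗ[𝕜] 𝕜)
    (hnW : Nrm lW) (hnD : Nrm lD) (hW : Coc SW lW) (hD : Coc (Ain p M) lD)
    (hvan : ∀ g, g ∉ N → ∀ l, wk {E | E ∈ Ain p M ∧ ∀ x ∈ E, g * x = x * g} l →
      lD (single l (1 : 𝕜)) = 0)
    (H1 H2 : Subgroup G) (h1N : H1 ≤ N) (h2M : H2 ≤ M)
    (h12 : ∀ x ∈ H1, ∀ y ∈ H2, x * y = y * x) (h1M : H1 ⊓ M = ⊥)
    (x y : Ch 𝕜 (Subgroup G)) (hx : x ∈ Sp 𝕜 (wk (Ain p H1))) (hy : y ∈ Sp 𝕜 (wk (Ain p H2)))
    (hbx : bd x = 0) (hby : bd y = 0)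
    (hlx : lW (mp (fq N π) x) ≠ 0) (hly : lD y ≠ 0) : NA 𝕜 (ApS p G) := by
  classical
  set D : Set (Subgroup G) := {E | E ≤ M} with hDdef
  set U : Set (Subgroup G) := {E | E ⊓ N ≠ ⊥} with hUdef
  set rho : Subgroup G → Subgroup G := fun E => E ⊓ N with hrho
  set ph := phi D (fq N π) lW lD with hph
  have hlow : ∀ x ∈ Ain p N, ∀ y ∈ Ain p N, x ≤ y → y ∈ D → x ∈ D :=
    fun x _ y _ hxy hy => le_trans hxy hy
  have hcoc : Coc (Ain p N) ph := by
    refine phi_coc (SW := SW) hlow (fun E hE hED => hSW E hE hED)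
      (fun E _ _ F _ _ h => fq_mono h) hW ?_
    intro c hc
    have hsub : Ain p N ∩ D ⊆ Ain p M := fun E hE => ⟨hE.1.1, hE.2⟩
    exact hD c (Sp_mono (wk_mono hsub) hc)
  -- vanishing on lists commuting with `g`
  have hvanPhi : ∀ g, g ∉ N → ∀ l, wk {E | E ∈ Ain p N ∧ ∀ x ∈ E, g * x = x * g} l →
      PhiL D (fq N π) lW lD l = 0 := by
    intro g hg l
    induction l with
    | nil =>
      intro _
      rw [PhiL, hvan g hg [] ⟨by simp, by simp⟩, zero_smul]
    | cons E l ih =>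
      intro hl
      have hp := List.pairwise_cons.1 hl.1
      by_cases hE : E ∈ D
      · rw [PhiL_cons_mem hE, hvan g hg (E :: l), zero_smul]
        refine ⟨hl.1, fun F hF => ?_⟩
        have hFE : F ≤ E := by
          rcases List.mem_cons.1 hF with h | h
          · rw [h]
          · exact hp.1 F h
        exact ⟨⟨(hl.2 F hF).1.1, le_trans hFE hE⟩, (hl.2 F hF).2⟩
      · rw [PhiL_cons_not hE, ih ⟨hp.2, fun F hF => hl.2 F (by simp [hF])⟩, LinearMap.zero_comp]
  have hUup : ∀ x ∈ ApS p G, x ∈ U → ∀ y ∈ ApS p G, x ≤ y → y ∈ U := by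
    intro E _ hE F _ hEF h
    apply hE
    rw [← le_bot_iff, ← h]
    exact inf_le_inf_right _ hEF
  have hrhoT : ∀ x ∈ ApS p G, x ∈ U → rho x ∈ Ain p N := fun E hE hEU =>
    ⟨mem_ApS_of_le hE inf_le_left hEU, inf_le_right⟩
  have hext := ext_coc (S := ApS p G) (U := U) (T := Ain p N) (rho := rho) (psi := ph) hUup hrhoT
    (fun E _ _ F _ _ h => inf_le_inf_right _ h) hcoc (by
      intro l hl hlU e heS heU hel
      have hee : e ⊓ N = ⊥ := by
        by_contra h
        exact heU h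
      obtain ⟨g, hg1⟩ := (Subgroup.ne_bot_iff_exists_ne_one).1 heS.1
      have hgN : (g : G) ∉ N := by
        intro h
        apply hg1
        have : (g : G) ∈ e ⊓ N := ⟨g.2, h⟩
        rw [hee, Subgroup.mem_bot] at this
        exact Subtype.ext this
      rw [hph, phi_single, hvanPhi g hgN, LinearMap.zero_apply]
      refine ⟨?_, ?_⟩
      · rw [List.pairwise_map]
        exact hl.1.imp fun h => inf_le_inf_right _ h
      · intro F hF
        obtain ⟨E, hE, rfl⟩ := List.mem_map.1 hF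
        refine ⟨hrhoT E (hl.2 E hE) (hlU E hE), ?_⟩
        intro x hx
        exact (hl.2 E hE).2.1 _ (hel E hE g.2) _ hx.1)
  have hA1 : Ain p H1 ⊆ ApS p G := fun E hE => hE.1
  have hA2 : Ain p H2 ⊆ ApS p G := fun E hE => hE.1
  have hz : sh x y ∈ Sp 𝕜 (wk (Ain p N)) := by
    have hs1 : Ain p H1 ⊆ Ain p N := fun E hE => ⟨hE.1, hE.2.trans h1N⟩
    have hs2 : Ain p H2 ⊆ Ain p N := fun E hE => ⟨hE.1, (hE.2.trans h2M).trans hMN⟩
    refine sh_mem hs1 hs2 ?_ hx hy
    intro E hE F hF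
    exact ⟨sup_mem_ApS hE.1 hF.1 fun a ha b hb => h12 a (hE.2 ha) b (hF.2 hb),
      sup_le (hE.2.trans h1N) ((hF.2.trans h2M).trans hMN)⟩
  refine NA_of_functional ((ph.comp (mp rho)).comp (res U)) ?_ hext (sh x y)
    (Sp_mono (wk_mono fun E hE => hE.1) hz) ?_ ?_
  · intro l hl hns
    simp only [LinearMap.comp_apply]
    rw [res_single]
    split_ifs with hU
    · rw [mp_single, hph, phi_single]
      refine PhiL_nrm (S := Ain p N) hnW hnD _ ⟨?_, ?_⟩ ?_ _
      · rw [List.pairwise_map]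
        exact hl.1.imp fun h => inf_le_inf_right _ h
      · intro F hF
        obtain ⟨E, hE, rfl⟩ := List.mem_map.1 hF
        exact hrhoT E (hl.2 E hE) (hU E hE)
      · intro h
        apply hns
        rw [List.pairwise_map] at h
        refine (hl.1.and h).imp ?_
        rintro E F ⟨hEF, hEF'⟩
        refine lt_of_le_of_ne hEF ?_
        rintro rfl
        exact lt_irrefl _ hEF'
    · rw [map_zero, map_zero]
  · rw [bd_sh, hbx, hby, map_zero, LinearMap.zero_apply, map_zero, add_zero]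
  · have hzU : sh x y ∈ Sp 𝕜 (fun l : List (Subgroup G) => ∀ a ∈ l, a ∈ U) := by
      refine Sp_mono (fun l hl E hE => ?_) hz
      have := hl.2 E hE
      change E ⊓ N ≠ ⊥
      rw [inf_eq_left.2 this.2]
      exact this.1.1
    have hzr : mp rho (sh x y) = sh x y := by
      have := eq_of_Sp (F := mp rho) (G := LinearMap.id) (fun l (hl : wk (Ain p N) l) => by
        rw [mp_single]
        have : l.map rho = l := by
          conv_rhs => rw [← List.map_id l]
          refine List.map_congr_left fun E hE => ?_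
          exact inf_eq_left.2 (hl.2 E hE).2
        rw [this]; rfl) hz
      simpa using this
    simp only [LinearMap.comp_apply]
    rw [res_of_mem hzU, hzr, hph,
      phi_shuffle (A := Ain p H1) (B := Ain p H2) ?_ ?_ ?_ hnW
        (Sp_mono (fun l hl => hl.2) hx) (Sp_mono (fun l hl => hl.2) hy)]
    · exact mul_ne_zero hlx hly
    · intro E hE hEM
      exact hE.1.1 (le_bot_iff.1 (h1M ▸ le_inf hE.2 hEM))
    · intro E hE
      exact hE.2.trans h2M
    · intro E hE F hF
      refine ⟨?_, fq_sup hπ (hE.2.trans h1N) ((hF.2.trans h2M).trans hMN) (hF.2.trans h2M)⟩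
      intro h
      exact hE.1.1 (le_bot_iff.1 (h1M ▸ le_inf hE.2 (le_sup_left.trans h)))

end Vale.Agent.P240.K
end

section

namespace Vale.Agent.P240.K

open Finsupp Subgroup

variable {𝕜 : Type*} [Field 𝕜] {G : Type*} [Group G] {p : ℕ}

/-- conjugation of subgroups -/
def cj (g : G) (E : Subgroup G) : Subgroup G := E.map (MulAut.conj g).toMonoidHom

lemma mem_cj {g : G} {E : Subgroup G} {x : G} : x ∈ cj g E ↔ g⁻¹ * x * g ∈ E := by
  constructor
  · rintro ⟨y, hy, rfl⟩
    have : g⁻¹ * ((MulAut.conj g).toMonoidHom y) * g = y := by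
      simp [MulAut.conj_apply, mul_assoc]
    rw [this]
    exact hy
  · intro h
    refine ⟨g⁻¹ * x * g, h, ?_⟩
    simp [MulAut.conj_apply, mul_assoc]

lemma cj_mul (g h : G) (E : Subgroup G) : cj (g * h) E = cj g (cj h E) := by
  ext x
  rw [mem_cj, mem_cj, mem_cj]
  have : (g * h)⁻¹ * x * (g * h) = h⁻¹ * (g⁻¹ * x * g) * h := by group
  rw [this]

lemma cj_one (E : Subgroup G) : cj 1 E = E := by
  ext x
  rw [mem_cj]
  simp

lemma cj_le {g : G} {E F : Subgroup G} : cj g E ≤ cj g F ↔ E ≤ F := by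
  constructor
  · intro h x hx
    have h1 : g * x * g⁻¹ ∈ cj g E := by
      rw [mem_cj]
      have : g⁻¹ * (g * x * g⁻¹) * g = x := by group
      rwa [this]
    have h2 := h h1
    rw [mem_cj] at h2
    have : g⁻¹ * (g * x * g⁻¹) * g = x := by group
    rwa [this] at h2
  · intro h x hx
    rw [mem_cj] at hx ⊢
    exact h hx

lemma cj_injective (g : G) : Function.Injective (cj g) := fun _ _ h =>
  le_antisymm (cj_le.1 h.le) (cj_le.1 h.ge)

lemma cj_lt {g : G} {E F : Subgroup G} : cj g E < cj g F ↔ E < F := by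
  rw [lt_iff_le_not_ge, lt_iff_le_not_ge, cj_le, cj_le]

lemma cj_eq_iff {g : G} {E : Subgroup G} : cj g E = E ↔ g ∈ normalizer (E : Set G) := by
  rw [mem_normalizer_iff]
  constructor
  · intro h x
    constructor
    · intro hx
      have : g * x * g⁻¹ ∈ cj g E := by
        rw [mem_cj]
        have : g⁻¹ * (g * x * g⁻¹) * g = x := by group
        rwa [this]
      rwa [h] at this
    · intro hx
      have h2 : g * x * g⁻¹ ∈ cj g E := by rw [h]; exact hx
      rw [mem_cj] at h2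
      have : g⁻¹ * (g * x * g⁻¹) * g = x := by group
      rwa [this] at h2
  · intro h
    ext x
    rw [mem_cj]
    have h1 := h (g⁻¹ * x * g)
    have : g * (g⁻¹ * x * g) * g⁻¹ = x := by group
    rw [this] at h1
    exact h1

lemma cj_iter (g : G) (n : ℕ) (E : Subgroup G) : (cj g)^[n] E = cj (g ^ n) E := by
  induction n with
  | zero => simp [cj_one]
  | succ n ih => rw [Function.iterate_succ_apply', ih, ← cj_mul, ← pow_succ']

lemma normalizer_cj {g x : G} {E : Subgroup G} :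
    x ∈ normalizer ((cj g E : Subgroup G) : Set G) ↔ g⁻¹ * x * g ∈ normalizer (E : Set G) := by
  rw [← cj_eq_iff, ← cj_eq_iff, ← (cj_injective g).eq_iff (a := cj (g⁻¹ * x * g) E), ← cj_mul,
    ← cj_mul]
  have h2 : g * (g⁻¹ * x * g) = x * g := by group
  rw [h2]

/-- Smith's theorem for a finite `r`-group acting by conjugation. -/
theorem smith_group {r : ℕ} [hp : Fact r.Prime] (hchar : (r : 𝕜) = 0) [Finite G]
    {S : Set (Subgroup G)} (n : ℕ) : ∀ U : Subgroup G, Nat.card U = r ^ n →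
      (∀ u ∈ U, ∀ E ∈ S, cj u E ∈ S) → ¬ NA 𝕜 S →
      ¬ NA 𝕜 {E | E ∈ S ∧ U ≤ normalizer (E : Set G)} := by
  induction n with
  | zero =>
    intro U hU _ hac
    rw [pow_zero, Subgroup.card_eq_one] at hU
    have : {E | E ∈ S ∧ U ≤ normalizer (E : Set G)} = S := by
      ext E
      exact ⟨fun h => h.1, fun h => ⟨h, by rw [hU]; exact bot_le⟩⟩
    rwa [this]
  | succ n ih =>
    intro U hU hS hac
    obtain ⟨V', hV'⟩ := Sylow.exists_subgroup_card_pow_prime r (n := n) (G := U)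
      (by rw [hU]; exact pow_dvd_pow r (Nat.le_succ n))
    have hr0 : 0 < r := hp.out.pos
    have hidx : V'.index = r := by
      have h1 := V'.card_mul_index
      rw [hV', hU, pow_succ] at h1
      exact Nat.eq_of_mul_eq_mul_left (pow_pos hr0 n) h1
    have hVn : V'.Normal := by
      refine Subgroup.normal_of_index_eq_minFac_card ?_
      rw [hidx, hU, Nat.Prime.pow_minFac hp.out (Nat.succ_ne_zero n)]
    have hne : V' ≠ ⊤ := by
      intro h
      rw [h, Subgroup.index_top] at hidx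
      exact hp.out.one_lt.ne hidx
    obtain ⟨u, hu⟩ : ∃ u : U, u ∉ V' := by
      by_contra h
      push Not at h
      exact hne (eq_top_iff.2 fun x _ => h x)
    set V : Subgroup G := V'.map U.subtype with hVdef
    have hVU : V ≤ U := Subgroup.map_subtype_le V'
    have hVcard : Nat.card V = r ^ n := by
      rw [hVdef, Subgroup.card_map_of_injective U.subtype_injective, hV']
    have hV := ih V hVcard (fun v hv E hE => hS v (hVU hv) E hE) hac
    have hur : (u : G) ^ r ∈ V := by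
      refine ⟨u ^ r, ?_, by simp⟩
      have := Subgroup.pow_index_mem V' u
      rwa [hidx] at this
    have hconj : ∀ v ∈ V, (u : G)⁻¹ * v * u ∈ V := by
      rintro _ ⟨v, hv, rfl⟩
      refine ⟨u⁻¹ * v * u, ?_, by simp⟩
      have := hVn.conj_mem v hv u⁻¹
      simpa using this
    set T : Set (Subgroup G) := {E | E ∈ S ∧ V ≤ normalizer (E : Set G)} with hT
    have hsm := smith (𝕜 := 𝕜) (r := r) hchar (S := T) (Set.toFinite T) (cj (u : G)) ?_ ?_ ?_ hV
    · have : {x | x ∈ T ∧ cj (u : G) x = x} = {E | E ∈ S ∧ U ≤ normalizer (E : Set G)} := by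
        ext E
        constructor
        · rintro ⟨⟨h1, h2⟩, h3⟩
          refine ⟨h1, ?_⟩
          rw [cj_eq_iff] at h3
          have h4 : V' ≤ (normalizer (E : Set G)).subgroupOf U := by
            intro v hv
            rw [Subgroup.mem_subgroupOf]
            exact h2 ⟨v, hv, rfl⟩
          have h5 := Subgroup.relIndex_mul_index h4
          rw [hidx] at h5
          rcases (Nat.dvd_prime hp.out).1 (Dvd.intro_left _ h5) with h6 | h6
          · rw [Subgroup.index_eq_one] at h6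
            rw [Subgroup.subgroupOf_eq_top] at h6
            exact h6
          · exfalso
            rw [h6] at h5
            have h7 : V'.relIndex ((normalizer (E : Set G)).subgroupOf U) = 1 :=
              Nat.eq_of_mul_eq_mul_right hr0 (by rw [h5, one_mul])
            rw [Subgroup.relIndex_eq_one] at h7
            apply hu
            apply h7
            rw [Subgroup.mem_subgroupOf]
            exact h3
        · rintro ⟨h1, h2⟩
          exact ⟨⟨h1, hVU.trans h2⟩, cj_eq_iff.2 (h2 u.2)⟩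
      rwa [this] at hsm
    · rintro E ⟨h1, h2⟩
      refine ⟨hS u u.2 E h1, fun v hv => ?_⟩
      rw [normalizer_cj]
      exact h2 (hconj v hv)
    · rintro E ⟨h1, h2⟩
      rw [cj_iter, cj_eq_iff]
      exact h2 hur
    · intro E _ F _ h
      exact cj_lt.2 h

end Vale.Agent.P240.K
end

section

namespace Vale.Agent.P240.K

open Finsupp Subgroup

section
variable {K V W U : Type*} [Field K] [AddCommGroup V] [Module K V] [AddCommGroup W] [Module K W]
  [AddCommGroup U] [Module K U] [FiniteDimensional K V] [FiniteDimensional K W]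
  [FiniteDimensional K U]

/-- additivity of the trace -/
lemma trace_exact (d : V →ₗ[K] W) (hd : Function.Surjective d) (ι : U →ₗ[K] V)
    (hι : Function.Injective ι) (hr : LinearMap.range ι = LinearMap.ker d)
    (T : V →ₗ[K] V) (TW : W →ₗ[K] W) (TU : U →ₗ[K] U) (h1 : ∀ v, d (T v) = TW (d v))
    (h2 : ∀ u, T (ι u) = ι (TU u)) :
    LinearMap.trace K V T = LinearMap.trace K U TU + LinearMap.trace K W TW := by
  obtain ⟨s, hs⟩ := d.exists_rightInverse_of_surjective (LinearMap.range_eq_top.2 hd)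
  have hs' : ∀ w, d (s w) = w := fun w => LinearMap.congr_fun hs w
  have hmem : ∀ v, ((LinearMap.id : V →ₗ[K] V) - s.comp d) v ∈ LinearMap.range ι := by
    intro v
    rw [hr, LinearMap.mem_ker]
    simp [hs']
  let P : V →ₗ[K] U := (LinearEquiv.ofInjective ι hι).symm.toLinearMap.comp
    (LinearMap.codRestrict (LinearMap.range ι) ((LinearMap.id : V →ₗ[K] V) - s.comp d) hmem)
  have hP : ∀ v, ι (P v) = v - s (d v) := by
    intro v
    have h3 : LinearEquiv.ofInjective ι hι (P v) =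
        LinearMap.codRestrict (LinearMap.range ι) ((LinearMap.id : V →ₗ[K] V) - s.comp d) hmem v :=
      LinearEquiv.apply_symm_apply _ _
    have h4 := congrArg Subtype.val h3
    simpa using h4
  have hPι : ∀ u, P (ι u) = u := by
    intro u
    apply hι
    rw [hP]
    have : d (ι u) = 0 := by
      rw [← LinearMap.mem_ker, ← hr]
      exact ⟨u, rfl⟩
    rw [this, map_zero, sub_zero]
  have hT : T = (T.comp ι).comp P + (T.comp s).comp d := by
    ext v
    simp only [LinearMap.add_apply, LinearMap.comp_apply]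
    rw [hP, map_sub]
    abel
  have e1 : LinearMap.trace K V ((T.comp ι).comp P) = LinearMap.trace K U TU := by
    rw [LinearMap.trace_comp_comm']
    congr 1
    ext u
    simp only [LinearMap.comp_apply]
    rw [h2, hPι]
  have e2 : LinearMap.trace K V ((T.comp s).comp d) = LinearMap.trace K W TW := by
    rw [LinearMap.trace_comp_comm']
    congr 1
    ext w
    simp only [LinearMap.comp_apply]
    rw [h1, hs']
  rw [← e1, ← e2, ← map_add, ← hT]

end

section
variable {𝕜 : Type*} [Field 𝕜] {α : Type*} [PartialOrder α] {S : Set α}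

lemma stn_finite (hS : S.Finite) (n : ℕ) : (stn S n).Finite := by
  classical
  have hF : Finite S := hS
  have h1 : Set.Finite (List.map (Subtype.val : S → α) '' {l : List S | l.length = n}) :=
    (List.finite_length_eq S n).image _
  refine h1.subset ?_
  rintro l ⟨hl, hl2⟩
  refine ⟨l.attachWith (· ∈ S) hl2.2, by simpa using hl, ?_⟩
  simp

/-- cycles with `n` terms -/
noncomputable def Zs (𝕜 : Type*) [Field 𝕜] (S : Set α) (n : ℕ) : Submodule 𝕜 (Ch 𝕜 α) :=
  Finsupp.supported 𝕜 𝕜 (stn S n) ⊓ LinearMap.ker bd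

lemma Zs_le (n : ℕ) : Zs 𝕜 S n ≤ Finsupp.supported 𝕜 𝕜 (stn S n) := inf_le_left

lemma fd_supported (hS : S.Finite) (n : ℕ) :
    FiniteDimensional 𝕜 (Finsupp.supported 𝕜 𝕜 (stn S n)) := by
  have : Finite (stn S n) := stn_finite hS n
  exact Module.Finite.equiv (Finsupp.supportedEquivFinsupp (M := 𝕜) (R := 𝕜) (stn S n)).symm

lemma fd_Zs (hS : S.Finite) (n : ℕ) : FiniteDimensional 𝕜 (Zs 𝕜 S n) := by
  have := fd_supported (𝕜 := 𝕜) hS n
  exact Submodule.finiteDimensional_of_le (Zs_le n)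

lemma card_zero : Nat.card (stn S 0) = 1 := by
  have : stn S 0 = {[]} := by
    ext l
    constructor
    · rintro ⟨h, _⟩
      exact List.length_eq_zero_iff.1 h
    · intro h
      rw [Set.mem_singleton_iff] at h
      subst h
      exact ⟨rfl, List.Pairwise.nil, by simp⟩
  rw [this]
  simp

variable {σ : α → α} (hσ : ∀ x ∈ S, σ x ∈ S) (hlt : ∀ x ∈ S, ∀ y ∈ S, x < y → σ x < σ y)

include hσ hlt in
lemma map_stn (n : ℕ) {l : List α} (hl : l ∈ stn S n) : l.map σ ∈ stn S n :=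
  ⟨by rw [List.length_map]; exact hl.1, st_map hσ hlt l hl.2⟩

include hσ hlt in
lemma mp_stn (n : ℕ) {c : Ch 𝕜 α} (hc : c ∈ Finsupp.supported 𝕜 𝕜 (stn S n)) :
    mp σ c ∈ Finsupp.supported 𝕜 𝕜 (stn S n) :=
  mp_mem (P := fun l => l ∈ stn S n) (Q := fun l => l ∈ stn S n)
    (fun _ hl => map_stn hσ hlt n hl) hc

include hσ hlt in
lemma mp_Zs (n : ℕ) {c : Ch 𝕜 α} (hc : c ∈ Zs 𝕜 S n) : mp σ c ∈ Zs 𝕜 S n := by
  refine ⟨mp_stn hσ hlt n hc.1, ?_⟩
  have h : bd c = 0 := hc.2
  change bd (mp σ c) = 0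
  rw [bd_mp, h, map_zero]

lemma trace_congr {V : Type*} [AddCommGroup V] [Module 𝕜 V] {P Q : Submodule 𝕜 V} (h : P = Q)
    (T : V →ₗ[𝕜] V) (hP : ∀ x ∈ P, T x ∈ P) (hQ : ∀ x ∈ Q, T x ∈ Q) :
    LinearMap.trace 𝕜 P (T.restrict hP) = LinearMap.trace 𝕜 Q (T.restrict hQ) := by
  subst h
  rfl

/-- trace on chains -/
lemma trace_chains (hS : S.Finite) (n : ℕ) :
    LinearMap.trace 𝕜 _ ((mp σ : Ch 𝕜 α →ₗ[𝕜] Ch 𝕜 α).restrict
      (p := Finsupp.supported 𝕜 𝕜 (stn S n)) (q := Finsupp.supported 𝕜 𝕜 (stn S n))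
      (fun _ hc => mp_stn hσ hlt n hc)) = (Nat.card (stn {x | x ∈ S ∧ σ x = x} n) : 𝕜) := by
  classical
  have hfin := stn_finite hS n
  have : Fintype (stn S n) := hfin.fintype
  let b : Module.Basis (stn S n) 𝕜 (Finsupp.supported 𝕜 𝕜 (stn S n)) :=
    .ofRepr (Finsupp.supportedEquivFinsupp (stn S n))
  have hb : ∀ i : stn S n, ((b i : Finsupp.supported 𝕜 𝕜 (stn S n)) : Ch 𝕜 α) = single i.1 1 := by
    intro i
    have h1 : b.repr (b i) = single i 1 := b.repr_self i
    ext l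
    by_cases hl : l ∈ stn S n
    · have h2 : b.repr (b i) ⟨l, hl⟩ = ((b i : Finsupp.supported 𝕜 𝕜 (stn S n)) : Ch 𝕜 α) l := rfl
      rw [← h2, h1, Finsupp.single_apply, Finsupp.single_apply]
      exact if_congr (by rw [Subtype.ext_iff]) rfl rfl
    · have h3 := (b i).2
      rw [Finsupp.mem_supported'] at h3
      rw [h3 l hl, Finsupp.single_apply, if_neg]
      rintro rfl
      exact hl i.2
  rw [LinearMap.trace_eq_matrix_trace 𝕜 b, Matrix.trace]
  have hdiag : ∀ i : stn S n, Matrix.diag (LinearMap.toMatrix b b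
      ((mp σ : Ch 𝕜 α →ₗ[𝕜] Ch 𝕜 α).restrict
      (p := Finsupp.supported 𝕜 𝕜 (stn S n)) (q := Finsupp.supported 𝕜 𝕜 (stn S n))
      (fun _ hc => mp_stn hσ hlt n hc))) i = if i.1.map σ = i.1 then (1 : 𝕜) else 0 := by
    intro i
    rw [Matrix.diag_apply, LinearMap.toMatrix_apply]
    change ((mp σ : Ch 𝕜 α →ₗ[𝕜] Ch 𝕜 α) (b i : Ch 𝕜 α)) i.1 = _
    rw [hb, mp_single, Finsupp.single_apply]
  rw [Finset.sum_congr rfl fun i _ => hdiag i, Finset.sum_boole]
  congr 1
  rw [← Fintype.card_subtype, ← Nat.card_eq_fintype_card]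
  refine Nat.card_congr ⟨fun i => ⟨i.1.1, i.1.2.1, i.1.2.2.1, fun a ha => ⟨i.1.2.2.2 a ha, ?_⟩⟩,
    fun l => ⟨⟨l.1, l.2.1, l.2.2.1, fun a ha => (l.2.2.2 a ha).1⟩, ?_⟩, fun _ => rfl,
    fun _ => rfl⟩
  · have h := i.2
    have h2 : i.1.1.map σ = i.1.1.map id := by rw [h, List.map_id]
    exact List.map_inj_left.1 h2 a ha
  · change l.1.map σ = l.1
    conv_rhs => rw [← List.map_id l.1]
    exact List.map_congr_left fun a ha => (l.2.2.2 a ha).2

include hσ hlt in
/-- **Lefschetz** -/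
theorem lefschetz_aux (hS : S.Finite) (hac : ¬ NA 𝕜 S) (N : ℕ) :
    ∑ n ∈ Finset.range (N + 1), (-1 : 𝕜) ^ n * (Nat.card (stn {x | x ∈ S ∧ σ x = x} n) : 𝕜) =
      (-1 : 𝕜) ^ N * LinearMap.trace 𝕜 _ ((mp σ : Ch 𝕜 α →ₗ[𝕜] Ch 𝕜 α).restrict
      (p := Zs 𝕜 S N) (q := Zs 𝕜 S N) (fun _ hc => mp_Zs hσ hlt N hc)) := by
  induction N with
  | zero =>
    have h : Zs 𝕜 S 0 = Finsupp.supported 𝕜 𝕜 (stn S 0) := by
      rw [Zs, inf_eq_left]
      intro c hc
      have h1 : c = len 0 c :=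
        (len_of_mem (Sp_mono (fun l (hl : l ∈ stn S 0) => hl.1) hc)).symm
      rw [LinearMap.mem_ker, h1, bd_len_zero]
    rw [zero_add, Finset.sum_range_one, pow_zero, one_mul, one_mul, ← trace_chains hσ hlt hS 0]
    exact trace_congr h.symm _ _ _
  | succ N ih =>
    have := fd_supported (𝕜 := 𝕜) hS (N + 1)
    have := fd_Zs (𝕜 := 𝕜) hS (N + 1)
    have := fd_Zs (𝕜 := 𝕜) hS N
    let d : Finsupp.supported 𝕜 𝕜 (stn S (N + 1)) →ₗ[𝕜] Zs 𝕜 S N :=
      (bd : Ch 𝕜 α →ₗ[𝕜] Ch 𝕜 α).restrict (fun c hc => ⟨bd_stn hc, bd_bd c⟩)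
    have hex := trace_exact (K := 𝕜) (V := Finsupp.supported 𝕜 𝕜 (stn S (N + 1)))
      (W := Zs 𝕜 S N) (U := Zs 𝕜 S (N + 1)) d ?_ (Submodule.inclusion (Zs_le (N + 1)))
      (Submodule.inclusion_injective _) ?_
      ((mp σ : Ch 𝕜 α →ₗ[𝕜] Ch 𝕜 α).restrict
        (p := Finsupp.supported 𝕜 𝕜 (stn S (N + 1))) (q := Finsupp.supported 𝕜 𝕜 (stn S (N + 1)))
        (fun _ hc => mp_stn hσ hlt (N + 1) hc))
      ((mp σ : Ch 𝕜 α →ₗ[𝕜] Ch 𝕜 α).restrict
        (p := Zs 𝕜 S N) (q := Zs 𝕜 S N) (fun _ hc => mp_Zs hσ hlt N hc))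
      ((mp σ : Ch 𝕜 α →ₗ[𝕜] Ch 𝕜 α).restrict
        (p := Zs 𝕜 S (N + 1)) (q := Zs 𝕜 S (N + 1)) (fun _ hc => mp_Zs hσ hlt (N + 1) hc))
      ?_ ?_
    · rw [trace_chains hσ hlt hS] at hex
      rw [Finset.sum_range_succ, ih, hex, pow_succ]
      ring
    · rintro ⟨z, hz1, hz2⟩
      obtain ⟨c, hc, hcz⟩ := not_NA_hom hac N hz1 (LinearMap.mem_ker.1 hz2)
      exact ⟨⟨c, hc⟩, Subtype.ext hcz⟩
    · apply le_antisymm
      · rintro _ ⟨⟨u, hu⟩, rfl⟩
        exact Subtype.ext hu.2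
      · rintro ⟨c, hc⟩ h
        exact ⟨⟨c, hc, congrArg Subtype.val h⟩, rfl⟩
    · rintro ⟨v, hv⟩
      apply Subtype.ext
      exact bd_mp σ v
    · rintro ⟨u, hu⟩
      rfl

include hσ hlt in
/-- **Lefschetz**: the reduced Euler characteristic of the fixed points of an automorphism of a
finite `ℚ`-acyclic poset vanishes. -/
theorem lefschetz (hS : S.Finite) (hac : ¬ NA ℚ S) {N : ℕ} (hN : hS.toFinset.card < N) :
    ∑ n ∈ Finset.range (N + 1),
      (-1 : ℤ) ^ n * (Nat.card (stn {x | x ∈ S ∧ σ x = x} n) : ℤ) = 0 := by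
  have h := lefschetz_aux hσ hlt hS hac N
  have hZ : ∀ x : Zs ℚ S N, x = 0 := by
    rintro ⟨z, hz⟩
    have h1 := supported_stn_zero hS hN hz.1
    exact Subtype.ext h1
  have h0 : (mp σ : Ch ℚ α →ₗ[ℚ] Ch ℚ α).restrict
      (p := Zs ℚ S N) (q := Zs ℚ S N) (fun _ hc => mp_Zs hσ hlt N hc) = 0 := by
    ext1 x
    exact hZ _
  rw [h0, map_zero, mul_zero] at h
  exact_mod_cast h

end

section
variable {𝕜 : Type*} [Field 𝕜] {G : Type*} [Group G]

end

end Vale.Agent.P240.K
end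

section

namespace Vale.Agent.P240.K

open Finsupp Subgroup

section
variable {α : Type*} [PartialOrder α] {S : Set α}

/-- minus the reduced Euler characteristic -/
noncomputable def eu (S : Set α) : ℤ :=
  ∑ n ∈ Finset.range (Nat.card S + 1), (-1 : ℤ) ^ n * (Nat.card (stn S n) : ℤ)

lemma stn_empty (hS : S.Finite) {n : ℕ} (hn : Nat.card S < n) : stn S n = ∅ := by
  rw [Set.eq_empty_iff_forall_notMem]
  rintro l ⟨h1, h2⟩
  have h3 := st_length_le hS h2
  rw [← Nat.card_eq_card_finite_toFinset hS] at h3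
  omega

lemma eu_eq (hS : S.Finite) {N : ℕ} (hN : Nat.card S ≤ N) :
    ∑ n ∈ Finset.range (N + 1), (-1 : ℤ) ^ n * (Nat.card (stn S n) : ℤ) = eu S := by
  symm
  refine Finset.sum_subset ?_ ?_
  · intro n hn
    rw [Finset.mem_range] at hn ⊢
    omega
  · intro n _ hn
    rw [Finset.mem_range, not_lt] at hn
    rw [stn_empty hS (by omega)]
    simp

lemma card_stn_succ (hS : S.Finite) (n : ℕ) :
    (Nat.card (stn S (n + 1)) : ℤ) =
      ∑ x ∈ hS.toFinset, (Nat.card (stn {y | y ∈ S ∧ y < x} n) : ℤ) := by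
  classical
  have : Fintype S := hS.fintype
  have hf : ∀ x : S, Finite (stn {y | y ∈ S ∧ y < x.1} n) := fun x =>
    stn_finite (hS.subset fun y hy => hy.1) n
  let e : stn S (n + 1) ≃ Σ x : S, stn {y | y ∈ S ∧ y < x.1} n :=
    { toFun := fun l => match l with
        | ⟨[], h⟩ => absurd h.1 (by simp)
        | ⟨x :: l, h⟩ => ⟨⟨x, h.2.2 x (by simp)⟩, l, by simpa using h.1,
            (List.pairwise_cons.1 h.2.1).2,
            fun a ha => ⟨h.2.2 a (by simp [ha]), (List.pairwise_cons.1 h.2.1).1 a ha⟩⟩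
      invFun := fun z => ⟨z.1.1 :: z.2.1, by
        obtain ⟨⟨x, hx⟩, l, h1, h2, h3⟩ := z
        refine ⟨by simpa using h1, List.pairwise_cons.2 ⟨fun a ha => (h3 a ha).2, h2⟩, ?_⟩
        intro a ha
        rcases List.mem_cons.1 ha with rfl | ha
        · exact hx
        · exact (h3 a ha).1⟩
      left_inv := by
        rintro ⟨l, h⟩
        rcases l with _ | ⟨x, l⟩
        · exact absurd h.1 (by simp)
        · rfl
      right_inv := by
        rintro ⟨⟨x, hx⟩, l, h1, h2, h3⟩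
        rfl }
  rw [Nat.card_congr e, Nat.card_sigma]
  push_cast
  exact Finset.sum_bij (fun (x : S) _ => x.1) (fun x _ => by simp)
    (fun x _ y _ h => Subtype.ext h) (fun y hy => ⟨⟨y, by simpa using hy⟩, by simp, rfl⟩)
    (fun x _ => rfl)

lemma eu_rec (hS : S.Finite) : eu S = 1 - ∑ x ∈ hS.toFinset, eu {y | y ∈ S ∧ y < x} := by
  have h1 : ∀ x ∈ hS.toFinset, Nat.card {y | y ∈ S ∧ y < x} ≤ Nat.card S := fun x _ =>
    Nat.card_mono hS fun y hy => hy.1
  rw [← eu_eq hS (Nat.le_succ _), Finset.sum_range_succ', card_zero]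
  have h2 : ∀ k ∈ Finset.range (Nat.card S + 1),
      (-1 : ℤ) ^ (k + 1) * (Nat.card (stn S (k + 1)) : ℤ) =
        - ∑ x ∈ hS.toFinset, (-1 : ℤ) ^ k * (Nat.card (stn {y | y ∈ S ∧ y < x} k) : ℤ) := by
    intro k _
    rw [card_stn_succ hS, pow_succ, ← Finset.mul_sum]
    ring
  rw [Finset.sum_congr rfl h2, Finset.sum_neg_distrib, Finset.sum_comm]
  rw [Finset.sum_congr rfl fun x hx => eu_eq (hS.subset fun y hy => hy.1) (h1 x hx)]
  push_cast
  ring

/-- a set with a largest element -/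
lemma eu_top (hS : S.Finite) {m : α} (hm : m ∈ S) (hmax : ∀ x ∈ S, x ≤ m) : eu S = 0 := by
  classical
  have hS' : {y | y ∈ S ∧ y < m}.Finite := hS.subset fun y hy => hy.1
  have h1 : hS.toFinset = insert m hS'.toFinset := by
    ext x
    rw [Finset.mem_insert, Set.Finite.mem_toFinset, Set.Finite.mem_toFinset]
    constructor
    · intro hx
      rcases (hmax x hx).eq_or_lt with h | h
      · exact Or.inl h
      · exact Or.inr ⟨hx, h⟩
    · rintro (rfl | h)
      · exact hm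
      · exact h.1
  rw [eu_rec hS, h1, Finset.sum_insert (by simp), eu_rec hS']
  have h2 : ∀ x ∈ hS'.toFinset,
      eu {y | y ∈ {y | y ∈ S ∧ y < m} ∧ y < x} = eu {y | y ∈ S ∧ y < x} := by
    intro x hx
    rw [Set.Finite.mem_toFinset] at hx
    congr 1
    ext y
    exact ⟨fun h => ⟨h.1.1, h.2⟩, fun h => ⟨⟨h.1, h.2.trans hx.2⟩, h.2⟩⟩
  rw [Finset.sum_congr rfl h2]
  ring

/-- a coreflective subset has the same Euler characteristic -/
lemma eu_coreflect (ρ : α → α) : ∀ (n : ℕ) (S F : Set α), S.Finite → Nat.card S = n → F ⊆ S →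
    (∀ x ∈ S, ρ x ∈ F) → (∀ x ∈ S, ρ x ≤ x) → (∀ x ∈ S, ∀ y ∈ F, y ≤ x → y ≤ ρ x) →
    eu S = eu F := by
  classical
  intro n
  induction n using Nat.strong_induction_on with
  | _ n ih =>
    intro S F hS hn hFS hρ hle hun
    have hF : F.Finite := hS.subset hFS
    have hlt : ∀ x ∈ S, Nat.card {y | y ∈ S ∧ y < x} < n := by
      intro x hx
      rw [← hn]
      refine Set.Finite.card_lt_card hS ⟨fun y hy => hy.1, fun h => ?_⟩
      exact lt_irrefl x (h hx).2
    have h1 : ∀ x ∈ S, eu {y | y ∈ S ∧ y < x} = eu {y | y ∈ F ∧ y < x} := by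
      intro x hx
      refine ih _ (hlt x hx) _ _ (hS.subset fun y hy => hy.1) rfl
        (fun y hy => ⟨hFS hy.1, hy.2⟩) (fun y hy => ⟨hρ y hy.1, (hle y hy.1).trans_lt hy.2⟩)
        (fun y hy => hle y hy.1) (fun y hy z hz => hun y hy.1 z hz.1)
    rw [eu_rec hS, eu_rec hF]
    congr 1
    rw [Finset.sum_congr rfl fun x hx => h1 x (by simpa using hx)]
    symm
    refine Finset.sum_subset (fun x hx => by simpa using hFS (by simpa using hx)) ?_
    intro x hx hxF
    rw [Set.Finite.mem_toFinset] at hx hxF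
    have hρx : ρ x < x := by
      refine (hle x hx).lt_of_ne fun h => hxF ?_
      rw [← h]
      exact hρ x hx
    refine eu_top (hF.subset fun y hy => hy.1) (m := ρ x) ⟨hρ x hx, hρx⟩ ?_
    rintro y ⟨hy, hyx⟩
    exact hun x hx y hy hyx.le

lemma eu_image {β : Type*} [PartialOrder β] (e : α ≃o β) (S : Set α) : eu (e '' S) = eu S := by
  have h1 : Nat.card (e '' S) = Nat.card S := Nat.card_image_of_injective e.injective S
  have h2 : ∀ n, Nat.card (stn (e '' S) n) = Nat.card (stn S n) := by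
    intro n
    have : stn (e '' S) n = (List.map e) '' stn S n := by
      ext l
      constructor
      · rintro ⟨hl1, hl2, hl3⟩
        refine ⟨l.map e.symm, ⟨by simpa using hl1, ?_, ?_⟩, ?_⟩
        · rw [List.pairwise_map]
          exact hl2.imp fun h => e.symm.lt_iff_lt.2 h
        · intro a ha
          obtain ⟨b, hb, rfl⟩ := List.mem_map.1 ha
          obtain ⟨c, hc, rfl⟩ := hl3 b hb
          simpa using hc
        · rw [List.map_map]
          conv_rhs => rw [← List.map_id l]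
          exact List.map_congr_left fun a _ => by simp
      · rintro ⟨l, ⟨hl1, hl2, hl3⟩, rfl⟩
        refine ⟨by simpa using hl1, ?_, ?_⟩
        · rw [List.pairwise_map]
          exact hl2.imp fun h => e.lt_iff_lt.2 h
        · intro a ha
          obtain ⟨b, hb, rfl⟩ := List.mem_map.1 ha
          exact ⟨b, hl3 b hb, rfl⟩
    rw [this]
    exact Nat.card_image_of_injective (List.map_injective_iff.2 e.injective) _
  rw [eu, eu, h1]
  exact Finset.sum_congr rfl fun n _ => by rw [h2]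

end

end Vale.Agent.P240.K
end

section

namespace Vale.Agent.P240.K

open Subgroup

section
variable {G : Type*} [Group G]

open Classical in
/-- product of the weights of the listed subgroups not containing `F` -/
noncomputable def wt (Λ : List (Subgroup G × ℕ)) (F : Subgroup G) : ℤ :=
  (Λ.map fun a => if F ≤ a.1 then (1 : ℤ) else (a.2 : ℤ)).prod

/-- the subgroups of `E` -/
noncomputable def subs [Finite G] (E : Subgroup G) : Finset (Subgroup G) :=
  (Set.toFinite {F : Subgroup G | F ≤ E}).toFinset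

lemma mem_subs [Finite G] {E F : Subgroup G} : F ∈ subs E ↔ F ≤ E := by
  rw [subs, Set.Finite.mem_toFinset]; rfl

/-- weights at hyperplanes -/
def Hyp (p : ℕ) (P : Subgroup G) (a : Subgroup G × ℕ) : Prop :=
  2 ≤ a.2 ∧ ∀ E ≤ P, ¬ E ≤ a.1 → Nat.card (E ⊓ a.1 : Subgroup G) * p = Nat.card E

/-- **Positivity.** -/
theorem weights_pos [Finite G] {p : ℕ} [hp : Fact p.Prime] {P : Subgroup G} (μ : Subgroup G → ℤ)
    (h1 : μ ⊥ = 1) (h0 : ∀ E ≤ P, E ≠ ⊥ → ∑ F ∈ subs E, μ F = 0) (Λ : List (Subgroup G × ℕ))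
    (hΛ : ∀ a ∈ Λ, Hyp p P a) : ∀ E ≤ P, ∀ m, Nat.card E = p ^ m →
      0 ≤ (-1) ^ m * ∑ F ∈ subs E, μ F * wt Λ F ∧
      ((∀ x ∈ E, (∀ a ∈ Λ, x ∈ a.1) → x = 1) → 0 < (-1) ^ m * ∑ F ∈ subs E, μ F * wt Λ F) := by
  classical
  induction Λ with
  | nil =>
    intro E hE m hm
    have hw : ∑ F ∈ subs E, μ F * wt [] F = ∑ F ∈ subs E, μ F :=
      Finset.sum_congr rfl fun F _ => by simp [wt]
    rw [hw]
    by_cases hb : E = ⊥
    · subst hb
      have hm0 : m = 0 := by
        rw [Subgroup.card_bot] at hm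
        rcases Nat.eq_zero_or_pos m with h | h
        · exact h
        · exact absurd hm (Nat.one_lt_pow h.ne' hp.out.one_lt).ne
      have hs : subs (⊥ : Subgroup G) = {⊥} := by
        ext F
        rw [mem_subs, Finset.mem_singleton, le_bot_iff]
      rw [hs, Finset.sum_singleton, h1, hm0]
      simp
    · rw [h0 E hE hb, mul_zero]
      refine ⟨le_rfl, fun h => absurd ?_ hb⟩
      rw [eq_bot_iff]
      intro x hx
      exact h x hx (by simp)
  | cons a Λ ih =>
    obtain ⟨H, x⟩ := a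
    intro E hE m hm
    have ih' := ih fun b hb => hΛ b (List.mem_cons_of_mem _ hb)
    obtain ⟨hx2, hH⟩ := hΛ (H, x) (List.mem_cons_self)
    have hw : ∀ F, wt ((H, x) :: Λ) F = (if F ≤ H then (1 : ℤ) else (x : ℤ)) * wt Λ F := by
      intro F
      simp [wt]
    have key : ∑ F ∈ subs E, μ F * wt ((H, x) :: Λ) F =
        x * ∑ F ∈ subs E, μ F * wt Λ F - (x - 1) * ∑ F ∈ subs (E ⊓ H), μ F * wt Λ F := by
      have h2 : subs (E ⊓ H) = (subs E).filter fun F => F ≤ H := by
        ext F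
        rw [Finset.mem_filter, mem_subs, mem_subs, le_inf_iff]
      rw [h2, Finset.sum_filter, Finset.mul_sum, Finset.mul_sum, ← Finset.sum_sub_distrib]
      refine Finset.sum_congr rfl fun F _ => ?_
      rw [hw]
      split_ifs <;> ring
    have hx1 : (0 : ℤ) < (x : ℤ) - 1 := by
      have : (2 : ℤ) ≤ (x : ℤ) := by exact_mod_cast hx2
      linarith
    by_cases hEH : E ≤ H
    · have h3 : E ⊓ H = E := inf_eq_left.2 hEH
      have h4 : ∑ F ∈ subs E, μ F * wt ((H, x) :: Λ) F = ∑ F ∈ subs E, μ F * wt Λ F := by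
        rw [key, h3]; ring
      rw [h4]
      obtain ⟨h5, h6⟩ := ih' E hE m hm
      refine ⟨h5, fun h => h6 fun y hy hyΛ => h y hy ?_⟩
      intro b hb
      rcases List.mem_cons.1 hb with rfl | hb
      · exact hEH hy
      · exact hyΛ b hb
    · have hc := hH E hE hEH
      obtain ⟨m', rfl⟩ : ∃ m', m = m' + 1 := by
        rcases m with _ | m'
        · rw [pow_zero] at hm
          rw [hm] at hc
          exact absurd (Nat.eq_one_of_mul_eq_one_left hc) hp.out.one_lt.ne'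
        · exact ⟨m', rfl⟩
      have hm' : Nat.card (E ⊓ H : Subgroup G) = p ^ m' := by
        rw [hm, pow_succ] at hc
        exact Nat.eq_of_mul_eq_mul_right hp.out.pos hc
      obtain ⟨h5, _⟩ := ih' E hE (m' + 1) hm
      obtain ⟨h7, h8⟩ := ih' (E ⊓ H) (inf_le_left.trans hE) m' hm'
      have h9 : (-1 : ℤ) ^ (m' + 1) * ∑ F ∈ subs E, μ F * wt ((H, x) :: Λ) F =
          x * ((-1) ^ (m' + 1) * ∑ F ∈ subs E, μ F * wt Λ F) +
            (x - 1) * ((-1) ^ m' * ∑ F ∈ subs (E ⊓ H), μ F * wt Λ F) := by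
        rw [key, pow_succ]; ring
      rw [h9]
      have hx0 : (0 : ℤ) ≤ x := Int.natCast_nonneg x
      constructor
      · exact add_nonneg (mul_nonneg hx0 h5) (mul_nonneg hx1.le h7)
      · intro h
        refine add_pos_of_nonneg_of_pos (mul_nonneg hx0 h5) (mul_pos hx1 (h8 ?_))
        intro y hy hyΛ
        refine h y hy.1 ?_
        intro b hb
        rcases List.mem_cons.1 hb with rfl | hb
        · exact hy.2
        · exact hyΛ b hb

end

section
/-- norms of a fixed point free automorphism of order `p` -/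
lemma norm_one {V : Type*} [CommGroup V] {p : ℕ} (hp : 0 < p) (β : Monoid.End V) (hβ : β ^ p = 1)
    (hfix : ∀ v, β v = v → v = 1) (v : V) : ∏ i ∈ Finset.range p, (β ^ i) v = 1 := by
  apply hfix
  obtain ⟨k, rfl⟩ : ∃ k, p = k + 1 := ⟨p - 1, by omega⟩
  rw [map_prod]
  have h1 : ∀ i ∈ Finset.range (k + 1), β ((β ^ i) v) = (β ^ (i + 1)) v := by
    intro i _
    rw [pow_succ']
    rfl
  rw [Finset.prod_congr rfl h1, Finset.prod_range_succ, hβ, Finset.prod_range_succ']
  rfl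

/-- two commuting automorphisms generating a noncyclic group acting freely -/
lemma pow_one_of_free {V : Type*} [CommGroup V] {p : ℕ} (hp : 0 < p) (A B : Monoid.End V)
    (hAB : Commute A B) (hA : A ^ p = 1) (hB : B ^ p = 1)
    (h1 : ∀ j, j < p → ∀ v, (A * B ^ j) v = v → v = 1)
    (h2 : ∀ i, 0 < i → i < p → ∀ v, (B ^ i) v = v → v = 1) (v : V) : v ^ p = 1 := by
  have e1 : ∀ j ∈ Finset.range p, ∏ i ∈ Finset.range p, ((A * B ^ j) ^ i) v = 1 := by
    intro j hj
    refine norm_one hp _ ?_ (h1 j (Finset.mem_range.1 hj)) v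
    rw [(hAB.pow_right j).mul_pow, hA, one_mul, ← pow_mul, mul_comm, pow_mul, hB, one_pow]
  have e2 : ∏ i ∈ Finset.range p, ∏ j ∈ Finset.range p, ((A * B ^ j) ^ i) v = 1 := by
    rw [Finset.prod_comm]
    exact Finset.prod_eq_one e1
  have e3 : ∀ i ∈ Finset.range p, i ≠ 0 → ∏ j ∈ Finset.range p, ((A * B ^ j) ^ i) v = 1 := by
    intro i hi hi0
    have h3 : ∀ j ∈ Finset.range p, ((A * B ^ j) ^ i) v = (A ^ i) (((B ^ i) ^ j) v) := by
      intro j _
      rw [(hAB.pow_right j).mul_pow, ← pow_mul, mul_comm j i, pow_mul]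
      rfl
    rw [Finset.prod_congr rfl h3, ← map_prod]
    have h4 : ∏ j ∈ Finset.range p, ((B ^ i) ^ j) v = 1 := by
      refine norm_one hp _ ?_ (h2 i (Nat.pos_of_ne_zero hi0) (Finset.mem_range.1 hi)) v
      rw [← pow_mul, mul_comm, pow_mul, hB, one_pow]
    rw [h4, map_one]
  rw [Finset.prod_eq_single 0 e3 (fun h => absurd (Finset.mem_range.2 hp) h)] at e2
  have h5 : ∀ j ∈ Finset.range p, ((A * B ^ j) ^ 0) v = v := fun j _ => by
    rw [pow_zero]; rfl
  rw [Finset.prod_congr rfl h5, Finset.prod_const, Finset.card_range] at e2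
  exact e2

end

end Vale.Agent.P240.K
end

section

namespace Vale.Agent.P240.K

open Subgroup

universe u

section
variable {G : Type u} [Group G]

/-- elements of `Q` fixed modulo `M` by the elements of `S` -/
def fixMod (Q M : Subgroup G) (S : Set G) (hM : ∀ x ∈ Q, ∀ m ∈ M, x * m * x⁻¹ ∈ M) :
    Subgroup G where
  carrier := {q | q ∈ Q ∧ ∀ f ∈ S, f * q * f⁻¹ * q⁻¹ ∈ M}
  one_mem' := ⟨one_mem _, fun f _ => by simp⟩
  mul_mem' := by
    rintro a b ⟨ha, ha'⟩ ⟨hb, hb'⟩
    refine ⟨mul_mem ha hb, fun f hf => ?_⟩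
    have : f * (a * b) * f⁻¹ * (a * b)⁻¹ =
        (f * a * f⁻¹ * a⁻¹) * (a * (f * b * f⁻¹ * b⁻¹) * a⁻¹) := by group
    rw [this]
    exact mul_mem (ha' f hf) (hM a ha _ (hb' f hf))
  inv_mem' := by
    rintro a ⟨ha, ha'⟩
    refine ⟨inv_mem ha, fun f hf => ?_⟩
    have : f * a⁻¹ * f⁻¹ * a⁻¹⁻¹ = (a⁻¹ * (f * a * f⁻¹ * a⁻¹) * a⁻¹⁻¹)⁻¹ := by group
    rw [this]
    exact inv_mem (hM _ (inv_mem ha) _ (ha' f hf))

/-- a top factor of `Q` that is irreducible under `P` -/
lemma exists_top_factor [Finite G] {P Q : Subgroup G} (hQ : Q ≠ ⊥) (hsol : Group.IsSolvable Q)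
    (hPQ : ∀ x ∈ P, ∀ q ∈ Q, x * q * x⁻¹ ∈ Q) :
    ∃ M : Subgroup G, M < Q ∧ (∀ x ∈ P, ∀ m ∈ M, x * m * x⁻¹ ∈ M) ∧
      (∀ x ∈ Q, ∀ y ∈ Q, x * y * x⁻¹ * y⁻¹ ∈ M) ∧
      ∀ K : Subgroup G, M ≤ K → K ≤ Q → (∀ x ∈ P, ∀ q ∈ K, x * q * x⁻¹ ∈ K) → K = M ∨ K = Q := by
  let T : Set (Subgroup G) := {M | M < Q ∧ (∀ x ∈ P, ∀ m ∈ M, x * m * x⁻¹ ∈ M) ∧
      ∀ x ∈ Q, ∀ y ∈ Q, x * y * x⁻¹ * y⁻¹ ∈ M}
  have hne : T.Nonempty := by
    refine ⟨⁅Q, Q⁆, ?_, ?_, ?_⟩
    · refine lt_of_le_of_ne ?_ ?_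
      · rw [Subgroup.commutator_le]
        intro a ha b hb
        exact mul_mem (mul_mem (mul_mem ha hb) (inv_mem ha)) (inv_mem hb)
      · intro h
        have : Nontrivial Q := (Subgroup.nontrivial_iff_ne_bot Q).2 hQ
        have h1 := Group.IsSolvable.commutator_lt_top_of_nontrivial Q
        apply h1.ne
        have h2 : (commutator Q).map Q.subtype = (⊤ : Subgroup Q).map Q.subtype := by
          rw [commutator_def, Subgroup.map_commutator, ← MonoidHom.range_eq_map,
            Subgroup.range_subtype, h]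
        exact Subgroup.map_injective Q.subtype_injective h2
    · intro x hx m hm
      have h1 : ⁅Q, Q⁆ ≤ (⁅Q, Q⁆ : Subgroup G).comap (MulAut.conj x).toMonoidHom := by
        rw [Subgroup.commutator_le]
        intro a ha b hb
        have h2 : x * (a * b * a⁻¹ * b⁻¹) * x⁻¹ = (x * a * x⁻¹) * (x * b * x⁻¹) *
            (x * a * x⁻¹)⁻¹ * (x * b * x⁻¹)⁻¹ := by group
        change x * (a * b * a⁻¹ * b⁻¹) * x⁻¹ ∈ ⁅Q, Q⁆
        rw [h2]
        exact Subgroup.commutator_mem_commutator (hPQ x hx a ha) (hPQ x hx b hb)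
      exact h1 hm
    · intro x hx y hy
      exact Subgroup.commutator_mem_commutator hx hy
  obtain ⟨M, ⟨h1, h2, h3⟩, hmax⟩ := (Set.toFinite T).exists_maximal hne
  refine ⟨M, h1, h2, h3, ?_⟩
  intro K hMK hKQ hK
  rcases hKQ.eq_or_lt with h | h
  · exact Or.inr h
  · refine Or.inl (le_antisymm (hmax ⟨h, hK, fun x hx y hy => hMK (h3 x hx y hy)⟩ hMK) hMK)

/-- the action on the top factor -/
lemma top_factor_action {P Q M : Subgroup G}
    (hPQ : ∀ x ∈ P, ∀ q ∈ Q, x * q * x⁻¹ ∈ Q) (hPM : ∀ x ∈ P, ∀ m ∈ M, x * m * x⁻¹ ∈ M)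
    (hcomm : ∀ x ∈ Q, ∀ y ∈ Q, x * y * x⁻¹ * y⁻¹ ∈ M) (hMQ : M ≤ Q) :
    ∃ (V : Type u) (_ : CommGroup V) (π : Q →* V) (β : P →* Monoid.End V),
      Function.Surjective π ∧ (∀ q : Q, π q = 1 ↔ (q : G) ∈ M) ∧
      (Nat.card V = M.relIndex Q) ∧
      (∀ (x : P) (q : Q) (h : (x : G) * q * (x : G)⁻¹ ∈ Q), β x (π q) = π ⟨_, h⟩) := by
  have hnorm : ∀ x ∈ Q, ∀ m ∈ M, x * m * x⁻¹ ∈ M := by
    intro x hx m hm
    have h1 := mul_mem (hcomm x hx m (hMQ hm)) hm
    rwa [inv_mul_cancel_right] at h1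
  have hN : (M.subgroupOf Q).Normal := by
    refine ⟨fun m hm x => ?_⟩
    rw [mem_subgroupOf] at hm ⊢
    exact hnorm x x.2 m hm
  let V := Q ⧸ M.subgroupOf Q
  let inst : CommGroup V :=
    { (inferInstance : Group V) with
      mul_comm := by
        intro a b
        obtain ⟨x, rfl⟩ := QuotientGroup.mk_surjective a
        obtain ⟨y, rfl⟩ := QuotientGroup.mk_surjective b
        change ((x * y : Q) : V) = ((y * x : Q) : V)
        rw [QuotientGroup.eq, mem_subgroupOf]
        have h1 := hcomm (y : G)⁻¹ (inv_mem y.2) (x : G)⁻¹ (inv_mem x.2)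
        have h2 : (((x * y)⁻¹ * (y * x) : Q) : G) =
            (y : G)⁻¹ * (x : G)⁻¹ * ((y : G)⁻¹)⁻¹ * ((x : G)⁻¹)⁻¹ := by
          push_cast
          group
        rw [h2]
        exact h1 }
  let κ : P → (Q →* Q) := fun x =>
    { toFun := fun q => ⟨x * q * (x : G)⁻¹, hPQ x x.2 q q.2⟩
      map_one' := by ext; simp
      map_mul' := fun a b => by
        ext
        push_cast
        group }
  have hκ : ∀ x, M.subgroupOf Q ≤ (M.subgroupOf Q).comap (κ x) := by
    intro x m hm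
    rw [mem_subgroupOf] at hm
    rw [mem_comap, mem_subgroupOf]
    exact hPM x x.2 m hm
  let β : P →* Monoid.End V :=
    { toFun := fun x => QuotientGroup.map (M.subgroupOf Q) (M.subgroupOf Q) (κ x) (hκ x)
      map_one' := by
        apply MonoidHom.ext
        intro v
        obtain ⟨q, rfl⟩ := QuotientGroup.mk_surjective v
        change ((κ 1 q : Q) : V) = (q : V)
        congr 1
        apply Subtype.ext
        change ((1 : P) : G) * q * ((1 : P) : G)⁻¹ = q
        simp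
      map_mul' := by
        intro x y
        apply MonoidHom.ext
        intro v
        obtain ⟨q, rfl⟩ := QuotientGroup.mk_surjective v
        change ((κ (x * y) q : Q) : V) = ((κ x (κ y q) : Q) : V)
        congr 1
        apply Subtype.ext
        change ((x * y : P) : G) * q * ((x * y : P) : G)⁻¹ = x * (y * q * (y : G)⁻¹) * (x : G)⁻¹
        push_cast
        group }
  refine ⟨V, inst, QuotientGroup.mk' (M.subgroupOf Q), β, QuotientGroup.mk'_surjective _, ?_, ?_, ?_⟩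
  · intro q
    change ((q : V) = 1) ↔ _
    rw [QuotientGroup.eq_one_iff, mem_subgroupOf]
  · rfl
  · intro x q h
    rfl

end

end Vale.Agent.P240.K
end

section

namespace Vale.Agent.P240.K

open Subgroup

universe u

section
variable {G : Type u} [Group G]

/-- the kernel of the action on the top factor -/
def topKer (P Q M : Subgroup G) (hPQ : ∀ x ∈ P, ∀ q ∈ Q, x * q * x⁻¹ ∈ Q) : Subgroup G where
  carrier := {x | x ∈ P ∧ ∀ q ∈ Q, x * q * x⁻¹ * q⁻¹ ∈ M}
  one_mem' := ⟨one_mem _, fun f _ => by simp⟩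
  mul_mem' := by
    rintro a b ⟨ha, ha'⟩ ⟨hb, hb'⟩
    refine ⟨mul_mem ha hb, fun q hq => ?_⟩
    have : (a * b) * q * (a * b)⁻¹ * q⁻¹ =
        (a * (b * q * b⁻¹) * a⁻¹ * (b * q * b⁻¹)⁻¹) * (b * q * b⁻¹ * q⁻¹) := by group
    rw [this]
    exact mul_mem (ha' _ (hPQ b hb q hq)) (hb' q hq)
  inv_mem' := by
    rintro a ⟨ha, ha'⟩
    refine ⟨inv_mem ha, fun q hq => ?_⟩
    have h1 := ha' _ (hPQ _ (inv_mem ha) q hq)
    have : a⁻¹ * q * a⁻¹⁻¹ * q⁻¹ =
        (a * (a⁻¹ * q * a⁻¹⁻¹) * a⁻¹ * (a⁻¹ * q * a⁻¹⁻¹)⁻¹)⁻¹ := by group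
    rw [this]
    exact inv_mem h1

lemma card_of_cover [Finite G] {p : ℕ} {E H : Subgroup G} {b : G} (hb : b ∈ E) (hbH : b ∉ H)
    (hp : p.Prime) (hbp : b ^ p = 1) (hcov : ∀ a ∈ E, ∃ j : ℕ, a * b ^ j ∈ H) :
    Nat.card (E ⊓ H : Subgroup G) * p = Nat.card E := by
  have : Fact p.Prime := ⟨hp⟩
  have hb1 : b ≠ 1 := fun h => hbH (h ▸ one_mem _)
  have hord : orderOf b = p := orderOf_eq_prime hbp hb1
  have hc : Nat.card (zpowers b) = p := by rw [Nat.card_zpowers, hord]
  rw [← hc, ← Nat.card_prod]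
  refine Nat.card_congr (Equiv.ofBijective
    (fun x : (E ⊓ H : Subgroup G) × zpowers b => (⟨x.1 * x.2, mul_mem x.1.2.1
      ((zpowers_le.2 hb) x.2.2)⟩ : E)) ⟨?_, ?_⟩)
  · rintro ⟨⟨x, hx⟩, ⟨y, hy⟩⟩ ⟨⟨x', hx'⟩, ⟨y', hy'⟩⟩ h
    have h1 : x * y = x' * y' := congrArg Subtype.val h
    have h2 : x'⁻¹ * x = y' * y⁻¹ := by
      calc x'⁻¹ * x = x'⁻¹ * (x * y) * y⁻¹ := by group
        _ = x'⁻¹ * (x' * y') * y⁻¹ := by rw [h1]
        _ = y' * y⁻¹ := by group
    have h3 : y' * y⁻¹ ∈ H := h2 ▸ mul_mem (inv_mem hx'.2) hx.2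
    have h4 : y' * y⁻¹ ∈ zpowers b := mul_mem hy' (inv_mem hy)
    have h5 : y' * y⁻¹ = 1 := by
      by_contra hne
      obtain ⟨k, hk⟩ := mem_zpowers_iff.1 h4
      -- the subgroup generated is everything
      have h6 : zpowers (⟨y' * y⁻¹, h4⟩ : zpowers b) = ⊤ := by
        have : Fact (Nat.card (zpowers b)).Prime := ⟨by rw [hc]; exact hp⟩
        exact (zpowers_eq_top_of_prime_card (p := p) hc (fun h => hne (congrArg Subtype.val h)))
      have h7 : (⟨b, mem_zpowers b⟩ : zpowers b) ∈ zpowers (⟨y' * y⁻¹, h4⟩ : zpowers b) := by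
        rw [h6]; trivial
      obtain ⟨l, hl⟩ := mem_zpowers_iff.1 h7
      apply hbH
      have h8 : (y' * y⁻¹) ^ l = b := congrArg Subtype.val hl
      rw [← h8]
      exact zpow_mem h3 l
    have h6 : y' = y := mul_inv_eq_one.1 h5
    subst h6
    have h7 : x = x' := mul_right_cancel h1
    subst h7
    rfl
  · rintro ⟨a, ha⟩
    obtain ⟨j, hj⟩ := hcov a ha
    refine ⟨⟨⟨a * b ^ j, mul_mem ha (pow_mem hb j), hj⟩, ⟨(b ^ j)⁻¹,
      inv_mem (pow_mem (mem_zpowers b) j)⟩⟩, ?_⟩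
    apply Subtype.ext
    change a * b ^ j * (b ^ j)⁻¹ = a
    group

lemma card_relIndex [Finite G] {M Q : Subgroup G} (h : M ≤ Q) :
    Nat.card M * M.relIndex Q = Nat.card Q := by
  have := relIndex_mul_relIndex ⊥ M Q bot_le h
  rwa [relIndex_bot_left, relIndex_bot_left] at this

/-- **Coprime action**: weights. -/
theorem exists_weights [Finite G] {p : ℕ} [hp : Fact p.Prime] {P : Subgroup G}
    (hPc : ∀ x ∈ P, ∀ y ∈ P, x * y = y * x) (hPp : ∀ x ∈ P, x ^ p = 1) :
    ∀ n, ∀ Q : Subgroup G, Nat.card Q = n → Group.IsSolvable Q → ¬ p ∣ Nat.card Q →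
      (∀ x ∈ P, ∀ q ∈ Q, x * q * x⁻¹ ∈ Q) →
      ∃ Λ : List (Subgroup G × ℕ), (∀ a ∈ Λ, Hyp p P a) ∧ ∀ F ≤ P,
        (Nat.card Q : ℤ) = Nat.card (Q ⊓ centralizer (F : Set G) : Subgroup G) * wt Λ F := by
  classical
  intro n
  induction n using Nat.strong_induction_on with
  | _ n ih =>
    intro Q hn hsol hpQ hPQ
    by_cases hQ : Q = ⊥
    · subst hQ
      refine ⟨[], by simp, fun F _ => ?_⟩
      simp [wt]
    obtain ⟨M, hMQ, hPM, hcomm, hirr⟩ := exists_top_factor hQ hsol hPQ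
    have hnorm : ∀ x ∈ Q, ∀ m ∈ M, x * m * x⁻¹ ∈ M := by
      intro x hx m hm
      have h1 := mul_mem (hcomm x hx m (hMQ.le hm)) hm
      rwa [inv_mul_cancel_right] at h1
    have hcard := card_relIndex hMQ.le
    have hpM : ¬ p ∣ Nat.card M := fun h => hpQ (hcard ▸ Dvd.dvd.mul_right h _)
    have hpI : ¬ p ∣ M.relIndex Q := fun h => hpQ (hcard ▸ Dvd.dvd.mul_left h _)
    have hsolM : Group.IsSolvable M := by
      have := hsol
      exact Group.isSolvable_of_isSolvable_injective (inclusion_injective hMQ.le)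
    have hlt : Nat.card M < n := by
      rw [← hn]
      exact Set.Finite.card_lt_card (Set.toFinite _) hMQ
    obtain ⟨Λ, hΛ, hw⟩ := ih _ hlt M rfl hsolM hpM hPM
    set H := topKer P Q M hPQ with hH
    -- fixed points modulo `M`
    have hfm : ∀ S : Set G, S ⊆ P → (∀ f ∈ S, f ∈ H) ∨ fixMod Q M S hnorm = M := by
      intro S hS
      have k1 : M ≤ fixMod Q M S hnorm := by
        intro m hm
        exact ⟨hMQ.le hm, fun f hf => mul_mem (hPM f (hS hf) m hm) (inv_mem hm)⟩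
      have k2 : fixMod Q M S hnorm ≤ Q := fun q hq => hq.1
      have k3 : ∀ x ∈ P, ∀ q ∈ fixMod Q M S hnorm, x * q * x⁻¹ ∈ fixMod Q M S hnorm := by
        rintro x hx q ⟨hq1, hq2⟩
        refine ⟨hPQ x hx q hq1, fun f hf => ?_⟩
        have h1 := hPM x hx _ (hq2 f hf)
        have h2 : f * x = x * f := hPc f (hS hf) x hx
        have h3 : x⁻¹ * f⁻¹ = f⁻¹ * x⁻¹ := by
          rw [← mul_inv_rev, ← mul_inv_rev, h2]
        have h4 : f * (x * q * x⁻¹) * f⁻¹ * (x * q * x⁻¹)⁻¹ = x * (f * q * f⁻¹ * q⁻¹) * x⁻¹ := by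
          calc f * (x * q * x⁻¹) * f⁻¹ * (x * q * x⁻¹)⁻¹
              = (f * x) * q * (x⁻¹ * f⁻¹) * (x * q * x⁻¹)⁻¹ := by group
            _ = (x * f) * q * (f⁻¹ * x⁻¹) * (x * q * x⁻¹)⁻¹ := by rw [h2, h3]
            _ = x * (f * q * f⁻¹ * q⁻¹) * x⁻¹ := by group
        rw [h4]
        exact h1
      rcases hirr (fixMod Q M S hnorm) k1 k2 k3 with h | h
      · exact Or.inr h
      · left
        intro f hf
        refine ⟨hS hf, fun q hq => ?_⟩
        have h1 : q ∈ fixMod Q M S hnorm := by rw [h]; exact hq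
        exact h1.2 f hf
    have hhyp : Hyp p P (H, M.relIndex Q) := by
      constructor
      · have h1 : M.relIndex Q ≠ 0 := by
          intro h
          rw [h, mul_zero] at hcard
          exact Nat.card_pos.ne hcard
        have h2 : M.relIndex Q ≠ 1 := by
          intro h
          rw [relIndex_eq_one] at h
          exact hMQ.not_ge h
        change 2 ≤ M.relIndex Q
        omega
      · intro E hE hEH
        change ¬ E ≤ H at hEH
        obtain ⟨b, hbE, hbH⟩ := SetLike.not_le_iff_exists.1 hEH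
        refine card_of_cover hbE hbH hp.out (hPp b (hE hbE)) ?_
        intro a ha
        by_contra hno
        push Not at hno
        obtain ⟨V, _, π, β, hπ, hker, hV, hβ⟩ := top_factor_action hPQ hPM hcomm hMQ.le
        have hfix : ∀ g : P, (g : G) ∉ H → ∀ v, β g v = v → v = 1 := by
          intro g hg v hv
          obtain ⟨q, rfl⟩ := hπ v
          rw [hβ g q (hPQ g g.2 q q.2)] at hv
          have h1 : π (⟨_, hPQ g g.2 q q.2⟩ * q⁻¹) = 1 := by
            rw [map_mul, hv, ← map_mul, mul_inv_cancel, map_one]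
          rw [hker] at h1
          rw [hker]
          rcases hfm {(g : G)} (by simp) with h | h
          · exact absurd (h g rfl) hg
          · have h2 : (q : G) ∈ fixMod Q M {(g : G)} hnorm := by
              refine ⟨q.2, fun f hf => ?_⟩
              rw [Set.mem_singleton_iff.1 hf]
              exact h1
            rwa [h] at h2
        have hpow : ∀ v : V, v ^ p = 1 := by
          have hbi : ∀ i, 0 < i → i < p → b ^ i ∉ H := by
            intro i hi0 hip hmem
            have hcop : Nat.Coprime i p :=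
              (Nat.coprime_of_lt_prime hi0.ne' hip hp.out).symm
            apply hbH
            have hb1 : b ≠ 1 := fun h => hbH (h ▸ one_mem _)
            have hord : orderOf b = p := orderOf_eq_prime (hPp b (hE hbE)) hb1
            have h1 : zpowers (b ^ i) = zpowers b := by
              rw [← Nat.card_zpowers] at hord
              refine le_antisymm (zpowers_le.2 (pow_mem (mem_zpowers b) i)) ?_
              rw [zpowers_le]
              obtain ⟨m, hm⟩ := exists_pow_eq_self_of_coprime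
                (x := b) (n := i) (by rw [orderOf_eq_prime (hPp b (hE hbE)) hb1]; exact hcop)
              have h3 := pow_mem (mem_zpowers (b ^ i)) m
              rwa [hm] at h3
            have h2 : b ∈ zpowers (b ^ i) := by rw [h1]; exact mem_zpowers b
            exact (zpowers_le.2 hmem) h2
          intro v
          have hc : Commute (β ⟨a, hE ha⟩) (β ⟨b, hE hbE⟩) := by
            change β _ * β _ = β _ * β _
            rw [← map_mul, ← map_mul]
            congr 1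
            exact Subtype.ext (hPc a (hE ha) b (hE hbE))
          refine pow_one_of_free hp.out.pos (β ⟨a, hE ha⟩) (β ⟨b, hE hbE⟩) hc ?_ ?_ ?_ ?_ v
          · rw [← map_pow]
            have : (⟨a, hE ha⟩ : P) ^ p = 1 := Subtype.ext (hPp a (hE ha))
            rw [this, map_one]
          · rw [← map_pow]
            have : (⟨b, hE hbE⟩ : P) ^ p = 1 := Subtype.ext (hPp b (hE hbE))
            rw [this, map_one]
          · intro j _ w hw'
            rw [← map_pow, ← map_mul] at hw'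
            exact hfix _ (hno j) w hw'
          · intro i hi0 hip w hw'
            rw [← map_pow] at hw'
            exact hfix _ (hbi i hi0 hip) w hw'
        have hVfin : Finite V := Finite.of_surjective π hπ
        have htriv : ∀ v : V, v = 1 := by
          intro v
          rw [← orderOf_eq_one_iff]
          have h1 : orderOf v ∣ p := orderOf_dvd_of_pow_eq_one (hpow v)
          have h2 : orderOf v ∣ Nat.card V := orderOf_dvd_natCard v
          rcases (Nat.dvd_prime hp.out).1 h1 with h | h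
          · exact h
          · rw [h, hV] at h2
            exact absurd h2 hpI
        apply hMQ.not_ge
        intro q hq
        exact (hker ⟨q, hq⟩).1 (htriv _)
    refine ⟨(H, M.relIndex Q) :: Λ, ?_, ?_⟩
    · intro a ha
      rcases List.mem_cons.1 ha with rfl | ha
      · exact hhyp
      · exact hΛ a ha
    · intro F hF
      have hwt : wt ((H, M.relIndex Q) :: Λ) F =
          (if F ≤ H then (1 : ℤ) else ((M.relIndex Q : ℕ) : ℤ)) * wt Λ F := by simp [wt]
      have hcZ : (Nat.card Q : ℤ) = Nat.card M * (M.relIndex Q : ℕ) := by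
        rw [← hcard]; push_cast; ring
      have hwF := hw F hF
      rw [hwt]
      split_ifs with hFH
      · -- trivial action on the top factor
        have hMA : M ⊓ (Q ⊓ centralizer (F : Set G)) = M ⊓ centralizer (F : Set G) := by
          rw [← inf_assoc, inf_eq_left.2 hMQ.le]
        have h1 := card_relIndex (M := M ⊓ (Q ⊓ centralizer (F : Set G)))
          (Q := Q ⊓ centralizer (F : Set G)) inf_le_right
        rw [inf_relIndex_right, hMA] at h1
        have h2 : M.relIndex (Q ⊓ centralizer (F : Set G)) = M.relIndex Q := by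
          refine Nat.card_congr (Equiv.ofBijective
            (quotientSubgroupOfEmbeddingOfLE M
              (inf_le_left : Q ⊓ centralizer (F : Set G) ≤ Q))
            ⟨(quotientSubgroupOfEmbeddingOfLE M _).injective, ?_⟩)
          intro y
          obtain ⟨⟨q, hq⟩, rfl⟩ := QuotientGroup.mk_surjective y
          -- a fixed point in the coset
          let X := {y : G // q⁻¹ * y ∈ M}
          have hst : ∀ f : F, ∀ y : G, q⁻¹ * y ∈ M → q⁻¹ * ((f : G) * y * (f : G)⁻¹) ∈ M := by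
            intro f y hy
            have e1 : q⁻¹ * ((f : G) * y * (f : G)⁻¹) =
                (q⁻¹ * ((f : G) * q * (f : G)⁻¹ * q⁻¹) * q⁻¹⁻¹) *
                  ((f : G) * (q⁻¹ * y) * (f : G)⁻¹) := by group
            rw [e1]
            exact mul_mem (hnorm _ (inv_mem hq) _ ((hFH f.2).2 q hq))
              (hPM f (hF f.2) _ hy)
          let act : MulAction F X :=
            { smul := fun f y => ⟨(f : G) * y.1 * (f : G)⁻¹, hst f y.1 y.2⟩
              one_smul := fun y => by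
                apply Subtype.ext
                change ((1 : F) : G) * y.1 * ((1 : F) : G)⁻¹ = y.1
                simp
              mul_smul := fun f g y => by
                apply Subtype.ext
                change ((f * g : F) : G) * y.1 * ((f * g : F) : G)⁻¹ =
                  (f : G) * ((g : G) * y.1 * (g : G)⁻¹) * (f : G)⁻¹
                push_cast
                group }
          have hXc : Nat.card X = Nat.card M := Nat.card_congr
            { toFun := fun y => ⟨q⁻¹ * y.1, y.2⟩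
              invFun := fun m => ⟨q * m.1, by simp⟩
              left_inv := fun y => by simp
              right_inv := fun m => by simp }
          have hFp : IsPGroup p F := fun f => ⟨1, by
            rw [pow_one]
            exact Subtype.ext (hPp f (hF f.2))⟩
          obtain ⟨⟨y, hy⟩, hfix⟩ :=
            hFp.nonempty_fixed_point_of_prime_not_dvd_card X (by rw [hXc]; exact hpM)
          have hyQ : y ∈ Q := by
            have := mul_mem hq (hMQ.le hy)
            rwa [mul_inv_cancel_left] at this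
          have hyC : y ∈ centralizer (F : Set G) := by
            rw [mem_centralizer_iff]
            intro f hf
            have h3 : f * y * f⁻¹ = y := congrArg Subtype.val (hfix ⟨f, hf⟩)
            exact mul_inv_eq_iff_eq_mul.1 h3
          refine ⟨QuotientGroup.mk ⟨y, hyQ, hyC⟩, ?_⟩
          change (QuotientGroup.mk (⟨y, hyQ⟩ : Q) : Q ⧸ M.subgroupOf Q) = _
          rw [QuotientGroup.eq, mem_subgroupOf]
          have h4 : (((⟨y, hyQ⟩ : Q)⁻¹ * ⟨q, hq⟩ : Q) : G) = (q⁻¹ * y)⁻¹ := by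
            push_cast
            group
          rw [h4]
          exact inv_mem hy
        rw [h2] at h1
        rw [hcZ, hwF, ← h1]
        push_cast
        ring
      · -- no fixed points on the top factor
        have hQM : Q ⊓ centralizer (F : Set G) ≤ M := by
          rcases hfm (F : Set G) hF with h | h
          · exact absurd (fun f hf => h f hf) hFH
          · intro q hq
            have h2 : q ∈ fixMod Q M (F : Set G) hnorm := by
              refine ⟨hq.1, fun f hf => ?_⟩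
              rw [mem_centralizer_iff.1 hq.2 f hf, mul_inv_cancel_right, mul_inv_cancel]
              exact one_mem _
            rwa [h] at h2
        have hMA : Q ⊓ centralizer (F : Set G) = M ⊓ centralizer (F : Set G) :=
          le_antisymm (le_inf hQM inf_le_right) (inf_le_inf_right _ hMQ.le)
        rw [hMA, hcZ, hwF]
        ring

end

end Vale.Agent.P240.K
end

section

namespace Vale.Agent.P240.K

open Subgroup

variable {𝕜 : Type*} [Field 𝕜]

/-- the hypotheses on `L`: trivial centre, commutes with every other conjugate, order divisible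
by `p`. -/
structure CompLike {G : Type*} [Group G] (p : ℕ) (L : Subgroup G) : Prop where
  centre : L ⊓ centralizer (L : Set G) = ⊥
  conj : ∀ g : G, g ∉ normalizer (L : Set G) → ∀ x ∈ L, ∀ y ∈ L,
    x * (g * y * g⁻¹) = (g * y * g⁻¹) * x
  dvd : p ∣ Nat.card L

end Vale.Agent.P240.K
end

section

namespace Vale.Agent.P240.K

open Finsupp Subgroup

variable {𝕜 : Type*} [Field 𝕜]

variable {G Q : Type*} [Group G] [Group Q] {p : ℕ}

/-- pullback to `G` of a subgroup of `Q` along `π : N → Q` -/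
def pb (N : Subgroup G) (π : N →* Q) (X : Subgroup Q) : Subgroup G := (X.comap π).map N.subtype

lemma mem_pb {N : Subgroup G} {π : N →* Q} {X : Subgroup Q} {g : G} :
    g ∈ pb N π X ↔ ∃ n : N, (n : G) = g ∧ π n ∈ X := by
  rw [pb, Subgroup.mem_map]
  constructor
  · rintro ⟨n, hn, rfl⟩; exact ⟨n, rfl, hn⟩
  · rintro ⟨n, rfl, hn⟩; exact ⟨n, hn, rfl⟩

lemma pb_mono {N : Subgroup G} {π : N →* Q} {X Y : Subgroup Q} (h : X ≤ Y) :
    pb N π X ≤ pb N π Y := by
  intro g hg
  rw [mem_pb] at *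
  obtain ⟨n, rfl, hn⟩ := hg
  exact ⟨n, rfl, h hn⟩

lemma pb_le {N : Subgroup G} {π : N →* Q} {X : Subgroup Q} : pb N π X ≤ N := by
  intro g hg
  obtain ⟨n, rfl, _⟩ := mem_pb.1 hg
  exact n.2

/-- `x = y` if `x y⁻¹ ∈ C ⊓ M = ⊥`. -/
lemma eq_of_mem {N M C : Subgroup G} {π : N →* Q} (hπ : ∀ n : N, π n = 1 ↔ (n : G) ∈ M)
    (hCM : C ⊓ M = ⊥) {x y : N} (hx : (x : G) ∈ C) (hy : (y : G) ∈ C) (h : π x = π y) :
    x = y := by
  have h1 : ((x * y⁻¹ : N) : G) ∈ C ⊓ M := by
    refine Subgroup.mem_inf.2 ⟨?_, ?_⟩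
    · simpa using mul_mem hx (inv_mem hy)
    · rw [← hπ, map_mul, map_inv, h, mul_inv_cancel]
  rw [hCM, Subgroup.mem_bot] at h1
  have h2 : x * y⁻¹ = 1 := Subtype.ext h1
  rwa [mul_inv_eq_one] at h2

lemma pb_inf_ApS {N M C : Subgroup G} {π : N →* Q} (hπ : ∀ n : N, π n = 1 ↔ (n : G) ∈ M)
    (hCM : C ⊓ M = ⊥) {X : Subgroup Q} (hXc : ∀ x ∈ X, ∀ y ∈ X, x * y = y * x)
    (hXp : ∀ x ∈ X, x ^ p = 1) (hne : pb N π X ⊓ C ≠ ⊥) : pb N π X ⊓ C ∈ Ain p C := by
  refine ⟨⟨hne, ?_, ?_⟩, inf_le_right⟩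
  · rintro x ⟨hx, hxC⟩ y ⟨hy, hyC⟩
    obtain ⟨m, rfl, hm⟩ := mem_pb.1 hx
    obtain ⟨n, rfl, hn⟩ := mem_pb.1 hy
    have := eq_of_mem (x := m * n) (y := n * m) hπ hCM (by simpa using mul_mem hxC hyC)
      (by simpa using mul_mem hyC hxC) (by rw [map_mul, map_mul, hXc _ hm _ hn])
    exact congrArg Subtype.val this
  · rintro x ⟨hx, hxC⟩
    obtain ⟨m, rfl, hm⟩ := mem_pb.1 hx
    have := eq_of_mem (x := m ^ p) (y := 1) hπ hCM (by simpa using pow_mem hxC p)
      (by simp) (by rw [map_pow, map_one, hXp _ hm])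
    exact congrArg Subtype.val this

lemma pb_fq {N M C : Subgroup G} {π : N →* Q} (hπ : ∀ n : N, π n = 1 ↔ (n : G) ∈ M)
    (hCN : C ≤ N) (hCM : C ⊓ M = ⊥) {B : Subgroup G} (hB : B ≤ C) :
    pb N π (fq N π B) ⊓ C = B := by
  ext g
  constructor
  · rintro ⟨hg, hgC⟩
    obtain ⟨n, rfl, hn⟩ := mem_pb.1 hg
    obtain ⟨m, hm, hmn⟩ := mem_fq.1 hn
    rw [eq_of_mem hπ hCM hgC (hB hm) hmn.symm]
    exact hm
  · intro hg
    exact ⟨mem_pb.2 ⟨⟨g, hCN (hB hg)⟩, rfl, mem_fq.2 ⟨⟨g, hCN (hB hg)⟩, hg, rfl⟩⟩, hB hg⟩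

lemma exists_ApS_le [Fact p.Prime] [Finite G] {H : Subgroup G} (h : p ∣ Nat.card H) :
    ∃ F ∈ ApS p G, F ≤ H := by
  obtain ⟨x, hx⟩ := exists_prime_orderOf_dvd_card' p h
  refine ⟨zpowers (x : G), ⟨?_, ?_, ?_⟩, ?_⟩
  · rw [Ne, Subgroup.zpowers_eq_bot]
    intro h1
    have h2 : x = 1 := Subtype.ext h1
    rw [h2, orderOf_one] at hx
    exact (Fact.out : p.Prime).one_lt.ne hx
  · rintro a ⟨i, rfl⟩ b ⟨j, rfl⟩
    simp only [← zpow_add, add_comm]
  · rintro a ⟨i, rfl⟩
    have hxp : (x : G) ^ p = 1 := by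
      have := pow_orderOf_eq_one x
      rw [hx] at this
      exact_mod_cast congrArg Subtype.val this
    change ((x : G) ^ i) ^ p = 1
    rw [← zpow_natCast, ← zpow_mul, mul_comm, zpow_mul, zpow_natCast, hxp, one_zpow]
  · rw [Subgroup.zpowers_le]
    exact x.2

lemma decomp {N L K : Subgroup G} (hLN : L ≤ N) (hKN : K ≤ N) [hLn : (L.subgroupOf N).Normal]
    [hKn : (K.subgroupOf N).Normal] {x y : G} (hx : x ∈ N) (hy : y ∈ N)
    (h : y ∈ zpowers x ⊔ (L ⊔ K)) : ∃ i : ℤ, ∃ l ∈ L, ∃ k ∈ K, y = x ^ i * (l * k) := by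
  have h1 : (⟨y, hy⟩ : N) ∈ (zpowers x ⊔ (L ⊔ K)).subgroupOf N := by
    rw [Subgroup.mem_subgroupOf]; exact h
  rw [Subgroup.subgroupOf_sup (by rw [Subgroup.zpowers_le]; exact hx) (sup_le hLN hKN),
    Subgroup.subgroupOf_sup hLN hKN, Subgroup.mem_sup_of_normal_right] at h1
  obtain ⟨a, ha, b, hb, hab⟩ := h1
  rw [Subgroup.mem_sup_of_normal_right] at hb
  obtain ⟨l, hl, k, hk, hlk⟩ := hb
  rw [Subgroup.mem_subgroupOf] at ha hl hk
  obtain ⟨i, hi⟩ := ha
  refine ⟨i, l, hl, k, hk, ?_⟩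
  have := congrArg Subtype.val hab
  rw [← hlk] at this
  simp only [Subgroup.coe_mul] at this
  rw [← this, ← hi]

section core

variable [Fact p.Prime] [Finite G]

theorem elimination_core (L : Subgroup G) (hL : CompLike p L) (N K : Subgroup G)
    (hN : N = normalizer (L : Set G)) (hK : K = centralizer (L : Set G))
    (πK : N →* Q) (hπK : ∀ n : N, πK n = 1 ↔ (n : G) ∈ K) (hsurj : Function.Surjective πK)
    (hout : ∀ x ∈ N, ∀ y ∈ N, x ^ p ∈ K → y ^ p ∈ K → x ∉ L ⊔ K → y ∉ L ⊔ K →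
      y ∈ zpowers x ⊔ (L ⊔ K))
    (h1 : NA 𝕜 (Ain p L)) (h2 : NA 𝕜 (Ain p K)) (h3 : NA 𝕜 (ApS p Q)) : NA 𝕜 (ApS p G) := by
  classical
  have hLN : L ≤ N := by rw [hN]; exact Subgroup.le_normalizer
  have hKN : K ≤ N := by
    intro k hk
    rw [hK] at hk
    rw [hN, Subgroup.mem_normalizer_iff]
    intro h
    constructor
    · intro hh
      rw [← (Subgroup.mem_centralizer_iff.1 hk) h hh, mul_assoc, mul_inv_cancel, mul_one]
      exact hh
    · intro hh
      have h4 := (Subgroup.mem_centralizer_iff.1 hk) _ hh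
      have h5 : k * h * k⁻¹ * k = k * h := by group
      rw [h5] at h4
      have h6 : h = k * h * k⁻¹ := mul_left_cancel h4
      rw [h6]
      exact hh
  have hLn : (L.subgroupOf N).Normal := by
    rw [hN]; exact Subgroup.normal_in_normalizer
  have hKn : (K.subgroupOf N).Normal := by
    have : K.subgroupOf N = πK.ker := by
      ext n
      rw [Subgroup.mem_subgroupOf, MonoidHom.mem_ker, hπK]
    rw [this]
    exact MonoidHom.normal_ker _
  have hLK : L ⊓ K = ⊥ := by rw [hK]; exact hL.centre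
  have hKL : K ⊓ L = ⊥ := by rw [inf_comm]; exact hLK
  have hLKc : ∀ l ∈ L, ∀ k ∈ K, l * k = k * l := fun l hl k hk => by
    rw [hK] at hk
    exact (Subgroup.mem_centralizer_iff.1 hk) l hl
  -- the quotient by `L`
  let πL : N →* N ⧸ (L.subgroupOf N) := QuotientGroup.mk' _
  have hπL : ∀ n : N, πL n = 1 ↔ (n : G) ∈ L := by
    intro n
    rw [← Subgroup.mem_subgroupOf]
    exact QuotientGroup.eq_one_iff n
  let SR : Set (Subgroup (N ⧸ (L.subgroupOf N))) := {X | ∃ E ∈ Ain p N, ¬ E ≤ L ∧ fq N πL E = X}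
  have hSRa : SR ⊆ ApS p (N ⧸ (L.subgroupOf N)) := by
    rintro _ ⟨E, hE, hEL, rfl⟩
    exact fq_mem_ApS hπL hE.1 hE.2 hEL
  have hKSR : ∀ B ∈ Ain p K, fq N πL B ∈ SR := fun B hB =>
    ⟨B, ⟨hB.1, hB.2.trans hKN⟩, fun h => hB.1.1 (le_bot_iff.1 (hKL ▸ le_inf hB.2 h)), rfl⟩
  -- strictness of `fq N πL` on `Ain p K`
  have hfst : ∀ B ∈ Ain p K, ∀ B' ∈ Ain p K, B < B' → fq N πL B < fq N πL B' := by
    intro B hB B' hB' h
    refine lt_of_le_of_ne (fq_mono h.le) fun he => h.ne ?_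
    rw [← pb_fq hπL hKN hKL hB.2, ← pb_fq hπL hKN hKL hB'.2, he]
  obtain ⟨al, hal, hbal, haln⟩ := h1
  by_cases ha : ∃ be ∈ Sp 𝕜 (st (Ain p K)), bd be = 0 ∧ mp (fq N πL) be ∉ Bst 𝕜 SR
  · -- case (a)
    obtain ⟨be, hbe, hbbe, hben⟩ := ha
    have hmst : mp (fq N πL) be ∈ Sp 𝕜 (st SR) := mp_mem (st_map hKSR hfst) hbe
    obtain ⟨lW, hnW, hW, -, hlW⟩ := exists_cocycle SR ⊥ (mp (fq N πL) be) (by
      rw [pi_of_st hmst, sup_bot_eq]; exact hben)
    obtain ⟨lD, hnD, hD, -, hlD⟩ := exists_cocycle (Ain p L) ⊥ al (by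
      rw [pi_of_st hal, sup_bot_eq]
      rintro ⟨c, hc, hcz⟩
      exact haln c hc hcz)
    refine detect N L hLN πL hπL SR (fun E hE hEL => ⟨E, hE, hEL, rfl⟩) lW lD hnW hnD hW hD ?_
      K L hKN le_rfl (fun k hk l hl => (hLKc l hl k hk).symm) hKL be al
      (Sp_mono st_wk hbe) (Sp_mono st_wk hal) hbbe hbal hlW hlD
    intro g hg l hl
    rcases l with _ | ⟨E, l⟩
    · obtain ⟨F, hF, hFL⟩ := exists_ApS_le (G := G) hL.dvd
      have : bd (single [F] (1 : 𝕜)) = single [] (1 : 𝕜) := by simp [bd_single_cons]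
      rw [← this]
      exact hD _ (single_mem_Sp ⟨by simp, by simpa using ⟨hF, hFL⟩⟩ _)
    · exfalso
      obtain ⟨hE, hEg⟩ := hl.2 E (by simp)
      apply hE.1.1
      rw [eq_bot_iff, ← hLK]
      intro x hx
      refine Subgroup.mem_inf.2 ⟨hE.2 hx, ?_⟩
      rw [hK, Subgroup.mem_centralizer_iff]
      intro y hy
      rw [hN] at hg
      have h5 := hL.conj g hg y hy x (hE.2 hx)
      have h6 : g * x * g⁻¹ = x := by
        rw [hEg x hx, mul_assoc, mul_inv_cancel, mul_one]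
      rwa [h6] at h5
  · -- case (b)
    push Not at ha
    obtain ⟨be, hbe, hbbe, hben⟩ := h2
    have hmst : mp (fq N πL) be ∈ Sp 𝕜 (st SR) := mp_mem (st_map hKSR hfst) hbe
    obtain ⟨c, hc, hcz⟩ := ha be hbe hbbe
    let kap : Subgroup (N ⧸ (L.subgroupOf N)) → Subgroup G := fun X => pb N πL X ⊓ K
    have hkmono : ∀ X Y, X ≤ Y → kap X ≤ kap Y := fun X Y h => inf_le_inf_right _ (pb_mono h)
    have hkf : ∀ B ∈ Ain p K, kap (fq N πL B) = B := fun B hB => pb_fq hπL hKN hKL hB.2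
    have hkA : ∀ X ∈ SR, kap X ≠ ⊥ → kap X ∈ Ain p K := fun X hX hne =>
      pb_inf_ApS hπL hKL (hSRa hX).2.1 (hSRa hX).2.2 hne
    -- elements of `E` in `L K` lie in `L` when `kap` is trivial
    have hELK : ∀ E ∈ Ain p N, kap (fq N πL E) = ⊥ → ∀ x ∈ E, x ∈ L ⊔ K → x ∈ L := by
      intro E hE hk x hx hxLK
      obtain ⟨i, l, hl, k, hk', hxe⟩ := decomp hLN hKN (x := 1) (one_mem N) (hE.2 hx)
        (Subgroup.mem_sup_right hxLK)
      rw [one_zpow, one_mul] at hxe
      have h4 : k ∈ kap (fq N πL E) := by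
        refine Subgroup.mem_inf.2 ⟨mem_pb.2 ⟨⟨k, hKN hk'⟩, rfl, mem_fq.2
          ⟨⟨x, hE.2 hx⟩, hx, ?_⟩⟩, hk'⟩
        have h5 : (⟨x, hE.2 hx⟩ : N) = ⟨l, hLN hl⟩ * ⟨k, hKN hk'⟩ := Subtype.ext hxe
        rw [h5, map_mul, (hπL ⟨l, hLN hl⟩).2 hl, one_mul]
      rw [hk, Subgroup.mem_bot] at h4
      rw [hxe, h4, mul_one]
      exact hl
    have key : ∀ X ∈ SR, ∀ Y ∈ SR, X ≤ Y → kap Y = ⊥ → X = Y := by
      rintro X ⟨E', hE', hE'L, rfl⟩ Y ⟨E, hE, hEL, rfl⟩ hXY hk
      refine le_antisymm hXY ?_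
      obtain ⟨x', hx', hx'L⟩ := Set.not_subset.1 hE'L
      have hx'X : πL ⟨x', hE'.2 hx'⟩ ∈ fq N πL E' := mem_fq.2 ⟨⟨x', hE'.2 hx'⟩, hx', rfl⟩
      obtain ⟨x, hxE, hxx'⟩ := mem_fq.1 (hXY hx'X)
      have hxL : (x : G) ∉ L := by
        rw [← hπL, hxx', hπL]
        exact hx'L
      have hxLK : (x : G) ∉ L ⊔ K := fun h => hxL (hELK E hE hk x hxE h)
      intro q hq
      obtain ⟨y, hyE, rfl⟩ := mem_fq.1 hq
      by_cases hyL : (y : G) ∈ L
      · rw [(hπL y).2 hyL]; exact one_mem _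
      have hyLK : (y : G) ∉ L ⊔ K := fun h => hyL (hELK E hE hk y hyE h)
      have h4 := hout x x.2 y y.2 (by rw [hE.1.2.2 _ hxE]; exact one_mem _)
        (by rw [hE.1.2.2 _ hyE]; exact one_mem _) hxLK hyLK
      obtain ⟨i, l, hl, k, hk', hye⟩ := decomp hLN hKN x.2 y.2 h4
      have h5 : y = x ^ i * (⟨l, hLN hl⟩ * ⟨k, hKN hk'⟩) := Subtype.ext (by simpa using hye)
      have h6 : πL y = πL x ^ i * πL ⟨k, hKN hk'⟩ := by
        rw [h5, map_mul, map_mul, (hπL ⟨l, hLN hl⟩).2 hl, one_mul, map_zpow]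
      have hxY : πL x ∈ fq N πL E := mem_fq.2 ⟨x, hxE, rfl⟩
      have h7 : πL ⟨k, hKN hk'⟩ ∈ fq N πL E := by
        have : πL ⟨k, hKN hk'⟩ = (πL x ^ i)⁻¹ * πL y := by rw [h6]; group
        rw [this]
        exact mul_mem (inv_mem (zpow_mem hxY i)) (mem_fq.2 ⟨y, hyE, rfl⟩)
      have h8 : k ∈ kap (fq N πL E) :=
        Subgroup.mem_inf.2 ⟨mem_pb.2 ⟨⟨k, hKN hk'⟩, rfl, h7⟩, hk'⟩
      rw [hk, Subgroup.mem_bot] at h8
      have h9 : (⟨k, hKN hk'⟩ : N) = 1 := Subtype.ext h8
      rw [h6, h9, map_one, mul_one, hxx']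
      exact zpow_mem hx'X i
    -- split the bounding chain
    let P : Set (Subgroup (N ⧸ (L.subgroupOf N))) := {X | X ∈ SR ∧ kap X = ⊥}
    have hfz : mp (fq N πL) be ∈ Sp 𝕜 (st (SR \ P)) := by
      refine mp_mem (st_map (T := SR \ P) (fun B hB => ⟨hKSR B hB, fun h => ?_⟩) hfst) hbe
      exact hB.1.1 ((hkf B hB).symm.trans h.2)
    obtain ⟨c0, hc0, s, e, hs, he, hsum⟩ := exact_split (S := SR) (P := P)
      (fun X hX Y hY hYX => key Y hY X hX.1 hYX hX.2) hc hfz hcz
    have hmk : mp kap (mp (fq N πL) be) = be := by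
      rw [mp_mp]
      have := eq_of_Sp (F := mp (kap ∘ fq N πL)) (G := LinearMap.id)
        (fun l (hl : st (Ain p K) l) => by
          rw [mp_single]
          have : l.map (kap ∘ fq N πL) = l := by
            conv_rhs => rw [← List.map_id l]
            exact List.map_congr_left fun E hE => hkf E (hl.2 E hE)
          rw [this]; rfl) hbe
      simpa using this
    have heq : be = bd (mp kap c0) + ∑ X ∈ s, mp kap (e X) := by
      rw [← hmk, hsum, map_add, map_sum, bd_mp]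
    have hc0' : mp kap c0 ∈ Sp 𝕜 (wk (Ain p K)) := by
      refine mp_mem (wk_map (S := SR \ P) (fun X hX => hkA X hX.1 fun h => hX.2 ⟨hX.1, h⟩)
        fun X _ Y _ h => hkmono X Y h) (Sp_mono st_wk hc0)
    have hev : ∀ X ∈ s, mp kap (e X) ∈
        Sp 𝕜 (wk (Ain p (K ⊓ centralizer ((pb N πL X : Subgroup G) : Set G)))) := by
      intro X hX
      have hXP := (hs X hX).1
      refine mp_mem (wk_map (S := {Y | Y ∈ SR ∧ X < Y}) ?_
        fun X _ Y _ h => hkmono X Y h) (Sp_mono st_wk (he X hX).1)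
      rintro Y ⟨hY, hXY⟩
      have h4 := hkA Y hY fun h => hXY.ne (key X hXP.1 Y hY hXY.le h)
      refine ⟨h4.1, le_inf inf_le_right ?_⟩
      intro k hk
      obtain ⟨hk1, hk2⟩ := Subgroup.mem_inf.1 hk
      obtain ⟨k', rfl, hk'⟩ := mem_pb.1 hk1
      rw [Subgroup.mem_centralizer_iff]
      intro h hh
      obtain ⟨h', rfl, hh'⟩ := mem_pb.1 hh
      have h5 : πL (h' * k') = πL (k' * h') := by
        rw [map_mul, map_mul]
        exact (hSRa hY).2.1 _ (hXY.le hh') _ hk'
      -- the commutator lies in `L` and in `K`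
      have h6 : ((h' * k' * h'⁻¹ * k'⁻¹ : N) : G) ∈ K ⊓ L := by
        refine Subgroup.mem_inf.2 ⟨?_, ?_⟩
        · rw [← hπK, map_mul, map_mul, map_mul, map_inv, map_inv, (hπK k').2 hk2]
          group
        · rw [← hπL, map_mul, map_mul, map_inv, map_inv, h5, map_mul]
          group
      rw [hKL, Subgroup.mem_bot] at h6
      have h7 : h' * k' * h'⁻¹ * k'⁻¹ = 1 := Subtype.ext h6
      have h8 : h' * k' = k' * h' := by
        rw [mul_inv_eq_one, mul_inv_eq_iff_eq_mul] at h7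
        exact h7
      exact congrArg Subtype.val h8
    -- the conjugates of `L`
    let ι := {L2 : Subgroup G // L2 ≠ L ∧ ∃ g : G, L2 = L.map (MulAut.conj g).toMonoidHom}
    have : Fintype ι := Fintype.ofFinite ι
    let T : ι → Set (Subgroup G) := fun i => {E | E ∈ Ain p K ∧ ∀ x ∈ E, ∀ y ∈ i.1, x * y = y * x}
    have hconjN : ∀ g : G, g ∈ N → L.map (MulAut.conj g).toMonoidHom = L := by
      intro g hg
      rw [hN, Subgroup.mem_normalizer_iff] at hg
      ext x
      rw [Subgroup.mem_map]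
      constructor
      · rintro ⟨y, hy, rfl⟩
        exact (hg y).1 hy
      · intro hx
        refine ⟨g⁻¹ * x * g, ?_, ?_⟩
        · rw [hg]
          have : g * (g⁻¹ * x * g) * g⁻¹ = x := by group
          rw [this]; exact hx
        · simp [mul_assoc]
    have hcomm2 : ∀ g h : G, L.map (MulAut.conj g).toMonoidHom ≠ L.map (MulAut.conj h).toMonoidHom →
        ∀ x ∈ L.map (MulAut.conj g).toMonoidHom, ∀ y ∈ L.map (MulAut.conj h).toMonoidHom,
        x * y = y * x := by
      rintro g h hgh _ ⟨x, hx, rfl⟩ _ ⟨y, hy, rfl⟩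
      have h4 : g⁻¹ * h ∉ N := by
        intro hmem
        apply hgh
        have h5 := hconjN _ hmem
        have h6 : L.map (MulAut.conj h).toMonoidHom =
            (L.map (MulAut.conj (g⁻¹ * h)).toMonoidHom).map (MulAut.conj g).toMonoidHom := by
          rw [Subgroup.map_map]
          congr 1
          ext z
          simp [mul_assoc]
        rw [h6, h5]
      rw [hN] at h4
      have h7 := hL.conj _ h4 x hx y hy
      have h8 := congrArg (fun z => g * z * g⁻¹) h7
      simp only [MulEquiv.toMonoidHom_eq_coe, MonoidHom.coe_coe, MulAut.conj_apply]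
      calc g * x * g⁻¹ * (h * y * h⁻¹)
          = g * (x * (g⁻¹ * h * y * (g⁻¹ * h)⁻¹)) * g⁻¹ := by group
        _ = g * ((g⁻¹ * h * y * (g⁻¹ * h)⁻¹) * x) * g⁻¹ := h8
        _ = h * y * h⁻¹ * (g * x * g⁻¹) := by group
    have hmap1 : L.map (MulAut.conj (1 : G)).toMonoidHom = L := hconjN 1 (one_mem N)
    have hcomm1 : ∀ i : ι, ∀ x ∈ L, ∀ y ∈ i.1, x * y = y * x := by
      rintro ⟨_, hne, g, rfl⟩ x hx y hy
      refine hcomm2 1 g ?_ x (by rw [hmap1]; exact hx) y hy
      rw [hmap1]; exact hne.symm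
    have hιK : ∀ i : ι, i.1 ≤ K := by
      intro i y hy
      rw [hK, Subgroup.mem_centralizer_iff]
      exact fun x hx => hcomm1 i x hx y hy
    have hFex : ∀ i : ι, ∃ F ∈ ApS p G, F ≤ i.1 := by
      rintro ⟨_, hne, g, rfl⟩
      refine exists_ApS_le ?_
      rw [Subgroup.card_map_of_injective (MulAut.conj g).injective]
      exact hL.dvd
    choose F hF hFi using hFex
    have hιι : ∀ i j : ι, i ≠ j → ∀ x ∈ i.1, ∀ y ∈ j.1, x * y = y * x := by
      rintro ⟨_, hne, g, rfl⟩ ⟨_, hne', h, rfl⟩ hij x hx y hy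
      exact hcomm2 g h (fun h => hij (Subtype.ext h)) x hx y hy
    have hsupA : ∀ i : ι, ∀ E ∈ T i, E ⊔ F i ∈ Ain p K := fun i E hE =>
      ⟨sup_mem_ApS hE.1.1 (hF i) fun x hx y hy => hE.2 x hx y (hFi i hy),
        sup_le hE.1.2 ((hFi i).trans (hιK i))⟩
    have hrel := rel_zero (𝕜 := 𝕜) (Ain p K) T F (fun i E hE => hE.1)
      (fun i => ⟨hF i, (hFi i).trans (hιK i)⟩) hsupA
      (fun i j hij => ⟨⟨hF i, (hFi i).trans (hιK i)⟩, fun x hx y hy =>
        hιι i j hij x (hFi i hx) y hy⟩)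
      (fun i j hij E hE hE' => ⟨hsupA i E hE, by
        have h4 : E ⊔ F i ≤ centralizer (j.1 : Set G) := by
          refine sup_le ?_ ?_
          · intro x hx
            rw [Subgroup.mem_centralizer_iff]
            exact fun y hy => (hE'.2 x hx y hy).symm
          · intro x hx
            rw [Subgroup.mem_centralizer_iff]
            exact fun y hy => (hιι i j hij x (hFi i hx) y hy).symm
        intro x hx y hy
        exact ((Subgroup.mem_centralizer_iff.1 (h4 hx)) y hy).symm⟩)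
      Finset.univ
    let V : Submodule 𝕜 (Ch 𝕜 (Subgroup G)) := Sp 𝕜 (fun l => ∃ i ∈ (Finset.univ : Finset ι), wk (T i) l)
    have hbeV : be ∉ Bst 𝕜 (Ain p K) ⊔ V := by
      intro h
      obtain ⟨b, ⟨c1, hc1, rfl⟩, w, hw, hbw⟩ := Submodule.mem_sup.1 h
      have hbw0 : bd w = 0 := by
        have h4 := congrArg bd hbw
        rw [map_add, hbbe, bd_bd, zero_add] at h4
        exact h4
      obtain ⟨c2, hc2, hc2w⟩ := hrel w hw hbw0
      have h5 : c1 + c2 ∈ Sp 𝕜 (wk (Ain p K)) := Submodule.add_mem _ (Sp_mono st_wk hc1) hc2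
      refine hben (pi (c1 + c2)) (pi_mem h5) ?_
      rw [bd_pi h5, map_add, hc2w, hbw, pi_of_st hbe]
    obtain ⟨X, hXs, hXV⟩ : ∃ X ∈ s, pi (mp kap (e X)) ∉ Bst 𝕜 (Ain p K) ⊔ V := by
      by_contra hcon
      push Not at hcon
      apply hbeV
      have h4 : be = bd (pi (mp kap c0)) + ∑ X ∈ s, pi (mp kap (e X)) := by
        conv_lhs => rw [← pi_of_st hbe, heq]
        rw [map_add, map_sum, bd_pi hc0']
      rw [h4]
      refine Submodule.add_mem _ (Submodule.mem_sup_left ⟨_, pi_mem hc0', rfl⟩) ?_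
      exact Submodule.sum_mem _ fun X hX => hcon X hX
    have hXP := (hs X hXs).1
    obtain ⟨lD, hnD, hD, hDV, hlD⟩ := exists_cocycle (Ain p K) V (mp kap (e X)) hXV
    -- lift of the cycle of `Q`
    obtain ⟨om, hom, hbom, homn⟩ := h3
    obtain ⟨lW, hnW, hW, -, hlW⟩ := exists_cocycle (ApS p Q) ⊥ om (by
      rw [pi_of_st hom, sup_bot_eq]
      rintro ⟨c, hc, hcz⟩
      exact homn c hc hcz)
    set H1 : Subgroup G := pb N πL X with hH1
    have hH1K : H1 ⊓ K = ⊥ := hXP.2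
    let sig : Subgroup Q → Subgroup G := fun E => pb N πK E ⊓ H1
    have hsf : ∀ E ∈ ApS p Q, fq N πK (sig E) = E := by
      intro E hE
      refine le_antisymm ?_ ?_
      · intro q hq
        obtain ⟨n, hn, rfl⟩ := mem_fq.1 hq
        obtain ⟨n', hn', h4⟩ := mem_pb.1 (Subgroup.mem_inf.1 hn).1
        rw [← Subtype.ext hn']
        exact h4
      · intro q hq
        obtain ⟨n, rfl⟩ := hsurj q
        have hnp : ((n : G)) ^ p ∈ K := by
          have : ((n ^ p : N) : G) ∈ K := by rw [← hπK, map_pow, hE.2.2 _ hq]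
          simpa using this
        have hfin : ∀ m : N, (m : G) ∈ H1 → πK m = πK n → πK n ∈ fq N πK (sig E) := by
          intro m hm hmn
          exact mem_fq.2 ⟨m, Subgroup.mem_inf.2 ⟨mem_pb.2 ⟨m, rfl, by rw [hmn]; exact hq⟩, hm⟩, hmn⟩
        by_cases hnLK : (n : G) ∈ L ⊔ K
        · obtain ⟨i, l, hl, k, hk', hne⟩ := decomp hLN hKN (x := 1) (one_mem N) n.2
            (Subgroup.mem_sup_right hnLK)
          rw [one_zpow, one_mul] at hne
          have h4 : n = ⟨l, hLN hl⟩ * ⟨k, hKN hk'⟩ := Subtype.ext hne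
          refine hfin ⟨l, hLN hl⟩ ?_ ?_
          · refine mem_pb.2 ⟨⟨l, hLN hl⟩, rfl, ?_⟩
            rw [(hπL ⟨l, hLN hl⟩).2 hl]
            exact one_mem _
          · rw [h4, map_mul, (hπK ⟨k, hKN hk'⟩).2 hk', mul_one]
        · obtain ⟨E', hE', hE'L, hE'X⟩ := hXP.1
          obtain ⟨x, hx, hxL⟩ := Set.not_subset.1 hE'L
          have hkE' : kap (fq N πL E') = ⊥ := by rw [hE'X]; exact hXP.2
          have hxLK : x ∉ L ⊔ K := fun h => hxL (hELK E' hE' hkE' x hx h)
          have h4 := hout x (hE'.2 hx) n n.2 (by rw [hE'.1.2.2 _ hx]; exact one_mem _) hnp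
            hxLK hnLK
          obtain ⟨i, l, hl, k, hk', hne⟩ := decomp hLN hKN (hE'.2 hx) n.2 h4
          have h5 : n = (⟨x, hE'.2 hx⟩ ^ i * ⟨l, hLN hl⟩) * ⟨k, hKN hk'⟩ := by
            refine Subtype.ext ?_
            rw [hne]
            simp [mul_assoc]
          refine hfin (⟨x, hE'.2 hx⟩ ^ i * ⟨l, hLN hl⟩) ?_ ?_
          · refine mem_pb.2 ⟨_, rfl, ?_⟩
            rw [map_mul, (hπL ⟨l, hLN hl⟩).2 hl, mul_one, map_zpow, ← hE'X]
            exact zpow_mem (mem_fq.2 ⟨⟨x, hE'.2 hx⟩, hx, rfl⟩) i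
          · conv_rhs => rw [h5, map_mul, (hπK ⟨k, hKN hk'⟩).2 hk', mul_one]
    have hsA : ∀ E ∈ ApS p Q, sig E ∈ Ain p H1 := fun E hE =>
      pb_inf_ApS hπK hH1K hE.2.1 hE.2.2 fun h => hE.1 (by
        have h4 := hsf E hE
        have h5 : sig E = ⊥ := h
        rw [h5] at h4
        rw [← h4, eq_bot_iff]
        intro q hq
        obtain ⟨n, hn, rfl⟩ := mem_fq.1 hq
        rw [Subgroup.mem_bot] at hn
        have : n = 1 := Subtype.ext hn
        rw [this, map_one]
        exact one_mem _)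
    have hx : mp sig om ∈ Sp 𝕜 (wk (Ain p H1)) :=
      mp_mem (wk_map hsA fun E _ F _ h => inf_le_inf_right _ (pb_mono h)) (Sp_mono st_wk hom)
    have hmx : mp (fq N πK) (mp sig om) = om := by
      rw [mp_mp]
      have := eq_of_Sp (F := mp (fq N πK ∘ sig)) (G := LinearMap.id)
        (fun l (hl : st (ApS p Q) l) => by
          rw [mp_single]
          have : l.map (fq N πK ∘ sig) = l := by
            conv_rhs => rw [← List.map_id l]
            exact List.map_congr_left fun E hE => hsf E (hl.2 E hE)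
          rw [this]; rfl) hom
      simpa using this
    refine detect N K hKN πK hπK (ApS p Q) (fun E hE hEK => fq_mem_ApS hπK hE.1 hE.2 hEK)
      lW lD hnW hnD hW hD ?_ H1 (K ⊓ centralizer (H1 : Set G)) pb_le inf_le_left ?_ hH1K
      (mp sig om) (mp kap (e X)) hx (hev X hXs) (by rw [bd_mp, hbom, map_zero])
      (by rw [bd_mp, (he X hXs).2, map_zero]) (by rw [hmx]; exact hlW) hlD
    · intro g hg l hl
      refine hDV _ (pi_mem' (single_mem_Sp ?_ _))
      have hgne : L.map (MulAut.conj g).toMonoidHom ≠ L := by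
        intro h
        apply hg
        rw [hN, Subgroup.mem_normalizer_iff]
        intro x
        constructor
        · intro hx
          rw [← h]
          exact ⟨x, hx, rfl⟩
        · intro hx
          rw [← h] at hx
          obtain ⟨y, hy, hyx⟩ := hx
          have : y = x := by
            apply (MulAut.conj g).injective
            exact hyx
          rw [← this]; exact hy
      refine ⟨⟨_, hgne, g, rfl⟩, Finset.mem_univ _, hl.1, ?_⟩
      intro E hE
      obtain ⟨hE1, hE2⟩ := hl.2 E hE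
      refine ⟨hE1, ?_⟩
      rintro x hx _ ⟨y, hy, rfl⟩
      have h4 : x * y = y * x := (hLKc y hy x (hE1.2 hx)).symm
      have h5 : g * x = x * g := hE2 x hx
      simp only [MulEquiv.toMonoidHom_eq_coe, MonoidHom.coe_coe, MulAut.conj_apply]
      have h6 : x * g⁻¹ = g⁻¹ * x := by
        rw [eq_inv_mul_iff_mul_eq, ← mul_assoc, h5, mul_assoc, mul_inv_cancel, mul_one]
      calc x * (g * y * g⁻¹) = x * g * y * g⁻¹ := by group
        _ = g * x * y * g⁻¹ := by rw [h5]
        _ = g * (x * y) * g⁻¹ := by group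
        _ = g * (y * x) * g⁻¹ := by rw [h4]
        _ = g * y * (x * g⁻¹) := by group
        _ = g * y * (g⁻¹ * x) := by rw [h6]
        _ = g * y * g⁻¹ * x := by group
    · intro a ha b hb
      exact (Subgroup.mem_centralizer_iff.1 (Subgroup.mem_inf.1 hb).2) a ha

end core

end Vale.Agent.P240.K
end

section

namespace Vale.Agent.P240.K

open Finsupp Subgroup

variable {𝕜 : Type*} [Field 𝕜]

variable {G Q R : Type*} [Group G] [Group Q] [Group R] {p : ℕ}

/-- Transfer of detection from `N` to `G`. -/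
theorem detect_gen (N : Subgroup G) (ph : Ch 𝕜 (Subgroup G) →ₗ[𝕜] 𝕜)
    (hcoc : Coc (Ain p N) ph)
    (hnrm : ∀ l, wk (Ain p N) l → ¬ l.Pairwise (· > ·) → ph (single l (1 : 𝕜)) = 0)
    (hvan : ∀ g, g ∉ N → g ^ p = 1 → ∀ l, wk {E | E ∈ Ain p N ∧ ∀ x ∈ E, g * x = x * g} l →
      ph (single l (1 : 𝕜)) = 0)
    (z : Ch 𝕜 (Subgroup G)) (hz : z ∈ Sp 𝕜 (wk (Ain p N))) (hbz : bd z = 0) (hne : ph z ≠ 0) :
    NA 𝕜 (ApS p G) := by
  classical
  set U : Set (Subgroup G) := {E | E ⊓ N ≠ ⊥} with hUdef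
  set rho : Subgroup G → Subgroup G := fun E => E ⊓ N with hrho
  have hUup : ∀ x ∈ ApS p G, x ∈ U → ∀ y ∈ ApS p G, x ≤ y → y ∈ U := by
    intro E _ hE F _ hEF h
    apply hE
    rw [← le_bot_iff, ← h]
    exact inf_le_inf_right _ hEF
  have hrhoT : ∀ x ∈ ApS p G, x ∈ U → rho x ∈ Ain p N := fun E hE hEU =>
    ⟨mem_ApS_of_le hE inf_le_left hEU, inf_le_right⟩
  have hext := ext_coc (S := ApS p G) (U := U) (T := Ain p N) (rho := rho) (psi := ph) hUup hrhoT
    (fun E _ _ F _ _ h => inf_le_inf_right _ h) hcoc (by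
      intro l hl hlU e heS heU hel
      have hee : e ⊓ N = ⊥ := by
        by_contra h
        exact heU h
      obtain ⟨g, hg1⟩ := (Subgroup.ne_bot_iff_exists_ne_one).1 heS.1
      have hgN : (g : G) ∉ N := by
        intro h
        apply hg1
        have : (g : G) ∈ e ⊓ N := ⟨g.2, h⟩
        rw [hee, Subgroup.mem_bot] at this
        exact Subtype.ext this
      refine hvan g hgN (heS.2.2 _ g.2) _ ⟨?_, ?_⟩
      · rw [List.pairwise_map]
        exact hl.1.imp fun h => inf_le_inf_right _ h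
      · intro F hF
        obtain ⟨E, hE, rfl⟩ := List.mem_map.1 hF
        refine ⟨hrhoT E (hl.2 E hE) (hlU E hE), ?_⟩
        intro x hx
        exact (hl.2 E hE).2.1 _ (hel E hE g.2) _ hx.1)
  refine NA_of_functional ((ph.comp (mp rho)).comp (res U)) ?_ hext z
    (Sp_mono (wk_mono fun E hE => hE.1) hz) hbz ?_
  · intro l hl hns
    simp only [LinearMap.comp_apply]
    rw [res_single]
    split_ifs with hU
    · rw [mp_single]
      refine hnrm _ ⟨?_, ?_⟩ ?_
      · rw [List.pairwise_map]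
        exact hl.1.imp fun h => inf_le_inf_right _ h
      · intro F hF
        obtain ⟨E, hE, rfl⟩ := List.mem_map.1 hF
        exact hrhoT E (hl.2 E hE) (hU E hE)
      · intro h
        apply hns
        rw [List.pairwise_map] at h
        refine (hl.1.and h).imp ?_
        rintro E F ⟨hEF, hEF'⟩
        refine lt_of_le_of_ne hEF ?_
        rintro rfl
        exact lt_irrefl _ hEF'
    · rw [map_zero, map_zero]
  · have hzU : z ∈ Sp 𝕜 (fun l : List (Subgroup G) => ∀ a ∈ l, a ∈ U) := by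
      refine Sp_mono (fun l hl E hE => ?_) hz
      have := hl.2 E hE
      change E ⊓ N ≠ ⊥
      rw [inf_eq_left.2 this.2]
      exact this.1.1
    have hzr : mp rho z = z := by
      have := eq_of_Sp (F := mp rho) (G := LinearMap.id) (fun l (hl : wk (Ain p N) l) => by
        rw [mp_single]
        have : l.map rho = l := by
          conv_rhs => rw [← List.map_id l]
          refine List.map_congr_left fun E hE => ?_
          exact inf_eq_left.2 (hl.2 E hE).2
        rw [this]; rfl) hz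
      simpa using this
    simp only [LinearMap.comp_apply]
    rw [res_of_mem hzU, hzr]
    exact hne

/-- shuffle products of chains in commuting subgroups of `N` -/
lemma sh_mem_N {N H1 H2 : Subgroup G} (h1N : H1 ≤ N) (h2N : H2 ≤ N)
    (h12 : ∀ x ∈ H1, ∀ y ∈ H2, x * y = y * x) {x y : Ch 𝕜 (Subgroup G)}
    (hx : x ∈ Sp 𝕜 (wk (Ain p H1))) (hy : y ∈ Sp 𝕜 (wk (Ain p H2))) :
    sh x y ∈ Sp 𝕜 (wk (Ain p N)) := by
  have hs1 : Ain p H1 ⊆ Ain p N := fun E hE => ⟨hE.1, hE.2.trans h1N⟩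
  have hs2 : Ain p H2 ⊆ Ain p N := fun E hE => ⟨hE.1, hE.2.trans h2N⟩
  refine sh_mem hs1 hs2 ?_ hx hy
  intro E hE F hF
  exact ⟨sup_mem_ApS hE.1 hF.1 fun a ha b hb => h12 a (hE.2 ha) b (hF.2 hb),
    sup_le (hE.2.trans h1N) (hF.2.trans h2N)⟩

section
variable (N M : Subgroup G) (π : N →* Q) (lW : Ch 𝕜 (Subgroup Q) →ₗ[𝕜] 𝕜)
  (lD : Ch 𝕜 (Subgroup G) →ₗ[𝕜] 𝕜)

/-- the basic detection functional -/
noncomputable def phN : Ch 𝕜 (Subgroup G) →ₗ[𝕜] 𝕜 := phi {E | E ≤ M} (fq N π) lW lD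

variable {N M π lW lD}

lemma phN_coc (hπ : ∀ n : N, π n = 1 ↔ (n : G) ∈ M)
    (hW : Coc (ApS p Q) lW) (hD : Coc (Ain p M) lD) : Coc (Ain p N) (phN N M π lW lD) := by
  refine phi_coc (SW := ApS p Q) ?_ ?_ ?_ hW ?_
  · exact fun x _ y _ hxy hy => le_trans hxy hy
  · exact fun E hE hED => fq_mem_ApS hπ hE.1 hE.2 hED
  · exact fun E _ _ F _ _ h => fq_mono h
  · intro c hc
    refine hD c (Sp_mono (wk_mono ?_) hc)
    exact fun E hE => ⟨hE.1.1, hE.2⟩

lemma phN_nrm (hnW : Nrm lW) (hnD : Nrm lD) (l : List (Subgroup G)) (hl : wk (Ain p N) l)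
    (hs : ¬ l.Pairwise (· > ·)) : phN N M π lW lD (single l (1 : 𝕜)) = 0 := by
  rw [phN, phi_single]
  exact PhiL_nrm (S := Ain p N) hnW hnD _ hl hs _

lemma phN_van {P : Subgroup G → Prop}
    (hvan : ∀ l, wk {E | E ∈ Ain p M ∧ P E} l → lD (single l (1 : 𝕜)) = 0)
    (l : List (Subgroup G)) (hl : wk {E | E ∈ Ain p N ∧ P E} l) :
    phN N M π lW lD (single l (1 : 𝕜)) = 0 := by
  rw [phN, phi_single]
  suffices h : PhiL {E | E ≤ M} (fq N π) lW lD l = 0 by rw [h, LinearMap.zero_apply]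
  induction l with
  | nil => rw [PhiL, hvan [] ⟨by simp, by simp⟩, zero_smul]
  | cons E l ih =>
    have hp := List.pairwise_cons.1 hl.1
    by_cases hE : E ∈ {E : Subgroup G | E ≤ M}
    · rw [PhiL_cons_mem hE, hvan (E :: l), zero_smul]
      refine ⟨hl.1, fun F hF => ?_⟩
      have hFE : F ≤ E := by
        rcases List.mem_cons.1 hF with h | h
        · rw [h]
        · exact hp.1 F h
      exact ⟨⟨(hl.2 F hF).1.1, le_trans hFE hE⟩, (hl.2 F hF).2⟩
    · rw [PhiL_cons_not hE, ih ⟨hp.2, fun F hF => hl.2 F (by simp [hF])⟩, LinearMap.zero_comp]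

lemma phN_sh (hπ : ∀ n : N, π n = 1 ↔ (n : G) ∈ M) (hMN : M ≤ N) (hnW : Nrm lW)
    {H1 H2 : Subgroup G} (h1N : H1 ≤ N) (h2M : H2 ≤ M) (h1M : H1 ⊓ M = ⊥)
    {x y : Ch 𝕜 (Subgroup G)} (hx : x ∈ Sp 𝕜 (wk (Ain p H1))) (hy : y ∈ Sp 𝕜 (wk (Ain p H2))) :
    phN N M π lW lD (sh x y) = lW (mp (fq N π) x) * lD y := by
  rw [phN, phi_shuffle (A := Ain p H1) (B := Ain p H2) ?_ ?_ ?_ hnW
        (Sp_mono (fun l hl => hl.2) hx) (Sp_mono (fun l hl => hl.2) hy)]
  · intro E hE hEM
    exact hE.1.1 (le_bot_iff.1 (h1M ▸ le_inf hE.2 hEM))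
  · intro E hE
    exact hE.2.trans h2M
  · intro E hE F hF
    refine ⟨?_, fq_sup hπ (hE.2.trans h1N) ((hF.2.trans h2M).trans hMN) (hF.2.trans h2M)⟩
    intro h
    exact hE.1.1 (le_bot_iff.1 (h1M ▸ le_inf hE.2 (le_sup_left.trans h)))

end

/-- homogeneous version of `exists_cocycle` -/
lemma exists_cocycle_len {α : Type*} [PartialOrder α] (S : Set α) (V : Submodule 𝕜 (Ch 𝕜 α))
    (z : Ch 𝕜 α) (n : ℕ) (hzn : z ∈ Sp 𝕜 (fun l : List α => l.length = n)) (hz : pi z ∉ Bst 𝕜 S ⊔ V) :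
    ∃ lam : Ch 𝕜 α →ₗ[𝕜] 𝕜, Nrm lam ∧ Coc S lam ∧ lam z ≠ 0 ∧
      ∀ l : List α, l.length ≠ n → lam (single l (1 : 𝕜)) = 0 := by
  obtain ⟨lam, h1, h2, -, h4⟩ := exists_cocycle S V z hz
  refine ⟨lam.comp (len n), ?_, ?_, ?_, ?_⟩
  · intro l hl
    rw [LinearMap.comp_apply, len_single]
    split_ifs
    · exact h1 l hl
    · rw [map_zero]
  · intro c hc
    rw [LinearMap.comp_apply, ← bd_len]
    exact h2 _ (Sp_mono (fun l hl => hl.2) (len_mem hc))
  · rw [LinearMap.comp_apply, len_of_mem hzn]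
    exact h4
  · intro l hl
    rw [LinearMap.comp_apply, len_single, if_neg hl, map_zero]

end Vale.Agent.P240.K
end

section

namespace Vale.Agent.P240.K

open Finsupp Subgroup

variable {𝕜 : Type*} [Field 𝕜]

variable {G Q R : Type*} [Group G] [Group Q] [Group R] {p : ℕ}

/-- the standing set-up: `N` normalizer and `K` centralizer of `L`, with the two quotients. -/
structure Ctx (p : ℕ) (L N K : Subgroup G) (πK : N →* Q) (πL : N →* R) : Prop where
  comp : CompLike p L
  hN : N = normalizer (L : Set G)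
  hK : K = centralizer (L : Set G)
  hπK : ∀ n : N, πK n = 1 ↔ (n : G) ∈ K
  hsurj : Function.Surjective πK
  hπL : ∀ n : N, πL n = 1 ↔ (n : G) ∈ L

/-- images in `R` of the members of a family not contained in `L` -/
def SRof (L N : Subgroup G) (πL : N →* R) (F : Set (Subgroup G)) : Set (Subgroup R) :=
  {X | ∃ E ∈ F, ¬ E ≤ L ∧ fq N πL E = X}

/-- part of the preimage in `K` -/
def kap (N K : Subgroup G) (πL : N →* R) (X : Subgroup R) : Subgroup G := pb N πL X ⊓ K

namespace Ctx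

variable {L N K : Subgroup G} {πK : N →* Q} {πL : N →* R}

lemma LN (h : Ctx p L N K πK πL) : L ≤ N := by rw [h.hN]; exact Subgroup.le_normalizer

lemma KN (h : Ctx p L N K πK πL) : K ≤ N := by
  intro k hk
  rw [h.hK] at hk
  rw [h.hN, Subgroup.mem_normalizer_iff]
  intro a
  constructor
  · intro hh
    rw [← (Subgroup.mem_centralizer_iff.1 hk) a hh, mul_assoc, mul_inv_cancel, mul_one]
    exact hh
  · intro hh
    have h4 := (Subgroup.mem_centralizer_iff.1 hk) _ hh
    have h5 : k * a * k⁻¹ * k = k * a := by group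
    rw [h5] at h4
    have h6 : a = k * a * k⁻¹ := mul_left_cancel h4
    rw [h6]
    exact hh

lemma Ln (h : Ctx p L N K πK πL) : (L.subgroupOf N).Normal := by
  rw [h.hN]; exact Subgroup.normal_in_normalizer

lemma Kn (h : Ctx p L N K πK πL) : (K.subgroupOf N).Normal := by
  have : K.subgroupOf N = πK.ker := by
    ext n
    rw [Subgroup.mem_subgroupOf, MonoidHom.mem_ker, h.hπK]
  rw [this]
  exact MonoidHom.normal_ker _

lemma LK (h : Ctx p L N K πK πL) : L ⊓ K = ⊥ := by rw [h.hK]; exact h.comp.centre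

lemma KL (h : Ctx p L N K πK πL) : K ⊓ L = ⊥ := by rw [inf_comm]; exact h.LK

lemma comm (h : Ctx p L N K πK πL) : ∀ l ∈ L, ∀ k ∈ K, l * k = k * l := fun l hl k hk => by
  rw [h.hK] at hk
  exact (Subgroup.mem_centralizer_iff.1 hk) l hl

lemma dec (h : Ctx p L N K πK πL) {x y : G} (hx : x ∈ N) (hy : y ∈ N)
    (hxy : y ∈ zpowers x ⊔ (L ⊔ K)) : ∃ i : ℤ, ∃ l ∈ L, ∃ k ∈ K, y = x ^ i * (l * k) := by
  have h1 := h.Ln
  have h2 := h.Kn
  exact decomp h.LN h.KN hx hy hxy

lemma dec' (h : Ctx p L N K πK πL) {y : G} (hy : y ∈ L ⊔ K) :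
    ∃ l ∈ L, ∃ k ∈ K, y = l * k := by
  obtain ⟨i, l, hl, k, hk, he⟩ := h.dec (x := 1) (y := y) (one_mem N) (sup_le h.LN h.KN hy)
    (Subgroup.mem_sup_right hy)
  rw [one_zpow, one_mul] at he
  exact ⟨l, hl, k, hk, he⟩

lemma SR_ApS (h : Ctx p L N K πK πL) {F : Set (Subgroup G)} (hF : F ⊆ Ain p N) :
    SRof L N πL F ⊆ ApS p R := by
  rintro _ ⟨E, hE, hEL, rfl⟩
  exact fq_mem_ApS h.hπL (hF hE).1 (hF hE).2 hEL

lemma KSR (h : Ctx p L N K πK πL) {F : Set (Subgroup G)} (hF : Ain p K ⊆ F) :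
    ∀ B ∈ Ain p K, fq N πL B ∈ SRof L N πL F := fun B hB =>
  ⟨B, hF hB, fun hh => hB.1.1 (le_bot_iff.1 (h.KL ▸ le_inf hB.2 hh)), rfl⟩

lemma fst (h : Ctx p L N K πK πL) :
    ∀ B ∈ Ain p K, ∀ B' ∈ Ain p K, B < B' → fq N πL B < fq N πL B' := by
  intro B hB B' hB' hh
  refine lt_of_le_of_ne (fq_mono hh.le) fun he => hh.ne ?_
  rw [← pb_fq h.hπL h.KN h.KL hB.2, ← pb_fq h.hπL h.KN h.KL hB'.2, he]

/-- elements of `E` in `L K` lie in `L` when `kap` is trivial -/
lemma ELK (h : Ctx p L N K πK πL) {E : Subgroup G} (hE : E ∈ Ain p N)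
    (hk : kap N K πL (fq N πL E) = ⊥) : ∀ x ∈ E, x ∈ L ⊔ K → x ∈ L := by
  intro x hx hxLK
  obtain ⟨l, hl, k, hk', hxe⟩ := h.dec' hxLK
  have h4 : k ∈ kap N K πL (fq N πL E) := by
    refine Subgroup.mem_inf.2 ⟨mem_pb.2 ⟨⟨k, h.KN hk'⟩, rfl, mem_fq.2
      ⟨⟨x, hE.2 hx⟩, hx, ?_⟩⟩, hk'⟩
    have h5 : (⟨x, hE.2 hx⟩ : N) = ⟨l, h.LN hl⟩ * ⟨k, h.KN hk'⟩ := Subtype.ext hxe
    rw [h5, map_mul, (h.hπL ⟨l, h.LN hl⟩).2 hl, one_mul]
  rw [hk, Subgroup.mem_bot] at h4
  rw [hxe, h4, mul_one]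
  exact hl

lemma exists_V [Fact p.Prime] [Finite G] (h : Ctx p L N K πK πL) :
    ∃ V : Submodule 𝕜 (Ch 𝕜 (Subgroup G)),
      (∀ g, g ∉ N → ∀ l, wk {E | E ∈ Ain p K ∧ ∀ x ∈ E, g * x = x * g} l →
        pi (single l (1 : 𝕜)) ∈ V) ∧
      ∀ z ∈ Sp 𝕜 (st (Ain p K)), bd z = 0 → z ∉ Bst 𝕜 (Ain p K) → z ∉ Bst 𝕜 (Ain p K) ⊔ V := by
  classical
  let ι := {L2 : Subgroup G // L2 ≠ L ∧ ∃ g : G, L2 = L.map (MulAut.conj g).toMonoidHom}
  have : Fintype ι := Fintype.ofFinite ι
  let T : ι → Set (Subgroup G) := fun i => {E | E ∈ Ain p K ∧ ∀ x ∈ E, ∀ y ∈ i.1, x * y = y * x}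
  have hconjN : ∀ g : G, g ∈ N → L.map (MulAut.conj g).toMonoidHom = L := by
    intro g hg
    rw [h.hN, Subgroup.mem_normalizer_iff] at hg
    ext x
    rw [Subgroup.mem_map]
    constructor
    · rintro ⟨y, hy, rfl⟩
      exact (hg y).1 hy
    · intro hx
      refine ⟨g⁻¹ * x * g, ?_, ?_⟩
      · rw [hg]
        have : g * (g⁻¹ * x * g) * g⁻¹ = x := by group
        rw [this]; exact hx
      · simp [mul_assoc]
  have hcomm2 : ∀ g h : G, L.map (MulAut.conj g).toMonoidHom ≠ L.map (MulAut.conj h).toMonoidHom →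
      ∀ x ∈ L.map (MulAut.conj g).toMonoidHom, ∀ y ∈ L.map (MulAut.conj h).toMonoidHom,
      x * y = y * x := by
    rintro g g' hgh _ ⟨x, hx, rfl⟩ _ ⟨y, hy, rfl⟩
    have h4 : g⁻¹ * g' ∉ N := by
      intro hmem
      apply hgh
      have h5 := hconjN _ hmem
      have h6 : L.map (MulAut.conj g').toMonoidHom =
          (L.map (MulAut.conj (g⁻¹ * g')).toMonoidHom).map (MulAut.conj g).toMonoidHom := by
        rw [Subgroup.map_map]
        congr 1
        ext z
        simp [mul_assoc]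
      rw [h6, h5]
    rw [h.hN] at h4
    have h7 := h.comp.conj _ h4 x hx y hy
    have h8 := congrArg (fun z => g * z * g⁻¹) h7
    simp only [MulEquiv.toMonoidHom_eq_coe, MonoidHom.coe_coe, MulAut.conj_apply]
    calc g * x * g⁻¹ * (g' * y * g'⁻¹)
        = g * (x * (g⁻¹ * g' * y * (g⁻¹ * g')⁻¹)) * g⁻¹ := by group
      _ = g * ((g⁻¹ * g' * y * (g⁻¹ * g')⁻¹) * x) * g⁻¹ := h8
      _ = g' * y * g'⁻¹ * (g * x * g⁻¹) := by group
  have hmap1 : L.map (MulAut.conj (1 : G)).toMonoidHom = L := hconjN 1 (one_mem N)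
  have hcomm1 : ∀ i : ι, ∀ x ∈ L, ∀ y ∈ i.1, x * y = y * x := by
    rintro ⟨_, hne, g, rfl⟩ x hx y hy
    refine hcomm2 1 g ?_ x (by rw [hmap1]; exact hx) y hy
    rw [hmap1]; exact hne.symm
  have hιK : ∀ i : ι, i.1 ≤ K := by
    intro i y hy
    rw [h.hK, Subgroup.mem_centralizer_iff]
    exact fun x hx => hcomm1 i x hx y hy
  have hFex : ∀ i : ι, ∃ F ∈ ApS p G, F ≤ i.1 := by
    rintro ⟨_, hne, g, rfl⟩
    refine exists_ApS_le ?_
    rw [Subgroup.card_map_of_injective (MulAut.conj g).injective]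
    exact h.comp.dvd
  choose F hF hFi using hFex
  have hιι : ∀ i j : ι, i ≠ j → ∀ x ∈ i.1, ∀ y ∈ j.1, x * y = y * x := by
    rintro ⟨_, hne, g, rfl⟩ ⟨_, hne', h, rfl⟩ hij x hx y hy
    exact hcomm2 g h (fun h => hij (Subtype.ext h)) x hx y hy
  have hsupA : ∀ i : ι, ∀ E ∈ T i, E ⊔ F i ∈ Ain p K := fun i E hE =>
    ⟨sup_mem_ApS hE.1.1 (hF i) fun x hx y hy => hE.2 x hx y (hFi i hy),
      sup_le hE.1.2 ((hFi i).trans (hιK i))⟩
  have hrel := rel_zero (𝕜 := 𝕜) (Ain p K) T F (fun i E hE => hE.1)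
    (fun i => ⟨hF i, (hFi i).trans (hιK i)⟩) hsupA
    (fun i j hij => ⟨⟨hF i, (hFi i).trans (hιK i)⟩, fun x hx y hy =>
      hιι i j hij x (hFi i hx) y hy⟩)
    (fun i j hij E hE hE' => ⟨hsupA i E hE, by
      have h4 : E ⊔ F i ≤ centralizer (j.1 : Set G) := by
        refine sup_le ?_ ?_
        · intro x hx
          rw [Subgroup.mem_centralizer_iff]
          exact fun y hy => (hE'.2 x hx y hy).symm
        · intro x hx
          rw [Subgroup.mem_centralizer_iff]
          exact fun y hy => (hιι i j hij x (hFi i hx) y hy).symm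
      intro x hx y hy
      exact ((Subgroup.mem_centralizer_iff.1 (h4 hx)) y hy).symm⟩)
    Finset.univ
  refine ⟨Sp 𝕜 (fun l => ∃ i ∈ (Finset.univ : Finset ι), wk (T i) l), ?_, ?_⟩
  · intro g hg l hl
    refine pi_mem' (single_mem_Sp ?_ _)
    have hgne : L.map (MulAut.conj g).toMonoidHom ≠ L := by
      intro hh
      apply hg
      rw [h.hN, Subgroup.mem_normalizer_iff]
      intro x
      constructor
      · intro hx
        rw [← hh]
        exact ⟨x, hx, rfl⟩
      · intro hx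
        rw [← hh] at hx
        obtain ⟨y, hy, hyx⟩ := hx
        have : y = x := by
          apply (MulAut.conj g).injective
          exact hyx
        rw [← this]; exact hy
    refine ⟨⟨_, hgne, g, rfl⟩, Finset.mem_univ _, hl.1, ?_⟩
    intro E hE
    obtain ⟨hE1, hE2⟩ := hl.2 E hE
    refine ⟨hE1, ?_⟩
    rintro x hx _ ⟨y, hy, rfl⟩
    have h4 : x * y = y * x := (h.comm y hy x (hE1.2 hx)).symm
    have h5 : g * x = x * g := hE2 x hx
    simp only [MulEquiv.toMonoidHom_eq_coe, MonoidHom.coe_coe, MulAut.conj_apply]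
    have h6 : x * g⁻¹ = g⁻¹ * x := by
      rw [eq_inv_mul_iff_mul_eq, ← mul_assoc, h5, mul_assoc, mul_inv_cancel, mul_one]
    calc x * (g * y * g⁻¹) = (x * g) * y * g⁻¹ := by group
      _ = g * (x * y) * g⁻¹ := by rw [← h5]; group
      _ = g * y * (x * g⁻¹) := by rw [h4]; group
      _ = g * y * g⁻¹ * x := by rw [h6]; group
  · intro be hbe hbbe hben hh
    obtain ⟨b, ⟨c1, hc1, rfl⟩, w, hw, hbw⟩ := Submodule.mem_sup.1 hh
    have hbw0 : bd w = 0 := by
      have h4 := congrArg bd hbw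
      rw [map_add, hbbe, bd_bd, zero_add] at h4
      exact h4
    obtain ⟨c2, hc2, hc2w⟩ := hrel w hw hbw0
    have h5 : c1 + c2 ∈ Sp 𝕜 (wk (Ain p K)) := Submodule.add_mem _ (Sp_mono st_wk hc1) hc2
    refine hben ⟨pi (c1 + c2), pi_mem h5, ?_⟩
    rw [bd_pi h5, map_add, hc2w, hbw, pi_of_st hbe]

/-- Detection through `L` below: a cycle of `K` that stays nonzero modulo `L`. -/
lemma case_a [Fact p.Prime] [Finite G] (h : Ctx p L N K πK πL) (h1 : NA 𝕜 (Ain p L))
    {be : Ch 𝕜 (Subgroup G)} (hbe : be ∈ Sp 𝕜 (st (Ain p K))) (hbbe : bd be = 0)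
    (hben : mp (fq N πL) be ∉ Bst 𝕜 (SRof L N πL (Ain p N))) : NA 𝕜 (ApS p G) := by
  obtain ⟨al, hal, hbal, haln⟩ := h1
  have hmst : mp (fq N πL) be ∈ Sp 𝕜 (st (SRof L N πL (Ain p N))) :=
    mp_mem (st_map (h.KSR (F := Ain p N) (fun E hE => ⟨hE.1, hE.2.trans h.KN⟩)) h.fst) hbe
  obtain ⟨lW, hnW, hW, -, hlW⟩ := exists_cocycle (SRof L N πL (Ain p N)) ⊥ (mp (fq N πL) be) (by
    rw [pi_of_st hmst, sup_bot_eq]; exact hben)
  obtain ⟨lD, hnD, hD, -, hlD⟩ := exists_cocycle (Ain p L) ⊥ al (by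
    rw [pi_of_st hal, sup_bot_eq]
    rintro ⟨c, hc, hcz⟩
    exact haln c hc hcz)
  refine detect N L h.LN πL h.hπL (SRof L N πL (Ain p N))
    (fun E hE hEL => ⟨E, hE, hEL, rfl⟩) lW lD hnW hnD hW hD ?_
    K L h.KN le_rfl (fun k hk l hl => (h.comm l hl k hk).symm) h.KL be al
    (Sp_mono st_wk hbe) (Sp_mono st_wk hal) hbbe hbal hlW hlD
  intro g hg l hl
  rcases l with _ | ⟨E, l⟩
  · obtain ⟨F, hF, hFL⟩ := exists_ApS_le (G := G) h.comp.dvd
    have : bd (single [F] (1 : 𝕜)) = single [] (1 : 𝕜) := by simp [bd_single_cons]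
    rw [← this]
    exact hD _ (single_mem_Sp ⟨by simp, by simpa using ⟨hF, hFL⟩⟩ _)
  · exfalso
    obtain ⟨hE, hEg⟩ := hl.2 E (by simp)
    apply hE.1.1
    rw [eq_bot_iff, ← h.LK]
    intro x hx
    refine Subgroup.mem_inf.2 ⟨hE.2 hx, ?_⟩
    rw [h.hK, Subgroup.mem_centralizer_iff]
    intro y hy
    rw [h.hN] at hg
    have h5 := h.comp.conj g hg y hy x (hE.2 hx)
    have h6 : g * x * g⁻¹ = x := by
      rw [hEg x hx, mul_assoc, mul_inv_cancel, mul_one]
    rwa [h6] at h5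

/-- Splitting of a cycle of `K` that bounds modulo `L`. -/
lemma split [Fact p.Prime] [Finite G] (h : Ctx p L N K πK πL)
    (hR1 : ∀ E ∈ Ain p N, ∀ x ∈ E, ∀ y ∈ E, x ∉ L ⊔ K → y ∉ L ⊔ K → y ∈ zpowers x ⊔ (L ⊔ K))
    {F : Set (Subgroup G)} (hF : F ⊆ Ain p N) (hKF : Ain p K ⊆ F)
    {be : Ch 𝕜 (Subgroup G)} (hbe : be ∈ Sp 𝕜 (st (Ain p K)))
    (hb : mp (fq N πL) be ∈ Bst 𝕜 (SRof L N πL F)) :
    ∃ c ∈ Sp 𝕜 (wk (Ain p K)), ∃ (s : Finset (Subgroup R)) (e : Subgroup R → Ch 𝕜 (Subgroup G)),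
      (∀ X ∈ s, X ∈ SRof L N πL F ∧ kap N K πL X = ⊥) ∧
      (∀ X ∈ s, e X ∈ Sp 𝕜 (wk (Ain p (K ⊓ centralizer ((pb N πL X : Subgroup G) : Set G)))) ∧
        bd (e X) = 0) ∧ be = bd c + ∑ X ∈ s, e X := by
  classical
  obtain ⟨c, hc, hcz⟩ := hb
  set SR : Set (Subgroup R) := SRof L N πL F with hSR
  have hSRa : SR ⊆ ApS p R := h.SR_ApS hF
  have hkmono : ∀ X Y, X ≤ Y → kap N K πL X ≤ kap N K πL Y := fun X Y h =>
    inf_le_inf_right _ (pb_mono h)
  have hkf : ∀ B ∈ Ain p K, kap N K πL (fq N πL B) = B := fun B hB =>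
    pb_fq h.hπL h.KN h.KL hB.2
  have hkA : ∀ X ∈ SR, kap N K πL X ≠ ⊥ → kap N K πL X ∈ Ain p K := fun X hX hne =>
    pb_inf_ApS h.hπL h.KL (hSRa hX).2.1 (hSRa hX).2.2 hne
  have key : ∀ X ∈ SR, ∀ Y ∈ SR, X ≤ Y → kap N K πL Y = ⊥ → X = Y := by
    rintro X ⟨E', hE', hE'L, rfl⟩ Y ⟨E, hE, hEL, rfl⟩ hXY hk
    refine le_antisymm hXY ?_
    obtain ⟨x', hx', hx'L⟩ := Set.not_subset.1 hE'L
    have hx'X : πL ⟨x', (hF hE').2 hx'⟩ ∈ fq N πL E' :=
      mem_fq.2 ⟨⟨x', (hF hE').2 hx'⟩, hx', rfl⟩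
    obtain ⟨x, hxE, hxx'⟩ := mem_fq.1 (hXY hx'X)
    have hxL : (x : G) ∉ L := by
      rw [← h.hπL, hxx', h.hπL]
      exact hx'L
    have hxLK : (x : G) ∉ L ⊔ K := fun hh => hxL (h.ELK (hF hE) hk x hxE hh)
    intro q hq
    obtain ⟨y, hyE, rfl⟩ := mem_fq.1 hq
    by_cases hyL : (y : G) ∈ L
    · rw [(h.hπL y).2 hyL]; exact one_mem _
    have hyLK : (y : G) ∉ L ⊔ K := fun hh => hyL (h.ELK (hF hE) hk y hyE hh)
    have h4 := hR1 E (hF hE) x hxE y hyE hxLK hyLK
    obtain ⟨i, l, hl, k, hk', hye⟩ := h.dec x.2 y.2 h4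
    have h5 : y = x ^ i * (⟨l, h.LN hl⟩ * ⟨k, h.KN hk'⟩) := Subtype.ext (by simpa using hye)
    have h6 : πL y = πL x ^ i * πL ⟨k, h.KN hk'⟩ := by
      rw [h5, map_mul, map_mul, (h.hπL ⟨l, h.LN hl⟩).2 hl, one_mul, map_zpow]
    have hxY : πL x ∈ fq N πL E := mem_fq.2 ⟨x, hxE, rfl⟩
    have h7 : πL ⟨k, h.KN hk'⟩ ∈ fq N πL E := by
      have : πL ⟨k, h.KN hk'⟩ = (πL x ^ i)⁻¹ * πL y := by rw [h6]; group
      rw [this]
      exact mul_mem (inv_mem (zpow_mem hxY i)) (mem_fq.2 ⟨y, hyE, rfl⟩)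
    have h8 : k ∈ kap N K πL (fq N πL E) :=
      Subgroup.mem_inf.2 ⟨mem_pb.2 ⟨⟨k, h.KN hk'⟩, rfl, h7⟩, hk'⟩
    rw [hk, Subgroup.mem_bot] at h8
    have h9 : (⟨k, h.KN hk'⟩ : N) = 1 := Subtype.ext h8
    rw [h6, h9, map_one, mul_one, hxx']
    exact zpow_mem hx'X i
  let P : Set (Subgroup R) := {X | X ∈ SR ∧ kap N K πL X = ⊥}
  have hfz : mp (fq N πL) be ∈ Sp 𝕜 (st (SR \ P)) := by
    refine mp_mem (st_map (T := SR \ P) (fun B hB => ⟨h.KSR hKF B hB, fun h => ?_⟩) h.fst) hbe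
    exact hB.1.1 ((hkf B hB).symm.trans h.2)
  obtain ⟨c0, hc0, s, e, hs, he, hsum⟩ := exact_split (S := SR) (P := P)
    (fun X hX Y hY hYX => key Y hY X hX.1 hYX hX.2) hc hfz hcz
  have hmk : mp (kap N K πL) (mp (fq N πL) be) = be := by
    rw [mp_mp]
    have := eq_of_Sp (F := mp (kap N K πL ∘ fq N πL)) (G := LinearMap.id)
      (fun l (hl : st (Ain p K) l) => by
        rw [mp_single]
        have : l.map (kap N K πL ∘ fq N πL) = l := by
          conv_rhs => rw [← List.map_id l]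
          exact List.map_congr_left fun E hE => hkf E (hl.2 E hE)
        rw [this]; rfl) hbe
    simpa using this
  refine ⟨mp (kap N K πL) c0, ?_, s, fun X => mp (kap N K πL) (e X), ?_, ?_, ?_⟩
  · exact mp_mem (wk_map (S := SR \ P) (fun X hX => hkA X hX.1 fun h => hX.2 ⟨hX.1, h⟩)
      fun X _ Y _ h => hkmono X Y h) (Sp_mono st_wk hc0)
  · intro X hX
    exact ⟨(hs X hX).2, (hs X hX).1.2⟩
  · intro X hX
    refine ⟨?_, by rw [bd_mp, (he X hX).2, map_zero]⟩
    have hXP := (hs X hX).1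
    refine mp_mem (wk_map (S := {Y | Y ∈ SR ∧ X < Y}) ?_
      fun X _ Y _ h => hkmono X Y h) (Sp_mono st_wk (he X hX).1)
    rintro Y ⟨hY, hXY⟩
    have h4 := hkA Y hY fun h => hXY.ne (key X hXP.1 Y hY hXY.le h)
    refine ⟨h4.1, le_inf inf_le_right ?_⟩
    intro k hk
    obtain ⟨hk1, hk2⟩ := Subgroup.mem_inf.1 hk
    obtain ⟨k', rfl, hk'⟩ := mem_pb.1 hk1
    rw [Subgroup.mem_centralizer_iff]
    intro h1 hh
    obtain ⟨h', rfl, hh'⟩ := mem_pb.1 hh
    have h5 : πL (h' * k') = πL (k' * h') := by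
      rw [map_mul, map_mul]
      exact (hSRa hY).2.1 _ (hXY.le hh') _ hk'
    have h6 : ((h' * k' * h'⁻¹ * k'⁻¹ : N) : G) ∈ K ⊓ L := by
      refine Subgroup.mem_inf.2 ⟨?_, ?_⟩
      · rw [← h.hπK, map_mul, map_mul, map_mul, map_inv, map_inv, (h.hπK k').2 hk2]
        group
      · rw [← h.hπL, map_mul, map_mul, map_inv, map_inv, h5, map_mul]
        group
    rw [h.KL, Subgroup.mem_bot] at h6
    have h7 : h' * k' * h'⁻¹ * k'⁻¹ = 1 := Subtype.ext h6
    have h8 : h' * k' = k' * h' := by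
      rw [mul_inv_eq_one, mul_inv_eq_iff_eq_mul] at h7
      exact h7
    exact congrArg Subtype.val h8
  · conv_lhs => rw [← hmk, hsum, map_add, map_sum, ← bd_mp]

/-- lifts of subgroups of `Q` to `L⟨x⟩` -/
lemma lift_fq (h : Ctx p L N K πK πL) {X : Subgroup R} {x : N} (hx : πL x ∈ X)
    {E : Subgroup Q} (hl : ∀ n : N, πK n ∈ E → (n : G) ∈ zpowers (x : G) ⊔ (L ⊔ K)) :
    fq N πK (pb N πK E ⊓ pb N πL X) = E := by
  refine le_antisymm ?_ ?_
  · intro q hq
    obtain ⟨n, hn, rfl⟩ := mem_fq.1 hq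
    obtain ⟨n', hn', h4⟩ := mem_pb.1 (Subgroup.mem_inf.1 hn).1
    rw [← Subtype.ext hn']
    exact h4
  · intro q hq
    obtain ⟨n, rfl⟩ := h.hsurj q
    obtain ⟨i, l, hl', k, hk', hne⟩ := h.dec x.2 n.2 (hl n hq)
    have h5 : n = (x ^ i * ⟨l, h.LN hl'⟩) * ⟨k, h.KN hk'⟩ := by
      refine Subtype.ext ?_
      rw [hne]
      simp [mul_assoc]
    have h6 : πK (x ^ i * ⟨l, h.LN hl'⟩) = πK n := by
      conv_rhs => rw [h5, map_mul, (h.hπK ⟨k, h.KN hk'⟩).2 hk', mul_one]
    refine mem_fq.2 ⟨x ^ i * ⟨l, h.LN hl'⟩, Subgroup.mem_inf.2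
      ⟨mem_pb.2 ⟨_, rfl, by rw [h6]; exact hq⟩, mem_pb.2 ⟨_, rfl, ?_⟩⟩, h6⟩
    rw [map_mul, (h.hπL ⟨l, h.LN hl'⟩).2 hl', mul_one, map_zpow]
    exact zpow_mem hx i

lemma lift_mem (h : Ctx p L N K πK πL) {X : Subgroup R} {x : N} (hx : πL x ∈ X)
    (hkX : kap N K πL X = ⊥) {E : Subgroup Q} (hE : E ∈ ApS p Q)
    (hl : ∀ n : N, πK n ∈ E → (n : G) ∈ zpowers (x : G) ⊔ (L ⊔ K)) :
    pb N πK E ⊓ pb N πL X ∈ Ain p (pb N πL X) := by
  refine pb_inf_ApS h.hπK hkX hE.2.1 hE.2.2 fun h' => hE.1 ?_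
  have h4 := h.lift_fq hx hl
  rw [h'] at h4
  rw [← h4, eq_bot_iff]
  intro q hq
  obtain ⟨n, hn, rfl⟩ := mem_fq.1 hq
  rw [Subgroup.mem_bot] at hn
  have : n = 1 := Subtype.ext hn
  rw [this, map_one]
  exact one_mem _

end Ctx

end Vale.Agent.P240.K
end

section

namespace Vale.Agent.P240.K

open Finsupp Subgroup

variable {𝕜 : Type*} [Field 𝕜]

/-! ### Generalities on chains -/

lemma Sp_or {α : Type*} {P P1 P2 : List α → Prop} (h : ∀ l, P l → P1 l ∨ P2 l) {c : Ch 𝕜 α}
    (hc : c ∈ Sp 𝕜 P) : ∃ c1 ∈ Sp 𝕜 P1, ∃ c2 ∈ Sp 𝕜 P2, c = c1 + c2 := by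
  have hsplit : c ∈ Sp 𝕜 P1 ⊔ Sp 𝕜 P2 := by
    rw [Sp, Sp, ← Finsupp.supported_union]
    exact Finsupp.supported_mono (fun l hl => h l hl) hc
  obtain ⟨c1, h1, c2, h2, h3⟩ := Submodule.mem_sup.1 hsplit
  exact ⟨c1, h1, c2, h2, h3.symm⟩

lemma lam_of_len' {α : Type*} {lam : Ch 𝕜 α →ₗ[𝕜] 𝕜} {n : ℕ} {P : List α → Prop}
    (h : ∀ l : List α, l.length ≠ n → lam (single l (1 : 𝕜)) = 0) (hP : ∀ l, P l → l.length ≠ n)
    {c : Ch 𝕜 α} (hc : c ∈ Sp 𝕜 P) : lam c = 0 := by
  have := eq_of_Sp (F := lam) (G := 0) (fun l (hl : P l) => by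
    rw [h l (hP l hl)]; rfl) hc
  simpa using this

lemma bd_len_mem {α : Type*} {n : ℕ} {c : Ch 𝕜 α} (hc : c ∈ Sp 𝕜 (fun l : List α => l.length = n)) :
    bd c ∈ Sp 𝕜 (fun l : List α => l.length + 1 = n) := by
  refine map_mem bd (fun l hl => ?_) hc
  refine Sp_mono (fun m hm => ?_) (bd_single_len l)
  rw [hm, hl]

lemma mp_len_mem {α β : Type*} {f : α → β} {n : ℕ} {c : Ch 𝕜 α}
    (hc : c ∈ Sp 𝕜 (fun l : List α => l.length = n)) :
    mp f c ∈ Sp 𝕜 (fun l : List β => l.length = n) :=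
  mp_mem (fun l hl => by simpa using hl) hc

lemma mp_congr {α β : Type*} {f g : α → β} {P : List α → Prop}
    (h : ∀ l, P l → ∀ a ∈ l, f a = g a) {c : Ch 𝕜 α} (hc : c ∈ Sp 𝕜 P) : mp f c = mp g c :=
  eq_of_Sp (F := mp f) (G := mp g) (fun l hl => by
    rw [mp_single, mp_single, List.map_congr_left (h l hl)]) hc

lemma mp_eq_self {α : Type*} {f : α → α} {P : List α → Prop}
    (h : ∀ l, P l → ∀ a ∈ l, f a = a) {c : Ch 𝕜 α} (hc : c ∈ Sp 𝕜 P) : mp f c = c := by
  have := eq_of_Sp (F := mp f) (G := LinearMap.id) (fun l hl => by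
    rw [mp_single, List.map_congr_left (h l hl)]
    simp) hc
  simpa using this

variable {G Q R : Type*} [Group G] [Group Q] [Group R] {p : ℕ}

/-- two different types of outer subgroups -/
structure Two (p : ℕ) (L N K : Subgroup G) (N1 N2 : Subgroup G) : Prop where
  le1 : N1 ≤ N
  le2 : N2 ≤ N
  LK1 : L ⊔ K ≤ N1
  LK2 : L ⊔ K ≤ N2
  inf : ∀ x ∈ N1, x ∈ N2 → x ∈ L ⊔ K
  cyc1 : ∀ x ∈ N1, x ∉ L ⊔ K → ∀ y ∈ N1, y ∈ zpowers x ⊔ (L ⊔ K)
  cyc2 : ∀ x ∈ N2, x ∉ L ⊔ K → ∀ y ∈ N2, y ∈ zpowers x ⊔ (L ⊔ K)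
  cov : ∀ x ∈ N, x ^ p ∈ K → x ∈ N1 ∨ x ∈ N2

lemma Two.symm {L N K N1 N2 : Subgroup G} (t : Two p L N K N1 N2) : Two p L N K N2 N1 :=
  ⟨t.le2, t.le1, t.LK2, t.LK1, fun x h1 h2 => t.inf x h2 h1, t.cyc2, t.cyc1,
    fun x hx hp => (t.cov x hx hp).symm⟩

/-- image of `N1` in `Q` -/
def Gam (N : Subgroup G) (πK : N →* Q) (N1 : Subgroup G) : Subgroup Q :=
  (N1.subgroupOf N).map πK

/-- lift of a subgroup of `Q` -/
def sig (N : Subgroup G) (πK : N →* Q) (πL : N →* R) (X : Subgroup R) (E : Subgroup Q) :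
    Subgroup G := pb N πK E ⊓ pb N πL X

section
variable {L N K N1 N2 : Subgroup G} {πK : N →* Q} {πL : N →* R}

lemma mem_Gam (h : Ctx p L N K πK πL) (hK1 : K ≤ N1) {n : N} :
    πK n ∈ Gam N πK N1 ↔ (n : G) ∈ N1 := by
  rw [Gam, Subgroup.mem_map]
  constructor
  · rintro ⟨m, hm, hmn⟩
    have h1 : ((m⁻¹ * n : N) : G) ∈ K := by
      rw [← h.hπK, map_mul, map_inv, hmn, inv_mul_cancel]
    have h2 : (n : G) = m * ((m⁻¹ * n : N) : G) := by simp
    rw [h2]
    exact mul_mem hm (hK1 h1)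
  · intro hn
    exact ⟨n, hn, rfl⟩

lemma Two.E_or (t : Two p L N K N1 N2) {E : Subgroup G} (hE : E ∈ Ain p N) :
    E ≤ N1 ∨ E ≤ N2 := by
  rw [← SubgroupClass.subset_union]
  intro x hx
  refine t.cov x (hE.2 hx) ?_
  rw [hE.1.2.2 x hx]
  exact one_mem _

lemma Two.hR1 (t : Two p L N K N1 N2) : ∀ E ∈ Ain p N, ∀ x ∈ E, ∀ y ∈ E, x ∉ L ⊔ K →
    y ∉ L ⊔ K → y ∈ zpowers x ⊔ (L ⊔ K) := by
  intro E hE x hx y hy hxL _
  rcases t.E_or hE with h | h
  · exact t.cyc1 x (h hx) hxL y (h hy)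
  · exact t.cyc2 x (h hx) hxL y (h hy)

lemma Two.Q_or (h : Ctx p L N K πK πL) (t : Two p L N K N1 N2) {E : Subgroup Q}
    (hE : E ∈ ApS p Q) : E ∈ Ain p (Gam N πK N1) ∨ E ∈ Ain p (Gam N πK N2) := by
  have h1 : ((pb N πK E : Subgroup G) : Set G) ⊆ N1 ∪ N2 := by
    intro g hg
    obtain ⟨n, rfl, hn⟩ := mem_pb.1 hg
    refine t.cov n n.2 ?_
    have : ((n ^ p : N) : G) ∈ K := by rw [← h.hπK, map_pow, hE.2.2 _ hn]
    simpa using this
  rw [SubgroupClass.subset_union] at h1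
  rcases h1 with h1 | h1
  · left
    refine ⟨hE, fun q hq => ?_⟩
    obtain ⟨n, rfl⟩ := h.hsurj q
    exact (mem_Gam h (le_sup_right.trans t.LK1)).2 (h1 (mem_pb.2 ⟨n, rfl, hq⟩))
  · right
    refine ⟨hE, fun q hq => ?_⟩
    obtain ⟨n, rfl⟩ := h.hsurj q
    exact (mem_Gam h (le_sup_right.trans t.LK2)).2 (h1 (mem_pb.2 ⟨n, rfl, hq⟩))

lemma Two.st_or (h : Ctx p L N K πK πL) (t : Two p L N K N1 N2) (l : List (Subgroup Q))
    (hl : st (ApS p Q) l) : st (Ain p (Gam N πK N1)) l ∨ st (Ain p (Gam N πK N2)) l := by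
  rcases l with _ | ⟨E, l⟩
  · exact Or.inl ⟨by simp, by simp⟩
  · have hp := List.pairwise_cons.1 hl.1
    have hle : ∀ F ∈ E :: l, F ≤ E := by
      intro F hF
      rcases List.mem_cons.1 hF with h | h
      · rw [h]
      · exact (hp.1 F h).le
    rcases t.Q_or h (hl.2 E (by simp)) with h1 | h1
    · exact Or.inl ⟨hl.1, fun F hF => ⟨hl.2 F hF, (hle F hF).trans h1.2⟩⟩
    · exact Or.inr ⟨hl.1, fun F hF => ⟨hl.2 F hF, (hle F hF).trans h1.2⟩⟩

lemma sig_mono {X : Subgroup R} {E F : Subgroup Q} (hEF : E ≤ F) :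
    sig N πK πL X E ≤ sig N πK πL X F := inf_le_inf_right _ (pb_mono hEF)

lemma pb_bot (h : Ctx p L N K πK πL) : pb N πL ⊥ = L := by
  ext g
  rw [mem_pb]
  constructor
  · rintro ⟨n, rfl, hn⟩
    rw [Subgroup.mem_bot, h.hπL] at hn
    exact hn
  · intro hg
    exact ⟨⟨g, h.LN hg⟩, rfl, by rw [Subgroup.mem_bot, h.hπL]; exact hg⟩

lemma kap_bot (h : Ctx p L N K πK πL) : kap N K πL ⊥ = ⊥ := by
  rw [kap, pb_bot h, h.LK]

lemma L_le_pb (h : Ctx p L N K πK πL) (X : Subgroup R) : L ≤ pb N πL X := by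
  intro l hl
  refine mem_pb.2 ⟨⟨l, h.LN hl⟩, rfl, ?_⟩
  rw [(h.hπL ⟨l, h.LN hl⟩).2 hl]
  exact one_mem _

lemma sig_eq (h : Ctx p L N K πK πL) {X : Subgroup R} (hX : kap N K πL X = ⊥) {E : Subgroup Q}
    (hE : ∀ n : N, πK n ∈ E → (n : G) ∈ L ⊔ K) : sig N πK πL X E = sig N πK πL ⊥ E := by
  rw [sig, sig, pb_bot h]
  refine le_antisymm (le_inf inf_le_left ?_) (inf_le_inf_left _ (L_le_pb h X))
  intro g hg
  obtain ⟨hg1, hg2⟩ := Subgroup.mem_inf.1 hg
  obtain ⟨n, rfl, hn⟩ := mem_pb.1 hg1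
  obtain ⟨l, hl, k, hk, hlk⟩ := h.dec' (hE n hn)
  have hk2 : k ∈ kap N K πL X := by
    refine Subgroup.mem_inf.2 ⟨?_, hk⟩
    have : k = l⁻¹ * (n : G) := by rw [hlk]; group
    rw [this]
    exact mul_mem (inv_mem (L_le_pb h X hl)) hg2
  rw [hX, Subgroup.mem_bot] at hk2
  rw [hlk, hk2, mul_one]
  exact hl

lemma inner_of (h : Ctx p L N K πK πL) (t : Two p L N K N1 N2) {E : Subgroup Q}
    (h1 : E ≤ Gam N πK N1) (h2 : E ≤ Gam N πK N2) : ∀ n : N, πK n ∈ E → (n : G) ∈ L ⊔ K :=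
  fun n hn => t.inf n ((mem_Gam h (le_sup_right.trans t.LK1)).1 (h1 hn))
    ((mem_Gam h (le_sup_right.trans t.LK2)).1 (h2 hn))

lemma sig_bot_spec (h : Ctx p L N K πK πL) {E : Subgroup Q} (hE : E ∈ ApS p Q)
    (hin : ∀ n : N, πK n ∈ E → (n : G) ∈ L ⊔ K) :
    fq N πK (sig N πK πL ⊥ E) = E ∧ sig N πK πL ⊥ E ∈ Ain p L := by
  have hx : πL (1 : N) ∈ (⊥ : Subgroup R) := by rw [map_one]; exact one_mem _
  have hl : ∀ n : N, πK n ∈ E → (n : G) ∈ zpowers ((1 : N) : G) ⊔ (L ⊔ K) :=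
    fun n hn => Subgroup.mem_sup_right (hin n hn)
  refine ⟨h.lift_fq hx hl, ?_⟩
  have := h.lift_mem hx (kap_bot h) hE hl
  rw [pb_bot h] at this
  rw [sig, pb_bot h]
  exact this

/-- the Mayer-Vietoris step -/
lemma mv1 (h : Ctx p L N K πK πL) (t : Two p L N K N1 N2)
    (hZ : ∀ al ∈ Sp 𝕜 (st (Ain p L)), bd al = 0 →
      mp (fq N πK) al ∈ Bst 𝕜 (Ain p (Gam N πK N1)))
    {om : Ch 𝕜 (Subgroup Q)} (hom : om ∈ Sp 𝕜 (st (Ain p (Gam N πK N1))))
    (hon : om ∈ Bst 𝕜 (ApS p Q)) : om ∈ Bst 𝕜 (Ain p (Gam N πK N1)) := by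
  obtain ⟨c, hc, hco⟩ := hon
  obtain ⟨c1, hc1, c2, hc2, hcc⟩ := Sp_or (t.st_or h) hc
  set v := bd c2 with hv
  have hv1 : v ∈ Sp 𝕜 (st (Ain p (Gam N πK N1))) := by
    have : v = om - bd c1 := by rw [← hco, hcc, map_add]; abel
    rw [this]
    exact Submodule.sub_mem _ hom (bd_st hc1)
  have hv2 : v ∈ Sp 𝕜 (st (Ain p (Gam N πK N2))) := bd_st hc2
  have hv3 := mem_Sp_inf hv1 hv2
  have hin : ∀ l : List (Subgroup Q), (st (Ain p (Gam N πK N1)) l ∧ st (Ain p (Gam N πK N2)) l) →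
      ∀ E ∈ l, E ∈ ApS p Q ∧ ∀ n : N, πK n ∈ E → (n : G) ∈ L ⊔ K := fun l hl E hE =>
    ⟨(hl.1.2 E hE).1, inner_of h t (hl.1.2 E hE).2 (hl.2.2 E hE).2⟩
  have h1 : mp (sig N πK πL ⊥) v ∈ Sp 𝕜 (st (Ain p L)) := by
    refine mp_mem ?_ hv3
    intro l hl
    refine ⟨?_, ?_⟩
    · rw [List.pairwise_map]
      refine hl.1.1.imp_of_mem ?_
      intro E F hE hF hEF
      refine lt_of_le_of_ne (sig_mono hEF.le) fun he => hEF.ne ?_
      rw [← (sig_bot_spec h (hin l hl E hE).1 (hin l hl E hE).2).1,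
        ← (sig_bot_spec h (hin l hl F hF).1 (hin l hl F hF).2).1, he]
    · intro E' hE'
      obtain ⟨E, hE, rfl⟩ := List.mem_map.1 hE'
      exact (sig_bot_spec h (hin l hl E hE).1 (hin l hl E hE).2).2
  have h2 : mp (fq N πK) (mp (sig N πK πL ⊥) v) = v := by
    rw [mp_mp]
    exact mp_eq_self (fun l hl E hE => (sig_bot_spec h (hin l hl E hE).1 (hin l hl E hE).2).1) hv3
  have h3 := hZ _ h1 (by rw [bd_mp, hv, bd_bd, map_zero])
  rw [h2] at h3
  have h4 : om = bd c1 + v := by rw [← hco, hcc, map_add]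
  rw [h4]
  exact Submodule.add_mem _ ⟨c1, hc1, rfl⟩ h3

/-- existence of a useful class in `Q` -/
lemma om_exists (h : Ctx p L N K πK πL) (t : Two p L N K N1 N2)
    (hZ : ∀ al ∈ Sp 𝕜 (st (Ain p L)), bd al = 0 →
      mp (fq N πK) al ∈ Bst 𝕜 (Ain p (Gam N πK N1)))
    (hG1 : NA 𝕜 (Ain p (Gam N πK N1))) :
    ∃ om ∈ Sp 𝕜 (st (Ain p (Gam N πK N1))), bd om = 0 ∧ om ∉ Bst 𝕜 (ApS p Q) := by
  obtain ⟨om, hom, hbom, homn⟩ := hG1
  refine ⟨om, hom, hbom, fun hon => ?_⟩
  obtain ⟨c, hc, hcz⟩ := mv1 h t hZ hom hon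
  exact homn c hc hcz

/-- the basic product detection -/
lemma d1 [Fact p.Prime] [Finite G] (h : Ctx p L N K πK πL) (hK1 : L ⊔ K ≤ N1)
    (hcyc : ∀ x ∈ N1, x ∉ L ⊔ K → ∀ y ∈ N1, y ∈ zpowers x ⊔ (L ⊔ K))
    {V : Submodule 𝕜 (Ch 𝕜 (Subgroup G))}
    (hV : ∀ g, g ∉ N → ∀ l, wk {E | E ∈ Ain p K ∧ ∀ x ∈ E, g * x = x * g} l →
        pi (single l (1 : 𝕜)) ∈ V)
    {om : Ch 𝕜 (Subgroup Q)} (hom : om ∈ Sp 𝕜 (st (Ain p (Gam N πK N1)))) (hbom : bd om = 0)
    (homn : om ∉ Bst 𝕜 (ApS p Q))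
    {X : Subgroup R} (hX : X ∈ SRof L N πL (Ain p N)) (hX1 : ∀ E ∈ Ain p N, fq N πL E = X →
      E ≤ N1) (hkX : kap N K πL X = ⊥)
    {e : Ch 𝕜 (Subgroup G)}
    (he : e ∈ Sp 𝕜 (wk (Ain p (K ⊓ centralizer ((pb N πL X : Subgroup G) : Set G)))))
    (hbe : bd e = 0) (hen : pi e ∉ Bst 𝕜 (Ain p K) ⊔ V) : NA 𝕜 (ApS p G) := by
  obtain ⟨E', hE', hE'L, hE'X⟩ := hX
  obtain ⟨x, hx, hxL⟩ := Set.not_subset.1 hE'L
  have hxLK : x ∉ L ⊔ K := fun hh => hxL (h.ELK hE' (by rw [hE'X]; exact hkX) x hx hh)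
  have hxN1 : x ∈ N1 := hX1 E' hE' hE'X hx
  set x' : N := ⟨x, hE'.2 hx⟩ with hx'
  have hx'X : πL x' ∈ X := by
    rw [← hE'X]
    exact mem_fq.2 ⟨x', hx, rfl⟩
  have hl : ∀ E ∈ Ain p (Gam N πK N1), ∀ n : N, πK n ∈ E →
      (n : G) ∈ zpowers (x' : G) ⊔ (L ⊔ K) := fun E hE n hn =>
    hcyc x hxN1 hxLK n ((mem_Gam h (le_sup_right.trans hK1)).1 (hE.2 hn))
  obtain ⟨lD, hnD, hD, hDV, hlD⟩ := exists_cocycle (Ain p K) V e hen
  obtain ⟨lW, hnW, hW, -, hlW⟩ := exists_cocycle (ApS p Q) ⊥ om (by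
    rw [pi_of_st hom, sup_bot_eq]
    exact homn)
  have hsx : mp (sig N πK πL X) om ∈ Sp 𝕜 (wk (Ain p (pb N πL X))) :=
    mp_mem (wk_map (fun E hE => h.lift_mem hx'X hkX hE.1 (hl E hE))
      fun E _ F _ hh => sig_mono hh) (Sp_mono st_wk hom)
  have hfx : mp (fq N πK) (mp (sig N πK πL X) om) = om := by
    rw [mp_mp]
    exact mp_eq_self (fun l hl' E hE => h.lift_fq hx'X (hl E (hl'.2 E hE))) hom
  have h12 : ∀ a ∈ pb N πL X, ∀ b ∈ K ⊓ centralizer ((pb N πL X : Subgroup G) : Set G),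
      a * b = b * a := fun a ha b hb => (Subgroup.mem_centralizer_iff.1 hb.2) a ha
  refine detect_gen N (phN N K πK lW lD) (phN_coc h.hπK hW hD) (phN_nrm hnW hnD) ?_
    (sh (mp (sig N πK πL X) om) e) (sh_mem_N pb_le (inf_le_left.trans h.KN) h12 hsx he) ?_ ?_
  · intro g hg _ l hl'
    exact phN_van (P := fun E => ∀ x ∈ E, g * x = x * g)
      (fun l hl => hDV _ (hV g hg l hl)) l hl'
  · rw [bd_sh, bd_mp, hbom, hbe, map_zero, map_zero, LinearMap.zero_apply, map_zero, add_zero]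
  · rw [phN_sh h.hπK h.KN hnW pb_le inf_le_left hkX hsx he, hfx]
    exact mul_ne_zero hlW hlD

end

end Vale.Agent.P240.K
end

section

namespace Vale.Agent.P240.K

open Finsupp Subgroup

variable {𝕜 : Type*} [Field 𝕜]

variable {G Q R : Type*} [Group G] [Group Q] [Group R] {p : ℕ}
variable {L N K N1 N2 : Subgroup G} {πK : N →* Q} {πL : N →* R}

/-- lower set used for the mixed functional -/
def DH (L K N1 : Subgroup G) : Set (Subgroup G) := {E | E ≤ N1 ∧ E ⊓ (L ⊔ K) ≤ L}

open Classical in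
/-- the map used for the mixed functional -/
noncomputable def fH (L N K N2 : Subgroup G) (πL : N →* R) (E : Subgroup G) : Subgroup R :=
  if E ≤ N2 then fq N πL E else fq N πL (E ⊓ (L ⊔ K))

/-- Mixed detection: the first type is killed on the side of `L`, the second one on the
side of `K`. -/
lemma hybrid [Fact p.Prime] [Finite G] (h : Ctx p L N K πK πL) (t : Two p L N K N1 N2) {n : ℕ}
    (hm : (∀ g : G, g ^ p = 1 → g ∈ N) ∨ 2 ≤ n)
    {al : Ch 𝕜 (Subgroup G)} (hal : al ∈ Sp 𝕜 (st (Ain p L)))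
    (haln : al ∈ Sp 𝕜 (fun l : List (Subgroup G) => l.length = n)) (hbal : bd al = 0)
    (hane : mp (fq N πK) al ∉ Bst 𝕜 (Ain p (Gam N πK N1)))
    {be : Ch 𝕜 (Subgroup G)} (hbe : be ∈ Sp 𝕜 (st (Ain p K))) (hbbe : bd be = 0)
    (hben : mp (fq N πL) be ∉ Bst 𝕜 (SRof L N πL (Ain p N2))) : NA 𝕜 (ApS p G) := by
  classical
  have hK1 : K ≤ N1 := le_sup_right.trans t.LK1
  have hK2 : K ≤ N2 := le_sup_right.trans t.LK2
  have hL1 : L ≤ N1 := le_sup_left.trans t.LK1
  have hL2 : L ≤ N2 := le_sup_left.trans t.LK2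
  -- functionals
  have hmst : mp (fq N πL) be ∈ Sp 𝕜 (st (SRof L N πL (Ain p N2))) :=
    mp_mem (st_map (h.KSR (F := Ain p N2) (fun E hE => ⟨hE.1, hE.2.trans hK2⟩)) h.fst) hbe
  obtain ⟨lW, hnW, hW, -, hlW⟩ := exists_cocycle (SRof L N πL (Ain p N2)) ⊥ (mp (fq N πL) be) (by
    rw [pi_of_st hmst, sup_bot_eq]; exact hben)
  have hLQ : ∀ E ∈ Ain p L, fq N πK E ∈ Ain p (Gam N πK N1) := by
    intro E hE
    refine ⟨fq_mem_ApS h.hπK hE.1 (hE.2.trans h.LN) fun hh =>
      hE.1.1 (le_bot_iff.1 (h.LK ▸ le_inf hE.2 hh)), ?_⟩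
    intro q hq
    obtain ⟨m, hm', rfl⟩ := mem_fq.1 hq
    exact (mem_Gam h hK1).2 (hL1 (hE.2 hm'))
  have hLst : ∀ B ∈ Ain p L, ∀ B' ∈ Ain p L, B < B' → fq N πK B < fq N πK B' := by
    intro B hB B' hB' hh
    refine lt_of_le_of_ne (fq_mono hh.le) fun he => hh.ne ?_
    rw [← pb_fq h.hπK h.LN h.LK hB.2, ← pb_fq h.hπK h.LN h.LK hB'.2, he]
  have hast : mp (fq N πK) al ∈ Sp 𝕜 (st (Ain p (Gam N πK N1))) := mp_mem (st_map hLQ hLst) hal
  obtain ⟨lG, hnG, hG, hlG, hlen⟩ := exists_cocycle_len (Ain p (Gam N πK N1)) ⊥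
    (mp (fq N πK) al) n (mp_len_mem haln) (by rw [pi_of_st hast, sup_bot_eq]; exact hane)
  set lD : Ch 𝕜 (Subgroup G) →ₗ[𝕜] 𝕜 := (lG.comp (mp (fq N πK))).comp pi with hlD
  have hnD : Nrm lD := by
    intro l hl
    rw [hlD, LinearMap.comp_apply, pi_single, if_neg hl, map_zero]
  have hlDlen : ∀ l : List (Subgroup G), l.length ≠ n → lD (single l (1 : 𝕜)) = 0 := by
    intro l hl
    rw [hlD, LinearMap.comp_apply, pi_single]
    split_ifs
    · rw [LinearMap.comp_apply, mp_single]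
      exact hlen _ (by simpa using hl)
    · rw [map_zero]
  have hDA : ∀ E ∈ Ain p N ∩ DH L K N1, fq N πK E ∈ Ain p (Gam N πK N1) := by
    rintro E ⟨hE, hE1, hE2⟩
    refine ⟨fq_mem_ApS h.hπK hE.1 hE.2 fun hh => hE.1.1 ?_, ?_⟩
    · rw [eq_bot_iff, ← h.LK]
      refine le_inf ?_ hh
      rw [inf_eq_left.2 (hh.trans le_sup_right)] at hE2
      exact hE2
    · intro q hq
      obtain ⟨m, hm', rfl⟩ := mem_fq.1 hq
      exact (mem_Gam h hK1).2 (hE1 hm')
  have hD : Coc (Ain p N ∩ DH L K N1) lD := by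
    intro c hc
    rw [hlD, LinearMap.comp_apply, ← bd_pi hc, LinearMap.comp_apply, ← bd_mp]
    exact hG _ (mp_mem (wk_map hDA fun E _ F _ hh => fq_mono hh) (Sp_mono st_wk (pi_mem hc)))
  have hlow : ∀ x ∈ Ain p N, ∀ y ∈ Ain p N, x ≤ y → y ∈ DH L K N1 → x ∈ DH L K N1 :=
    fun x _ y _ hxy hy => ⟨hxy.trans hy.1, (inf_le_inf_right _ hxy).trans hy.2⟩
  -- members of type one
  have htype : ∀ E ∈ Ain p N, ¬ E ≤ N2 → E ≤ N1 := fun E hE hE2 =>
    (t.E_or hE).resolve_right hE2
  have hfSR : ∀ E ∈ Ain p N, E ∉ DH L K N1 → fH L N K N2 πL E ∈ SRof L N πL (Ain p N2) := by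
    intro E hE hED
    rw [fH]
    split_ifs with h2
    · refine ⟨E, ⟨hE.1, h2⟩, fun hEL => hED ⟨hEL.trans hL1, inf_le_left.trans hEL⟩, rfl⟩
    · have h3 := htype E hE h2
      have h4 : ¬ E ⊓ (L ⊔ K) ≤ L := fun hh => hED ⟨h3, hh⟩
      refine ⟨E ⊓ (L ⊔ K), ⟨mem_ApS_of_le hE.1 inf_le_left ?_, inf_le_right.trans t.LK2⟩, h4, rfl⟩
      intro hb
      apply h4
      rw [hb]
      exact bot_le
  have hfmono : ∀ x ∈ Ain p N, x ∉ DH L K N1 → ∀ y ∈ Ain p N, y ∉ DH L K N1 → x ≤ y →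
      fH L N K N2 πL x ≤ fH L N K N2 πL y := by
    intro x hx _ y hy _ hxy
    rw [fH, fH]
    by_cases hy2 : y ≤ N2
    · rw [if_pos hy2, if_pos (hxy.trans hy2)]
      exact fq_mono hxy
    · rw [if_neg hy2]
      have hy1 := htype y hy hy2
      split_ifs with hx2
      · refine fq_mono (le_inf hxy ?_)
        intro a ha
        exact t.inf a (hy1 (hxy ha)) (hx2 ha)
      · exact fq_mono (inf_le_inf_right _ hxy)
  have hcoc : Coc (Ain p N) (phi (DH L K N1) (fH L N K N2 πL) lW lD) :=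
    phi_coc hlow hfSR hfmono hW hD
  -- vanishing on lists commuting with a mover
  have hvan : ∀ g, g ∉ N → 2 ≤ n → ∀ l, wk {E | E ∈ Ain p N ∧ ∀ x ∈ E, g * x = x * g} l →
      PhiL (DH L K N1) (fH L N K N2 πL) lW lD l = 0 := by
    intro g hg hn l
    induction l with
    | nil =>
      intro _
      rw [PhiL, hlDlen [] (by simp; omega), zero_smul]
    | cons E l ih =>
      intro hl
      have hp := List.pairwise_cons.1 hl.1
      by_cases hE : E ∈ DH L K N1
      · rw [PhiL_cons_mem hE]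
        -- inner parts are trivial
        have hbot : ∀ F ∈ Ain p N, F ∈ DH L K N1 → (∀ x ∈ F, g * x = x * g) →
            F ⊓ (L ⊔ K) = ⊥ := by
          intro F hF hFD hFg
          rw [eq_bot_iff, ← h.LK]
          intro x hx
          have hxL : x ∈ L := hFD.2 hx
          refine Subgroup.mem_inf.2 ⟨hxL, ?_⟩
          rw [h.hK, Subgroup.mem_centralizer_iff]
          intro y hy
          rw [h.hN] at hg
          have h5 := h.comp.conj g hg y hy x hxL
          have h6 : g * x * g⁻¹ = x := by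
            rw [hFg x (Subgroup.mem_inf.1 hx).1, mul_assoc, mul_inv_cancel, mul_one]
          rwa [h6] at h5
        have hEb := hbot E (hl.2 E (by simp)).1 hE (hl.2 E (by simp)).2
        have hsing : ∀ F ∈ l, F = E := by
          intro F hF
          have hFE : F ≤ E := hp.1 F hF
          have hFA := (hl.2 F (by simp [hF])).1
          have hEA := (hl.2 E (by simp)).1
          refine le_antisymm hFE ?_
          obtain ⟨y, hy1⟩ := (Subgroup.ne_bot_iff_exists_ne_one).1 hFA.1.1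
          have hyne : (y : G) ≠ 1 := fun hh => hy1 (Subtype.ext hh)
          have hnotLK : ∀ z ∈ E, z ≠ 1 → z ∉ L ⊔ K := by
            intro z hz hz1 hzLK
            apply hz1
            have : z ∈ E ⊓ (L ⊔ K) := ⟨hz, hzLK⟩
            rwa [hEb, Subgroup.mem_bot] at this
          intro x hx
          by_cases hx1 : x = 1
          · rw [hx1]; exact one_mem _
          have h7 := t.hR1 E hEA y (hFE y.2) x hx (hnotLK _ (hFE y.2) hyne)
            (hnotLK x hx hx1)
          obtain ⟨i, l', hl', k, hk, hxe⟩ := h.dec (hEA.2 (hFE y.2)) (hEA.2 hx) h7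
          have h8 : l' * k ∈ E ⊓ (L ⊔ K) := by
            refine Subgroup.mem_inf.2
              ⟨?_, mul_mem (Subgroup.mem_sup_left hl') (Subgroup.mem_sup_right hk)⟩
            have : l' * k = ((y : G) ^ i)⁻¹ * x := by rw [hxe]; group
            rw [this]
            exact mul_mem (inv_mem (zpow_mem (hFE y.2) i)) hx
          rw [hEb, Subgroup.mem_bot] at h8
          rw [hxe, h8, mul_one]
          exact zpow_mem y.2 i
        rcases l with _ | ⟨F, l⟩
        · rw [hlDlen [E] (by simp; omega), zero_smul]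
        · rw [hnD, zero_smul]
          intro hh
          have h9 := (List.pairwise_cons.1 hh).1 F (by simp)
          rw [hsing F (by simp)] at h9
          exact lt_irrefl _ h9
      · rw [PhiL_cons_not hE, ih ⟨hp.2, fun F hF => hl.2 F (by simp [hF])⟩, LinearMap.zero_comp]
  refine detect_gen N (phi (DH L K N1) (fH L N K N2 πL) lW lD) hcoc ?_ ?_ (sh be al)
    (sh_mem_N (H1 := K) (H2 := L) h.KN h.LN (fun k hk l hl => (h.comm l hl k hk).symm)
      (Sp_mono st_wk hbe) (Sp_mono st_wk hal)) ?_ ?_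
  · intro l hl hs
    rw [phi_single]
    exact PhiL_nrm (S := Ain p N) hnW hnD _ hl hs _
  · intro g hg hgp l hl
    rcases hm with hm | hm
    · exact absurd (hm g hgp) hg
    · rw [phi_single, hvan g hg hm l hl, LinearMap.zero_apply]
  · rw [bd_sh, hbbe, hbal, map_zero, LinearMap.zero_apply, map_zero, add_zero]
  · have hfK : ∀ E ∈ Ain p K, fH L N K N2 πL E = fq N πL E := by
      intro E hE
      rw [fH, if_pos (hE.2.trans hK2)]
    rw [phi_shuffle (A := Ain p K) (B := Ain p L) ?_ ?_ ?_ hnW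
        (Sp_mono (fun l hl => hl.2) hbe) (Sp_mono (fun l hl => hl.2) hal)]
    · refine mul_ne_zero ?_ ?_
      · rw [mp_congr (g := fq N πL) (fun l (hl : st (Ain p K) l) a ha => hfK a (hl.2 a ha)) hbe]
        exact hlW
      · rw [hlD, LinearMap.comp_apply, pi_of_st hal]
        exact hlG
    · intro E hE hED
      apply hE.1.1
      rw [eq_bot_iff, ← h.LK]
      refine le_inf ?_ hE.2
      have := hED.2
      rwa [inf_eq_left.2 (hE.2.trans le_sup_right)] at this
    · intro E hE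
      exact ⟨hE.2.trans hL1, inf_le_left.trans hE.2⟩
    · intro E hE F hF
      have h1 : E ⊔ F ≤ L ⊔ K := sup_le (hE.2.trans le_sup_right) (hF.2.trans le_sup_left)
      refine ⟨?_, ?_⟩
      · intro hh
        have h2 := hh.2
        rw [inf_eq_left.2 h1] at h2
        apply hE.1.1
        rw [eq_bot_iff, ← h.LK]
        exact le_inf (le_sup_left.trans h2) hE.2
      · rw [hfK E hE, fH, if_pos (h1.trans t.LK2)]
        exact fq_sup h.hπL (hE.2.trans h.KN) (hF.2.trans h.LN) hF.2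

end Vale.Agent.P240.K
end

section

namespace Vale.Agent.P240.K

open Finsupp Subgroup

variable {𝕜 : Type*} [Field 𝕜]

variable {G Q R : Type*} [Group G] [Group Q] [Group R] {p : ℕ}
variable {L N K N1 N2 : Subgroup G} {πK : N →* Q} {πL : N →* R}

/-- one family of terms of the glued cycle -/
lemma glue_term [Fact p.Prime] [Finite G] (h : Ctx p L N K πK πL) (hK1 : L ⊔ K ≤ N1)
    (hcyc : ∀ x ∈ N1, x ∉ L ⊔ K → ∀ y ∈ N1, y ∈ zpowers x ⊔ (L ⊔ K)) (hN1 : N1 ≤ N)
    {lW : Ch 𝕜 (Subgroup Q) →ₗ[𝕜] 𝕜} {lD : Ch 𝕜 (Subgroup G) →ₗ[𝕜] 𝕜} (hnW : Nrm lW)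
    {om : Ch 𝕜 (Subgroup Q)} (hom : om ∈ Sp 𝕜 (st (Ain p (Gam N πK N1))))
    {v : Ch 𝕜 (Subgroup Q)} (hv : bd om = v)
    (hvin : v ∈ Sp 𝕜 (fun l : List (Subgroup Q) => ∀ E ∈ l, ∀ n : N, πK n ∈ E → (n : G) ∈ L ⊔ K))
    {X : Subgroup R} (hX : X ∈ SRof L N πL (Ain p N1)) (hkX : kap N K πL X = ⊥)
    {e : Ch 𝕜 (Subgroup G)}
    (he : e ∈ Sp 𝕜 (wk (Ain p (K ⊓ centralizer ((pb N πL X : Subgroup G) : Set G)))))
    (hbe : bd e = 0) :
    sh (mp (sig N πK πL X) om) e ∈ Sp 𝕜 (wk (Ain p N)) ∧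
    bd (sh (mp (sig N πK πL X) om) e) = sh (mp (sig N πK πL ⊥) v) e ∧
    phN N K πK lW lD (sh (mp (sig N πK πL X) om) e) = lW om * lD e := by
  obtain ⟨E', hE', hE'L, hE'X⟩ := hX
  have hE'N : E' ∈ Ain p N := ⟨hE'.1, hE'.2.trans hN1⟩
  obtain ⟨x, hx, hxL⟩ := Set.not_subset.1 hE'L
  have hxLK : x ∉ L ⊔ K := fun hh => hxL (h.ELK hE'N (by rw [hE'X]; exact hkX) x hx hh)
  have hxN1 : x ∈ N1 := hE'.2 hx
  set x' : N := ⟨x, hE'N.2 hx⟩ with hx'
  have hx'X : πL x' ∈ X := by
    rw [← hE'X]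
    exact mem_fq.2 ⟨x', hx, rfl⟩
  have hl : ∀ E ∈ Ain p (Gam N πK N1), ∀ n : N, πK n ∈ E →
      (n : G) ∈ zpowers (x' : G) ⊔ (L ⊔ K) := fun E hE n hn =>
    hcyc x hxN1 hxLK n ((mem_Gam h (le_sup_right.trans hK1)).1 (hE.2 hn))
  have hsx : mp (sig N πK πL X) om ∈ Sp 𝕜 (wk (Ain p (pb N πL X))) :=
    mp_mem (wk_map (fun E hE => h.lift_mem hx'X hkX hE.1 (hl E hE))
      fun E _ F _ hh => sig_mono hh) (Sp_mono st_wk hom)
  have hfx : mp (fq N πK) (mp (sig N πK πL X) om) = om := by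
    rw [mp_mp]
    exact mp_eq_self (fun l hl' E hE => h.lift_fq hx'X (hl E (hl'.2 E hE))) hom
  have h12 : ∀ a ∈ pb N πL X, ∀ b ∈ K ⊓ centralizer ((pb N πL X : Subgroup G) : Set G),
      a * b = b * a := fun a ha b hb => (Subgroup.mem_centralizer_iff.1 hb.2) a ha
  refine ⟨sh_mem_N pb_le (inf_le_left.trans h.KN) h12 hsx he, ?_, ?_⟩
  · rw [bd_sh, bd_mp, hv, hbe, map_zero, add_zero]
    congr 2
    exact mp_congr (fun l hl' E hE => sig_eq h hkX (hl' E hE)) hvin
  · rw [phN_sh h.hπK h.KN hnW pb_le inf_le_left hkX hsx he, hfx]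

/-- Detection of a glued cycle. -/
lemma glue [Fact p.Prime] [Finite G] (h : Ctx p L N K πK πL) (t : Two p L N K N1 N2)
    {V : Submodule 𝕜 (Ch 𝕜 (Subgroup G))}
    (hV : ∀ g, g ∉ N → ∀ l, wk {E | E ∈ Ain p K ∧ ∀ x ∈ E, g * x = x * g} l →
        pi (single l (1 : 𝕜)) ∈ V)
    {be : Ch 𝕜 (Subgroup G)} (hbe : be ∈ Sp 𝕜 (st (Ain p K)))
    (hbeV : be ∉ Bst 𝕜 (Ain p K) ⊔ V)
    (hY1 : mp (fq N πL) be ∈ Bst 𝕜 (SRof L N πL (Ain p N1)))
    (hY2 : mp (fq N πL) be ∈ Bst 𝕜 (SRof L N πL (Ain p N2)))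
    (h3 : NA 𝕜 (ApS p Q)) : NA 𝕜 (ApS p G) := by
  classical
  have hK1 : K ≤ N1 := le_sup_right.trans t.LK1
  have hK2 : K ≤ N2 := le_sup_right.trans t.LK2
  -- homogeneous class of `Q`
  obtain ⟨n, om, homn, hom, hbom, hone⟩ : ∃ n, ∃ om : Ch 𝕜 (Subgroup Q),
      om ∈ Sp 𝕜 (fun l : List (Subgroup Q) => l.length = n) ∧ om ∈ Sp 𝕜 (st (ApS p Q)) ∧ bd om = 0 ∧
      om ∉ Bst 𝕜 (ApS p Q) := by
    obtain ⟨z, hz, hbz, hzn⟩ := h3
    by_contra hcon
    push Not at hcon
    obtain ⟨M, hM⟩ := exists_len_bound z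
    have h4 : z ∈ Bst 𝕜 (ApS p Q) := by
      rw [← sum_len M hM]
      refine Submodule.sum_mem _ fun n _ => ?_
      have h5 := len_mem (n := n) hz
      refine hcon n (len n z) (Sp_mono (fun l hl => hl.1) h5) (Sp_mono (fun l hl => hl.2) h5) ?_
      rcases n with _ | n
      · exact bd_len_zero _
      · rw [bd_len, hbz, map_zero]
    obtain ⟨c, hc, hcz⟩ := h4
    exact hzn c hc hcz
  obtain ⟨om1, hom1, om2, hom2, hsum⟩ := Sp_or
    (P := fun l => l.length = n ∧ st (ApS p Q) l)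
    (P1 := fun l => l.length = n ∧ st (Ain p (Gam N πK N1)) l)
    (P2 := fun l => l.length = n ∧ st (Ain p (Gam N πK N2)) l)
    (fun l hl => (t.st_or h l hl.2).imp (fun hh => ⟨hl.1, hh⟩) fun hh => ⟨hl.1, hh⟩)
    (mem_Sp_inf homn hom)
  have ho1 : om1 ∈ Sp 𝕜 (st (Ain p (Gam N πK N1))) := Sp_mono (fun l hl => hl.2) hom1
  have ho2 : om2 ∈ Sp 𝕜 (st (Ain p (Gam N πK N2))) := Sp_mono (fun l hl => hl.2) hom2
  set v := bd om1 with hv
  have hv2 : bd om2 = -v := by
    have : bd om1 + bd om2 = 0 := by rw [← map_add, ← hsum, hbom]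
    rw [hv]
    exact eq_neg_of_add_eq_zero_right this
  have hvb : v ∈ Sp 𝕜 (fun l => st (Ain p (Gam N πK N1)) l ∧ st (Ain p (Gam N πK N2)) l) := by
    refine mem_Sp_inf (bd_st ho1) ?_
    have : v = - bd om2 := by rw [hv2, neg_neg]
    rw [this]
    exact Submodule.neg_mem _ (bd_st ho2)
  have hvlen : v ∈ Sp 𝕜 (fun l : List (Subgroup Q) => l.length + 1 = n) :=
    bd_len_mem (Sp_mono (fun l hl => hl.1) hom1)
  have hvin : v ∈ Sp 𝕜 (fun l : List (Subgroup Q) =>
      ∀ E ∈ l, ∀ n : N, πK n ∈ E → (n : G) ∈ L ⊔ K) :=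
    Sp_mono (fun l hl E hE => inner_of h t (hl.1.2 E hE).2 (hl.2.2 E hE).2) hvb
  -- functionals
  obtain ⟨lD, hnD, hD, hDV, hlD⟩ := exists_cocycle (Ain p K) V be (by
    rw [pi_of_st hbe]; exact hbeV)
  obtain ⟨lW, hnW, hW, hlW, hlWlen⟩ := exists_cocycle_len (ApS p Q) ⊥ om n homn (by
    rw [pi_of_st hom, sup_bot_eq]; exact hone)
  -- splittings of `be`
  obtain ⟨c1, hc1, s1, e1, hs1, he1, hb1⟩ := h.split t.hR1 (F := Ain p N1)
    (fun E hE => ⟨hE.1, hE.2.trans t.le1⟩) (fun E hE => ⟨hE.1, hE.2.trans hK1⟩) hbe hY1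
  obtain ⟨c2, hc2, s2, e2, hs2, he2, hb2⟩ := h.split t.hR1 (F := Ain p N2)
    (fun E hE => ⟨hE.1, hE.2.trans t.le2⟩) (fun E hE => ⟨hE.1, hE.2.trans hK2⟩) hbe hY2
  have hT1 : ∀ X ∈ s1, _ := fun X hX => glue_term (lD := lD) h t.LK1 t.cyc1 t.le1 hnW ho1
    hv.symm hvin (hs1 X hX).1 (hs1 X hX).2 (he1 X hX).1 (he1 X hX).2
  have hvin' : -v ∈ Sp 𝕜 (fun l : List (Subgroup Q) =>
      ∀ E ∈ l, ∀ n : N, πK n ∈ E → (n : G) ∈ L ⊔ K) := Submodule.neg_mem _ hvin
  have hT2 : ∀ X ∈ s2, _ := fun X hX => glue_term (lD := lD) h t.LK2 t.cyc2 t.le2 hnW ho2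
    hv2 hvin' (hs2 X hX).1 (hs2 X hX).2 (he2 X hX).1 (he2 X hX).2
  set v' := mp (sig N πK πL ⊥) v with hv'
  have hv'L : v' ∈ Sp 𝕜 (wk (Ain p L)) := by
    refine mp_mem ?_ hvb
    intro l hl
    refine ⟨?_, ?_⟩
    · rw [List.pairwise_map]
      exact hl.1.1.imp fun hEF => sig_mono hEF.le
    · intro E' hE'
      obtain ⟨E, hE, rfl⟩ := List.mem_map.1 hE'
      exact (sig_bot_spec h (hl.1.2 E hE).1 (inner_of h t (hl.1.2 E hE).2 (hl.2.2 E hE).2)).2
  have hbv' : bd v' = 0 := by rw [hv', bd_mp, hv, bd_bd, map_zero]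
  have hLKc : ∀ a ∈ L, ∀ b ∈ K, a * b = b * a := h.comm
  have hsgv : sg v' ∈ Sp 𝕜 (wk (Ain p L)) := sg_mem hv'L
  have hcc : c2 - c1 ∈ Sp 𝕜 (wk (Ain p K)) := Submodule.sub_mem _ hc2 hc1
  have hbcc : bd (c2 - c1) = ∑ X ∈ s1, e1 X - ∑ X ∈ s2, e2 X := by
    have h5 : bd c1 + ∑ X ∈ s1, e1 X = bd c2 + ∑ X ∈ s2, e2 X := by rw [← hb1, ← hb2]
    rw [map_sub]
    have h6 : bd c2 = bd c1 + ∑ X ∈ s1, e1 X - ∑ X ∈ s2, e2 X := by rw [h5]; abel
    rw [h6]; abel
  -- the glued cycle
  set W : Ch 𝕜 (Subgroup G) := ∑ X ∈ s1, sh (mp (sig N πK πL X) om1) (e1 X) +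
    ∑ X ∈ s2, sh (mp (sig N πK πL X) om2) (e2 X) - sh (sg v') (c2 - c1) with hW'
  have hWm : W ∈ Sp 𝕜 (wk (Ain p N)) := by
    refine Submodule.sub_mem _ (Submodule.add_mem _ (Submodule.sum_mem _ fun X hX => (hT1 X hX).1)
      (Submodule.sum_mem _ fun X hX => (hT2 X hX).1)) ?_
    exact sh_mem_N h.LN h.KN hLKc hsgv hcc
  have hWb : bd W = 0 := by
    rw [hW', map_sub, map_add, map_sum, map_sum,
      Finset.sum_congr rfl fun X hX => (hT1 X hX).2.1,
      Finset.sum_congr rfl fun X hX => (hT2 X hX).2.1, bd_sh, bd_sg, hbv', sg_sg, hbcc]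
    simp only [map_neg, map_zero, LinearMap.zero_apply, neg_zero, map_sub, map_sum,
      LinearMap.neg_apply, Finset.sum_neg_distrib, hv']
    abel
  refine detect_gen N (phN N K πK lW lD) (phN_coc h.hπK hW hD) (phN_nrm hnW hnD) ?_ W hWm hWb ?_
  · intro g hg _ l hl'
    exact phN_van (P := fun E => ∀ x ∈ E, g * x = x * g)
      (fun l hl => hDV _ (hV g hg l hl)) l hl'
  · rw [hW', map_sub, map_add, map_sum, map_sum,
      Finset.sum_congr rfl fun X hX => (hT1 X hX).2.2,
      Finset.sum_congr rfl fun X hX => (hT2 X hX).2.2,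
      phN_sh h.hπK h.KN hnW h.LN le_rfl h.LK hsgv hcc]
    have h7 : lW (mp (fq N πK) (sg v')) = 0 := by
      refine lam_of_len' (P := fun l : List (Subgroup Q) => l.length + 1 = n) hlWlen
        (fun l hl hh => by omega) ?_
      refine mp_mem (P := fun l : List (Subgroup G) => l.length + 1 = n)
        (fun l hl => by simpa using hl) ?_
      exact sg_mem (mp_mem (fun l hl => by simpa using hl) hvlen)
    rw [h7, zero_mul, sub_zero, ← Finset.mul_sum, ← Finset.mul_sum, ← map_sum, ← map_sum]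
    have h8 : lD (∑ X ∈ s1, e1 X) = lD be := by
      rw [hb1, map_add, hD c1 hc1, zero_add]
    have h9 : lD (∑ X ∈ s2, e2 X) = lD be := by
      rw [hb2, map_add, hD c2 hc2, zero_add]
    rw [h8, h9, ← add_mul, ← map_add, ← hsum]
    exact mul_ne_zero hlW hlD

end Vale.Agent.P240.K
end

section

namespace Vale.Agent.P240.K

open Finsupp Subgroup

variable {𝕜 : Type*} [Field 𝕜]

variable {G Q R : Type*} [Group G] [Group Q] [Group R] {p : ℕ}
variable {L N K N1 N2 : Subgroup G} {πK : N →* Q} {πL : N →* R}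

lemma Bst_map {α β : Type*} [PartialOrder α] [PartialOrder β] {S : Set α} {T : Set β}
    {f : α → β} (hT : ∀ x ∈ S, f x ∈ T) (hlt : ∀ x ∈ S, ∀ y ∈ S, x < y → f x < f y) {z : Ch 𝕜 α}
    (hz : z ∈ Bst 𝕜 S) : mp f z ∈ Bst 𝕜 T := by
  obtain ⟨c, hc, rfl⟩ := hz
  exact ⟨mp f c, mp_mem (st_map hT hlt) hc, bd_mp f c⟩

/-- non-homogeneous form of `hybrid` -/
lemma hybrid' [Fact p.Prime] [Finite G] (h : Ctx p L N K πK πL) (t : Two p L N K N1 N2)
    (hm : (∀ g : G, g ^ p = 1 → g ∈ N) ∨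
      ∀ z ∈ Sp 𝕜 (fun l : List (Subgroup G) => l.length = 1 ∧ st (Ain p L) l), bd z = 0 →
        z ∈ Bst 𝕜 (Ain p L))
    {al : Ch 𝕜 (Subgroup G)} (hal : al ∈ Sp 𝕜 (st (Ain p L))) (hbal : bd al = 0)
    (hane : mp (fq N πK) al ∉ Bst 𝕜 (Ain p (Gam N πK N1)))
    {be : Ch 𝕜 (Subgroup G)} (hbe : be ∈ Sp 𝕜 (st (Ain p K))) (hbbe : bd be = 0)
    (hben : mp (fq N πL) be ∉ Bst 𝕜 (SRof L N πL (Ain p N2))) : NA 𝕜 (ApS p G) := by
  have hK1 : K ≤ N1 := le_sup_right.trans t.LK1
  have hL1 : L ≤ N1 := le_sup_left.trans t.LK1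
  have hLQ : ∀ E ∈ Ain p L, fq N πK E ∈ Ain p (Gam N πK N1) := by
    intro E hE
    refine ⟨fq_mem_ApS h.hπK hE.1 (hE.2.trans h.LN) fun hh =>
      hE.1.1 (le_bot_iff.1 (h.LK ▸ le_inf hE.2 hh)), ?_⟩
    intro q hq
    obtain ⟨m, hm', rfl⟩ := mem_fq.1 hq
    exact (mem_Gam h hK1).2 (hL1 (hE.2 hm'))
  have hLst : ∀ B ∈ Ain p L, ∀ B' ∈ Ain p L, B < B' → fq N πK B < fq N πK B' := by
    intro B hB B' hB' hh
    refine lt_of_le_of_ne (fq_mono hh.le) fun he => hh.ne ?_
    rw [← pb_fq h.hπK h.LN h.LK hB.2, ← pb_fq h.hπK h.LN h.LK hB'.2, he]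
  obtain ⟨n, hn⟩ : ∃ n, mp (fq N πK) (len n al) ∉ Bst 𝕜 (Ain p (Gam N πK N1)) := by
    by_contra hcon
    push Not at hcon
    obtain ⟨M, hM⟩ := exists_len_bound al
    apply hane
    rw [← sum_len M hM, map_sum]
    exact Submodule.sum_mem _ fun n _ => hcon n
  have h5 := len_mem (n := n) hal
  have hbn : bd (len n al) = 0 := by
    rcases n with _ | n
    · exact bd_len_zero _
    · rw [bd_len, hbal, map_zero]
  refine hybrid h t (n := n) ?_ (Sp_mono (fun l hl => hl.2) h5) (Sp_mono (fun l hl => hl.1) h5)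
    hbn hn hbe hbbe hben
  refine hm.imp_right fun hm => ?_
  by_contra hlt
  apply hn
  refine Bst_map hLQ hLst ?_
  have h6 : n = 0 ∨ n = 1 := by omega
  rcases h6 with rfl | rfl
  · obtain ⟨F, hF, hFL⟩ := exists_ApS_le (G := G) h.comp.dvd
    refine map_mem (N := Bst 𝕜 (Ain p L)) LinearMap.id ?_ h5
    intro l hl
    have : l = [] := List.length_eq_zero_iff.1 hl.1
    rw [this, LinearMap.id_apply]
    refine ⟨single [F] (1 : 𝕜), single_mem_Sp ⟨by simp, by simpa using ⟨hF, hFL⟩⟩ _, ?_⟩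
    simp [bd_single_cons]
  · exact hm _ h5 hbn

/-- The elimination theorem with two types of outer subgroups of order `p`. -/
theorem two_core [Fact p.Prime] [Finite G] (h : Ctx p L N K πK πL) (t : Two p L N K N1 N2)
    (h1 : NA 𝕜 (Ain p L)) (h2 : NA 𝕜 (Ain p K)) (h3 : NA 𝕜 (ApS p Q))
    (h4 : NA 𝕜 (Ain p (Gam N πK N1))) (h5 : NA 𝕜 (Ain p (Gam N πK N2)))
    (hm : (∀ g : G, g ^ p = 1 → g ∈ N) ∨
      ∀ z ∈ Sp 𝕜 (fun l : List (Subgroup G) => l.length = 1 ∧ st (Ain p L) l), bd z = 0 →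
        z ∈ Bst 𝕜 (Ain p L)) : NA 𝕜 (ApS p G) := by
  classical
  by_contra hG
  have hK1 : K ≤ N1 := le_sup_right.trans t.LK1
  have hK2 : K ≤ N2 := le_sup_right.trans t.LK2
  obtain ⟨V, hV, hVz⟩ := h.exists_V (𝕜 := 𝕜)
  obtain ⟨be, hbe, hbbe, hben⟩ := h2
  have hbeV := hVz be hbe hbbe (by
    rintro ⟨c, hc, hcz⟩
    exact hben c hc hcz)
  -- a summand outside
  have hsel : ∀ (c : Ch 𝕜 (Subgroup G)) (s : Finset (Subgroup R)) (e : Subgroup R → Ch 𝕜 (Subgroup G)),
      c ∈ Sp 𝕜 (wk (Ain p K)) → be = bd c + ∑ X ∈ s, e X →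
      ∃ X ∈ s, pi (e X) ∉ Bst 𝕜 (Ain p K) ⊔ V := by
    intro c s e hc hb
    by_contra hcon
    push Not at hcon
    apply hbeV
    have h6 : be = bd (pi c) + ∑ X ∈ s, pi (e X) := by
      conv_lhs => rw [← pi_of_st hbe, hb]
      rw [map_add, map_sum, bd_pi hc]
    rw [h6]
    refine Submodule.add_mem _ (Submodule.mem_sup_left ⟨_, pi_mem hc, rfl⟩) ?_
    exact Submodule.sum_mem _ fun X hX => hcon X hX
  -- type one or two for members of `N`
  have hSR1 : ∀ X ∈ SRof L N πL (Ain p N), kap N K πL X = ⊥ →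
      (∀ E ∈ Ain p N, fq N πL E = X → E ≤ N1) ∨ (∀ E ∈ Ain p N, fq N πL E = X → E ≤ N2) := by
    rintro X ⟨E, hE, hEL, rfl⟩ hkX
    have haux : ∀ M : Subgroup G, L ≤ M → E ≤ M → ∀ E' ∈ Ain p N, fq N πL E' = fq N πL E →
        E' ≤ M := by
      intro M hLM hEM E' hE' he x hx
      have h6 : πL ⟨x, hE'.2 hx⟩ ∈ fq N πL E := by
        rw [← he]
        exact mem_fq.2 ⟨⟨x, hE'.2 hx⟩, hx, rfl⟩
      obtain ⟨y, hy, hyx⟩ := mem_fq.1 h6
      have h7 : (((⟨x, hE'.2 hx⟩ : N) * y⁻¹ : N) : G) ∈ L := by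
        rw [← h.hπL, map_mul, map_inv, hyx, mul_inv_cancel]
      have h8 : x = (((⟨x, hE'.2 hx⟩ : N) * y⁻¹ : N) : G) * y := by simp
      rw [h8]
      exact mul_mem (hLM h7) (hEM hy)
    rcases t.E_or hE with h6 | h6
    · exact Or.inl (haux N1 (le_sup_left.trans t.LK1) h6)
    · exact Or.inr (haux N2 (le_sup_left.trans t.LK2) h6)
  have hsub1 : Ain p N1 ⊆ Ain p N := fun E hE => ⟨hE.1, hE.2.trans t.le1⟩
  have hsub2 : Ain p N2 ⊆ Ain p N := fun E hE => ⟨hE.1, hE.2.trans t.le2⟩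
  have hty1 : ∀ X ∈ SRof L N πL (Ain p N1), ∀ E ∈ Ain p N, fq N πL E = X → E ≤ N1 := by
    rintro X ⟨E, hE, hEL, rfl⟩ E' hE' he x hx
    have h6 : πL ⟨x, hE'.2 hx⟩ ∈ fq N πL E := by
      rw [← he]
      exact mem_fq.2 ⟨⟨x, hE'.2 hx⟩, hx, rfl⟩
    obtain ⟨y, hy, hyx⟩ := mem_fq.1 h6
    have h7 : (((⟨x, hE'.2 hx⟩ : N) * y⁻¹ : N) : G) ∈ L := by
      rw [← h.hπL, map_mul, map_inv, hyx, mul_inv_cancel]
    have h8 : x = (((⟨x, hE'.2 hx⟩ : N) * y⁻¹ : N) : G) * y := by simp
    rw [h8]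
    exact mul_mem (t.LK1 (Subgroup.mem_sup_left h7)) (hE.2 hy)
  have hty2 : ∀ X ∈ SRof L N πL (Ain p N2), ∀ E ∈ Ain p N, fq N πL E = X → E ≤ N2 := by
    rintro X ⟨E, hE, hEL, rfl⟩ E' hE' he x hx
    have h6 : πL ⟨x, hE'.2 hx⟩ ∈ fq N πL E := by
      rw [← he]
      exact mem_fq.2 ⟨⟨x, hE'.2 hx⟩, hx, rfl⟩
    obtain ⟨y, hy, hyx⟩ := mem_fq.1 h6
    have h7 : (((⟨x, hE'.2 hx⟩ : N) * y⁻¹ : N) : G) ∈ L := by
      rw [← h.hπL, map_mul, map_inv, hyx, mul_inv_cancel]
    have h8 : x = (((⟨x, hE'.2 hx⟩ : N) * y⁻¹ : N) : G) * y := by simp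
    rw [h8]
    exact mul_mem (t.LK2 (Subgroup.mem_sup_left h7)) (hE.2 hy)
  have hSRsub : ∀ {F : Set (Subgroup G)}, F ⊆ Ain p N → SRof L N πL F ⊆
      SRof L N πL (Ain p N) := by
    rintro F hF X ⟨E, hE, hEL, rfl⟩
    exact ⟨E, hF hE, hEL, rfl⟩
  -- the final detection in the simple cases
  have fin1 : (∀ al ∈ Sp 𝕜 (st (Ain p L)), bd al = 0 →
      mp (fq N πK) al ∈ Bst 𝕜 (Ain p (Gam N πK N1))) → ∀ X ∈ SRof L N πL (Ain p N),
      (∀ E ∈ Ain p N, fq N πL E = X → E ≤ N1) → kap N K πL X = ⊥ →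
      ∀ e ∈ Sp 𝕜 (wk (Ain p (K ⊓ centralizer ((pb N πL X : Subgroup G) : Set G)))), bd e = 0 →
      pi e ∈ Bst 𝕜 (Ain p K) ⊔ V := by
    intro hZ X hX hX1 hkX e he hbe'
    by_contra hen
    obtain ⟨om, hom, hbom, homn⟩ := om_exists h t hZ h4
    exact hG (d1 h t.LK1 t.cyc1 hV hom hbom homn hX hX1 hkX he hbe' hen)
  have fin2 : (∀ al ∈ Sp 𝕜 (st (Ain p L)), bd al = 0 →
      mp (fq N πK) al ∈ Bst 𝕜 (Ain p (Gam N πK N2))) → ∀ X ∈ SRof L N πL (Ain p N),
      (∀ E ∈ Ain p N, fq N πL E = X → E ≤ N2) → kap N K πL X = ⊥ →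
      ∀ e ∈ Sp 𝕜 (wk (Ain p (K ⊓ centralizer ((pb N πL X : Subgroup G) : Set G)))), bd e = 0 →
      pi e ∈ Bst 𝕜 (Ain p K) ⊔ V := by
    intro hZ X hX hX1 hkX e he hbe'
    by_contra hen
    obtain ⟨om, hom, hbom, homn⟩ := om_exists h t.symm hZ h5
    exact hG (d1 h t.LK2 t.cyc2 hV hom hbom homn hX hX1 hkX he hbe' hen)
  by_cases hZ1 : ∀ al ∈ Sp 𝕜 (st (Ain p L)), bd al = 0 →
      mp (fq N πK) al ∈ Bst 𝕜 (Ain p (Gam N πK N1))
  · by_cases hZ2 : ∀ al ∈ Sp 𝕜 (st (Ain p L)), bd al = 0 →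
        mp (fq N πK) al ∈ Bst 𝕜 (Ain p (Gam N πK N2))
    · -- case alpha
      have hb : mp (fq N πL) be ∈ Bst 𝕜 (SRof L N πL (Ain p N)) := by
        by_contra hcon
        exact hG (h.case_a h1 hbe hbbe hcon)
      obtain ⟨c, hc, s, e, hs, he, hbs⟩ := h.split t.hR1 (F := Ain p N) le_rfl
        (fun E hE => ⟨hE.1, hE.2.trans h.KN⟩) hbe hb
      obtain ⟨X, hX, hXV⟩ := hsel c s e hc hbs
      rcases hSR1 X (hs X hX).1 (hs X hX).2 with h6 | h6
      · exact hXV (fin1 hZ1 X (hs X hX).1 h6 (hs X hX).2 _ (he X hX).1 (he X hX).2)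
      · exact hXV (fin2 hZ2 X (hs X hX).1 h6 (hs X hX).2 _ (he X hX).1 (he X hX).2)
    · push Not at hZ2
      obtain ⟨al, hal, hbal, hane⟩ := hZ2
      -- case gamma
      have hY1 : mp (fq N πL) be ∈ Bst 𝕜 (SRof L N πL (Ain p N1)) := by
        by_contra hcon
        exact hG (hybrid' h t.symm hm hal hbal hane hbe hbbe hcon)
      obtain ⟨c, hc, s, e, hs, he, hbs⟩ := h.split t.hR1 (F := Ain p N1) hsub1
        (fun E hE => ⟨hE.1, hE.2.trans hK1⟩) hbe hY1
      obtain ⟨X, hX, hXV⟩ := hsel c s e hc hbs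
      exact hXV (fin1 hZ1 X (hSRsub hsub1 (hs X hX).1) (hty1 X (hs X hX).1) (hs X hX).2 _
        (he X hX).1 (he X hX).2)
  · push Not at hZ1
    obtain ⟨al, hal, hbal, hane⟩ := hZ1
    have hY2 : mp (fq N πL) be ∈ Bst 𝕜 (SRof L N πL (Ain p N2)) := by
      by_contra hcon
      exact hG (hybrid' h t hm hal hbal hane hbe hbbe hcon)
    by_cases hZ2 : ∀ al ∈ Sp 𝕜 (st (Ain p L)), bd al = 0 →
        mp (fq N πK) al ∈ Bst 𝕜 (Ain p (Gam N πK N2))
    · obtain ⟨c, hc, s, e, hs, he, hbs⟩ := h.split t.hR1 (F := Ain p N2) hsub2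
        (fun E hE => ⟨hE.1, hE.2.trans hK2⟩) hbe hY2
      obtain ⟨X, hX, hXV⟩ := hsel c s e hc hbs
      exact hXV (fin2 hZ2 X (hSRsub hsub2 (hs X hX).1) (hty2 X (hs X hX).1) (hs X hX).2 _
        (he X hX).1 (he X hX).2)
    · push Not at hZ2
      obtain ⟨al2, hal2, hbal2, hane2⟩ := hZ2
      have hY1 : mp (fq N πL) be ∈ Bst 𝕜 (SRof L N πL (Ain p N1)) := by
        by_contra hcon
        exact hG (hybrid' h t.symm hm hal2 hbal2 hane2 hbe hbbe hcon)
      exact hG (glue h t hV hbe hbeV hY1 hY2 h3)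

end Vale.Agent.P240.K
end

section

namespace Vale.Agent.P240.K

open Subgroup

variable {𝕜 : Type*} [Field 𝕜]

universe u

theorem elimination {p : ℕ} [Fact p.Prime] {G : Type u} [Group G] [Finite G]
    (L : Subgroup G) (hL : CompLike p L)
    (hout : ∀ x ∈ normalizer (L : Set G), ∀ y ∈ normalizer (L : Set G),
      x ^ p ∈ centralizer (L : Set G) → y ^ p ∈ centralizer (L : Set G) →
      x ∉ L ⊔ centralizer (L : Set G) → y ∉ L ⊔ centralizer (L : Set G) →
      y ∈ zpowers x ⊔ (L ⊔ centralizer (L : Set G)))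
    (h1 : HQ 𝕜 p L) (h2 : HQ 𝕜 p (centralizer (L : Set G)))
    (h3 : HQ 𝕜 p L.normalizerMonoidHom.range) : HQ 𝕜 p G := by
  rw [HQ_iff]
  refine elimination_core L hL (normalizer (L : Set G)) (centralizer (L : Set G)) rfl rfl
    L.normalizerMonoidHom.rangeRestrict ?_ L.normalizerMonoidHom.rangeRestrict_surjective hout
    ((HQ_sub_iff L).1 h1) ((HQ_sub_iff _).1 h2) (HQ_iff.1 h3)
  intro n
  rw [← MonoidHom.mem_ker, MonoidHom.ker_rangeRestrict, normalizerMonoidHom_ker,
    Subgroup.mem_subgroupOf]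

end Vale.Agent.P240.K
end

section

namespace Vale.Agent.P240.K

open Subgroup

variable {𝕜 : Type*} [Field 𝕜]

universe u

/-- `Oₚ(H) = 1` for a subgroup `H` of `G`, phrased with subgroups of `G`. -/
def OpIn {G : Type*} [Group G] (p : ℕ) (H : Subgroup G) : Prop :=
  ∀ Y : Subgroup G, Y ≤ H → (∀ h ∈ H, ∀ y ∈ Y, h * y * h⁻¹ ∈ Y) → IsPGroup p Y → Y = ⊥

section
variable {p : ℕ} {G : Type*} [Group G]

lemma opTrivial_of_opIn {H : Subgroup G} (h : OpIn p H) : OpTrivial p H := by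
  intro N hN hp
  have h1 : N.map H.subtype = ⊥ := by
    apply h _ (map_subtype_le N)
    · rintro a ha _ ⟨y, hy, rfl⟩
      exact ⟨⟨a, ha⟩ * y * ⟨a, ha⟩⁻¹, hN.conj_mem y hy ⟨a, ha⟩, by simp⟩
    · exact hp.map _
  exact (map_eq_bot_iff_of_injective _ H.subtype_injective).1 h1

lemma opIn_top (h : OpTrivial p G) : OpIn p (⊤ : Subgroup G) := by
  intro Y _ hn hp
  exact h Y ⟨fun y hy g => hn g (mem_top g) y hy⟩ hp

lemma le_normalizer_of_conj {Y H : Subgroup G} (hn : ∀ h ∈ H, ∀ y ∈ Y, h * y * h⁻¹ ∈ Y) :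
    H ≤ normalizer (Y : Set G) := by
  intro h hh n
  constructor
  · exact fun hy => hn h hh n hy
  · intro hy
    have := hn h⁻¹ (inv_mem hh) _ hy
    simpa [mul_assoc] using this

lemma OpIn.descend [Finite G] [Fact p.Prime] {M H : Subgroup G} (hHM : H ≤ M)
    (hn : ∀ m ∈ M, ∀ h ∈ H, m * h * m⁻¹ ∈ H) (hM : OpIn p M) : OpIn p H := by
  intro Y hYH hYn hYp
  let S : Set (Subgroup G) :=
    {Z | Z ≤ H ∧ (∀ h ∈ H, ∀ y ∈ Z, h * y * h⁻¹ ∈ Z) ∧ IsPGroup p Z}
  have hfin : S.Finite := Set.toFinite S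
  obtain ⟨Z, hYZ, hZ⟩ := hfin.exists_le_maximal (a := Y) ⟨hYH, hYn, hYp⟩
  have hsup : ∀ W ∈ S, W ≤ Z := by
    intro W hW
    have hmem : Z ⊔ W ∈ S := by
      refine ⟨sup_le hZ.prop.1 hW.1, ?_, ?_⟩
      · intro h hh y hy
        have h1 : H ≤ normalizer (Z : Set G) := le_normalizer_of_conj hZ.prop.2.1
        have h2 : H ≤ normalizer (W : Set G) := le_normalizer_of_conj hW.2.1
        have key : ((Z ⊔ W).map (MulAut.conj h).toMonoidHom) ≤ Z ⊔ W := by
          rw [Subgroup.map_sup]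
          apply sup_le_sup
          · rintro _ ⟨z, hz, rfl⟩
            exact hZ.prop.2.1 h hh z hz
          · rintro _ ⟨z, hz, rfl⟩
            exact hW.2.1 h hh z hz
        exact key ⟨y, hy, rfl⟩
      · exact hZ.prop.2.2.to_sup_of_normal_right' hW.2.2
          (hZ.prop.1.trans (le_normalizer_of_conj hW.2.1))
    exact le_trans le_sup_right (hZ.le_of_ge hmem le_sup_left)
  have hZbot : Z = ⊥ := by
    apply hM Z (hZ.prop.1.trans hHM) _ hZ.prop.2.2
    intro m hm y hy
    have hmem : Z.map (MulAut.conj m).toMonoidHom ∈ S := by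
      refine ⟨?_, ?_, hZ.prop.2.2.map _⟩
      · rintro _ ⟨z, hz, rfl⟩
        exact hn m hm z (hZ.prop.1 hz)
      · rintro h hh _ ⟨z, hz, rfl⟩
        refine ⟨(m⁻¹ * h * m) * z * (m⁻¹ * h * m)⁻¹, ?_, ?_⟩
        · apply hZ.prop.2.1 _ _ z hz
          have := hn m⁻¹ (inv_mem hm) h hh
          simpa using this
        · simp [mul_assoc]
    exact hsup _ hmem ⟨y, hy, rfl⟩
  rw [eq_bot_iff, ← hZbot]
  exact hYZ

end

section
variable {p : ℕ} [hp : Fact p.Prime] {G : Type u} [Group G] [Finite G] {L : Subgroup G}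

omit hp [Finite G] in
lemma conj_mem_centralizer {m k : G} (hm : m ∈ normalizer (L : Set G))
    (hk : k ∈ centralizer (L : Set G)) : m * k * m⁻¹ ∈ centralizer (L : Set G) := by
  rw [mem_centralizer_iff] at hk ⊢
  intro x hx
  have h1 : m⁻¹ * x * m ∈ (L : Set G) := ((mem_normalizer_iff''.1 hm) x).1 hx
  have h2 := hk _ h1
  calc x * (m * k * m⁻¹) = m * ((m⁻¹ * x * m) * k) * m⁻¹ := by group
    _ = m * (k * (m⁻¹ * x * m)) * m⁻¹ := by rw [h2]
    _ = m * k * m⁻¹ * x := by group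

end

end Vale.Agent.P240.K
end

section

namespace Vale.Agent.P240.K

open Finsupp Subgroup

variable {𝕜 : Type*} [Field 𝕜]

universe u

/-! ### From a third-type-free configuration to `Two` -/

section
variable {G : Type*} [Group G] {p : ℕ}

lemma cyc_of_pow [Fact p.Prime] {N W : Subgroup G} (hW : W ≤ N) [hn : (W.subgroupOf N).Normal]
    {x1 : G} (hx1 : x1 ∈ N) (hp : x1 ^ p ∈ W) :
    ∀ x ∈ zpowers x1 ⊔ W, x ∉ W → ∀ y ∈ zpowers x1 ⊔ W, y ∈ zpowers x ⊔ W := by
  intro x hx hxW y hy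
  have key : ∃ i : ℤ, ∃ w ∈ W, x = x1 ^ i * w := by
    have hxN : x ∈ N := (sup_le (by rw [Subgroup.zpowers_le]; exact hx1) hW) hx
    have h1 : (⟨x, hxN⟩ : N) ∈ (zpowers x1 ⊔ W).subgroupOf N := by
      rw [Subgroup.mem_subgroupOf]; exact hx
    rw [Subgroup.subgroupOf_sup (by rw [Subgroup.zpowers_le]; exact hx1) hW,
      Subgroup.mem_sup_of_normal_right] at h1
    obtain ⟨a, ha, b, hb, hab⟩ := h1
    rw [Subgroup.mem_subgroupOf] at ha hb
    obtain ⟨i, hi⟩ := ha
    refine ⟨i, b, hb, ?_⟩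
    have := congrArg Subtype.val hab
    simp only [Subgroup.coe_mul] at this
    rw [← this, ← hi]
  obtain ⟨i, w, hw, hxe⟩ := key
  have hpp : Prime (p : ℤ) := Nat.prime_iff_prime_int.1 (Fact.out : p.Prime)
  have hi : ¬ (p : ℤ) ∣ i := by
    rintro ⟨j, rfl⟩
    apply hxW
    rw [hxe, zpow_mul, zpow_natCast]
    exact mul_mem (zpow_mem hp j) hw
  have hco : IsCoprime i (p : ℤ) := ((Prime.coprime_iff_not_dvd hpp).2 hi).symm
  obtain ⟨a, b, hab⟩ := hco
  have h2 : x1 ^ i ∈ zpowers x ⊔ W := by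
    have : x1 ^ i = x * w⁻¹ := by rw [hxe]; group
    rw [this]
    exact mul_mem (Subgroup.mem_sup_left (mem_zpowers x)) (Subgroup.mem_sup_right (inv_mem hw))
  have h3 : x1 ∈ zpowers x ⊔ W := by
    have : x1 = (x1 ^ i) ^ a * (x1 ^ p) ^ b := by
      rw [← zpow_mul, ← zpow_natCast x1 p, ← zpow_mul, ← zpow_add, mul_comm i a, mul_comm (p : ℤ) b,
        hab, zpow_one]
    rw [this]
    exact mul_mem (zpow_mem h2 a) (Subgroup.mem_sup_right (zpow_mem hp b))
  have hle : zpowers x1 ⊔ W ≤ zpowers x ⊔ W :=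
    sup_le (by rw [Subgroup.zpowers_le]; exact h3) le_sup_right
  exact hle hy

lemma two_of [Fact p.Prime] {L N K : Subgroup G} (hLN : L ≤ N) (hKN : K ≤ N)
    [hLn : (L.subgroupOf N).Normal] [hKn : (K.subgroupOf N).Normal] {x1 x2 : G}
    (hx1 : x1 ∈ N) (hx2 : x2 ∈ N) (hp1 : x1 ^ p ∈ K) (hp2 : x2 ^ p ∈ K)
    (h21 : x2 ∉ zpowers x1 ⊔ (L ⊔ K))
    (hcov : ∀ x ∈ N, x ^ p ∈ K → x ∉ L ⊔ K → x ∈ zpowers x1 ⊔ (L ⊔ K) ∨
      x ∈ zpowers x2 ⊔ (L ⊔ K)) :
    Two p L N K (zpowers x1 ⊔ (L ⊔ K)) (zpowers x2 ⊔ (L ⊔ K)) := by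
  have hn : ((L ⊔ K).subgroupOf N).Normal := by
    rw [Subgroup.subgroupOf_sup hLN hKN]
    exact Subgroup.sup_normal _ _
  have hW : L ⊔ K ≤ N := sup_le hLN hKN
  have c1 := cyc_of_pow hW hx1 (Subgroup.mem_sup_right (S := L) hp1)
  have c2 := cyc_of_pow hW hx2 (Subgroup.mem_sup_right (S := L) hp2)
  refine ⟨sup_le (by rw [Subgroup.zpowers_le]; exact hx1) hW,
    sup_le (by rw [Subgroup.zpowers_le]; exact hx2) hW, le_sup_right, le_sup_right, ?_, c1, c2, ?_⟩
  · intro x h1 h2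
    by_contra hx
    apply h21
    have h3 : x2 ∈ zpowers x ⊔ (L ⊔ K) := c2 x h2 hx x2 (Subgroup.mem_sup_left (mem_zpowers x2))
    have hle : zpowers x ⊔ (L ⊔ K) ≤ zpowers x1 ⊔ (L ⊔ K) :=
      sup_le (by rw [Subgroup.zpowers_le]; exact h1) le_sup_right
    exact hle h3
  · intro x hx hxp
    by_cases hxLK : x ∈ L ⊔ K
    · exact Or.inl (Subgroup.mem_sup_right hxLK)
    · exact hcov x hx hxp hxLK

end

/-! ### Groups of automorphisms -/

/-! ### Connectedness -/

lemma conn_h0 {G : Type*} [Group G] [Finite G] {p : ℕ} [Fact p.Prime] {L : Subgroup G}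
    (hc : ∀ A B : Ap p L, Relation.ReflTransGen (fun X Y => X ≤ Y ∨ Y ≤ X) A B) :
    ∀ z ∈ Sp 𝕜 (fun l : List (Subgroup G) => l.length = 1 ∧ st (Ain p L) l), bd z = 0 →
        z ∈ Bst 𝕜 (Ain p L) := by
  classical
  intro z hz hbz
  by_cases hne : ∃ F : Subgroup G, F ∈ Ain p L
  · obtain ⟨F, hF⟩ := hne
    have hsub : ∀ A : Ap p L, A.1.map L.subtype ∈ Ain p L := by
      rintro ⟨A, h1, h2, h3⟩
      refine ⟨⟨?_, ?_, ?_⟩, Subgroup.map_subtype_le A⟩
      · intro h
        exact h1 ((Subgroup.map_eq_bot_iff_of_injective _ L.subtype_injective).1 h)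
      · rintro _ ⟨x, hx, rfl⟩ _ ⟨y, hy, rfl⟩
        rw [← map_mul, ← map_mul, h2 x hx y hy]
      · rintro _ ⟨x, hx, rfl⟩
        rw [← map_pow, h3 x hx, map_one]
    have hlift : ∀ E ∈ Ain p L, ∃ A : Ap p L, A.1.map L.subtype = E := by
      rintro E ⟨⟨h1, h2, h3⟩, h4⟩
      refine ⟨⟨E.subgroupOf L, ?_, ?_, ?_⟩, Subgroup.map_subgroupOf_eq_of_le h4⟩
      · intro h
        apply h1
        rw [Subgroup.subgroupOf_eq_bot] at h
        exact disjoint_self.1 (h.mono_right h4)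
      · intro x hx y hy
        rw [Subgroup.mem_subgroupOf] at hx hy
        exact Subtype.ext (h2 _ hx _ hy)
      · intro x hx
        rw [Subgroup.mem_subgroupOf] at hx
        exact Subtype.ext (h3 _ hx)
    have hadj : ∀ A B : Ap p L, A ≤ B →
        single [B.1.map L.subtype] (1 : 𝕜) - single [A.1.map L.subtype] 1 ∈ Bst 𝕜 (Ain p L) := by
      intro A B hAB
      have hle : A.1.map L.subtype ≤ B.1.map L.subtype := Subgroup.map_mono hAB
      rcases eq_or_lt_of_le hle with h | h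
      · rw [h, sub_self]
        exact Submodule.zero_mem _
      · refine ⟨- single [B.1.map L.subtype, A.1.map L.subtype] 1, ?_, ?_⟩
        · refine Submodule.neg_mem _ (single_mem_Sp ⟨by simpa using h, ?_⟩ _)
          intro a ha
          simp only [List.mem_cons, List.not_mem_nil, or_false] at ha
          rcases ha with h' | h'
          · rw [h']; exact hsub B
          · rw [h']; exact hsub A
        · rw [map_neg, bd_single_cons, bd_single_cons, bd_single_nil]
          simp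
    have hall : ∀ A B : Ap p L, Relation.ReflTransGen (fun X Y => X ≤ Y ∨ Y ≤ X) A B →
        single [B.1.map L.subtype] (1 : 𝕜) - single [A.1.map L.subtype] 1 ∈ Bst 𝕜 (Ain p L) := by
      intro A B hAB
      induction hAB with
      | refl => rw [sub_self]; exact Submodule.zero_mem _
      | @tail B C _ hBC ih =>
        have h1 : single [C.1.map L.subtype] (1 : 𝕜) - single [B.1.map L.subtype] 1 ∈
            Bst 𝕜 (Ain p L) := by
          rcases hBC with h | h
          · exact hadj B C h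
          · rw [← neg_sub]
            exact Submodule.neg_mem _ (hadj C B h)
        have h2 := Submodule.add_mem _ h1 ih
        simpa using h2
    obtain ⟨F0, hF0⟩ := hlift F hF
    -- augmentation
    let ep : Ch 𝕜 (Subgroup G) →ₗ[𝕜] 𝕜 := Finsupp.linearCombination 𝕜 (fun _ => (1 : 𝕜))
    have hep : ep z = 0 := by
      have h1 : (bd z : Ch 𝕜 (Subgroup G)) = ep z • single [] (1 : 𝕜) := by
        have := eq_of_Sp (F := bd) (G := ep.smulRight (single ([] : List (Subgroup G)) (1 : 𝕜)))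
          (fun l (hl : l.length = 1 ∧ st (Ain p L) l) => by
            obtain ⟨E, rfl⟩ := List.length_eq_one_iff.1 hl.1
            simp [bd_single_cons, ep, Finsupp.linearCombination_single]) hz
        simpa using this
      rw [hbz] at h1
      have h2 := congrArg (fun c : Ch 𝕜 (Subgroup G) => c []) h1.symm
      simpa using h2
    have h3 : ((LinearMap.id : Ch 𝕜 (Subgroup G) →ₗ[𝕜] Ch 𝕜 (Subgroup G)) -
        ep.smulRight (single [F] (1 : 𝕜))) z ∈ Bst 𝕜 (Ain p L) := by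
      refine map_mem _ ?_ hz
      intro l hl
      obtain ⟨E, rfl⟩ := List.length_eq_one_iff.1 hl.1
      obtain ⟨E0, hE0⟩ := hlift E (hl.2.2 E (by simp))
      have h4 := hall F0 E0 (hc F0 E0)
      rw [hF0, hE0] at h4
      have h5 : ep (single [E] (1 : 𝕜)) = 1 := by simp [ep, Finsupp.linearCombination_single]
      rw [LinearMap.sub_apply, LinearMap.id_apply, LinearMap.smulRight_apply, h5, one_smul]
      exact h4
    rw [LinearMap.sub_apply, LinearMap.id_apply, LinearMap.smulRight_apply, hep, zero_smul,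
      sub_zero] at h3
    exact h3
  · have : z = 0 := by
      have := eq_of_Sp (F := (LinearMap.id : Ch 𝕜 (Subgroup G) →ₗ[𝕜] Ch 𝕜 (Subgroup G))) (G := 0)
        (fun l (hl : l.length = 1 ∧ st (Ain p L) l) => by
          obtain ⟨E, rfl⟩ := List.length_eq_one_iff.1 hl.1
          exact absurd ⟨E, hl.2.2 E (by simp)⟩ hne) hz
      simpa using this
    rw [this]
    exact Submodule.zero_mem _

/-! ### The elimination theorem with at most two types -/

/-- Elimination theorem, at most two types of outer subgroups of order `p`. -/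
theorem elimination_two {p : ℕ} [Fact p.Prime] {G : Type u} [Group G] [Finite G]
    (L : Subgroup G) (hL : CompLike p L)
    (hconn : (∀ x ∈ normalizer (L : Set G), ∀ y ∈ normalizer (L : Set G),
      x ^ p ∈ centralizer (L : Set G) → y ^ p ∈ centralizer (L : Set G) →
      x ∉ L ⊔ centralizer (L : Set G) → y ∉ L ⊔ centralizer (L : Set G) →
      y ∈ zpowers x ⊔ (L ⊔ centralizer (L : Set G))) ∨
      (∀ g : G, g ^ p = 1 → g ∈ normalizer (L : Set G)) ∨
      ∀ A B : Ap p L, Relation.ReflTransGen (fun X Y => X ≤ Y ∨ Y ≤ X) A B)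
    (hout : ∀ x ∈ normalizer (L : Set G), ∀ y ∈ normalizer (L : Set G),
      ∀ z ∈ normalizer (L : Set G), x ^ p ∈ centralizer (L : Set G) →
      y ^ p ∈ centralizer (L : Set G) → z ^ p ∈ centralizer (L : Set G) →
      x ∉ L ⊔ centralizer (L : Set G) → y ∉ L ⊔ centralizer (L : Set G) →
      z ∉ L ⊔ centralizer (L : Set G) →
      y ∈ zpowers x ⊔ (L ⊔ centralizer (L : Set G)) ∨
      z ∈ zpowers x ⊔ (L ⊔ centralizer (L : Set G)) ∨
      z ∈ zpowers y ⊔ (L ⊔ centralizer (L : Set G)))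
    (h1 : HQ 𝕜 p L) (h2 : HQ 𝕜 p (centralizer (L : Set G)))
    (h3 : ∀ A : Subgroup L.normalizerMonoidHom.range,
      (∀ l : normalizer (L : Set G), (l : G) ∈ L → L.normalizerMonoidHom.rangeRestrict l ∈ A) →
      HQ 𝕜 p A) : HQ 𝕜 p G := by
  classical
  set N : Subgroup G := normalizer (L : Set G) with hN
  set K : Subgroup G := centralizer (L : Set G) with hK
  have hLN : L ≤ N := Subgroup.le_normalizer
  have hLn : (L.subgroupOf N).Normal := Subgroup.normal_in_normalizer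
  have hker : ∀ n : N, L.normalizerMonoidHom.rangeRestrict n = 1 ↔ (n : G) ∈ K := by
    intro n
    rw [← MonoidHom.mem_ker, MonoidHom.ker_rangeRestrict, normalizerMonoidHom_ker,
      Subgroup.mem_subgroupOf]
  have hctx : Ctx p L N K L.normalizerMonoidHom.rangeRestrict
      (QuotientGroup.mk' (L.subgroupOf N)) :=
    { comp := hL
      hN := rfl
      hK := rfl
      hπK := hker
      hsurj := L.normalizerMonoidHom.rangeRestrict_surjective
      hπL := fun n => by
        rw [← Subgroup.mem_subgroupOf]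
        exact QuotientGroup.eq_one_iff n }
  have hKN : K ≤ N := hctx.KN
  have hKn := hctx.Kn
  by_cases hone : ∀ x ∈ N, ∀ y ∈ N, x ^ p ∈ K → y ^ p ∈ K → x ∉ L ⊔ K → y ∉ L ⊔ K →
      y ∈ zpowers x ⊔ (L ⊔ K)
  · refine elimination L hL hone h1 h2 ?_
    have := h3 ⊤ (fun _ _ => Subgroup.mem_top _)
    rw [HQ_sub_iff] at this
    rw [HQ_iff]
    have h4 : Ain p (⊤ : Subgroup L.normalizerMonoidHom.range) =
        ApS p L.normalizerMonoidHom.range := by
      ext E
      exact ⟨fun h => h.1, fun h => ⟨h, le_top⟩⟩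
    rwa [h4] at this
  · push Not at hone
    obtain ⟨x1, hx1, x2, hx2, hp1, hp2, hx1L, hx2L, h21⟩ := hone
    have t : Two p L N K (zpowers x1 ⊔ (L ⊔ K)) (zpowers x2 ⊔ (L ⊔ K)) := by
      refine two_of hLN hKN hx1 hx2 hp1 hp2 h21 ?_
      intro x hx hxp hxLK
      rcases hout x1 hx1 x2 hx2 x hx hp1 hp2 hxp hx1L hx2L hxLK with h | h | h
      · exact absurd h h21
      · exact Or.inl h
      · exact Or.inr h
    have hQ : NA 𝕜 (ApS p L.normalizerMonoidHom.range) := by
      have := h3 ⊤ (fun _ _ => Subgroup.mem_top _)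
      rw [HQ_sub_iff] at this
      have h4 : Ain p (⊤ : Subgroup L.normalizerMonoidHom.range) =
          ApS p L.normalizerMonoidHom.range := by
        ext E
        exact ⟨fun h => h.1, fun h => ⟨h, le_top⟩⟩
      rwa [h4] at this
    rw [HQ_iff]
    refine two_core hctx t ((HQ_sub_iff L).1 h1) ((HQ_sub_iff _).1 h2) hQ ?_ ?_ ?_
    · rw [← HQ_sub_iff]
      refine h3 _ fun l hl => ?_
      exact (mem_Gam hctx (le_sup_right.trans t.LK1)).2 (t.LK1 (Subgroup.mem_sup_left hl))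
    · rw [← HQ_sub_iff]
      refine h3 _ fun l hl => ?_
      exact (mem_Gam hctx (le_sup_right.trans t.LK2)).2 (t.LK2 (Subgroup.mem_sup_left hl))
    · rcases hconn with h | h | h
      · exact absurd (h x1 hx1 x2 hx2 hp1 hp2 hx1L hx2L) h21
      · exact Or.inl h
      · exact Or.inr (conn_h0 h)

end Vale.Agent.P240.K
end

section

namespace Vale.Agent.P240.K

open Subgroup

universe u v

section
variable {G : Type u} [Group G]

/-- `F` is a set of component-like subgroups: it is stable under conjugation, distinct members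
commute elementwise, members have trivial centre and order divisible by `p`. -/
structure Family (p : ℕ) (F : Set (Subgroup G)) : Prop where
  conj : ∀ L ∈ F, ∀ g : G, L.map (MulAut.conj g).toMonoidHom ∈ F
  comm : ∀ L ∈ F, ∀ M ∈ F, L ≠ M → ∀ x ∈ L, ∀ y ∈ M, x * y = y * x
  centre : ∀ L ∈ F, L ⊓ centralizer (L : Set G) = ⊥
  dvd : ∀ L ∈ F, p ∣ Nat.card L

/-- The elements of `G` that centralize all members of `F` outside `D`. -/
def Rest (F D : Set (Subgroup G)) : Subgroup G := ⨅ L ∈ F \ D, centralizer (L : Set G)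

/-- `z ∈ Rest F D` has order prime to `p`, commutes with the elements of order `p` that centralize
all members of `F`, and normalizes all members of the conjugation-stable subset `D` of `F`. For
`L ∈ D` and every elementary abelian `p`-subgroup `E` of `Rest F D` that normalizes `L`, if the
image of `E` in `Aut(L)` is nontrivial and normalized by `z`, it contains a nontrivial element
commuting with the image of `z`. -/
structure GoodElement (p : ℕ) (F D : Set (Subgroup G)) (z : G) : Prop where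
  sub : D ⊆ F
  conj : ∀ L ∈ D, ∀ g : G, L.map (MulAut.conj g).toMonoidHom ∈ D
  rest : z ∈ Rest F D
  order : ¬ p ∣ orderOf z
  comm : ∀ g ∈ Rest F ∅, g ^ p = 1 → z * g = g * z
  norm : ∀ L ∈ D, z ∈ normalizer (L : Set G)
  fix : ∀ L ∈ D, ∀ E ≤ Rest F D ⊓ normalizer (L : Set G), ElemAb p E →
    (∀ e ∈ E, z * e * z⁻¹ ∈ E ⊔ centralizer (L : Set G)) →
    (∀ e ∈ E, z * e * z⁻¹ * e⁻¹ ∈ centralizer (L : Set G) → e ∈ centralizer (L : Set G)) →
    E ≤ centralizer (L : Set G)

/-- `φ` is invariant under conjugation by elements of order `p`, and `T ⊆ F` is stable under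
conjugation. For `L ∈ T`, the elements `a ∈ L` with `φ a ≠ 0` are free: if `E` is an elementary
abelian `p`-subgroup of `N_G(L)` whose image in `Aut(L)` is normalized by `a`, then `E` centralizes
`L`. Moreover `∑ φ(a) ≠ 0`, but `∑ φ(a) ^ (p ^ i) = 0` for `i ≥ 1`, the sums being over `a ∈ L`. -/
structure FreeWeight (p : ℕ) (F T : Set (Subgroup G)) (φ : G → ℂ) : Prop where
  sub : T ⊆ F
  conj : ∀ L ∈ T, ∀ g : G, L.map (MulAut.conj g).toMonoidHom ∈ T
  inv : ∀ x a : G, x ^ p = 1 → φ (x * a * x⁻¹) = φ a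
  free : ∀ L ∈ T, ∀ a ∈ L, φ a ≠ 0 → ∀ E ≤ normalizer (L : Set G), ElemAb p E →
    (∀ e ∈ E, a * e * a⁻¹ ∈ E ⊔ centralizer (L : Set G)) → E ≤ centralizer (L : Set G)
  sum : ∀ L ∈ T, ∑ᶠ a : L, φ a ≠ 0
  pow : ∀ L ∈ T, ∀ i : ℕ, ∑ᶠ a : L, φ a ^ p ^ (i + 1) = 0

/-- The centralizer of `z` in `Rest F D`. -/
def Cent (F D : Set (Subgroup G)) (z : G) : Subgroup G := Rest F D ⊓ centralizer {z}

end

end Vale.Agent.P240.K
end

section

namespace Vale.Agent.P240.K

open Finsupp Subgroup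

variable {𝕜 : Type*} [Field 𝕜]

universe u

section
variable {A B : Type*} [Group A] [Group B] {p : ℕ}

lemma map_mem_ApS {f : A →* B} (hf : Function.Injective f) {E : Subgroup A} :
    E.map f ∈ ApS p B ↔ E ∈ ApS p A := by
  constructor
  · rintro ⟨h1, h2, h3⟩
    refine ⟨?_, ?_, ?_⟩
    · rintro rfl
      exact h1 (Subgroup.map_bot f)
    · intro x hx y hy
      apply hf
      rw [map_mul, map_mul]
      exact h2 _ ⟨x, hx, rfl⟩ _ ⟨y, hy, rfl⟩
    · intro x hx
      apply hf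
      rw [map_pow, map_one]
      exact h3 _ ⟨x, hx, rfl⟩
  · rintro ⟨h1, h2, h3⟩
    refine ⟨?_, ?_, ?_⟩
    · intro h
      exact h1 ((Subgroup.map_eq_bot_iff_of_injective _ hf).1 h)
    · rintro _ ⟨x, hx, rfl⟩ _ ⟨y, hy, rfl⟩
      rw [← map_mul, ← map_mul, h2 x hx y hy]
    · rintro _ ⟨x, hx, rfl⟩
      rw [← map_pow, h3 x hx, map_one]

lemma map_lt {f : A →* B} (hf : Function.Injective f) {E F : Subgroup A} :
    E < F ↔ E.map f < F.map f := by
  rw [lt_iff_le_not_ge, lt_iff_le_not_ge, Subgroup.map_le_map_iff_of_injective hf,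
    Subgroup.map_le_map_iff_of_injective hf]

lemma NA_Ain_map {f : A →* B} (hf : Function.Injective f) (K : Subgroup A) :
    NA 𝕜 (Ain p (K.map f)) ↔ NA 𝕜 (Ain p K) := by
  have h : (Subgroup.map f) '' (Ain p K) = Ain p (K.map f) := by
    ext E
    constructor
    · rintro ⟨F, ⟨h1, h2⟩, rfl⟩
      exact ⟨(map_mem_ApS hf).2 h1, Subgroup.map_mono h2⟩
    · rintro ⟨h1, h2⟩
      have h3 : (E.comap f).map f = E := by
        rw [Subgroup.map_comap_eq, inf_eq_right]
        refine h2.trans ?_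
        exact Subgroup.map_le_range f K
      refine ⟨E.comap f, ⟨?_, ?_⟩, h3⟩
      · rw [← map_mem_ApS hf, h3]
        exact h1
      · rw [← Subgroup.map_le_map_iff_of_injective hf, h3]
        exact h2
  rw [← h]
  exact NA_image (Subgroup.map_injective hf).injOn fun x _ y _ => map_lt hf

lemma HQ_congr (e : A ≃* B) : HQ 𝕜 p A ↔ HQ 𝕜 p B := by
  have h1 : HQ 𝕜 p A ↔ NA 𝕜 (Ain p (⊤ : Subgroup A)) := by
    rw [HQ_iff]
    have : Ain p (⊤ : Subgroup A) = ApS p A := by
      ext E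
      exact ⟨fun h => h.1, fun h => ⟨h, le_top⟩⟩
    rw [this]
  have h2 : HQ 𝕜 p B ↔ NA 𝕜 (Ain p (⊤ : Subgroup B)) := by
    rw [HQ_iff]
    have : Ain p (⊤ : Subgroup B) = ApS p B := by
      ext E
      exact ⟨fun h => h.1, fun h => ⟨h, le_top⟩⟩
    rw [this]
  rw [h1, h2, ← NA_Ain_map (f := e.toMonoidHom) e.injective]
  have : (⊤ : Subgroup A).map e.toMonoidHom = ⊤ := by
    rw [← MonoidHom.range_eq_map]
    exact MonoidHom.range_eq_top.2 e.surjective
  rw [this]

lemma HQ_map {f : A →* B} (hf : Function.Injective f) (K : Subgroup A) :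
    HQ 𝕜 p (K.map f) ↔ HQ 𝕜 p K := by
  rw [HQ_sub_iff, HQ_sub_iff, NA_Ain_map hf]

end

section
variable {G : Type*} [Group G] {p : ℕ}

lemma mem_sup_cent {L : Subgroup G} {x : G} (hx : x ∈ L ⊔ centralizer (L : Set G)) :
    ∃ l ∈ L, ∃ c ∈ centralizer (L : Set G), x = l * c := by
  have key : ∀ l ∈ L, ∀ c ∈ centralizer (L : Set G), l * c = c * l := by
    intro l hl c hc
    rw [mem_centralizer_iff] at hc
    exact hc l hl
  let T : Subgroup G :=
    { carrier := {x | ∃ l ∈ L, ∃ c ∈ centralizer (L : Set G), x = l * c}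
      one_mem' := ⟨1, one_mem _, 1, one_mem _, by simp⟩
      mul_mem' := by
        rintro _ _ ⟨l, hl, c, hc, rfl⟩ ⟨l', hl', c', hc', rfl⟩
        refine ⟨l * l', mul_mem hl hl', c * c', mul_mem hc hc', ?_⟩
        rw [mul_assoc, ← mul_assoc c, ← key l' hl' c hc]
        group
      inv_mem' := by
        rintro _ ⟨l, hl, c, hc, rfl⟩
        refine ⟨l⁻¹, inv_mem hl, c⁻¹, inv_mem hc, ?_⟩
        rw [mul_inv_rev, key _ (inv_mem hl) _ (inv_mem hc)] }
  have h1 : L ≤ T := fun l hl => ⟨l, hl, 1, one_mem _, by simp⟩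
  have h2 : centralizer (L : Set G) ≤ T := fun c hc => ⟨1, one_mem _, c, hc, by simp⟩
  exact (sup_le h1 h2) hx

lemma mem_zpowers_sup {N W : Subgroup G} (hW : W ≤ N) [hn : (W.subgroupOf N).Normal]
    {x y : G} (hx : x ∈ N) (hy : y ∈ zpowers x ⊔ W) : ∃ i : ℤ, ∃ w ∈ W, y = x ^ i * w := by
  have hyN : y ∈ N := (sup_le (by rw [Subgroup.zpowers_le]; exact hx) hW) hy
  have h1 : (⟨y, hyN⟩ : N) ∈ (zpowers x ⊔ W).subgroupOf N := by
    rw [Subgroup.mem_subgroupOf]; exact hy
  rw [Subgroup.subgroupOf_sup (by rw [Subgroup.zpowers_le]; exact hx) hW,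
    Subgroup.mem_sup_of_normal_right] at h1
  obtain ⟨a, ha, b, hb, hab⟩ := h1
  rw [Subgroup.mem_subgroupOf] at ha hb
  obtain ⟨i, hi⟩ := ha
  refine ⟨i, b, hb, ?_⟩
  have := congrArg Subtype.val hab
  simp only [Subgroup.coe_mul] at this
  rw [← this, ← hi]

lemma mem_norm_sub {H L : Subgroup G} (hLH : L ≤ H) {x : H} :
    x ∈ normalizer ((L.subgroupOf H : Subgroup H) : Set H) ↔ (x : G) ∈ normalizer (L : Set G) := by
  rw [mem_normalizer_iff, mem_normalizer_iff]
  constructor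
  · intro h y
    constructor
    · intro hy
      have := (h ⟨y, hLH hy⟩).1 (by rw [mem_subgroupOf]; exact hy)
      rw [mem_subgroupOf] at this
      exact this
    · intro hy
      have hy' : y ∈ H := by
        have h1 := H.mul_mem (H.mul_mem (H.inv_mem x.2) (hLH hy)) x.2
        have h2 : (x : G)⁻¹ * (x * y * (x : G)⁻¹) * x = y := by group
        rwa [h2] at h1
      have := (h ⟨y, hy'⟩).2 (by rw [mem_subgroupOf]; exact hy)
      rw [mem_subgroupOf] at this
      exact this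
  · intro h y
    rw [mem_subgroupOf, mem_subgroupOf]
    exact h y

lemma mem_cent_sub {H L : Subgroup G} (hLH : L ≤ H) {x : H} :
    x ∈ centralizer ((L.subgroupOf H : Subgroup H) : Set H) ↔
      (x : G) ∈ centralizer (L : Set G) := by
  rw [mem_centralizer_iff, mem_centralizer_iff]
  constructor
  · intro h y hy
    have := h ⟨y, hLH hy⟩ (by
      change (⟨y, hLH hy⟩ : H) ∈ L.subgroupOf H
      rw [mem_subgroupOf]; exact hy)
    exact congrArg Subtype.val this
  · intro h y hy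
    apply Subtype.ext
    exact h y (by
      have : y ∈ L.subgroupOf H := hy
      rw [mem_subgroupOf] at this
      exact this)

end

section
variable {G : Type u} [Group G] {p : ℕ}

/-- One step of the elimination, inside a subgroup `H`. -/
theorem elim_step [Fact p.Prime] [Finite G] (H L : Subgroup G) (hLH : L ≤ H) (hL : CompLike p L)
    (hfew : FewOuter p L) (hAK : AlmostSimpleHQ 𝕜 p L)
    (hC : NA 𝕜 (Ain p (H ⊓ centralizer (L : Set G)))) : NA 𝕜 (Ain p H) := by
  classical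
  rw [← HQ_sub_iff]
  set L' : Subgroup H := L.subgroupOf H with hL'
  let e : L' ≃* L := subgroupOfEquivOfLe hLH
  have hsupdown : ∀ x : H, (x : G) ∈ L ⊔ centralizer (L : Set G) →
      x ∈ L' ⊔ centralizer (L' : Set H) := by
    intro x hx
    obtain ⟨l, hl, c, hc, hxe⟩ := mem_sup_cent hx
    have hcH : c ∈ H := by
      have : c = l⁻¹ * x := by rw [hxe]; group
      rw [this]
      exact H.mul_mem (H.inv_mem (hLH hl)) x.2
    have : x = ⟨l, hLH hl⟩ * ⟨c, hcH⟩ := Subtype.ext hxe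
    rw [this]
    refine mul_mem (mem_sup_left ?_) (mem_sup_right ?_)
    · rw [hL', mem_subgroupOf]; exact hl
    · rw [mem_cent_sub hLH]; exact hc
  have hnW : ((L ⊔ centralizer (L : Set G)).subgroupOf (normalizer (L : Set G))).Normal := by
    have hLn : (L.subgroupOf (normalizer (L : Set G))).Normal := Subgroup.normal_in_normalizer
    have hCN : centralizer (L : Set G) ≤ normalizer (L : Set G) := by
      intro c hc
      rw [mem_normalizer_iff]
      intro y
      rw [mem_centralizer_iff] at hc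
      constructor
      · intro hy
        have : c * y * c⁻¹ = y := by rw [← hc y hy]; group
        rwa [this]
      · intro hy
        have h1 := hc _ hy
        have : y = c * y * c⁻¹ := by
          have h2 : c * y * c⁻¹ * c = c * (c * y * c⁻¹) := h1
          have h3 : c * y = c * (c * y * c⁻¹) := by rw [← h2]; group
          exact mul_left_cancel h3
        rw [this]
        exact hy
    have hCn : ((centralizer (L : Set G)).subgroupOf (normalizer (L : Set G))).Normal := by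
      constructor
      intro n hn g
      rw [mem_subgroupOf] at hn ⊢
      exact conj_mem_centralizer g.2 hn
    rw [Subgroup.subgroupOf_sup Subgroup.le_normalizer hCN]
    exact Subgroup.sup_normal _ _
  have hWN : L ⊔ centralizer (L : Set G) ≤ normalizer (L : Set G) := by
    refine sup_le Subgroup.le_normalizer ?_
    intro c hc
    rw [mem_normalizer_iff]
    intro y
    rw [mem_centralizer_iff] at hc
    constructor
    · intro hy
      have : c * y * c⁻¹ = y := by rw [← hc y hy]; group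
      rwa [this]
    · intro hy
      have h1 := hc _ hy
      have : y = c * y * c⁻¹ := by
        have h2 : c * y * c⁻¹ * c = c * (c * y * c⁻¹) := h1
        have h3 : c * y = c * (c * y * c⁻¹) := by rw [← h2]; group
        exact mul_left_cancel h3
      rw [this]
      exact hy
  have hzdown : ∀ x y : H, x ∈ normalizer (L' : Set H) →
      (y : G) ∈ zpowers (x : G) ⊔ (L ⊔ centralizer (L : Set G)) →
      y ∈ zpowers x ⊔ (L' ⊔ centralizer (L' : Set H)) := by
    intro x y hx hy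
    obtain ⟨i, w, hw, hyw⟩ := mem_zpowers_sup hWN ((mem_norm_sub hLH).1 hx) hy
    have hwH : w ∈ H := by
      have : w = (x : G) ^ (-i) * y := by rw [hyw]; group
      rw [this]
      exact H.mul_mem (H.zpow_mem x.2 _) y.2
    have : y = x ^ i * ⟨w, hwH⟩ := Subtype.ext (by simpa using hyw)
    rw [this]
    exact mul_mem (mem_sup_left (zpow_mem (mem_zpowers x) i))
      (mem_sup_right (hsupdown _ hw))
  obtain ⟨hout, hconn⟩ := hfew
  have hup : ∀ x : H, x ∉ L' ⊔ centralizer (L' : Set H) →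
      (x : G) ∉ L ⊔ centralizer (L : Set G) := fun x h h' => h (hsupdown x h')
  have hpw : ∀ x : H, x ^ p ∈ centralizer (L' : Set H) →
      (x : G) ^ p ∈ centralizer (L : Set G) := by
    intro x h
    rw [mem_cent_sub hLH] at h
    simpa using h
  refine elimination_two L' ⟨?_, ?_, ?_⟩ ?_ ?_ ?_ ?_ ?_
  · rw [eq_bot_iff]
    rintro x ⟨h1, h2⟩
    have h3 : (x : G) ∈ L ⊓ centralizer (L : Set G) :=
      ⟨mem_subgroupOf.1 h1, (mem_cent_sub hLH).1 h2⟩
    rw [hL.centre, mem_bot] at h3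
    rw [mem_bot]
    exact Subtype.ext h3
  · intro g hg x hx y hy
    rw [mem_norm_sub hLH] at hg
    apply Subtype.ext
    exact hL.conj g hg x (mem_subgroupOf.1 hx) y (mem_subgroupOf.1 hy)
  · rw [Nat.card_congr e.toEquiv]
    exact hL.dvd
  · rcases hconn with h | h | h
    · left
      intro x hx y hy hxp hyp hxL hyL
      exact hzdown x y hx (h x y ⟨(mem_norm_sub hLH).1 hx, hpw x hxp, hup x hxL⟩
        ⟨(mem_norm_sub hLH).1 hy, hpw y hyp, hup y hyL⟩)
    · right; left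
      intro g hg
      rw [mem_norm_sub hLH]
      exact h g (by simpa using congrArg Subtype.val hg)
    · right; right
      intro A B
      have hm : ∀ A : Ap p L', (A.1.map e.toMonoidHom) ≠ ⊥ ∧
          (∀ x ∈ (A.1.map e.toMonoidHom), ∀ y ∈ (A.1.map e.toMonoidHom), x * y = y * x) ∧
          ∀ x ∈ (A.1.map e.toMonoidHom), x ^ p = 1 := fun A =>
        (map_mem_ApS (p := p) (f := e.toMonoidHom) e.injective).2 A.2
      have hm' : ∀ A : Ap p L, (A.1.map e.symm.toMonoidHom) ≠ ⊥ ∧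
          (∀ x ∈ (A.1.map e.symm.toMonoidHom), ∀ y ∈ (A.1.map e.symm.toMonoidHom),
            x * y = y * x) ∧
          ∀ x ∈ (A.1.map e.symm.toMonoidHom), x ^ p = 1 := fun A =>
        (map_mem_ApS (p := p) (f := e.symm.toMonoidHom) e.symm.injective).2 A.2
      have h1 := h ⟨_, hm A⟩ ⟨_, hm B⟩
      have h2 := Relation.ReflTransGen.lift
        (r := fun X Y : Ap p L => X ≤ Y ∨ Y ≤ X) (p := fun X Y : Ap p L' => X ≤ Y ∨ Y ≤ X)
        (fun X : Ap p L => (⟨X.1.map e.symm.toMonoidHom, hm' X⟩ : Ap p L'))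
        (fun X Y hXY => by
          rcases hXY with h | h
          · exact Or.inl (Subgroup.map_mono h)
          · exact Or.inr (Subgroup.map_mono h)) _ _ h1
      have h3 : ∀ A : Ap p L', (⟨(A.1.map e.toMonoidHom).map e.symm.toMonoidHom,
          hm' ⟨_, hm A⟩⟩ : Ap p L') = A := by
        intro A
        apply Subtype.ext
        change (A.1.map e.toMonoidHom).map e.symm.toMonoidHom = A.1
        rw [Subgroup.map_map]
        have : e.symm.toMonoidHom.comp e.toMonoidHom = MonoidHom.id L' := by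
          ext x
          simp
        rw [this, Subgroup.map_id]
      have h4 := h3 A
      have h5 := h3 B
      rw [← h4, ← h5]
      exact h2
  · intro x hx y hy z hz hxp hyp hzp hxL hyL hzL
    rcases hout x y z ⟨(mem_norm_sub hLH).1 hx, hpw x hxp, hup x hxL⟩
      ⟨(mem_norm_sub hLH).1 hy, hpw y hyp, hup y hyL⟩
      ⟨(mem_norm_sub hLH).1 hz, hpw z hzp, hup z hzL⟩ with h | h | h
    · exact Or.inl (hzdown x y hx h)
    · exact Or.inr (Or.inl (hzdown x z hx h))
    · exact Or.inr (Or.inr (hzdown y z hy h))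
  · rw [HQ_congr e]
    have h1 : Function.Injective (MulAut.conj : L →* MulAut L) := by
      rw [injective_iff_map_eq_one]
      intro l hl
      have h2 : (l : G) ∈ L ⊓ centralizer (L : Set G) := by
        refine ⟨l.2, mem_centralizer_iff.2 ?_⟩
        intro y hy
        have h3 : l * ⟨y, hy⟩ * l⁻¹ = (⟨y, hy⟩ : L) := by
          have := congrArg (fun f : MulAut L => f ⟨y, hy⟩) hl
          simpa using this
        have h4 := congrArg Subtype.val h3
        simp only [Subgroup.coe_mul, Subgroup.coe_inv] at h4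
        calc y * (l : G) = (l * y * (l : G)⁻¹) * l := by rw [h4]
          _ = l * y := by group
      rw [hL.centre, mem_bot] at h2
      exact Subtype.ext h2
    rw [HQ_congr (MonoidHom.ofInjective h1)]
    refine hAK _ ?_ fun l => ⟨l, rfl⟩
    rintro _ ⟨l, rfl⟩
    refine ⟨⟨l, Subgroup.le_normalizer l.2⟩, ?_⟩
    apply MulEquiv.ext
    intro x
    apply Subtype.ext
    rfl
  · rw [HQ_sub_iff, ← NA_Ain_map H.subtype_injective]
    have : (centralizer (L' : Set H)).map H.subtype = H ⊓ centralizer (L : Set G) := by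
      ext x
      constructor
      · rintro ⟨y, hy, rfl⟩
        exact ⟨y.2, (mem_cent_sub hLH).1 hy⟩
      · rintro ⟨h1, h2⟩
        exact ⟨⟨x, h1⟩, (mem_cent_sub hLH).2 h2, rfl⟩
    rw [this]
    exact hC
  · intro A' hA'
    let φ : L'.normalizerMonoidHom.range →* MulAut L :=
      (MulAut.congr e).toMonoidHom.comp (L'.normalizerMonoidHom.range).subtype
    have hφ : Function.Injective φ := (MulAut.congr e).injective.comp (Subgroup.subtype_injective _)
    rw [← HQ_map hφ]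
    have hval : ∀ (n : normalizer (L' : Set H)) (hn : ((n : H) : G) ∈ normalizer (L : Set G)),
        φ (L'.normalizerMonoidHom.rangeRestrict n) = L.normalizerMonoidHom ⟨((n : H) : G), hn⟩ := by
      intro n hn
      apply MulEquiv.ext
      intro x
      apply Subtype.ext
      rfl
    refine hAK _ ?_ ?_
    · rintro _ ⟨⟨_, n, rfl⟩, _, rfl⟩
      have hn := (mem_norm_sub hLH).1 n.2
      exact ⟨⟨_, hn⟩, (hval n hn).symm⟩
    · intro l
      have hl : (⟨l, hLH l.2⟩ : H) ∈ L' := by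
        rw [hL', mem_subgroupOf]
        exact l.2
      refine ⟨L'.normalizerMonoidHom.rangeRestrict ⟨⟨l, hLH l.2⟩, Subgroup.le_normalizer hl⟩,
        hA' _ hl, ?_⟩
      apply MulEquiv.ext
      intro x
      apply Subtype.ext
      rfl

end

end Vale.Agent.P240.K
end

section

namespace Vale.Agent.P240.K

open Finsupp Subgroup

variable {𝕜 : Type*} [Field 𝕜]

universe u

section
variable {G : Type*} [Group G] {p : ℕ}

/-- the common centralizer of a family of subgroups -/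
def Cen (F : Set (Subgroup G)) : Subgroup G := centralizer (⋃ L ∈ F, (L : Set G))

lemma mem_Cen {F : Set (Subgroup G)} {x : G} :
    x ∈ Cen F ↔ ∀ L ∈ F, x ∈ centralizer (L : Set G) := by
  rw [Cen, mem_centralizer_iff]
  constructor
  · intro h L hL
    rw [mem_centralizer_iff]
    intro y hy
    exact h y (Set.mem_biUnion hL hy)
  · intro h y hy
    obtain ⟨L, hL, hyL⟩ := Set.mem_iUnion₂.1 hy
    exact (mem_centralizer_iff.1 (h L hL)) y hyL

lemma Cen_insert {F : Set (Subgroup G)} {L : Subgroup G} :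
    Cen (insert L F) = Cen F ⊓ centralizer (L : Set G) := by
  ext x
  rw [mem_inf, mem_Cen, mem_Cen]
  constructor
  · intro h
    exact ⟨fun M hM => h M (Set.mem_insert_of_mem _ hM), h L (Set.mem_insert _ _)⟩
  · rintro ⟨h1, h2⟩ M hM
    rcases Set.mem_insert_iff.1 hM with rfl | hM
    · exact h2
    · exact h1 M hM

lemma Cen_empty : Cen (∅ : Set (Subgroup G)) = ⊤ := by
  rw [eq_top_iff]
  intro x _
  rw [mem_Cen]
  simp

lemma Family.compLike {F : Set (Subgroup G)} (h : Family p F) {L : Subgroup G} (hL : L ∈ F) :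
    CompLike p L := by
  refine ⟨h.centre L hL, ?_, h.dvd L hL⟩
  intro g hg x hx y hy
  have h1 : cj g L ∈ F := h.conj L hL g
  have h2 : L ≠ cj g L := by
    intro h3
    exact hg (cj_eq_iff.1 h3.symm)
  refine h.comm L hL _ h1 h2 x hx _ ?_
  rw [mem_cj]
  have : g⁻¹ * (g * y * g⁻¹) * g = y := by group
  rwa [this]

lemma Family.le_Cen {F T : Set (Subgroup G)} (h : Family p F) (hT : T ⊆ F) {L : Subgroup G}
    (hL : L ∈ F) (hLT : L ∉ T) : L ≤ Cen T := by
  intro x hx
  rw [mem_Cen]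
  intro M hM
  rw [mem_centralizer_iff]
  intro y hy
  refine h.comm M (hT hM) L hL ?_ y hy x hx
  rintro rfl
  exact hLT hM

lemma zpowers_mem_ApS {x : G} (hx : x ^ p = 1) (hx1 : x ≠ 1) : zpowers x ∈ ApS p G := by
  refine ⟨?_, ?_, ?_⟩
  · intro h
    rw [Subgroup.zpowers_eq_bot] at h
    exact hx1 h
  · rintro _ ⟨i, rfl⟩ _ ⟨j, rfl⟩
    change x ^ i * x ^ j = x ^ j * x ^ i
    rw [← zpow_add, ← zpow_add, add_comm]
  · rintro _ ⟨i, rfl⟩
    change (x ^ i) ^ p = 1
    rw [← zpow_natCast, ← zpow_mul, mul_comm, zpow_mul, zpow_natCast, hx, one_zpow]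

lemma free_spec [hp : Fact p.Prime] {r : ℕ} [hr : Fact r.Prime] (hrp : r ≠ p) [Finite G]
    {L : Subgroup G} (hL : CompLike p L) {U : Subgroup G} (hUL : U ≤ L) (hU : IsPGroup r U)
    (hfree : ∀ E ∈ ApS p G, E ≤ normalizer (L : Set G) →
      U ≤ normalizer (E : Set G) → E ≤ centralizer (L : Set G)) :
    ∀ E ∈ ApS p G, U ≤ normalizer (E : Set G) → E ≤ centralizer (L : Set G) := by
  have hUne : U ≠ ⊥ := by
    rintro rfl
    obtain ⟨x, hx⟩ := exists_prime_orderOf_dvd_card' p hL.dvd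
    have hxp : (x : G) ^ p = 1 := by
      have h1 : x ^ p = 1 := by rw [← hx]; exact pow_orderOf_eq_one x
      simpa using congrArg Subtype.val h1
    have hx1 : (x : G) ≠ 1 := by
      intro h
      have : x = 1 := Subtype.ext h
      rw [this, orderOf_one] at hx
      exact hp.out.one_lt.ne hx
    have hle : zpowers (x : G) ≤ L := by rw [Subgroup.zpowers_le]; exact x.2
    have h2 := hfree _ (zpowers_mem_ApS hxp hx1) (hle.trans Subgroup.le_normalizer) bot_le
    have h3 : (x : G) ∈ L ⊓ centralizer (L : Set G) := ⟨x.2, h2 (mem_zpowers _)⟩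
    rw [hL.centre, mem_bot] at h3
    exact hx1 h3
  intro E hE hUE
  refine hfree E hE ?_ hUE
  intro e he
  by_contra heN
  obtain ⟨u, hu1⟩ := (Subgroup.ne_bot_iff_exists_ne_one).1 hUne
  have huL : (u : G) ∈ L := hUL u.2
  -- the commutator
  have h1 : (u : G) * e * (u : G)⁻¹ ∈ E := by
    have := hUE u.2
    rw [mem_normalizer_iff] at this
    exact (this e).1 he
  have hc : (u : G) * (e * (u : G)⁻¹ * e⁻¹) ∈ E := by
    have := E.mul_mem h1 (E.inv_mem he)
    have h2 : (u : G) * e * (u : G)⁻¹ * e⁻¹ = (u : G) * (e * (u : G)⁻¹ * e⁻¹) := by group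
    rwa [h2] at this
  have hcomm : Commute (u : G) (e * (u : G)⁻¹ * e⁻¹) :=
    hL.conj e heN u huL _ (L.inv_mem huL)
  have h3 := hE.2.2 _ hc
  rw [hcomm.mul_pow] at h3
  have h4 : (e * (u : G)⁻¹ * e⁻¹) ^ p = e * ((u : G) ^ p)⁻¹ * e⁻¹ := by
    rw [conj_pow, inv_pow]
  rw [h4] at h3
  have h5 : (u : G) ^ p = e * (u : G) ^ p * e⁻¹ := by
    calc (u : G) ^ p = (e * ((u : G) ^ p)⁻¹ * e⁻¹)⁻¹ := eq_inv_of_mul_eq_one_left h3
      _ = e * (u : G) ^ p * e⁻¹ := by group
  have h6 : (u : G) ^ p ∈ L ⊓ centralizer (L : Set G) := by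
    refine ⟨L.pow_mem huL p, ?_⟩
    change (u : G) ^ p ∈ centralizer (L : Set G)
    rw [mem_centralizer_iff]
    intro x hx
    have := hL.conj e heN x hx _ (L.pow_mem huL p)
    rwa [← h5] at this
  rw [hL.centre, mem_bot] at h6
  obtain ⟨k, hk⟩ := hU u
  have h7 : (u : G) ^ r ^ k = 1 := by simpa using congrArg Subtype.val hk
  have h8 : Nat.Coprime p (r ^ k) :=
    Nat.Coprime.pow_right k ((Nat.coprime_primes hp.out hr.out).2 hrp.symm)
  have h9 : (u : G) = 1 := by
    rw [← orderOf_eq_one_iff]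
    exact Nat.eq_one_of_dvd_coprimes h8 (orderOf_dvd_of_pow_eq_one h6)
      (orderOf_dvd_of_pow_eq_one h7)
  exact hu1 (Subtype.ext h9)

lemma cj_mem_Ain {H : Subgroup G} {u : G} (hu : u ∈ H) {E : Subgroup G} (hE : E ∈ Ain p H) :
    cj u E ∈ Ain p H := by
  refine ⟨(map_mem_ApS (f := (MulAut.conj u).toMonoidHom) (MulAut.conj u).injective).2 hE.1, ?_⟩
  intro x hx
  rw [mem_cj] at hx
  have h1 := hE.2 hx
  have h2 := H.mul_mem (H.mul_mem hu h1) (H.inv_mem hu)
  have h3 : u * (u⁻¹ * x * u) * u⁻¹ = x := by group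
  rwa [h3] at h2

/-- One Smith step. -/
theorem smith_step [Fact p.Prime] {q : ℕ} [hq : Fact q.Prime] (hqp : q ≠ p)
    (hchar : (q : 𝕜) = 0) [Finite G] (H L : Subgroup G) (hLH : L ≤ H) (hL : CompLike p L)
    (hfree : FreeSub p q L) (hC : NA 𝕜 (Ain p (H ⊓ centralizer (L : Set G)))) :
    NA 𝕜 (Ain p H) := by
  obtain ⟨U, hUL, hU, hf⟩ := hfree
  obtain ⟨n, hn⟩ := IsPGroup.iff_card.1 hU
  have hspec := free_spec hqp hL hUL hU hf
  by_contra hac
  have h1 := smith_group (𝕜 := 𝕜) hchar n U hn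
    (fun u hu E hE => cj_mem_Ain (hLH (hUL hu)) hE) hac
  apply h1
  have : {E | E ∈ Ain p H ∧ U ≤ normalizer (E : Set G)} =
      Ain p (H ⊓ centralizer (L : Set G)) := by
    ext E
    constructor
    · rintro ⟨h1, h2⟩
      exact ⟨h1.1, le_inf h1.2 (hspec E h1.1 h2)⟩
    · rintro ⟨h1, h2⟩
      refine ⟨⟨h1, h2.trans inf_le_left⟩, ?_⟩
      intro u hu
      rw [mem_normalizer_iff]
      have hu' : ∀ x ∈ E, u * x = x * u := fun x hx =>
        mem_centralizer_iff.1 ((h2.trans inf_le_right) hx) u (hUL hu)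
      intro x
      constructor
      · intro hx
        rw [hu' x hx, mul_assoc, mul_inv_cancel, mul_one]
        exact hx
      · intro hx
        have h3 := hu' _ hx
        have h4 : x = u * x * u⁻¹ := by
          have h5 : u * (u * x * u⁻¹) = u * x := by rw [h3]; group
          exact (mul_left_cancel h5).symm
        rw [h4]
        exact hx
  rw [this]
  exact hC

end

section
variable {G : Type u} [Group G] {p : ℕ}

theorem remove [Fact p.Prime] [Finite G] {F : Set (Subgroup G)} (hF : Family p F)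
    {T : Set (Subgroup G)} (hTF : T ⊆ F) (hT : ∀ L ∈ T, Removable 𝕜 p L)
    (hC : NA 𝕜 (Ain p (Cen T))) : NA 𝕜 (ApS p G) := by
  have key : ∀ T : Set (Subgroup G), T.Finite → T ⊆ F → (∀ L ∈ T, Removable 𝕜 p L) →
      NA 𝕜 (Ain p (Cen T)) → NA 𝕜 (Ain p (⊤ : Subgroup G)) := by
    intro T hfin
    induction T, hfin using Set.Finite.induction_on with
    | empty =>
      intro _ _ h
      rwa [Cen_empty] at h
    | @insert L T hLT _ ih =>
      intro hsub hrem h
      have hLF : L ∈ F := hsub (Set.mem_insert _ _)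
      have hTF : T ⊆ F := fun M hM => hsub (Set.mem_insert_of_mem _ hM)
      refine ih hTF (fun M hM => hrem M (Set.mem_insert_of_mem _ hM)) ?_
      rw [Cen_insert] at h
      have hle : L ≤ Cen T := hF.le_Cen hTF hLF hLT
      rcases hrem L (Set.mem_insert _ _) with ⟨h1, h2⟩ | ⟨q, hq, hqp, hchar, hfree⟩
      · exact elim_step (Cen T) L hle (hF.compLike hLF) h1 h2 h
      · have : Fact q.Prime := ⟨hq⟩
        exact smith_step hqp hchar (Cen T) L hle (hF.compLike hLF) hfree h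
  have h1 := key T (Set.toFinite T) hTF hT hC
  have : Ain p (⊤ : Subgroup G) = ApS p G := by
    ext E
    exact ⟨fun h => h.1, fun h => ⟨h, le_top⟩⟩
  rwa [this] at h1

end

end Vale.Agent.P240.K
end

section

namespace Vale.Agent.P240.K

open Finsupp

section
variable {R R' : Type*} [CommRing R] [CommRing R'] {α : Type*}

/-- boundary over a commutative ring -/
noncomputable def bdR (R : Type*) [CommRing R] {α : Type*} : (List α →₀ R) →ₗ[R] (List α →₀ R) :=
  Finsupp.linearCombination R fun l : List α =>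
    ∑ i ∈ Finset.range l.length, (-1 : R) ^ i • Finsupp.single (l.eraseIdx i) (1 : R)

/-- change of coefficients -/
noncomputable def MR (φ : R →+ R') : (List α →₀ R) →+ (List α →₀ R') :=
  Finsupp.mapRange.addMonoidHom φ

lemma MR_apply (φ : R →+ R') (c : List α →₀ R) (l : List α) : MR φ c l = φ (c l) := rfl

lemma MR_single (φ : R →+ R') (l : List α) (r : R) : MR φ (single l r) = single l (φ r) :=
  Finsupp.mapRange_single (hf := φ.map_zero)

lemma bdR_MR (φ : R →+ R') (c : List α →₀ R) : bdR R' (MR φ c) = MR φ (bdR R c) := by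
  have hneg : ∀ (i : ℕ) (r : R), φ (r * (-1) ^ i) = φ r * (-1) ^ i := by
    intro i r
    rcases neg_one_pow_eq_or R i with h | h
    · rcases neg_one_pow_eq_or R' i with h' | h'
      · rw [h, h', mul_one, mul_one]
      · rcases Nat.even_or_odd i with hi | hi
        · rw [hi.neg_one_pow, hi.neg_one_pow, mul_one, mul_one]
        · rw [hi.neg_one_pow, hi.neg_one_pow, mul_neg_one, mul_neg_one, map_neg]
    · rcases Nat.even_or_odd i with hi | hi
      · rw [hi.neg_one_pow, hi.neg_one_pow, mul_one, mul_one]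
      · rw [hi.neg_one_pow, hi.neg_one_pow, mul_neg_one, mul_neg_one, map_neg]
  induction c using Finsupp.induction_linear with
  | zero => simp
  | add f g hf hg => rw [map_add, map_add, hf, hg, map_add, map_add]
  | single l r =>
    rw [MR_single, bdR, bdR, Finsupp.linearCombination_single, Finsupp.linearCombination_single,
      Finset.smul_sum, Finset.smul_sum, map_sum]
    refine Finset.sum_congr rfl fun i _ => ?_
    rw [smul_smul, smul_smul, Finsupp.smul_single, Finsupp.smul_single, MR_single, smul_eq_mul,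
      smul_eq_mul, mul_one, mul_one, hneg]

lemma MR_supported {s : Set (List α)} (φ : R →+ R') {c : List α →₀ R}
    (hc : c ∈ Finsupp.supported R R s) : MR φ c ∈ Finsupp.supported R' R' s := by
  rw [Finsupp.mem_supported] at hc ⊢
  intro l hl
  apply hc
  rw [Finset.mem_coe, Finsupp.mem_support_iff] at hl ⊢
  intro h
  exact hl (by rw [MR_apply, h, map_zero])

end

section
variable {𝕜 : Type*} [Field 𝕜] {α : Type*} [PartialOrder α] {S : Set α}

lemma st_finite (hS : S.Finite) : {l : List α | st S l}.Finite := by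
  classical
  have h : {l : List α | st S l} ⊆ ⋃ n ∈ Finset.range (hS.toFinset.card + 1), stn S n := by
    intro l hl
    rw [Set.mem_iUnion₂]
    refine ⟨l.length, ?_, rfl, hl⟩
    rw [Finset.mem_range]
    exact Nat.lt_succ_of_le (st_length_le hS hl)
  refine Set.Finite.subset ?_ h
  refine Set.Finite.biUnion (Finset.finite_toSet _) fun n _ => stn_finite hS n

omit [PartialOrder α] in
lemma bdR_eq {K : Type*} [Field K] (c : List α →₀ K) : bdR K c = bd c := rfl

lemma castZ_inj {x y : ℤ} (h : Int.castAddHom ℚ x = Int.castAddHom ℚ y) : x = y :=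
  Int.cast_injective (α := ℚ) h

/-- Acyclicity descends along a split extension. -/
lemma not_NA_retr {F : Type*} [Field F] (ι : F →+ 𝕜) (ρ : 𝕜 →+ F) (h : ∀ x, ρ (ι x) = x)
    (hac : ¬ NA 𝕜 S) : ¬ NA F S := by
  rw [not_NA_iff] at hac ⊢
  intro z hz hb
  obtain ⟨c, hc, hcz⟩ := hac (MR ι z) (MR_supported ι hz) (by
    rw [← bdR_eq, bdR_MR, bdR_eq, hb, map_zero])
  refine ⟨MR ρ c, MR_supported ρ hc, ?_⟩
  rw [← bdR_eq, bdR_MR, bdR_eq, hcz]
  ext l
  rw [MR_apply, MR_apply, h]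

/-- an additive map to a subfield fixing `1` -/
lemma exists_retr (F : Type*) [Field F] [Algebra F 𝕜] :
    ∃ ρ : 𝕜 →ₗ[F] F, ρ 1 = 1 := by
  obtain ⟨f, -, hf⟩ := exists_functional (𝕜 := F) (⊥ : Submodule F 𝕜) 1 (by
    rw [Submodule.mem_bot]; exact one_ne_zero)
  exact ⟨(f 1)⁻¹ • f, by rw [LinearMap.smul_apply, smul_eq_mul, inv_mul_cancel₀ hf]⟩

/-- **Universal coefficients**: an acyclic finite poset over some field is `ℚ`-acyclic. -/
theorem NA_of_rat (hS : S.Finite) (h : NA ℚ S) : NA 𝕜 S := by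
  by_contra hac
  apply absurd h
  obtain ⟨q, hq⟩ := CharP.exists 𝕜
  rcases Nat.eq_zero_or_pos q with hq0 | hq0
  · subst hq0
    have : CharZero 𝕜 := CharP.charP_to_charZero 𝕜
    obtain ⟨ρ, hρ⟩ := exists_retr (𝕜 := 𝕜) ℚ
    refine not_NA_retr (Rat.castHom 𝕜).toAddMonoidHom ρ.toAddMonoidHom (fun x => ?_) hac
    change ρ ((x : ℚ) : 𝕜) = x
    have : ((x : ℚ) : 𝕜) = x • (1 : 𝕜) := by rw [Rat.smul_one_eq_cast]
    rw [this, map_smul, hρ, smul_eq_mul, mul_one]
  · have hqp : q.Prime := (CharP.char_is_prime_or_zero 𝕜 q).resolve_right hq0.ne'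
    have : Fact q.Prime := ⟨hqp⟩
    let alg : Algebra (ZMod q) 𝕜 := ZMod.algebra 𝕜 q
    obtain ⟨ρ, hρ⟩ := exists_retr (𝕜 := 𝕜) (ZMod q)
    have hac' : ¬ NA (ZMod q) S := by
      refine not_NA_retr (algebraMap (ZMod q) 𝕜).toAddMonoidHom ρ.toAddMonoidHom (fun x => ?_) hac
      change ρ (algebraMap (ZMod q) 𝕜 x) = x
      rw [Algebra.algebraMap_eq_smul_one, map_smul, hρ, smul_eq_mul, mul_one]
    clear hac hρ ρ alg hq
    rw [not_NA_iff] at hac' ⊢
    -- integral cycles and boundaries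
    let st' : Set (List α) := {l | st S l}
    let C : Submodule ℤ (List α →₀ ℤ) := Finsupp.supported ℤ ℤ st'
    let Z : Submodule ℤ (List α →₀ ℤ) := C ⊓ LinearMap.ker (bdR ℤ)
    let B : Submodule ℤ (List α →₀ ℤ) := C.map (bdR ℤ)
    have hstf : st'.Finite := st_finite hS
    have hCfg : C.FG := by
      have : Finite st' := hstf
      have h1 : Module.Finite ℤ C :=
        Module.Finite.equiv (Finsupp.supportedEquivFinsupp (M := ℤ) (R := ℤ) st').symm
      exact Module.Finite.iff_fg.1 h1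
    have hZfg : Z.FG := by
      have hN : IsNoetherian ℤ C := isNoetherian_of_fg_of_noetherian C hCfg
      have h2 : (Z.comap C.subtype).FG := IsNoetherian.noetherian _
      have h3 : (Z.comap C.subtype).map C.subtype = Z := by
        rw [Submodule.map_comap_subtype]
        exact inf_eq_right.2 inf_le_left
      rw [← h3]
      exact h2.map _
    have hcast : ∀ z : List α →₀ ℤ, ∀ l, MR (Int.castAddHom (ZMod q)) z l = ((z l : ℤ) : ZMod q) :=
      fun _ _ => rfl
    have hstep : ∀ z ∈ Z, ∃ b ∈ B, ∃ y ∈ Z, z = b + (q : ℤ) • y := by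
      rintro z ⟨hz, hbz⟩
      have hbz' : bdR ℤ z = 0 := hbz
      obtain ⟨c, hc, hcz⟩ := hac' (MR (Int.castAddHom (ZMod q)) z) (MR_supported _ hz) (by
        rw [← bdR_eq, bdR_MR, hbz', map_zero])
      let c2 : List α →₀ ℤ := Finsupp.mapRange (fun x : ZMod q => (x.val : ℤ)) (by simp) c
      have hc2 : MR (Int.castAddHom (ZMod q)) c2 = c := by
        ext l
        rw [hcast]
        change (((c l).val : ℤ) : ZMod q) = c l
        simp
      have hc2s : c2 ∈ C := by
        change c2 ∈ Finsupp.supported ℤ ℤ st'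
        rw [Finsupp.mem_supported]
        intro l hl
        have hc' : c ∈ Finsupp.supported (ZMod q) (ZMod q) st' := hc
        rw [Finsupp.mem_supported] at hc'
        apply hc'
        rw [Finset.mem_coe, Finsupp.mem_support_iff] at hl ⊢
        intro h0
        apply hl
        change (((c l).val : ℕ) : ℤ) = 0
        rw [h0]
        simp
      set w : List α →₀ ℤ := z - bdR ℤ c2 with hw
      have hwdvd : ∀ l, (q : ℤ) ∣ w l := by
        intro l
        rw [← ZMod.intCast_zmod_eq_zero_iff_dvd, ← hcast, hw, map_sub, ← bdR_MR, hc2, bdR_eq, hcz,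
          sub_self]
        rfl
      let y : List α →₀ ℤ := Finsupp.mapRange (fun x : ℤ => x / q) (by simp) w
      have hwy : w = (q : ℤ) • y := by
        ext l
        change w l = (q : ℤ) * (w l / q)
        rw [Int.mul_ediv_cancel' (hwdvd l)]
      have hbw : bdR ℤ w = 0 := by
        have hbb : bdR ℤ (bdR ℤ c2) = 0 := by
          have hinj : Function.Injective (MR (α := α) (Int.castAddHom ℚ)) := by
            intro a b hab
            ext l
            have := DFunLike.congr_fun hab l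
            rw [MR_apply, MR_apply] at this
            exact castZ_inj this
          apply hinj
          rw [← bdR_MR, ← bdR_MR, map_zero, bdR_eq, bdR_eq, bd_bd]
        rw [hw, map_sub, hbz', hbb, sub_zero]
      have hws : w ∈ C := by
        refine Submodule.sub_mem _ hz ?_
        change bdR ℤ c2 ∈ Finsupp.supported ℤ ℤ st'
        rw [Finsupp.mem_supported]
        intro l hl
        have h4 : bd (MR (Int.castAddHom ℚ) c2) ∈ Sp ℚ (st S) := bd_st (MR_supported _ hc2s)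
        rw [mem_Sp] at h4
        refine h4 l ?_
        rw [Finset.mem_coe, Finsupp.mem_support_iff] at hl
        rw [Finsupp.mem_support_iff, ← bdR_eq, bdR_MR, MR_apply]
        intro h5
        exact hl (castZ_inj (h5.trans (map_zero _).symm))
      refine ⟨bdR ℤ c2, ⟨c2, hc2s, rfl⟩, y, ⟨?_, ?_⟩, ?_⟩
      · change y ∈ Finsupp.supported ℤ ℤ st'
        rw [Finsupp.mem_supported]
        intro l hl
        have hws' : w ∈ Finsupp.supported ℤ ℤ st' := hws
        rw [Finsupp.mem_supported] at hws'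
        apply hws'
        rw [Finset.mem_coe, Finsupp.mem_support_iff] at hl ⊢
        intro h0
        apply hl
        change w l / q = 0
        rw [h0]
        simp
      · change bdR ℤ y = 0
        rw [hwy, map_smul] at hbw
        exact (smul_eq_zero.1 hbw).resolve_left (by exact_mod_cast hqp.ne_zero)
      · rw [← hwy, hw]
        abel
    -- Nakayama
    have hnak := Submodule.exists_sub_one_mem_and_smul_eq_zero_of_fg_of_le_smul
      (Ideal.span {(q : ℤ)}) (Z.map B.mkQ) (hZfg.map _) (by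
        rintro _ ⟨z, hz, rfl⟩
        obtain ⟨b, hb, y, hy, rfl⟩ := hstep z hz
        have hb0 : B.mkQ b = 0 := (Submodule.Quotient.mk_eq_zero B).2 hb
        rw [map_add, hb0, zero_add, map_smul]
        exact Submodule.smul_mem_smul (Ideal.mem_span_singleton_self _) ⟨y, hy, rfl⟩)
    obtain ⟨r, hr, hrz⟩ := hnak
    have hr0 : r ≠ 0 := by
      rintro rfl
      rw [Ideal.mem_span_singleton, zero_sub, dvd_neg] at hr
      have : q ∣ 1 := by exact_mod_cast hr
      exact hqp.one_lt.ne' (Nat.dvd_one.1 this)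
    intro z hz hb
    -- clear denominators
    let m : ℤ := ∏ l ∈ z.support, ((z l).den : ℤ)
    have hm0 : m ≠ 0 := Finset.prod_ne_zero_iff.2 fun l _ => by exact_mod_cast (z l).den_nz
    have hint : ∀ l, ∃ k : ℤ, (m : ℚ) * z l = k := by
      intro l
      by_cases hl : l ∈ z.support
      · have h1 : ((z l).den : ℤ) ∣ m := Finset.dvd_prod_of_mem (fun l => ((z l).den : ℤ)) hl
        obtain ⟨t, ht⟩ := h1
        refine ⟨t * (z l).num, ?_⟩
        rw [ht]
        push_cast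
        have h2 : ((z l).den : ℚ) * z l = (z l).num := by
          rw [mul_comm]; exact Rat.mul_den_eq_num _
        calc ((z l).den : ℚ) * t * z l = t * (((z l).den : ℚ) * z l) := by ring
          _ = t * (z l).num := by rw [h2]
      · rw [Finsupp.notMem_support_iff] at hl
        exact ⟨0, by rw [hl]; simp⟩
    choose k hk using hint
    have hk0 : ∀ l, k l ≠ 0 → l ∈ z.support := by
      intro l hl
      rw [Finsupp.mem_support_iff]
      intro h0
      apply hl
      have := hk l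
      rw [h0, mul_zero] at this
      exact_mod_cast this.symm
    let zi : List α →₀ ℤ := Finsupp.onFinset z.support k hk0
    have hzi : MR (Int.castAddHom ℚ) zi = (m : ℚ) • z := by
      ext l
      change ((k l : ℤ) : ℚ) = m * z l
      rw [hk]
    have hziZ : zi ∈ Z := by
      refine ⟨?_, ?_⟩
      · change zi ∈ Finsupp.supported ℤ ℤ st'
        rw [Finsupp.mem_supported]
        intro l hl
        rw [Finset.mem_coe, Finsupp.mem_support_iff] at hl
        exact (mem_Sp.1 hz) l (hk0 l hl)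
      · change bdR ℤ zi = 0
        ext l
        have h1 : MR (Int.castAddHom ℚ) (bdR ℤ zi) l = 0 := by
          rw [← bdR_MR, hzi, bdR_eq, map_smul, hb, smul_zero]
          rfl
        rw [MR_apply] at h1
        exact castZ_inj (h1.trans (map_zero _).symm)
    have h2 := hrz _ ⟨zi, hziZ, rfl⟩
    rw [← map_smul, Submodule.mkQ_apply, Submodule.Quotient.mk_eq_zero] at h2
    obtain ⟨c, hc, hcz⟩ := h2
    have hrm : (r : ℚ) * m ≠ 0 := mul_ne_zero (by exact_mod_cast hr0) (by exact_mod_cast hm0)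
    refine ⟨((r : ℚ) * m)⁻¹ • MR (Int.castAddHom ℚ) c,
      Submodule.smul_mem _ _ (MR_supported _ hc), ?_⟩
    rw [map_smul, ← bdR_eq, bdR_MR, hcz]
    have h3 : MR (Int.castAddHom ℚ) (r • zi) = (r : ℚ) • MR (Int.castAddHom ℚ) zi := by
      ext l
      change (((r • zi) l : ℤ) : ℚ) = (r : ℚ) * ((zi l : ℤ) : ℚ)
      rw [Finsupp.smul_apply, smul_eq_mul]
      push_cast
      ring
    rw [h3, hzi, smul_smul, smul_smul, mul_assoc, inv_mul_cancel₀ hrm, one_smul]

end

end Vale.Agent.P240.K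
end

section

namespace Vale.Agent.P240.K

open Finsupp

variable {𝕜 : Type*} [Field 𝕜] {α : Type*}

/-! ### Prism operator for `ρ ≤ id` -/

noncomputable def h2L (ρ : α → α) : List α → Ch 𝕜 α
  | [] => 0
  | x :: l => single (x :: ρ x :: l.map ρ) 1 - cons x (h2L ρ l)

/-- prism operator for `ρ ≤ id` -/
noncomputable def h2 (ρ : α → α) : Ch 𝕜 α →ₗ[𝕜] Ch 𝕜 α := Finsupp.linearCombination 𝕜 (h2L ρ)

lemma h2_single (ρ : α → α) (l : List α) : h2 ρ (single l (1 : 𝕜)) = h2L ρ l := by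
  simp [h2, Finsupp.linearCombination_single]

lemma h2_cons (ρ : α → α) (x : α) (c : Ch 𝕜 α) :
    h2 ρ (cons x c) = cons x (cons (ρ x) (mp ρ c)) - cons x (h2 ρ c) := by
  have := lin_ext_apply (f := (h2 ρ).comp (cons x))
    (g := ((cons x).comp (cons (ρ x))).comp (mp ρ) - (cons x).comp (h2 ρ))
    (fun l => by simp [h2_single, h2L]) c
  simpa using this

lemma bd_h2 (ρ : α → α) (c : Ch 𝕜 α) : bd (h2 ρ c) + h2 ρ (bd c) = mp ρ c - c := by
  have := ch_ext_apply (F := bd.comp (h2 ρ) + (h2 ρ).comp bd)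
    (G := mp ρ - LinearMap.id) (by simp [h2_single, h2L])
    (fun y c h => by
      simp only [LinearMap.comp_apply, LinearMap.sub_apply, LinearMap.id_apply,
        LinearMap.add_apply] at h
      simp only [LinearMap.comp_apply, LinearMap.sub_apply, LinearMap.id_apply,
        LinearMap.add_apply, h2_cons, map_sub, bd_cons, mp_cons, bd_mp]
      have h' : bd (h2 ρ c) = mp ρ c - c - h2 ρ (bd c) := by rw [← h]; abel
      rw [h']
      simp only [map_sub]
      abel) c
  simpa using this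

/-- support of the prism operator -/
lemma h2_mem [Preorder α] {S : Set α} {ρ : α → α} (hρS : ∀ x ∈ S, ρ x ∈ S)
    (hle : ∀ x ∈ S, ρ x ≤ x) (hmono : ∀ x ∈ S, ∀ y ∈ S, x ≤ y → ρ x ≤ ρ y) {c : Ch 𝕜 α}
    (hc : c ∈ Sp 𝕜 (wk S)) : h2 ρ c ∈ Sp 𝕜 (wk S) := by
  refine map_mem _ (fun l hl => ?_) hc
  rw [h2_single]
  have key : ∀ l : List α, wk S l → h2L ρ l ∈ Sp 𝕜 (fun m : List α => wk S m ∧
      ∀ a ∈ m, ∃ b ∈ l, a ≤ b) := by
    intro l
    induction l with
    | nil => intro _; exact Submodule.zero_mem _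
    | cons x l ih =>
      intro hl
      have hp := List.pairwise_cons.1 hl.1
      have hxT : x ∈ S := hl.2 x (by simp)
      have hlT : wk S l := ⟨hp.2, fun a ha => hl.2 a (by simp [ha])⟩
      have hρl : ∀ a ∈ ρ x :: l.map ρ, a ≤ x ∧ a ∈ S := by
        intro a ha
        rcases List.mem_cons.1 ha with h | ha
        · rw [h]; exact ⟨hle _ hxT, hρS _ hxT⟩
        · obtain ⟨b, hb, rfl⟩ := List.mem_map.1 ha
          exact ⟨(hle _ (hlT.2 b hb)).trans (hp.1 b hb), hρS _ (hlT.2 b hb)⟩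
      have c1 : wk S (x :: ρ x :: l.map ρ) ∧ ∀ a ∈ x :: ρ x :: l.map ρ, ∃ b ∈ x :: l, a ≤ b := by
        refine ⟨⟨?_, ?_⟩, ?_⟩
        · rw [List.pairwise_cons]
          refine ⟨fun a ha => (hρl a ha).1, ?_⟩
          rw [← List.map_cons, List.pairwise_map]
          exact hl.1.imp_of_mem fun {a b} ha hb hab => hmono _ (hl.2 b hb) _ (hl.2 a ha) hab
        · intro a ha
          rcases List.mem_cons.1 ha with h | ha
          · rw [h]; exact hxT
          · exact (hρl a ha).2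
        · intro a ha
          refine ⟨x, by simp, ?_⟩
          rcases List.mem_cons.1 ha with h | ha
          · rw [h]
          · exact (hρl a ha).1
      have c2 : ∀ m : List α, (wk S m ∧ ∀ a ∈ m, ∃ b ∈ l, a ≤ b) →
          (wk S (x :: m) ∧ ∀ a ∈ x :: m, ∃ b ∈ x :: l, a ≤ b) := by
        rintro m ⟨hm, hm'⟩
        refine ⟨⟨?_, ?_⟩, ?_⟩
        · rw [List.pairwise_cons]
          refine ⟨?_, hm.1⟩
          intro a ha
          obtain ⟨b, hb, hab⟩ := hm' a ha
          exact le_trans hab (hp.1 b hb)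
        · intro a ha
          rcases List.mem_cons.1 ha with h | ha
          · rw [h]; exact hxT
          · exact hm.2 a ha
        · intro a ha
          rcases List.mem_cons.1 ha with h | ha
          · rw [h]; exact ⟨x, by simp, le_refl _⟩
          · obtain ⟨b, hb, hab⟩ := hm' a ha
            exact ⟨b, by simp [hb], hab⟩
      exact Submodule.sub_mem _ (single_mem_Sp c1 _) (cons_mem c2 (ih hlT))
  exact Sp_mono (fun m hm => hm.1) (key l hl)

section
variable [PartialOrder α]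

/-- a monotone map sends strict chains to weak chains -/
lemma mp_wk {S R : Set α} {ρ : α → α} (hρ : ∀ x ∈ S, ρ x ∈ R)
    (hmono : ∀ x ∈ S, ∀ y ∈ S, x ≤ y → ρ x ≤ ρ y) {c : Ch 𝕜 α} (hc : c ∈ Sp 𝕜 (st S)) :
    mp ρ c ∈ Sp 𝕜 (wk R) := by
  refine mp_mem (P := st S) ?_ hc
  intro l hl
  refine ⟨?_, ?_⟩
  · rw [List.pairwise_map]
    exact hl.1.imp_of_mem fun {a b} ha hb hab => hmono _ (hl.2 b hb) _ (hl.2 a ha) (le_of_lt hab)
  · intro a ha
    obtain ⟨b, hb, rfl⟩ := List.mem_map.1 ha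
    exact hρ _ (hl.2 b hb)

/-- If a poset retracts downwards onto an acyclic one, it is acyclic. -/
lemma not_NA_down {S R : Set α} {ρ : α → α} (hRS : R ⊆ S) (hρ : ∀ x ∈ S, ρ x ∈ R)
    (hle : ∀ x ∈ S, ρ x ≤ x) (hmono : ∀ x ∈ S, ∀ y ∈ S, x ≤ y → ρ x ≤ ρ y)
    (hac : ¬ NA 𝕜 R) : ¬ NA 𝕜 S := by
  rw [not_NA_iff] at hac ⊢
  intro z hz hbz
  have h1 := mp_wk (𝕜 := 𝕜) hρ hmono hz
  obtain ⟨d, hd, hdz⟩ := hac (pi (mp ρ z)) (pi_mem h1) (by
    rw [bd_pi h1, bd_mp, hbz, map_zero, map_zero])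
  have hzw : z ∈ Sp 𝕜 (wk S) := Sp_mono (fun l hl => st_wk l hl) hz
  have h2' := h2_mem (𝕜 := 𝕜) (fun x hx => hRS (hρ x hx)) hle hmono hzw
  refine ⟨d - pi (h2 ρ z), Submodule.sub_mem _ (Sp_mono (st_mono hRS) hd) (pi_mem h2'), ?_⟩
  have h3 := bd_h2 ρ z
  rw [hbz, map_zero, add_zero] at h3
  rw [map_sub, bd_pi h2', h3, map_sub, pi_of_st hz, hdz]
  abel

/-- Attaching a minimal element with acyclic upper link. -/
lemma not_NA_attach {S : Set α} {T : α} (hT : T ∈ S) (hmin : ∀ x ∈ S, ¬ x < T)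
    (hac : ¬ NA 𝕜 (S \ {T})) (hlk : ¬ NA 𝕜 {x | x ∈ S ∧ T < x}) : ¬ NA 𝕜 S := by
  rw [not_NA_iff] at hac hlk ⊢
  intro z hz hbz
  set Lk : Set α := {x | x ∈ S ∧ T < x} with hLk
  have hLkS : Lk ⊆ S \ {T} := by
    rintro x ⟨h1, h2⟩
    exact ⟨h1, fun h => h2.ne' h⟩
  obtain ⟨a, ha, b2, hb2, hzab⟩ := Sp_or (P := st S) (P1 := st (S \ {T}))
    (P2 := fun l => ∃ m, st Lk m ∧ l = m ++ [T]) (fun l hl => by
      by_cases hTl : T ∈ l
      · right
        obtain ⟨m, n, rfl⟩ := List.append_of_mem hTl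
        have hp := List.pairwise_append.1 hl.1
        have hn : n = [] := by
          rcases n with _ | ⟨y, n⟩
          · rfl
          · exfalso
            have h1 := (List.pairwise_cons.1 hp.2.1).1 y (by simp)
            exact hmin y (hl.2 y (by simp)) h1
        subst hn
        refine ⟨m, ⟨hp.1, fun x hx => ⟨hl.2 x (by simp [hx]), ?_⟩⟩, rfl⟩
        exact hp.2.2 x hx T (by simp)
      · left
        exact ⟨hl.1, fun x hx => ⟨hl.2 x hx, fun h => hTl (h ▸ hx)⟩⟩) hz
  obtain ⟨b, hb, rfl⟩ : ∃ b ∈ Sp 𝕜 (st Lk), ap T b = b2 := by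
    have : (LinearMap.id : Ch 𝕜 α →ₗ[𝕜] Ch 𝕜 α) b2 ∈ (Sp 𝕜 (st Lk)).map (ap T) := by
      refine map_mem (M := Ch 𝕜 α) LinearMap.id ?_ hb2
      rintro l ⟨m, hm, rfl⟩
      exact ⟨single m 1, single_mem_Sp hm _, by simp⟩
    exact this
  -- `bd b = 0`
  have hba : bd a ∈ Sp 𝕜 (fun l : List α => T ∉ l) :=
    bd_mem (fun l l' hs hl hT' => hl (hs.subset hT'))
      (Sp_mono (fun l (hl : st (S \ {T}) l) hTl => (hl.2 T hTl).2 rfl) ha)
  have hsb : sg b ∈ Sp 𝕜 (fun l : List α => T ∉ l) :=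
    sg_mem (Sp_mono (fun l (hl : st Lk l) hTl => lt_irrefl _ (hl.2 T hTl).2) hb)
  have hsum : bd a + (ap T (bd b) + sg b) = 0 := by
    rw [hzab, map_add, bd_ap] at hbz
    exact hbz
  have hap0 : ap T (bd b) = 0 := by
    have h1 : ap T (bd b) = - (bd a + sg b) := by
      rw [eq_neg_iff_add_eq_zero, ← hsum]; abel
    have h2 : ap T (bd b) ∈ Sp 𝕜 (fun l : List α => T ∉ l) := by
      rw [h1]
      exact Submodule.neg_mem _ (Submodule.add_mem _ hba hsb)
    have h3 : ap T (bd b) ∈ Sp 𝕜 (fun l : List α => T ∈ l) :=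
      ap_mem (P := fun _ => True) (fun l _ => by simp) (by simp [mem_Sp])
    have h4 := mem_Sp_inf h2 h3
    rw [← Finsupp.support_eq_empty, Finset.eq_empty_iff_forall_notMem]
    intro l hl
    exact (mem_Sp.1 h4 l hl).1 (mem_Sp.1 h4 l hl).2
  have hb0 : bd b = 0 := by
    have hinj : Function.Injective (ap (𝕜 := 𝕜) T) := by
      intro c d hcd
      exact Finsupp.mapDomain_injective (f := fun l : List α => l ++ [T])
        (fun l m h => List.append_cancel_right h) hcd
    exact hinj (by rw [hap0, map_zero])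
  obtain ⟨b', hb', rfl⟩ := hlk b hb hb0
  obtain ⟨a', ha', haa⟩ := hac (a - sg b') (Submodule.sub_mem _ ha
    (sg_mem (Sp_mono (st_mono hLkS) hb'))) (by
      rw [map_sub, bd_sg]
      rw [hap0, zero_add] at hsum
      rw [sub_neg_eq_add]
      exact hsum)
  refine ⟨a' + ap T b', Submodule.add_mem _ (Sp_mono (st_mono fun x hx => hx.1) ha') ?_, ?_⟩
  · refine ap_mem (P := st Lk) ?_ hb'
    intro l hl
    refine ⟨?_, ?_⟩
    · rw [List.pairwise_append]
      refine ⟨hl.1, by simp, ?_⟩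
      intro x hx y hy
      rw [List.mem_singleton] at hy
      subst hy
      exact (hl.2 x hx).2
    · intro x hx
      rcases List.mem_append.1 hx with hx | hx
      · exact (hl.2 x hx).1
      · rw [List.mem_singleton] at hx
        subst hx
        exact hT
  · rw [map_add, haa, bd_ap, hzab]
    abel

/-- Attaching many elements with acyclic upper links to an upwards closed subset. -/
lemma not_NA_attach_all {S : Set α} (hS : S.Finite) {X : Set α} (hXS : X ⊆ S)
    (hup : ∀ x ∈ X, ∀ y ∈ S, x ≤ y → y ∈ X) (hX : ¬ NA 𝕜 X)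
    (hlk : ∀ T ∈ S, T ∉ X → ¬ NA 𝕜 {x | x ∈ S ∧ T < x}) : ¬ NA 𝕜 S := by
  classical
  have key : ∀ n : ℕ, ∀ S : Set α, S.Finite → X ⊆ S → (S \ X).ncard = n →
      (∀ x ∈ X, ∀ y ∈ S, x ≤ y → y ∈ X) →
      (∀ T ∈ S, T ∉ X → ¬ NA 𝕜 {x | x ∈ S ∧ T < x}) → ¬ NA 𝕜 S := by
    intro n
    induction n with
    | zero =>
      intro S hS hXS hn _ _
      rw [Set.ncard_eq_zero (hS.subset Set.diff_subset)] at hn
      have : S = X := Set.Subset.antisymm (Set.diff_eq_empty.1 hn) hXS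
      rwa [this]
    | succ n ih =>
      intro S hS hXS hn hup hlk
      have hfin : (S \ X).Finite := hS.subset Set.diff_subset
      have hne : (S \ X).Nonempty := by
        rw [Set.nonempty_iff_ne_empty]
        intro h
        rw [h, Set.ncard_empty] at hn
        omega
      obtain ⟨T, hT⟩ := hfin.exists_minimal hne
      have hTS : T ∈ S := hT.prop.1
      have hTX : T ∉ X := hT.prop.2
      have hmin : ∀ x ∈ S, ¬ x < T := by
        intro x hx hlt
        by_cases hxX : x ∈ X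
        · exact hTX (hup x hxX T hTS hlt.le)
        · exact hlt.not_ge (hT.2 (show x ∈ S \ X from ⟨hx, hxX⟩) hlt.le)
      refine not_NA_attach hTS hmin ?_ (hlk T hTS hTX)
      refine ih (S \ {T}) (hS.subset Set.diff_subset) ?_ ?_ ?_ ?_
      · intro x hx
        exact ⟨hXS hx, fun h => hTX (h ▸ hx)⟩
      · have : (S \ {T}) \ X = (S \ X) \ {T} := by
          ext x
          simp only [Set.mem_diff, Set.mem_singleton_iff]
          tauto
        rw [this, Set.ncard_diff_singleton_of_mem (show T ∈ S \ X from ⟨hTS, hTX⟩), hn]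
        rfl
      · intro x hx y hy hxy
        exact hup x hx y hy.1 hxy
      · intro T' hT' hT'X
        have : {x | x ∈ S \ {T} ∧ T' < x} = {x | x ∈ S ∧ T' < x} := by
          ext x
          constructor
          · rintro ⟨h1, h2⟩
            exact ⟨h1.1, h2⟩
          · rintro ⟨h1, h2⟩
            refine ⟨⟨h1, ?_⟩, h2⟩
            rintro rfl
            exact hmin T' hT'.1 h2
        rw [this]
        exact hlk T' hT'.1 hT'X
  exact key _ S hS hXS rfl hup hlk

end

end Vale.Agent.P240.K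
end

section

namespace Vale.Agent.P240.K

open Finsupp Subgroup

variable {𝕜 : Type*} [Field 𝕜] {G : Type*} [Group G] {p : ℕ}

lemma mem_sup_comm {A B : Subgroup G} (h : ∀ a ∈ A, ∀ b ∈ B, a * b = b * a) {x : G}
    (hx : x ∈ A ⊔ B) : ∃ a ∈ A, ∃ b ∈ B, x = a * b := by
  let T : Subgroup G :=
    { carrier := {x | ∃ a ∈ A, ∃ b ∈ B, x = a * b}
      one_mem' := ⟨1, one_mem _, 1, one_mem _, by simp⟩
      mul_mem' := by
        rintro _ _ ⟨l, hl, c, hc, rfl⟩ ⟨l', hl', c', hc', rfl⟩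
        refine ⟨l * l', mul_mem hl hl', c * c', mul_mem hc hc', ?_⟩
        rw [mul_assoc, ← mul_assoc c, ← h l' hl' c hc]
        group
      inv_mem' := by
        rintro _ ⟨l, hl, c, hc, rfl⟩
        refine ⟨l⁻¹, inv_mem hl, c⁻¹, inv_mem hc, ?_⟩
        rw [mul_inv_rev, h _ (inv_mem hl) _ (inv_mem hc)] }
  have h1 : A ≤ T := fun l hl => ⟨l, hl, 1, one_mem _, by simp⟩
  have h2 : B ≤ T := fun c hc => ⟨1, one_mem _, c, hc, by simp⟩
  exact (sup_le h1 h2) hx

lemma ApS_isPGroup {E : Subgroup G} (hE : E ∈ ApS p G) : IsPGroup p E := by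
  intro x
  refine ⟨1, ?_⟩
  rw [pow_one]
  exact Subtype.ext (by simpa using hE.2.2 x x.2)

end Vale.Agent.P240.K
end

section

namespace Vale.Agent.P240.K

open Finsupp Subgroup

variable {𝕜 : Type*} [Field 𝕜]

universe u

section
variable {G : Type*} [Group G] {p : ℕ}

lemma mem_Rest {F D : Set (Subgroup G)} {x : G} :
    x ∈ Rest F D ↔ ∀ M ∈ F, M ∉ D → x ∈ centralizer (M : Set G) := by
  rw [Rest, mem_iInf]
  constructor
  · intro h M hM hMD
    have := h M
    rw [mem_iInf] at this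
    exact this ⟨hM, hMD⟩
  · intro h M
    rw [mem_iInf]
    rintro ⟨h1, h2⟩
    exact h M h1 h2

lemma le_Rest {F D : Set (Subgroup G)} {E : Subgroup G}
    (h : ∀ M ∈ F, M ∉ D → E ≤ centralizer (M : Set G)) : E ≤ Rest F D :=
  fun _ hx => mem_Rest.2 fun M h1 h2 => h M h1 h2 hx

lemma cj_mul_mem {g x : G} {L : Subgroup G} (hx : x ∈ L) : g * x * g⁻¹ ∈ cj g L := by
  rw [mem_cj]
  have : g⁻¹ * (g * x * g⁻¹) * g = x := by group
  rwa [this]

lemma mem_of_comm {H : Subgroup G} {x : G} (h : ∀ y ∈ H, x * y = y * x) :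
    x ∈ normalizer (H : Set G) := by
  rw [mem_normalizer_iff]
  intro y
  constructor
  · intro hy
    rw [h y hy, mul_assoc, mul_inv_cancel, mul_one]
    exact hy
  · intro hy
    have h3 := h _ hy
    have h4 : y = x * y * x⁻¹ := by
      have h5 : x * (x * y * x⁻¹) = x * y := by rw [h3]; group
      exact (mul_left_cancel h5).symm
    rw [h4]
    exact hy

end

end Vale.Agent.P240.K
end

section

namespace Vale.Agent.P240.K

open Subgroup

universe u

lemma elem_closure {W : Type*} [Group W] {p : ℕ} {E : Set W}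
    (hc : ∀ x ∈ E, ∀ y ∈ E, x * y = y * x) (hp : ∀ x ∈ E, x ^ p = 1) :
    (∀ x ∈ closure E, ∀ y ∈ closure E, x * y = y * x) ∧ ∀ x ∈ closure E, x ^ p = 1 := by
  have h1 : ∀ x ∈ closure E, ∀ y ∈ closure E, x * y = y * x := by
    have h2 : closure E ≤ centralizer E := by
      rw [closure_le]
      intro x hx
      rw [SetLike.mem_coe, mem_centralizer_iff]
      intro y hy
      exact hc y hy x hx
    have h3 : closure E ≤ centralizer (closure E : Set W) := by
      rw [closure_le]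
      intro x hx
      rw [SetLike.mem_coe, mem_centralizer_iff]
      intro y hy
      exact ((mem_centralizer_iff.1 (h2 hy)) x hx).symm
    intro x hx y hy
    exact ((mem_centralizer_iff.1 (h3 hx)) y hy).symm
  refine ⟨h1, ?_⟩
  intro x hx
  induction hx using closure_induction with
  | mem x hx => exact hp x hx
  | one => exact one_pow _
  | mul x y hx hy h2 h3 =>
    have : Commute x y := h1 x hx y hy
    rw [this.mul_pow, h2, h3, one_mul]
  | inv x _ h2 => rw [inv_pow, h2, inv_one]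

section
variable {G : Type u} [Group G] {p : ℕ}

/-- the elementary abelian Sylow subgroup -/
lemma exists_elem_sylow [hp : Fact p.Prime] [Finite G] {D Q : Subgroup G}
    (hn : ∀ x ∈ D, ∀ q ∈ Q, x * q * x⁻¹ ∈ Q) (hpQ : ¬ p ∣ Nat.card Q)
    (hcomm : ∀ x ∈ D, ∀ y ∈ D, x ^ p = 1 → y ^ p = 1 → x * y * x⁻¹ * y⁻¹ ∈ Q) :
    ∃ P ≤ D, (∀ x ∈ P, ∀ y ∈ P, x * y = y * x) ∧ (∀ x ∈ P, x ^ p = 1) ∧
      ∀ X ≤ D, (∀ x ∈ X, x ^ p = 1) → ∃ q ∈ Q, ∀ x ∈ X, q⁻¹ * x * q ∈ P := by
  have hN : (Q.subgroupOf D).Normal := by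
    refine ⟨fun m hm x => ?_⟩
    rw [mem_subgroupOf] at hm ⊢
    exact hn x x.2 m hm
  set π : D →* D ⧸ Q.subgroupOf D := QuotientGroup.mk' _ with hπ
  have hπ1 : ∀ x : D, π x = 1 ↔ (x : G) ∈ Q := by
    intro x
    change ((x : D ⧸ Q.subgroupOf D) = 1) ↔ _
    rw [QuotientGroup.eq_one_iff, mem_subgroupOf]
  set E : Set (D ⧸ Q.subgroupOf D) := {w | ∃ x : D, x ^ p = 1 ∧ π x = w} with hE
  obtain ⟨hCc, hCp⟩ := elem_closure (p := p) (E := E) (by
    rintro _ ⟨x, hx, rfl⟩ _ ⟨y, hy, rfl⟩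
    have h1 : π (x * y * x⁻¹ * y⁻¹) = 1 := by
      rw [hπ1]
      push_cast
      exact hcomm x x.2 y y.2 (by exact_mod_cast congrArg Subtype.val hx)
        (by exact_mod_cast congrArg Subtype.val hy)
    rw [map_mul, map_mul, map_mul, map_inv, map_inv] at h1
    have h2 := mul_inv_eq_one.1 h1
    exact mul_inv_eq_iff_eq_mul.1 h2) (by
    rintro _ ⟨x, hx, rfl⟩
    rw [← map_pow, hx, map_one])
  set K : Subgroup D := (closure E).comap π with hK
  let P' : Sylow p K := default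
  -- the intersection with `Q` is trivial
  have hint : ∀ z : K, z ∈ (P' : Subgroup K) → (((z : D) : G) ∈ Q) → z = 1 := by
    intro z hz hzQ
    obtain ⟨k, hk⟩ := P'.isPGroup' ⟨z, hz⟩
    have h1 : z ^ p ^ k = 1 := congrArg Subtype.val hk
    have h2 : ((z : D) : G) ^ p ^ k = 1 := by
      have := congrArg (fun z : K => ((z : D) : G)) h1
      simpa using this
    have h3 : orderOf ((z : D) : G) ∣ p ^ k := orderOf_dvd_of_pow_eq_one h2
    have h4 : orderOf ((z : D) : G) ∣ Nat.card Q := by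
      have := orderOf_dvd_natCard (⟨((z : D) : G), hzQ⟩ : Q)
      rwa [← orderOf_coe] at this
    have h5 : Nat.Coprime (p ^ k) (Nat.card Q) :=
      Nat.Coprime.pow_left k ((Nat.Prime.coprime_iff_not_dvd hp.out).2 hpQ)
    have h6 := orderOf_eq_one_iff.1 (Nat.eq_one_of_dvd_coprimes h5 h3 h4)
    exact Subtype.ext (Subtype.ext h6)
  let j : K →* G := D.subtype.comp K.subtype
  refine ⟨(P' : Subgroup K).map j, ?_, ?_, ?_, ?_⟩
  · rintro _ ⟨x, _, rfl⟩
    exact (x : D).2
  · rintro _ ⟨x, hx, rfl⟩ _ ⟨y, hy, rfl⟩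
    have h1 : x * y * x⁻¹ * y⁻¹ = 1 := by
      refine hint _ (mul_mem (mul_mem (mul_mem hx hy) (inv_mem hx)) (inv_mem hy)) ?_
      rw [← hπ1]
      have h2 := hCc (π x) x.2 (π y) y.2
      push_cast
      rw [map_mul, map_mul, map_mul, map_inv, map_inv, h2, mul_inv_cancel_right, mul_inv_cancel]
    have h3 := mul_inv_eq_iff_eq_mul.1 (mul_inv_eq_one.1 h1)
    rw [← map_mul, ← map_mul, h3]
  · rintro _ ⟨x, hx, rfl⟩
    have h1 : x ^ p = 1 := by
      refine hint _ (pow_mem hx p) ?_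
      rw [← hπ1]
      push_cast
      rw [map_pow]
      exact hCp _ x.2
    rw [← map_pow, h1, map_one]
  · intro X hXD hXp
    have hmem : ∀ x (hx : x ∈ X), (⟨x, hXD hx⟩ : D) ∈ K := by
      intro x hx
      refine subset_closure ⟨⟨x, hXD hx⟩, ?_, rfl⟩
      exact Subtype.ext (hXp x hx)
    have hXK : IsPGroup p (X.comap j) := by
      intro x
      refine ⟨1, ?_⟩
      rw [pow_one]
      apply Subtype.ext
      apply Subtype.ext
      apply Subtype.ext
      have := hXp _ x.2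
      simpa [j] using this
    obtain ⟨S, hS⟩ := hXK.exists_le_sylow
    obtain ⟨g, hg⟩ := MulAction.exists_smul_eq K P' S
    -- decomposition of `g`
    have hsurj : Function.Surjective (π.subgroupComap (closure E)) := by
      rintro ⟨w, hw⟩
      obtain ⟨x, rfl⟩ := QuotientGroup.mk'_surjective _ w
      exact ⟨⟨x, hw⟩, rfl⟩
    have htop : (Sylow.mapSurjective hsurj P' : Subgroup (closure E)) = ⊤ := by
      refine ((Sylow.mapSurjective hsurj P').is_maximal' (Q := ⊤) ?_ le_top).symm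
      intro w
      exact ⟨1, by rw [pow_one]; apply Subtype.ext; apply Subtype.ext; exact hCp _ w.1.2⟩
    have h1 : (π.subgroupComap (closure E)) g ∈
        (Sylow.mapSurjective hsurj P' : Subgroup (closure E)) := by rw [htop]; trivial
    rw [Sylow.coe_mapSurjective] at h1
    obtain ⟨y, hy, hyg⟩ := h1
    have h2 : (((g * y⁻¹ : K) : D) : G) ∈ Q := by
      rw [← hπ1]
      have h3 : π (y : D) = π (g : D) := congrArg Subtype.val hyg
      push_cast
      rw [map_mul, map_inv, h3, mul_inv_cancel]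
    refine ⟨_, h2, ?_⟩
    intro x hx
    have h3 : (⟨⟨x, hXD hx⟩, hmem x hx⟩ : K) ∈ (S : Subgroup K) := hS hx
    rw [← hg] at h3
    have h4 : g⁻¹ * (⟨⟨x, hXD hx⟩, hmem x hx⟩ : K) * g ∈ (P' : Subgroup K) := by
      rw [Sylow.coe_subgroup_smul] at h3
      obtain ⟨z, hz, hzx⟩ := h3
      have h5 : (⟨⟨x, hXD hx⟩, hmem x hx⟩ : K) = g * z * g⁻¹ := hzx.symm
      rw [h5]
      have h6 : g⁻¹ * (g * z * g⁻¹) * g = z := by group
      rw [h6]
      exact hz
    refine ⟨y * (g⁻¹ * (⟨⟨x, hXD hx⟩, hmem x hx⟩ : K) * g) * y⁻¹,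
      mul_mem (mul_mem hy h4) (inv_mem hy), ?_⟩
    simp only [j, MonoidHom.comp_apply, Subgroup.coe_subtype]
    push_cast
    group

end

end Vale.Agent.P240.K
end

section

namespace Vale.Agent.P240.K

open Subgroup

universe u

section
variable {G : Type u} [Group G] {p : ℕ}

/-- conjugation is an order isomorphism -/
def cjIso (g : G) : Subgroup G ≃o Subgroup G where
  toFun := cj g
  invFun := cj g⁻¹
  left_inv E := by rw [← cj_mul, inv_mul_cancel, cj_one]
  right_inv E := by rw [← cj_mul, mul_inv_cancel, cj_one]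
  map_rel_iff' := cj_le

lemma cj_mem_ApS {g : G} {E : Subgroup G} : cj g E ∈ ApS p G ↔ E ∈ ApS p G :=
  map_mem_ApS (f := (MulAut.conj g).toMonoidHom) (MulAut.conj g).injective

open Classical in
/-- the Möbius function -/
noncomputable def mb (p : ℕ) (F : Subgroup G) : ℤ :=
  if F = ⊥ then 1 else - eu {Y | Y ∈ ApS p G ∧ Y < F}

lemma mb_cj (q : G) (F : Subgroup G) : mb p (cj q F) = mb p F := by
  have h1 : cj q F = ⊥ ↔ F = ⊥ := by
    have hb : cj q (⊥ : Subgroup G) = ⊥ := by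
      rw [cj, Subgroup.map_bot]
    constructor
    · intro h
      exact cj_injective q (h.trans hb.symm)
    · rintro rfl
      exact hb
  have h2 : {Y | Y ∈ ApS p G ∧ Y < cj q F} = cjIso q '' {Y | Y ∈ ApS p G ∧ Y < F} := by
    ext Y
    constructor
    · rintro ⟨hY1, hY2⟩
      refine ⟨cj q⁻¹ Y, ⟨cj_mem_ApS.2 hY1, ?_⟩, ?_⟩
      · rw [← cj_lt (g := q), ← cj_mul, mul_inv_cancel, cj_one]
        exact hY2
      · change cj q (cj q⁻¹ Y) = Y
        rw [← cj_mul, mul_inv_cancel, cj_one]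
    · rintro ⟨Z, ⟨hZ1, hZ2⟩, rfl⟩
      exact ⟨cj_mem_ApS.2 hZ1, cj_lt.2 hZ2⟩
  unfold mb
  rw [h2, eu_image]
  by_cases h : F = ⊥
  · rw [if_pos h, if_pos (h1.2 h)]
  · rw [if_neg h, if_neg fun h' => h (h1.1 h')]

lemma mb_of_mem {F : Subgroup G} (hF : F ∈ ApS p G) :
    mb p F = - eu {Y | Y ∈ ApS p G ∧ Y < F} := by
  unfold mb
  rw [if_neg hF.1]

lemma sum_mb [Finite G] {E : Subgroup G} (hE : E ∈ ApS p G) : ∑ F ∈ subs E, mb p F = 0 := by
  classical
  have hfin : {Y | Y ∈ ApS p G ∧ Y ≤ E}.Finite := Set.toFinite _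
  have h1 : subs E = insert ⊥ hfin.toFinset := by
    ext F
    rw [mem_subs, Finset.mem_insert, Set.Finite.mem_toFinset]
    constructor
    · intro h
      by_cases hb : F = ⊥
      · exact Or.inl hb
      · exact Or.inr ⟨mem_ApS_of_le hE h hb, h⟩
    · rintro (rfl | h)
      · exact bot_le
      · exact h.2
  have h2 : (⊥ : Subgroup G) ∉ hfin.toFinset := by
    rw [Set.Finite.mem_toFinset]
    exact fun h => h.1.1 rfl
  rw [h1, Finset.sum_insert h2]
  have h3 : ∀ F ∈ hfin.toFinset, mb p F =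
      - eu {Y | Y ∈ {Y | Y ∈ ApS p G ∧ Y ≤ E} ∧ Y < F} := by
    intro F hF
    rw [Set.Finite.mem_toFinset] at hF
    rw [mb_of_mem hF.1]
    congr 2
    ext Y
    exact ⟨fun h => ⟨⟨h.1, h.2.le.trans hF.2⟩, h.2⟩, fun h => ⟨h.1.1, h.2⟩⟩
  rw [Finset.sum_congr rfl h3, Finset.sum_neg_distrib]
  have h4 := eu_rec hfin
  rw [eu_top hfin (m := E) ⟨hE, le_rfl⟩ fun x hx => hx.2] at h4
  have h5 : mb p (⊥ : Subgroup G) = 1 := by unfold mb; rw [if_pos rfl]
  rw [h5]
  linarith

/-- the number of conjugates under a `p'`-subgroup -/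
lemma card_orb [Finite G] {Q F : Subgroup G} (hn : ∀ x ∈ F, ∀ q ∈ Q, x * q * x⁻¹ ∈ Q)
    (hFQ : ∀ x ∈ F, x ∈ Q → x = 1) :
    Nat.card {X | ∃ q ∈ Q, X = cj q F} *
      Nat.card (Q ⊓ centralizer (F : Set G) : Subgroup G) = Nat.card Q := by
  let act : MulAction Q (Subgroup G) :=
    { smul := fun q X => cj (q : G) X
      one_smul := fun X => cj_one X
      mul_smul := fun a b X => cj_mul (a : G) b X }
  have h1 := MulAction.index_stabilizer Q F
  have h2 := (MulAction.stabilizer Q F).card_mul_index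
  have h3 : MulAction.orbit Q F = {X | ∃ q ∈ Q, X = cj q F} := by
    ext X
    constructor
    · rintro ⟨q, rfl⟩
      exact ⟨q, q.2, rfl⟩
    · rintro ⟨q, hq, rfl⟩
      exact ⟨⟨q, hq⟩, rfl⟩
  have h4 : Nat.card (MulAction.stabilizer Q F) =
      Nat.card (Q ⊓ centralizer (F : Set G) : Subgroup G) := by
    refine Nat.card_congr
      { toFun := fun q => ⟨q.1.1, q.1.2, ?_⟩
        invFun := fun q => ⟨⟨q.1, q.2.1⟩, ?_⟩
        left_inv := fun _ => rfl
        right_inv := fun _ => rfl }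
    · have h5 : cj (q.1 : G) F = F := q.2
      change (q.1 : G) ∈ centralizer (F : Set G)
      rw [mem_centralizer_iff]
      intro f hf
      have h6 : (q.1 : G) * f * (q.1 : G)⁻¹ ∈ F := by
        have := (mem_normalizer_iff.1 (cj_eq_iff.1 h5) f).1 hf
        exact this
      have h7 : (q.1 : G) * f * (q.1 : G)⁻¹ * f⁻¹ = 1 := by
        refine hFQ _ (mul_mem h6 (inv_mem hf)) ?_
        have h8 := hn f hf _ (inv_mem q.1.2)
        have h9 : (q.1 : G) * f * (q.1 : G)⁻¹ * f⁻¹ = q.1 * (f * (q.1 : G)⁻¹ * f⁻¹) := by group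
        rw [h9]
        exact mul_mem q.1.2 h8
      exact (mul_inv_eq_iff_eq_mul.1 (mul_inv_eq_one.1 h7)).symm
    · change cj (q.1 : G) F = F
      rw [cj_eq_iff]
      refine mem_of_comm ?_
      intro f hf
      exact (mem_centralizer_iff.1 q.2.2 f hf).symm
  rw [h1, h3, h4] at h2
  rw [← h2, mul_comm]
  rfl

/-- **Non-vanishing** of the reduced Euler characteristic, with its sign. -/
theorem eu_pos [hp : Fact p.Prime] [Finite G] {D Q : Subgroup G}
    (hn : ∀ x ∈ D, ∀ q ∈ Q, x * q * x⁻¹ ∈ Q) (hQD : Q ≤ D) (hsol : Group.IsSolvable Q)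
    (hpQ : ¬ p ∣ Nat.card Q)
    (hcomm : ∀ x ∈ D, ∀ y ∈ D, x ^ p = 1 → y ^ p = 1 → x * y * x⁻¹ * y⁻¹ ∈ Q)
    (hfaith : ∀ x ∈ D, x ^ p = 1 → (∀ q ∈ Q, x * q = q * x) → x = 1) :
    ∃ P ≤ D, (∀ x ∈ P, x ^ p = 1) ∧
      (∀ X ≤ D, (∀ x ∈ X, x ^ p = 1) → ∃ q ∈ Q, ∀ x ∈ X, q⁻¹ * x * q ∈ P) ∧
      ∀ m, Nat.card P = p ^ m → 0 < (-1 : ℤ) ^ m * eu (Ain p D) := by
  classical
  obtain ⟨P, hPD, hPc, hPp, hconj⟩ := exists_elem_sylow hn hpQ hcomm
  obtain ⟨Λ, hΛ, hw⟩ := exists_weights hPc hPp _ Q rfl hsol hpQ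
    (fun x hx => hn x (hPD hx))
  have hPQ : ∀ x ∈ P, x ∈ Q → x = 1 := by
    intro x hx hxQ
    rw [← orderOf_eq_one_iff]
    have h1 : orderOf x ∣ p := orderOf_dvd_of_pow_eq_one (hPp x hx)
    have h2 : orderOf x ∣ Nat.card Q := by
      have := orderOf_dvd_natCard (⟨x, hxQ⟩ : Q)
      rwa [← orderOf_coe] at this
    rcases (Nat.dvd_prime hp.out).1 h1 with h | h
    · exact h
    · rw [h] at h2
      exact absurd h2 hpQ
  have hPA : ∀ F ≤ P, F ≠ ⊥ → F ∈ ApS p G := fun F hF hne =>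
    ⟨hne, fun x hx y hy => hPc x (hF hx) y (hF hy), fun x hx => hPp x (hF hx)⟩
  have hS : (Ain p D).Finite := Set.toFinite _
  -- the sum over all elements
  have e1 : eu (Ain p D) = 1 + ∑ X ∈ hS.toFinset, mb p X := by
    rw [eu_rec hS]
    have h3 : ∀ X ∈ hS.toFinset, eu {Y | Y ∈ Ain p D ∧ Y < X} = - mb p X := by
      intro X hX
      rw [Set.Finite.mem_toFinset] at hX
      rw [mb_of_mem hX.1, neg_neg]
      congr 1
      ext Y
      exact ⟨fun h => ⟨h.1.1, h.2⟩, fun h => ⟨⟨h.1, h.2.le.trans hX.2⟩, h.2⟩⟩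
    rw [Finset.sum_congr rfl h3, Finset.sum_neg_distrib]
    ring
  -- the fibres
  let orb : Subgroup G → Finset (Subgroup G) := fun F =>
    (Set.toFinite {X | ∃ q ∈ Q, X = cj q F}).toFinset
  have e2 : hS.toFinset = ((subs P).erase ⊥).biUnion orb := by
    ext X
    rw [Set.Finite.mem_toFinset, Finset.mem_biUnion]
    constructor
    · intro hX
      obtain ⟨q, hq, hqX⟩ := hconj X hX.2 hX.1.2.2
      refine ⟨cj q⁻¹ X, ?_, ?_⟩
      · rw [Finset.mem_erase, mem_subs]
        refine ⟨(cj_mem_ApS (p := p).2 hX.1).1, ?_⟩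
        intro y hy
        rw [mem_cj, inv_inv] at hy
        have h3 := hqX _ hy
        have h4 : q⁻¹ * (q * y * q⁻¹) * q = y := by group
        rwa [h4] at h3
      · rw [Set.Finite.mem_toFinset]
        refine ⟨q, hq, ?_⟩
        rw [← cj_mul, mul_inv_cancel, cj_one]
    · rintro ⟨F, hF, hX⟩
      rw [Finset.mem_erase, mem_subs] at hF
      rw [Set.Finite.mem_toFinset] at hX
      obtain ⟨q, hq, rfl⟩ := hX
      exact cj_mem_Ain (hQD hq) ⟨hPA F hF.2 hF.1, hF.2.trans hPD⟩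
  have e3 : ((((subs P).erase ⊥ : Finset (Subgroup G)) : Set (Subgroup G))).PairwiseDisjoint
      orb := by
    intro F hF F' hF' hne
    rw [Finset.mem_coe, Finset.mem_erase, mem_subs] at hF hF'
    change Disjoint (orb F) (orb F')
    rw [Finset.disjoint_left]
    intro X hX hX'
    rw [Set.Finite.mem_toFinset] at hX hX'
    obtain ⟨q, hq, rfl⟩ := hX
    obtain ⟨q', hq', hX'⟩ := hX'
    apply hne
    have key : ∀ q ∈ Q, ∀ A ≤ P, ∀ B ≤ P, cj q A = B → A ≤ B := by
      rintro q hq A hA B hB rfl x hx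
      have h3 : q * x * q⁻¹ ∈ cj q A := cj_mul_mem hx
      have h4 : q * x * q⁻¹ * x⁻¹ = 1 := by
        refine hPQ _ (mul_mem (hB h3) (inv_mem (hA hx))) ?_
        have h5 : q * x * q⁻¹ * x⁻¹ = q * (x * q⁻¹ * x⁻¹) := by group
        rw [h5]
        exact mul_mem hq (hn x (hPD (hA hx)) _ (inv_mem hq))
      rwa [mul_inv_eq_one.1 h4] at h3
    have h6 : cj (q'⁻¹ * q) F = F' := by
      rw [cj_mul, hX', ← cj_mul, inv_mul_cancel, cj_one]
    have h7 : cj (q⁻¹ * q') F' = F := by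
      rw [cj_mul, ← hX', ← cj_mul, inv_mul_cancel, cj_one]
    exact le_antisymm (key _ (mul_mem (inv_mem hq') hq) F hF.2 F' hF'.2 h6)
      (key _ (mul_mem (inv_mem hq) hq') F' hF'.2 F hF.2 h7)
  have e4 : ∀ F ∈ (subs P).erase ⊥, ∑ X ∈ orb F, mb p X = mb p F * wt Λ F := by
    intro F hF
    rw [Finset.mem_erase, mem_subs] at hF
    have h3 : ∀ X ∈ orb F, mb p X = mb p F := by
      intro X hX
      rw [Set.Finite.mem_toFinset] at hX
      obtain ⟨q, _, rfl⟩ := hX
      exact mb_cj q F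
    rw [Finset.sum_congr rfl h3, Finset.sum_const, nsmul_eq_mul]
    have h4 := card_orb (Q := Q) (F := F) (fun x hx => hn x (hPD (hF.2 hx)))
      (fun x hx => hPQ x (hF.2 hx))
    have h5 := hw F hF.2
    have h6 : ((orb F).card : ℤ) = wt Λ F := by
      have h7 : Nat.card {X | ∃ q ∈ Q, X = cj q F} = (orb F).card :=
        Nat.card_eq_card_finite_toFinset _
      have h8 : (Nat.card (Q ⊓ centralizer (F : Set G) : Subgroup G) : ℤ) ≠ 0 := by
        exact_mod_cast Nat.card_pos.ne'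
      apply mul_left_cancel₀ h8
      rw [← h5, ← h4, h7]
      push_cast
      ring
    rw [h6]
    ring
  have e5 : eu (Ain p D) = ∑ F ∈ subs P, mb p F * wt Λ F := by
    rw [e1, e2, Finset.sum_biUnion e3, Finset.sum_congr rfl e4]
    have h3 : (⊥ : Subgroup G) ∈ subs P := mem_subs.2 bot_le
    rw [← Finset.add_sum_erase _ _ h3]
    congr 1
    have h4 : wt Λ (⊥ : Subgroup G) = 1 := by
      unfold wt
      apply List.prod_eq_one
      intro x hx
      obtain ⟨a, _, rfl⟩ := List.mem_map.1 hx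
      rw [if_pos bot_le]
    rw [h4, mb, if_pos rfl, mul_one]
  refine ⟨P, hPD, hPp, hconj, fun m hm => ?_⟩
  rw [e5]
  refine (weights_pos (P := P) (mb p) (by rw [mb, if_pos rfl])
    (fun E hE hne => sum_mb (hPA E hE hne)) Λ hΛ P le_rfl m hm).2 ?_
  · intro x hx hxΛ
    refine hfaith x (hPD hx) (hPp x hx) ?_
    have h4 : zpowers x ≤ P := zpowers_le.2 hx
    have h5 := hw _ h4
    have h6 : wt Λ (zpowers x) = 1 := by
      unfold wt
      apply List.prod_eq_one
      intro y hy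
      obtain ⟨a, ha, rfl⟩ := List.mem_map.1 hy
      rw [if_pos (zpowers_le.2 (hxΛ a ha))]
    rw [h6, mul_one] at h5
    have h7 : Nat.card Q = Nat.card (Q ⊓ centralizer (zpowers x : Set G) : Subgroup G) := by
      exact_mod_cast h5
    have h8 : Q ⊓ centralizer (zpowers x : Set G) = Q :=
      Subgroup.eq_of_le_of_card_ge inf_le_left h7.le
    intro q hq
    rw [← h8] at hq
    exact mem_centralizer_iff.1 hq.2 x (mem_zpowers x)

end

end Vale.Agent.P240.K
end

section

namespace Vale.Agent.P240.K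

open Finsupp Subgroup

variable {𝕜 : Type*} [Field 𝕜]

universe u

section
variable {G : Type u} [Group G] {p : ℕ}

lemma conj_centralizer {M : Subgroup G} {g x : G} (hg : g ∈ normalizer (M : Set G))
    (hx : x ∈ centralizer (M : Set G)) : g * x * g⁻¹ ∈ centralizer (M : Set G) := by
  rw [mem_centralizer_iff] at hx ⊢
  intro y hy
  have h3 : g⁻¹ * y * g ∈ M := by
    have := (mem_normalizer_iff.1 (inv_mem hg) y).1 hy
    simpa using this
  have h4 := hx _ h3
  calc y * (g * x * g⁻¹) = g * ((g⁻¹ * y * g) * x) * g⁻¹ := by group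
    _ = g * (x * (g⁻¹ * y * g)) * g⁻¹ := by rw [h4]
    _ = g * x * g⁻¹ * y := by group

/-- coprime action on an elementary abelian group: fixed points modulo a subgroup -/
lemma fixed_mod [Finite G] {E A : Subgroup G} {d : G}
    (hEc : ∀ x ∈ E, ∀ y ∈ E, x * y = y * x) (hEp : ∀ x ∈ E, x ^ p = 1)
    (hdE : ∀ x ∈ E, d * x * d⁻¹ ∈ E) (hdA : ∀ x ∈ E ⊓ A, d * x * d⁻¹ ∈ A)
    (hd : Nat.Coprime (orderOf d) p) (hfix : ∀ x ∈ E, d * x = x * d → x = 1)
    {e : G} (he : e ∈ E) (heA : d * e * d⁻¹ * e⁻¹ ∈ A) : e ∈ A := by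
  let inst : CommGroup E :=
    { (inferInstance : Group E) with
      mul_comm := fun a b => Subtype.ext (hEc a a.2 b b.2) }
  let β : Monoid.End E :=
    { toFun := fun x => ⟨d * x * d⁻¹, hdE x x.2⟩
      map_one' := by apply Subtype.ext; simp
      map_mul' := fun a b => by
        apply Subtype.ext
        push_cast
        group }
  have hβpow : ∀ k : ℕ, ∀ x : E, ((β ^ k) x : G) = d ^ k * x * (d ^ k)⁻¹ := by
    intro k
    induction k with
    | zero => intro x; simp
    | succ k ih =>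
      intro x
      rw [pow_succ']
      change d * ((β ^ k) x : G) * d⁻¹ = _
      rw [ih, pow_succ']
      group
  have hβ : β ^ orderOf d = 1 := by
    apply MonoidHom.ext
    intro x
    apply Subtype.ext
    refine (hβpow _ x).trans ?_
    rw [pow_orderOf_eq_one, one_mul, inv_one, mul_one]
    rfl
  have hk : 0 < orderOf d := orderOf_pos d
  have h1 := norm_one hk β hβ (fun v hv => by
    apply Subtype.ext
    refine hfix v v.2 ?_
    have h2 : d * (v : G) * d⁻¹ = v := congrArg Subtype.val hv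
    exact mul_inv_eq_iff_eq_mul.1 h2) ⟨e, he⟩
  -- congruence modulo `A`
  have h2 : ∀ k : ℕ, ((((β ^ k) ⟨e, he⟩ : E) : G) * e⁻¹) ∈ E ⊓ A := by
    intro k
    induction k with
    | zero => simp [one_mem]
    | succ k ih =>
      rw [pow_succ']
      change d * ((β ^ k) ⟨e, he⟩ : G) * d⁻¹ * e⁻¹ ∈ E ⊓ A
      have h3 : d * ((β ^ k) ⟨e, he⟩ : G) * d⁻¹ * e⁻¹ =
          (d * (((β ^ k) ⟨e, he⟩ : G) * e⁻¹) * d⁻¹) * (d * e * d⁻¹ * e⁻¹) := by group
      rw [h3]
      exact mul_mem (Subgroup.mem_inf.2 ⟨hdE _ ih.1, hdA _ ih⟩)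
        (Subgroup.mem_inf.2 ⟨mul_mem (hdE e he) (inv_mem he), heA⟩)
  have h3 : ∀ k : ℕ, (((∏ i ∈ Finset.range k, (β ^ i) ⟨e, he⟩ : E) : G) * (e ^ k)⁻¹) ∈ A := by
    intro k
    induction k with
    | zero => simp [one_mem]
    | succ k ih =>
      rw [Finset.prod_range_succ]
      have h4 : ((((∏ i ∈ Finset.range k, (β ^ i) ⟨e, he⟩) * (β ^ k) ⟨e, he⟩ : E) : G) *
          (e ^ (k + 1))⁻¹) = (((∏ i ∈ Finset.range k, (β ^ i) ⟨e, he⟩ : E) : G) * (e ^ k)⁻¹) *
            (((β ^ k) ⟨e, he⟩ : G) * e⁻¹) := by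
        have h5 : (((β ^ k) ⟨e, he⟩ : E) : G) * (e ^ k)⁻¹ = (e ^ k)⁻¹ * ((β ^ k) ⟨e, he⟩ : G) :=
          hEc _ (Subtype.mem _) _ (inv_mem (pow_mem he k))
        rw [Subgroup.coe_mul, pow_succ', mul_inv_rev]
        calc _ = ((∏ i ∈ Finset.range k, (β ^ i) ⟨e, he⟩ : E) : G) *
              ((((β ^ k) ⟨e, he⟩ : E) : G) * (e ^ k)⁻¹) * e⁻¹ := by group
          _ = _ := by rw [h5]; group
      rw [h4]
      exact mul_mem ih (h2 k).2
  have h4 := h3 (orderOf d)
  rw [h1] at h4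
  have h5 : e ^ orderOf d ∈ A := by
    have : ((1 : E) : G) * (e ^ orderOf d)⁻¹ = (e ^ orderOf d)⁻¹ := by simp
    rw [this] at h4
    exact inv_mem_iff.1 h4
  obtain ⟨m, hm⟩ := exists_pow_eq_self_of_coprime (x := e) (n := orderOf d)
    (hd.coprime_dvd_right (orderOf_dvd_of_pow_eq_one (hEp e he)))
  rw [← hm]
  exact pow_mem h5 m

end

end Vale.Agent.P240.K
end

section

namespace Vale.Agent.P240.K

open Finsupp Subgroup

section
variable {α : Type*} [PartialOrder α] {S : Set α}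

lemma stn_dual (S : Set α) (n : ℕ) :
    Nat.card (stn (α := αᵒᵈ) (OrderDual.ofDual ⁻¹' S) n) = Nat.card (stn S n) := by
  have h : stn S n = (fun l : List αᵒᵈ => (l.map OrderDual.ofDual).reverse) ''
      stn (α := αᵒᵈ) (OrderDual.ofDual ⁻¹' S) n := by
    ext l
    constructor
    · rintro ⟨h1, h2, h3⟩
      refine ⟨(l.map OrderDual.toDual).reverse, ⟨by simpa using h1, ?_, ?_⟩, ?_⟩
      · rw [List.pairwise_reverse, List.pairwise_map]
        exact h2
      · intro a ha
        rw [List.mem_reverse, List.mem_map] at ha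
        obtain ⟨b, hb, rfl⟩ := ha
        exact h3 b hb
      · change ((l.map OrderDual.toDual).reverse.map OrderDual.ofDual).reverse = l
        rw [List.map_reverse, List.reverse_reverse, List.map_map]
        conv_rhs => rw [← List.map_id l]
        rfl
    · rintro ⟨l, ⟨h1, h2, h3⟩, rfl⟩
      refine ⟨by simpa using h1, ?_, ?_⟩
      · rw [List.pairwise_reverse, List.pairwise_map]
        exact h2
      · intro a ha
        rw [List.mem_reverse, List.mem_map] at ha
        obtain ⟨b, hb, rfl⟩ := ha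
        exact h3 b hb
  rw [h]
  symm
  refine Nat.card_image_of_injective ?_ _
  intro l m hlm
  exact List.map_injective_iff.2 OrderDual.ofDual.injective (List.reverse_injective hlm)

lemma eu_dual (S : Set α) : eu (α := αᵒᵈ) (OrderDual.ofDual ⁻¹' S) = eu S := by
  have h1 : Nat.card (OrderDual.ofDual ⁻¹' S : Set αᵒᵈ) = Nat.card S := rfl
  rw [eu, eu, h1]
  exact Finset.sum_congr rfl fun n _ => by rw [stn_dual]

/-- the recursion from below -/
lemma eu_rec' (hS : S.Finite) : eu S = 1 - ∑ x ∈ hS.toFinset, eu {y | y ∈ S ∧ x < y} := by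
  have hS' : (OrderDual.ofDual ⁻¹' S : Set αᵒᵈ).Finite := hS
  have h := eu_rec hS'
  rw [eu_dual] at h
  rw [h]
  congr 1
  refine Finset.sum_bij (fun x _ => OrderDual.ofDual x) ?_ ?_ ?_ ?_
  · intro x hx
    rw [Set.Finite.mem_toFinset] at hx ⊢
    exact hx
  · intro x _ y _ h
    exact h
  · intro x hx
    refine ⟨OrderDual.toDual x, ?_, rfl⟩
    rw [Set.Finite.mem_toFinset] at hx ⊢
    exact hx
  · intro x _
    rw [← eu_dual {y | y ∈ S ∧ OrderDual.ofDual x < y}]
    rfl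

end

end Vale.Agent.P240.K
end

section

namespace Vale.Agent.P240.K

open Finsupp Subgroup

section
variable {G : Type*} [Group G] {p : ℕ}

/-- elementary abelian `p`-subgroups, including the trivial one -/
def ApB (p : ℕ) (G : Type*) [Group G] : Set (Subgroup G) := {E | E = ⊥ ∨ E ∈ ApS p G}

end

end Vale.Agent.P240.K
end

section

namespace Vale.Agent.P240.K

open Finsupp Subgroup

section
variable {α β : Type*} [PartialOrder α] [PartialOrder β]

end

section
universe u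
variable {G : Type u} [Group G] {p : ℕ}

/-- the sign of the local terms -/
lemma eu_comap_pos [hp : Fact p.Prime] [Finite G] {W : Subgroup G} [hW : W.Normal]
    (hsol : Group.IsSolvable W) (hpW : ¬ p ∣ Nat.card W)
    (hfaith : ∀ x : G, x ^ p = 1 → (∀ w ∈ W, x * w = w * x) → x = 1) {F : Subgroup (G ⧸ W)}
    (hF : F ∈ ApB p (G ⧸ W)) {k : ℕ} (hk : Nat.card F = p ^ k) :
    0 < (-1 : ℤ) ^ k * eu (Ain p (F.comap (QuotientGroup.mk' W))) := by
  set f := QuotientGroup.mk' W with hf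
  have hf1 : ∀ x : G, f x = 1 ↔ x ∈ W := fun x => by
    change ((x : G ⧸ W) = 1) ↔ _
    rw [QuotientGroup.eq_one_iff]
  have hFc : ∀ v ∈ F, ∀ w ∈ F, v * w = w * v := by
    rcases hF with hF | hF
    · rw [hF]
      intro v hv w hw
      rw [mem_bot] at hv hw
      rw [hv, hw]
    · exact hF.2.1
  have hFp : ∀ v ∈ F, v ^ p = 1 := by
    rcases hF with hF | hF
    · rw [hF]
      intro v hv
      rw [mem_bot] at hv
      rw [hv, one_pow]
    · exact hF.2.2
  obtain ⟨P, hPD, hPp, hconj, hpos⟩ := eu_pos (p := p) (D := F.comap f) (Q := W)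
    (fun x _ q hq => hW.conj_mem q hq x) (fun w hw => by
      rw [mem_comap, (hf1 w).2 hw]; exact one_mem _) hsol hpW
    (fun x hx y hy _ _ => by
      rw [← hf1, map_mul, map_mul, map_mul, map_inv, map_inv, hFc _ hx _ hy]
      group) (fun x _ hx hxW => hfaith x hx hxW)
  apply hpos
  rw [← hk]
  have hcop : Nat.Coprime (Nat.card W) p :=
    ((Nat.Prime.coprime_iff_not_dvd hp.out).2 hpW).symm
  have hPW : ∀ x ∈ P, x ∈ W → x = 1 := by
    intro x hx hxW
    rw [← orderOf_eq_one_iff]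
    have h1 : orderOf x ∣ p := orderOf_dvd_of_pow_eq_one (hPp x hx)
    have h2 : orderOf x ∣ Nat.card W := by
      have := orderOf_dvd_natCard (⟨x, hxW⟩ : W)
      rwa [← orderOf_coe] at this
    exact Nat.eq_one_of_dvd_coprimes hcop h2 h1
  have hinj : Function.Injective (f.comp P.subtype) := by
    rw [injective_iff_map_eq_one]
    intro x hx
    exact Subtype.ext (hPW x x.2 ((hf1 _).1 hx))
  have hrange : (f.comp P.subtype).range = F := by
    rw [MonoidHom.range_comp, Subgroup.range_subtype]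
    apply le_antisymm
    · rintro _ ⟨x, hx, rfl⟩
      exact hPD hx
    · intro v hv
      obtain ⟨x, rfl⟩ := QuotientGroup.mk'_surjective W v
      change f x ∈ F at hv
      have hxp : (x ^ p) ^ Nat.card W = 1 := by
        have h1 : x ^ p ∈ W := by rw [← hf1, map_pow, hFp _ hv]
        have := pow_card_eq_one' (x := (⟨x ^ p, h1⟩ : W))
        exact congrArg Subtype.val this
      obtain ⟨s, hs⟩ := exists_pow_eq_self_of_coprime (x := f x) (n := Nat.card W)
        (hcop.coprime_dvd_right (orderOf_dvd_of_pow_eq_one (hFp _ hv)))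
      set y : G := (x ^ Nat.card W) ^ s with hy
      have hyp : y ^ p = 1 := by
        rw [hy, ← pow_mul, ← pow_mul]
        have : Nat.card W * (s * p) = p * Nat.card W * s := by ring
        rw [this, pow_mul, pow_mul, hxp, one_pow]
      have hfy : f y = f x := by rw [hy, map_pow, map_pow, hs]
      obtain ⟨q, hq, hqP⟩ := hconj (zpowers y) (by
        rw [zpowers_le, mem_comap, hfy]; exact hv) (by
        intro z hz
        obtain ⟨i, rfl⟩ := mem_zpowers_iff.1 hz
        rw [← zpow_natCast, ← zpow_mul, mul_comm, zpow_mul, zpow_natCast, hyp, one_zpow])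
      refine ⟨q⁻¹ * y * q, hqP y (mem_zpowers y), ?_⟩
      rw [map_mul, map_mul, map_inv, (hf1 q).2 hq, hfy, inv_one, one_mul, mul_one]
  rw [← hrange]
  exact Nat.card_congr (MonoidHom.ofInjective hinj).toEquiv

end

end Vale.Agent.P240.K
end

section

namespace Vale.Agent.P240.K

open Finsupp Subgroup

section
variable {α β : Type*} [PartialOrder α] [PartialOrder β]

/-- minus the reduced Euler characteristic -/
noncomputable def eulerT (α : Type*) [Preorder α] : ℤ :=
  ∑ᶠ n : ℕ, (-1) ^ n * (Nat.card {l : List α // l.length = n ∧ l.Pairwise (· < ·)} : ℤ)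

lemma euler_eq {f : β → α} (hf : Function.Injective f)
    (hlt : ∀ x y, x < y ↔ f x < f y) {S : Set α} (hS : S.Finite) (himg : f '' Set.univ = S) :
    eulerT β = eu S := by
  subst himg
  have h1 : ∀ n, Nat.card {l : List β // l.length = n ∧ l.Pairwise (· < ·)} =
      Nat.card (stn (f '' Set.univ) n) := by
    intro n
    have h2 : stn (f '' Set.univ) n = (fun l : List β => (l.map f).reverse) ''
        {l : List β | l.length = n ∧ l.Pairwise (· < ·)} := by
      ext l
      constructor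
      · rintro ⟨h1, h2, h3⟩
        have key : ∀ l : List α, (∀ a ∈ l, a ∈ f '' Set.univ) → ∃ m : List β, m.map f = l := by
          intro l
          induction l with
          | nil => intro _; exact ⟨[], rfl⟩
          | cons y l ih =>
            intro hl
            obtain ⟨m, rfl⟩ := ih fun a ha => hl a (List.mem_cons_of_mem _ ha)
            obtain ⟨x, _, rfl⟩ := hl y (by simp)
            exact ⟨x :: m, rfl⟩
        obtain ⟨m, hm⟩ := key l.reverse (fun a ha => h3 a (List.mem_reverse.1 ha))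
        refine ⟨m, ⟨?_, ?_⟩, ?_⟩
        · rw [← h1, ← List.length_reverse (as := l), ← hm, List.length_map]
        · have h4 : (m.map f).Pairwise (· < ·) := by
            rw [hm, List.pairwise_reverse]
            exact h2
          rw [List.pairwise_map] at h4
          exact h4.imp fun h => (hlt _ _).2 h
        · change (m.map f).reverse = l
          rw [hm, List.reverse_reverse]
      · rintro ⟨m, ⟨h1, h2⟩, rfl⟩
        refine ⟨by simpa using h1, ?_, ?_⟩
        · rw [List.pairwise_reverse, List.pairwise_map]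
          exact h2.imp fun h => (hlt _ _).1 h
        · intro a ha
          rw [List.mem_reverse, List.mem_map] at ha
          obtain ⟨b, _, rfl⟩ := ha
          exact ⟨b, trivial, rfl⟩
    rw [h2]
    symm
    refine Nat.card_image_of_injective ?_ _
    intro l m hlm
    exact List.map_injective_iff.2 hf (List.reverse_injective hlm)
  unfold eulerT
  simp only [h1]
  rw [← eu_eq hS le_rfl]
  refine finsum_eq_sum_of_support_subset _ ?_
  intro n hn
  rw [Finset.mem_coe, Finset.mem_range]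
  by_contra h
  apply hn
  change (-1 : ℤ) ^ n * (Nat.card (stn (f '' Set.univ) n) : ℤ) = 0
  rw [stn_empty hS (by omega)]
  simp

end

section
variable {G : Type*} [Group G]

/-- counting chains modulo `r` -/
lemma eu_mod {r : ℕ} [hr : Fact r.Prime] [Finite G] {S : Set (Subgroup G)}
    (U : Subgroup G) (hU : IsPGroup r U) (hstab : ∀ u ∈ U, ∀ E ∈ S, cj u E ∈ S) :
    (r : ℤ) ∣ eu S - eu {E | E ∈ S ∧ U ≤ normalizer (E : Set G)} := by
  have hS : S.Finite := Set.toFinite S
  set X : Set (Subgroup G) := {E | E ∈ S ∧ U ≤ normalizer (E : Set G)} with hX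
  have hXS : Nat.card X ≤ Nat.card S := Nat.card_mono hS fun E hE => hE.1
  have hdiv : ∀ n, (r : ℤ) ∣ (Nat.card (stn S n) : ℤ) - (Nat.card (stn X n) : ℤ) := by
    intro n
    have hfin : Finite (stn S n) := stn_finite hS n
    have hmap : ∀ u : U, ∀ l ∈ stn S n, l.map (cj (u : G)) ∈ stn S n := by
      rintro u l ⟨h1, h2, h3⟩
      refine ⟨by rw [List.length_map, h1], ?_, ?_⟩
      · rw [List.pairwise_map]
        exact h2.imp fun h => cj_lt.2 h
      · intro a ha
        obtain ⟨b, hb, rfl⟩ := List.mem_map.1 ha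
        exact hstab u u.2 b (h3 b hb)
    let act : MulAction U (stn S n) :=
      { smul := fun u l => ⟨l.1.map (cj (u : G)), hmap u l.1 l.2⟩
        one_smul := fun l => by
          apply Subtype.ext
          change l.1.map (cj ((1 : U) : G)) = l.1
          conv_rhs => rw [← List.map_id l.1]
          exact List.map_congr_left fun a _ => by simp [cj_one]
        mul_smul := fun u v l => by
          apply Subtype.ext
          change l.1.map (cj ((u * v : U) : G)) = (l.1.map (cj (v : G))).map (cj (u : G))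
          rw [List.map_map]
          exact List.map_congr_left fun a _ => by simp [cj_mul] }
    have h1 := hU.card_modEq_card_fixedPoints (stn S n)
    have h2 : Nat.card (MulAction.fixedPoints U (stn S n)) = Nat.card (stn X n) := by
      refine Nat.card_congr ⟨fun l => ⟨l.1.1, l.1.2.1, l.1.2.2.1, fun a ha =>
        ⟨l.1.2.2.2 a ha, ?_⟩⟩, fun l => ⟨⟨l.1, l.2.1, l.2.2.1, fun a ha => (l.2.2.2 a ha).1⟩, ?_⟩,
        fun _ => rfl, fun _ => rfl⟩
      · intro u hu
        rw [← cj_eq_iff]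
        have h3 := congrArg Subtype.val (l.2 ⟨u, hu⟩)
        have h4 : l.1.1.map (cj u) = l.1.1.map id := by
          rw [List.map_id]; exact h3
        exact List.map_inj_left.1 h4 a ha
      · intro u
        apply Subtype.ext
        change l.1.map (cj (u : G)) = l.1
        conv_rhs => rw [← List.map_id l.1]
        exact List.map_congr_left fun a ha => cj_eq_iff.2 ((l.2.2.2 a ha).2 u.2)
    rw [h2] at h1
    have h5 := (Nat.modEq_iff_dvd.1 h1.symm)
    exact h5
  rw [← eu_eq hS le_rfl, ← eu_eq (Set.toFinite X) hXS, ← Finset.sum_sub_distrib]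
  refine Finset.dvd_sum fun n _ => ?_
  rw [← mul_sub]
  exact Dvd.dvd.mul_left (hdiv n) _

end

end Vale.Agent.P240.K
end

section

namespace Vale.Agent.P240.K

open Finsupp Subgroup

variable {𝕜 : Type*} [Field 𝕜]

section
variable {α β : Type*} [PartialOrder α] [PartialOrder β]

lemma eu_emb {f : α → β} (hf : Function.Injective f) (hlt : ∀ x y, x < y ↔ f x < f y) (S : Set α) :
    eu (f '' S) = eu S := by
  have h1 : Nat.card (f '' S) = Nat.card S := Nat.card_image_of_injective hf S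
  have key : ∀ l : List β, st (f '' S) l → ∃ l' : List α, st S l' ∧ l'.map f = l := by
    intro l
    induction l with
    | nil => intro _; exact ⟨[], ⟨by simp, by simp⟩, rfl⟩
    | cons y l ih =>
      intro hl
      have hp := List.pairwise_cons.1 hl.1
      obtain ⟨l', hl', rfl⟩ := ih ⟨hp.2, fun a ha => hl.2 a (by simp [ha])⟩
      obtain ⟨x, hx, rfl⟩ := hl.2 y (by simp)
      refine ⟨x :: l', ⟨?_, ?_⟩, rfl⟩
      · rw [List.pairwise_cons]
        refine ⟨fun a ha => (hlt a x).2 (hp.1 _ (List.mem_map_of_mem ha)), hl'.1⟩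
      · intro a ha
        rcases List.mem_cons.1 ha with h | ha
        · rw [h]; exact hx
        · exact hl'.2 a ha
  have h2 : ∀ n, Nat.card (stn (f '' S) n) = Nat.card (stn S n) := by
    intro n
    have : stn (f '' S) n = (List.map f) '' stn S n := by
      ext l
      constructor
      · rintro ⟨hl1, hl2⟩
        obtain ⟨l', hl', rfl⟩ := key l hl2
        exact ⟨l', ⟨by simpa using hl1, hl'⟩, rfl⟩
      · rintro ⟨l, ⟨hl1, hl2⟩, rfl⟩
        exact ⟨by simpa using hl1, st_map (T := f '' S) (fun x hx => Set.mem_image_of_mem f hx)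
          (fun x _ y _ h => (hlt x y).1 h) l hl2⟩
    rw [this]
    exact Nat.card_image_of_injective (List.map_injective_iff.2 hf) _
  rw [eu, eu, h1]
  exact Finset.sum_congr rfl fun n _ => by rw [h2]

end

section
variable {G : Type*} [Group G] {p : ℕ}

lemma eu_sub (H : Subgroup G) : eu (Ain p H) = eu (ApS p H) := by
  have h : (fun E : Subgroup H => E.map H.subtype) '' (ApS p H) = Ain p H := by
    ext E
    constructor
    · rintro ⟨F, hF, rfl⟩
      exact ⟨(map_mem_ApS (f := H.subtype) H.subtype_injective).2 hF, Subgroup.map_subtype_le F⟩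
    · rintro ⟨hE, h4⟩
      refine ⟨E.subgroupOf H, ?_, Subgroup.map_subgroupOf_eq_of_le h4⟩
      rw [← map_mem_ApS (f := H.subtype) H.subtype_injective]
      rw [Subgroup.map_subgroupOf_eq_of_le h4]
      exact hE
  rw [← h]
  refine eu_emb (Subgroup.map_injective H.subtype_injective) (fun x y => ?_) _
  constructor
  · intro hxy
    refine lt_of_le_of_ne (Subgroup.map_mono hxy.le) fun h => hxy.ne ?_
    exact Subgroup.map_injective H.subtype_injective h
  · intro hxy
    refine lt_of_le_of_ne ?_ fun h => hxy.ne (by rw [h])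
    exact (Subgroup.map_le_map_iff_of_injective H.subtype_injective).1 hxy.le

end

section
universe u
variable {G : Type u} [Group G] {p : ℕ}

end

end Vale.Agent.P240.K
end

section

namespace Vale.Agent.P240.K

open Finsupp Subgroup

section
variable {G : Type*} [Group G] {p : ℕ}

/-- an element of the product with prescribed actions -/
lemma exists_prod [Finite G] {F : Set (Subgroup G)} (hF : Family p F) {D : Set (Subgroup G)}
    (hDF : D ⊆ F) (l : Subgroup G → G) (hl : ∀ L ∈ D, l L ∈ L) :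
    ∃ d ∈ sSup D, ∀ L ∈ D, ∃ c ∈ centralizer (L : Set G), d = l L * c := by
  have key : ∀ T : Set (Subgroup G), T.Finite → T ⊆ D → ∃ d ∈ sSup T,
      ∀ L ∈ T, ∃ c ∈ centralizer (L : Set G), d = l L * c := by
    intro T hfin
    induction T, hfin using Set.Finite.induction_on with
    | empty =>
      intro _
      exact ⟨1, one_mem _, by simp⟩
    | @insert M T hMT _ ih =>
      intro hsub
      obtain ⟨d, hd, h1⟩ := ih fun L hL => hsub (Set.mem_insert_of_mem _ hL)
      have hMD : M ∈ D := hsub (Set.mem_insert _ _)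
      have hdM : d ∈ centralizer (M : Set G) := by
        have : sSup T ≤ centralizer (M : Set G) := by
          refine sSup_le fun L hL => ?_
          intro x hx
          rw [mem_centralizer_iff]
          intro y hy
          refine hF.comm M (hDF hMD) L (hDF (hsub (Set.mem_insert_of_mem _ hL))) ?_ y hy x hx
          rintro rfl
          exact hMT hL
        exact this hd
      have hs1 : M ≤ sSup (insert M T) := le_sSup (Set.mem_insert _ _)
      have hs2 : sSup T ≤ sSup (insert M T) := sSup_le_sSup (Set.subset_insert _ _)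
      refine ⟨l M * d, mul_mem (hs1 (hl M hMD)) (hs2 hd), ?_⟩
      intro L hL
      rcases Set.mem_insert_iff.1 hL with h | hL2
      · subst h
        exact ⟨d, hdM, rfl⟩
      · obtain ⟨c, hc, hdc⟩ := h1 L hL2
        have hLD : L ∈ D := hsub (Set.mem_insert_of_mem _ hL2)
        have hne : L ≠ M := by
          rintro rfl
          exact hMT hL2
        have hlM : l M ∈ centralizer (L : Set G) := by
          rw [mem_centralizer_iff]
          intro y hy
          exact hF.comm L (hDF hLD) M (hDF hMD) hne y hy _ (hl M hMD)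
        refine ⟨l M * c, mul_mem hlM hc, ?_⟩
        have h3 : l L * l M = l M * l L := (mem_centralizer_iff.1 hlM) _ (hl L hLD)
        rw [hdc, ← mul_assoc, ← h3, mul_assoc]
  exact key D (Set.toFinite _) (Set.Subset.refl _)

lemma Family.center_trivial [Finite G] {F : Set (Subgroup G)} (hF : Family p F)
    {T : Set (Subgroup G)} (hTF : T ⊆ F) {d : G} (hd : d ∈ sSup T)
    (hc : ∀ L ∈ T, d ∈ centralizer (L : Set G)) : d = 1 := by
  have key : ∀ T : Set (Subgroup G), T.Finite → T ⊆ F → ∀ d ∈ sSup T,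
      (∀ L ∈ T, d ∈ centralizer (L : Set G)) → d = 1 := by
    intro T hfin
    induction T, hfin using Set.Finite.induction_on with
    | empty =>
      intro _ d hd _
      rw [sSup_empty, mem_bot] at hd
      exact hd
    | @insert M T hMT _ ih =>
      intro hsub d hd hc
      have hMF : M ∈ F := hsub (Set.mem_insert _ _)
      have hTF : T ⊆ F := fun L hL => hsub (Set.mem_insert_of_mem _ hL)
      rw [sSup_insert] at hd
      have hMC : sSup T ≤ centralizer (M : Set G) := by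
        refine sSup_le fun L hL => ?_
        intro x hx
        rw [mem_centralizer_iff]
        intro y hy
        refine hF.comm M hMF L (hTF hL) ?_ y hy x hx
        rintro rfl
        exact hMT hL
      obtain ⟨m, hm, d', hd', rfl⟩ := mem_sup_comm
        (fun a ha b hb => (mem_centralizer_iff.1 (hMC hb)) a ha) hd
      have hm1 : m = 1 := by
        have : m ∈ M ⊓ centralizer (M : Set G) := by
          refine ⟨hm, ?_⟩
          have h1 := hc M (Set.mem_insert _ _)
          have h2 : m = m * d' * d'⁻¹ := by group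
          rw [h2]
          exact (centralizer (M : Set G)).mul_mem h1 ((centralizer (M : Set G)).inv_mem (hMC hd'))
        rw [hF.centre M hMF, mem_bot] at this
        exact this
      subst hm1
      rw [one_mul] at hc ⊢
      exact ih hTF d' hd' fun L hL => hc L (Set.mem_insert_of_mem _ hL)
  exact key T (Set.toFinite _) hTF d hd hc

lemma sSup_le_norm {F : Set (Subgroup G)} (hF : Family p F) {D : Set (Subgroup G)}
    (hDF : D ⊆ F) {L : Subgroup G} (hL : L ∈ F) : sSup D ≤ normalizer (L : Set G) := by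
  refine sSup_le fun M hM => ?_
  by_cases h : M = L
  · rw [h]; exact Subgroup.le_normalizer
  · intro m hm
    refine mem_of_comm fun y hy => ?_
    exact hF.comm M (hDF hM) L hL h m hm y hy

lemma sSup_conj {D : Set (Subgroup G)} (hconj : ∀ L ∈ D, ∀ g : G, cj g L ∈ D) (g : G) {x : G}
    (hx : x ∈ sSup D) : g * x * g⁻¹ ∈ sSup D := by
  have h1 : sSup D ≤ (sSup D).comap (MulAut.conj g).toMonoidHom := by
    refine sSup_le fun M hM => ?_
    intro y hy
    have h2 : cj g M ≤ sSup D := le_sSup (hconj M hM g)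
    exact h2 (cj_mul_mem hy)
  exact h1 hx

end

end Vale.Agent.P240.K
end

section

namespace Vale.Agent.P240.K

open Finsupp Subgroup

section
variable {G : Type*} [Group G] {p : ℕ} {D : Set (Subgroup G)}

end

end Vale.Agent.P240.K
end

section

namespace Vale.Agent.P240.K

open Finsupp Subgroup

variable {𝕜 : Type*} [Field 𝕜]

universe u

section
variable {G : Type u} [Group G] {p : ℕ}

/-- A member of `𝒜ₚ` normalized by `w` contains elements commuting with `w`, if this is true for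
the part normalizing all members of the family. -/
lemma fixed_of_norm [Finite G] {F : Set (Subgroup G)} (hF : Family p F)
    {w : G} (hw : ∀ L ∈ F, w ∈ normalizer (L : Set G)) {E : Subgroup G} (hE1 : E ∈ ApS p G)
    (hwE : w ∈ normalizer (E : Set G))
    (hfix : ∀ E₀ ∈ ApS p G, E₀ ≤ E → (∀ L ∈ F, E₀ ≤ normalizer (L : Set G)) →
      (∀ e ∈ E₀, w * e * w⁻¹ ∈ E₀) → (∀ e ∈ E₀, w * e = e * w → e = 1) → False) :
    E ⊓ centralizer {w} ∈ ApS p G := by
  have hwE' : ∀ e ∈ E, w * e * w⁻¹ ∈ E := fun e he => (mem_normalizer_iff.1 hwE e).1 he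
  refine mem_ApS_of_le hE1 inf_le_left ?_
  intro hbot
  have hfix1 : ∀ x ∈ E, w * x = x * w → x = 1 := by
    intro x hx hxd
    have h1 : x ∈ E ⊓ centralizer ({w} : Set G) := by
      refine Subgroup.mem_inf.2 ⟨hx, ?_⟩
      rw [mem_centralizer_iff]
      intro y hy
      rw [Set.mem_singleton_iff.1 hy]
      exact hxd
    rw [hbot, mem_bot] at h1
    exact h1
  set E0 : Subgroup G := E ⊓ ⨅ L ∈ F, normalizer (L : Set G) with hE0
  have hE0E : E0 ≤ E := inf_le_left
  have hE0N : ∀ L ∈ F, E0 ≤ normalizer (L : Set G) := fun L hL =>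
    inf_le_right.trans (iInf₂_le L hL)
  have hE0bot : E0 = ⊥ := by
    by_contra hE0ne
    refine hfix E0 (mem_ApS_of_le hE1 hE0E hE0ne) hE0E hE0N ?_ fun e he => hfix1 e (hE0E he)
    intro e he
    refine Subgroup.mem_inf.2 ⟨hwE' e (hE0E he), ?_⟩
    rw [mem_iInf]
    intro L
    rw [mem_iInf]
    intro hL
    exact mul_mem (mul_mem (hw L hL) (hE0N L hL he)) (inv_mem (hw L hL))
  apply hE1.1
  rw [eq_bot_iff]
  intro e he
  rw [mem_bot]
  refine hfix1 e he ?_
  have hf1 : w * e * w⁻¹ * e⁻¹ ∈ E0 := by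
    refine Subgroup.mem_inf.2 ⟨mul_mem (hwE' e he) (inv_mem he), ?_⟩
    rw [mem_iInf]
    intro L
    rw [mem_iInf]
    intro hL
    have h1 : w ∈ normalizer ((cj e⁻¹ L : Subgroup G) : Set G) := hw _ (hF.conj L hL e⁻¹)
    rw [normalizer_cj, inv_inv] at h1
    have h2 : w * e * w⁻¹ * e⁻¹ = w * (e * w * e⁻¹)⁻¹ := by group
    rw [h2]
    exact mul_mem (hw L hL) (inv_mem h1)
  rw [hE0bot, mem_bot] at hf1
  exact mul_inv_eq_iff_eq_mul.1 (mul_inv_eq_one.1 hf1)

variable {F D T : Set (Subgroup G)} {φ : G → ℂ} {z : G}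

lemma FreeWeight.not_dvd [hp : Fact p.Prime] [Finite G] (hF : Family p F)
    (hw : FreeWeight p (F \ D) T φ) {L : Subgroup G} (hL : L ∈ T) {a : G} (ha : a ∈ L)
    (hφ : φ a ≠ 0) : ¬ p ∣ orderOf a := by
  intro hdvd
  obtain ⟨k, hk⟩ := hdvd
  have hk0 : k ≠ 0 := by
    rintro rfl
    rw [mul_zero] at hk
    exact (orderOf_pos a).ne' hk
  have hbp : (a ^ k) ^ p = 1 := by rw [← pow_mul, mul_comm, ← hk, pow_orderOf_eq_one]
  have hb1 : a ^ k ≠ 1 := by
    intro h
    have h1 := orderOf_dvd_of_pow_eq_one h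
    have h2 := Nat.le_of_dvd (Nat.pos_of_ne_zero hk0) h1
    rw [hk] at h2
    have h3 := hp.out.two_le
    nlinarith [Nat.pos_of_ne_zero hk0]
  have hbL : a ^ k ∈ L := pow_mem ha k
  have hLF := (hw.sub hL).1
  have h1 : zpowers (a ^ k) ≤ centralizer (L : Set G) := by
    refine hw.free L hL a ha hφ _ ?_ (zpowers_mem_ApS hbp hb1) ?_
    · rw [zpowers_le]
      exact Subgroup.le_normalizer hbL
    · rintro _ ⟨i, rfl⟩
      refine mem_sup_left ?_
      have : a * (a ^ k) ^ i * a⁻¹ = (a ^ k) ^ i := by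
        have h2 : Commute a ((a ^ k) ^ i) := ((Commute.refl a).pow_right k).zpow_right i
        rw [h2.eq, mul_inv_cancel_right]
      change a * (a ^ k) ^ i * a⁻¹ ∈ zpowers (a ^ k)
      rw [this]
      exact ⟨i, rfl⟩
  have h2 : a ^ k ∈ L ⊓ centralizer (L : Set G) := ⟨hbL, h1 (mem_zpowers _)⟩
  rw [hF.centre L hLF, mem_bot] at h2
  exact hb1 h2

/-- the fixed points of the product of a good element and a free choice -/
lemma fixed_prod [hp : Fact p.Prime] [Finite G] (hF : Family p F) (hz : GoodElement p F D z)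
    (hw : FreeWeight p (F \ D) T φ) {c : Subgroup G → G} (hc : ∀ L ∈ T, c L ∈ L)
    (hφ : ∀ L ∈ T, φ (c L) ≠ 0) {d : G} (hd : d ∈ sSup T)
    (hdc : ∀ L ∈ T, ∃ c' ∈ centralizer (L : Set G), d = c L * c')
    {E : Subgroup G} (hE : E ∈ ApS p G)
    (hwE : z * d ∈ normalizer (E : Set G)) : E ⊓ centralizer {z * d} ∈ ApS p G := by
  have hTF : T ⊆ F := fun L hL => (hw.sub hL).1
  have hTD : ∀ L ∈ T, L ∉ D := fun L hL => (hw.sub hL).2
  have hzT : ∀ L ∈ T, z ∈ centralizer (L : Set G) := fun L hL =>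
    mem_Rest.1 hz.rest L (hTF hL) (hTD L hL)
  have hzsup : ∀ x ∈ sSup T, z * x = x * z := by
    have h1 : sSup T ≤ centralizer ({z} : Set G) := by
      refine sSup_le fun L hL => ?_
      intro x hx
      rw [mem_centralizer_iff]
      intro y hy
      rw [Set.mem_singleton_iff.1 hy]
      exact ((mem_centralizer_iff.1 (hzT L hL)) x hx).symm
    exact fun x hx => (mem_centralizer_iff.1 (h1 hx)) z rfl
  have hdN : ∀ L ∈ F, d ∈ normalizer (L : Set G) := fun L hL => sSup_le_norm hF hTF hL hd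
  have hdC : ∀ L ∈ F, L ∉ T → d ∈ centralizer (L : Set G) := by
    intro L hL hLT
    have : sSup T ≤ centralizer (L : Set G) := by
      refine sSup_le fun M hM => ?_
      intro x hx
      rw [mem_centralizer_iff]
      intro y hy
      refine hF.comm L hL M (hTF hM) ?_ y hy x hx
      rintro rfl
      exact hLT hM
    exact this hd
  have hzN : ∀ L ∈ F, z ∈ normalizer (L : Set G) := by
    intro L hL
    by_cases hLD : L ∈ D
    · exact hz.norm L hLD
    · exact mem_of_comm fun y hy =>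
        ((mem_centralizer_iff.1 (mem_Rest.1 hz.rest L hL hLD)) y hy).symm
  have hwN : ∀ L ∈ F, z * d ∈ normalizer (L : Set G) := fun L hL => mul_mem (hzN L hL) (hdN L hL)
  -- the order is prime to `p`
  have hord : Nat.Coprime (orderOf (z * d)) p := by
    have hd1 : ∃ m, ¬ p ∣ m ∧ d ^ m = 1 := by
      classical
      refine ⟨∏ L ∈ (Set.toFinite T).toFinset, orderOf (c L), ?_, ?_⟩
      · intro h
        obtain ⟨L, hL, h1⟩ := (hp.out.prime.dvd_finsetProd_iff _).1 h
        rw [Set.Finite.mem_toFinset] at hL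
        exact hw.not_dvd hF hL (hc L hL) (hφ L hL) h1
      · refine hF.center_trivial hTF (pow_mem hd _) fun L hL => ?_
        obtain ⟨c', hc', hdc'⟩ := hdc L hL
        have h1 : Commute (c L) c' := (mem_centralizer_iff.1 hc') _ (hc L hL)
        rw [hdc', h1.mul_pow]
        have h2 : (c L) ^ (∏ M ∈ (Set.toFinite T).toFinset, orderOf (c M)) = 1 := by
          rw [← orderOf_dvd_iff_pow_eq_one]
          exact Finset.dvd_prod_of_mem (fun M => orderOf (c M))
            ((Set.Finite.mem_toFinset _).2 hL)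
        rw [h2, one_mul]
        exact pow_mem hc' _
    obtain ⟨m, hm1, hm2⟩ := hd1
    have hcomm : Commute z d := hzsup d hd
    have h1 : (z * d) ^ (orderOf z * m) = 1 := by
      rw [hcomm.mul_pow, pow_mul, pow_orderOf_eq_one, one_pow, mul_comm (orderOf z) m, pow_mul,
        hm2, one_pow, one_mul]
    have h2 := orderOf_dvd_of_pow_eq_one h1
    have h3 : ¬ p ∣ orderOf z * m := fun h => (hp.out.dvd_mul.1 h).elim hz.order hm1
    exact ((Nat.Prime.coprime_iff_not_dvd hp.out).2 fun h => h3 (h.trans h2)).symm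
  refine fixed_of_norm hF hwN hE hwE ?_
  intro E0 hE0A hE0E hE0N hwE0 hfix
  -- members outside `D ∪ T`
  have hR1 : E0 ≤ Rest F (D ∪ T) := by
    refine le_Rest fun L hL hLDT => ?_
    have hwC : z * d ∈ centralizer (L : Set G) :=
      (centralizer (L : Set G)).mul_mem (mem_Rest.1 hz.rest L hL fun h => hLDT (Or.inl h))
        (hdC L hL fun h => hLDT (Or.inr h))
    intro e he
    refine fixed_mod (p := p) (E := E0) (A := centralizer (L : Set G)) (d := z * d) hE0A.2.1
      hE0A.2.2 hwE0 (fun y hy => conj_centralizer (hwN L hL) (Subgroup.mem_inf.1 hy).2)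
      hord hfix he ?_
    have h1 : z * d * e * (z * d)⁻¹ * e⁻¹ = z * d * (e * (z * d)⁻¹ * e⁻¹) := by group
    rw [h1]
    exact (centralizer (L : Set G)).mul_mem hwC
      (conj_centralizer (hE0N L hL he) ((centralizer (L : Set G)).inv_mem hwC))
  -- members of `T`
  have hT : ∀ L ∈ T, E0 ≤ centralizer (L : Set G) := by
    intro L hL
    have hLF := hTF hL
    refine hw.free L hL _ (hc L hL) (hφ L hL) E0 (hE0N L hLF) hE0A ?_
    intro e he
    obtain ⟨c', hc', hdc'⟩ := hdc L hL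
    -- `c L = (z d) * k` with `k` centralizing `L`
    have hcomm : Commute (c L) c' := (mem_centralizer_iff.1 hc') _ (hc L hL)
    have hk : z⁻¹ * c'⁻¹ ∈ centralizer (L : Set G) :=
      (centralizer (L : Set G)).mul_mem ((centralizer (L : Set G)).inv_mem (hzT L hL))
        ((centralizer (L : Set G)).inv_mem hc')
    have hzc : z * c L = c L * z := ((mem_centralizer_iff.1 (hzT L hL)) _ (hc L hL)).symm
    have hzc' : z * c' = c' * z := by
      have h1 : z * (c L * c') = (c L * c') * z := by rw [← hdc']; exact hzsup d hd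
      have h2 : c L * (z * c') = c L * (c' * z) := by
        rw [← mul_assoc, ← hzc, mul_assoc, h1, mul_assoc]
      exact mul_left_cancel h2
    have h1 : c L = z * d * (z⁻¹ * c'⁻¹) := by
      rw [hdc']
      calc c L = c L * (z * z⁻¹) * (c' * c'⁻¹) := by group
        _ = (c L * z) * (z⁻¹ * c') * c'⁻¹ := by group
        _ = (z * c L) * (c' * z⁻¹) * c'⁻¹ := by
          have h2 : z⁻¹ * c' = c' * z⁻¹ := by
            have : z⁻¹ * (z * c') * z⁻¹ = z⁻¹ * (c' * z) * z⁻¹ := by rw [hzc']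
            calc z⁻¹ * c' = z⁻¹ * (c' * z) * z⁻¹ := by group
              _ = z⁻¹ * (z * c') * z⁻¹ := this.symm
              _ = c' * z⁻¹ := by group
          rw [hzc, h2]
        _ = z * (c L * c') * (z⁻¹ * c'⁻¹) := by group
    set k := z⁻¹ * c'⁻¹ with hkdef
    have hwe := hwE0 e he
    have h2 : c L * e * (c L)⁻¹ = (z * d * e * (z * d)⁻¹) *
        ((z * d * e * (z * d)⁻¹)⁻¹ * (z * d * (k * (e * k⁻¹ * e⁻¹)) * (z * d)⁻¹) *
          (z * d * e * (z * d)⁻¹)) := by
      conv_lhs => rw [h1]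
      group
    rw [h2]
    refine mul_mem (mem_sup_left hwe) (mem_sup_right ?_)
    have h5 : k * (e * k⁻¹ * e⁻¹) ∈ centralizer (L : Set G) :=
      (centralizer (L : Set G)).mul_mem hk
        (conj_centralizer (hE0N L hLF he) ((centralizer (L : Set G)).inv_mem hk))
    have h6 := conj_centralizer (hwN L hLF) h5
    have h7 := conj_centralizer (inv_mem (hE0N L hLF hwe)) h6
    simpa using h7
  have hRD : E0 ≤ Rest F D := by
    refine le_Rest fun M hM hMD => ?_
    by_cases hMT : M ∈ T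
    · exact hT M hMT
    · exact fun x hx => mem_Rest.1 (hR1 hx) M hM fun h => h.elim hMD hMT
  -- `d` centralizes `E0`
  have hdE0 : ∀ e ∈ E0, d * e = e * d := by
    intro e he
    have h1 : sSup T ≤ centralizer ({e} : Set G) := by
      refine sSup_le fun L hL => ?_
      intro x hx
      rw [mem_centralizer_iff]
      intro y hy
      rw [Set.mem_singleton_iff.1 hy]
      exact ((mem_centralizer_iff.1 (hT L hL he)) x hx).symm
    exact ((mem_centralizer_iff.1 (h1 hd)) e rfl).symm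
  have hzw : ∀ e ∈ E0, z * e * z⁻¹ = z * d * e * (z * d)⁻¹ := by
    intro e he
    calc z * e * z⁻¹ = z * (e * d) * d⁻¹ * z⁻¹ := by group
      _ = z * (d * e) * d⁻¹ * z⁻¹ := by rw [hdE0 e he]
      _ = z * d * e * (z * d)⁻¹ := by group
  have hzE0 : ∀ e ∈ E0, z * e * z⁻¹ ∈ E0 := fun e he => by
    rw [hzw e he]
    exact hwE0 e he
  have hzord : Nat.Coprime (orderOf z) p :=
    ((Nat.Prime.coprime_iff_not_dvd hp.out).2 hz.order).symm
  -- members of `D`
  have hD : ∀ L ∈ D, E0 ≤ centralizer (L : Set G) := by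
    intro L hL
    refine hz.fix L hL E0 (le_inf hRD (hE0N L (hz.sub hL))) hE0A
      (fun e he => mem_sup_left (hzE0 e he)) ?_
    intro e he hcomm'
    refine fixed_mod (p := p) (E := E0) (A := centralizer (L : Set G)) (d := z) hE0A.2.1
      hE0A.2.2 hzE0 (fun y hy => conj_centralizer (hz.norm L hL) (Subgroup.mem_inf.1 hy).2)
      hzord (fun y hy h => hfix y hy ?_) he hcomm'
    rw [mul_assoc, hdE0 y hy, ← mul_assoc, h, mul_assoc]
  apply hE0A.1
  rw [eq_bot_iff]
  intro x hx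
  rw [mem_bot]
  have hxL : ∀ L ∈ F, x ∈ centralizer (L : Set G) := by
    intro L hL
    by_cases hLD : L ∈ D
    · exact hD L hLD hx
    · exact mem_Rest.1 (hRD hx) L hL hLD
  have hzx : z * x = x * z := hz.comm x (mem_Rest.2 fun L hL _ => hxL L hL) (hE0A.2.2 x hx)
  refine hfix x hx ?_
  rw [mul_assoc, hdE0 x hx, ← mul_assoc, hzx, mul_assoc]

end

end Vale.Agent.P240.K
end

section

namespace Vale.Agent.P240.K

open Finsupp Subgroup

variable {𝕜 : Type*} [Field 𝕜]

universe u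

section
variable {G : Type u} [Group G] {p : ℕ} {F D T : Set (Subgroup G)} {φ : G → ℂ} {z : G}

end

end Vale.Agent.P240.K
end

section

namespace Vale.Agent.P240.K

open Finsupp Subgroup

variable {𝕜 : Type*} [Field 𝕜] {G : Type*} [Group G] {p : ℕ}

end Vale.Agent.P240.K
end

section

namespace Vale.Agent.P240.K

open Finsupp Subgroup

variable {𝕜 : Type*} [Field 𝕜]

universe u

section
variable {G : Type u} [Group G] {p : ℕ}

end

end Vale.Agent.P240.K
end

section

namespace Vale.Agent.P240.K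

open Subgroup

universe u v

variable {𝕜 : Type v} [Field 𝕜] {p : ℕ} [Fact p.Prime] {G : Type u} [Group G] [Finite G]

end Vale.Agent.P240.K
end

section

/-!
P240-W1. Abstract lemmas on `eu` (= minus the reduced Euler characteristic of a finite set `S` in a
partial order, `eu S = sum over strict chains of (-1)^length`, empty chain included).

Tools (all in namespace `Vale.Agent.P240.K`): `eu_rec` (recursion with `{y | y ∈ S ∧ y < x}`),
`eu_rec'` (recursion with `{y | y ∈ S ∧ x < y}`), `eu_top` (largest element gives `0`),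
`eu_coreflect`, `eu_dual` (`eu` of the dual order), `eu_image`, `eu_emb`.

`eu_bot`: apply `eu_top` to `OrderDual.ofDual ⁻¹' S` and `eu_dual`.
`eu_reflect`: apply `eu_coreflect` in the dual order and `eu_dual`.
`eu_fibre`: put `m x = - eu {y | y ∈ S ∧ y < x}`. By `eu_rec`, `eu S = 1 + ∑ x ∈ S, m x` and (the
set `{x | x ∈ S ∧ f x ≤ t}` being closed under going down in `S`)
`eu {x | x ∈ S ∧ f x ≤ t} = 1 + ∑ x ∈ S, if f x ≤ t then m x else 0`. By `eu_rec'` in `T`,
`∑ t ∈ T with t' ≤ t, eu {s | s ∈ T ∧ t < s} = 1` for every `t' ∈ T` (split off `t = t'`; compare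
`sum_kp` in the library), for `t' = b` this is the sum over all of `T`. Exchange the sums (compare
`eu_cover`).
`eu_attach`: strong induction on `Nat.card S`. Write `U = S \ B`. By `eu_rec` for `S`, `U` and the
sets `{y | y ∈ U ∧ F < y}` it suffices that for every `x ∈ U`
`eu {y | y ∈ S ∧ y < x} = eu {y | y ∈ U ∧ y < x} - ∑ F ∈ B with F < x, eu {y | y ∈ S ∧ y < F} *
 eu {y | y ∈ U ∧ F < y ∧ y < x}`, which is the induction hypothesis for `{y | y ∈ S ∧ y < x}`.
-/

namespace Vale.Agent.P240.K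

open Finsupp Subgroup

section
variable {α β : Type*} [PartialOrder α] [PartialOrder β] {S : Set α}

lemma eu_bot (hS : S.Finite) {m : α} (hm : m ∈ S) (hmin : ∀ x ∈ S, m ≤ x) : eu S = 0 := by
  have hS' : (OrderDual.ofDual ⁻¹' S : Set αᵒᵈ).Finite := hS
  rw [← eu_dual]
  exact eu_top hS' (m := OrderDual.toDual m) hm (fun x hx => hmin _ hx)

/-- a reflective subset has the same Euler characteristic -/
lemma eu_reflect (ρ : α → α) (S F : Set α) (hS : S.Finite) (hFS : F ⊆ S)
    (hρ : ∀ x ∈ S, ρ x ∈ F) (hle : ∀ x ∈ S, x ≤ ρ x)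
    (hun : ∀ x ∈ S, ∀ y ∈ F, x ≤ y → ρ x ≤ y) : eu S = eu F := by
  have hS' : (OrderDual.ofDual ⁻¹' S : Set αᵒᵈ).Finite := hS
  rw [← eu_dual S, ← eu_dual F]
  exact eu_coreflect (α := αᵒᵈ) (fun x => OrderDual.toDual (ρ (OrderDual.ofDual x))) _ _ _ hS' rfl
    (fun x hx => hFS hx) (fun x hx => hρ _ hx) (fun x hx => hle _ hx)
    (fun x hx y hy h => hun _ hx _ hy h)

/-- the weights above the elements `≥ t'` have sum `1` -/
lemma sum_weights {T : Set β} (hT : T.Finite) [∀ x y : β, Decidable (x ≤ y)] {t' : β} (ht' : t' ∈ T) :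
    ∑ t ∈ hT.toFinset, (if t' ≤ t then eu {s | s ∈ T ∧ t < s} else 0) = 1 := by
  classical
  have hS : {s | s ∈ T ∧ t' < s}.Finite := hT.subset fun s hs => hs.1
  have h1 : (hT.toFinset.filter fun t => t' ≤ t) = insert t' hS.toFinset := by
    ext x
    rw [Finset.mem_filter, Finset.mem_insert, Set.Finite.mem_toFinset, Set.Finite.mem_toFinset]
    constructor
    · rintro ⟨h1, h2⟩
      rcases h2.eq_or_lt with h | h
      · exact Or.inl h.symm
      · exact Or.inr ⟨h1, h⟩
    · rintro (h | h)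
      · subst h
        exact ⟨ht', le_rfl⟩
      · exact ⟨h.1, h.2.le⟩
  have h2 : t' ∉ hS.toFinset := by
    rw [Set.Finite.mem_toFinset]
    exact fun h => lt_irrefl _ h.2
  rw [← Finset.sum_filter, h1, Finset.sum_insert h2]
  have h3 := eu_rec' hS
  have h4 : ∀ x ∈ hS.toFinset, eu {y | y ∈ {s | s ∈ T ∧ t' < s} ∧ x < y} = eu {s | s ∈ T ∧ x < s} := by
    intro x hx
    rw [Set.Finite.mem_toFinset] at hx
    congr 1
    ext y
    exact ⟨fun h => ⟨h.1.1, h.2⟩, fun h => ⟨⟨h.1, hx.2.trans h.2⟩, h.2⟩⟩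
  rw [Finset.sum_congr rfl h4] at h3
  rw [h3]
  ring

/-- fibre formula -/
lemma eu_fibre (f : α → β) {T : Set β} (hS : S.Finite) (hT : T.Finite)
    (hf : ∀ x ∈ S, f x ∈ T) (hmono : ∀ x ∈ S, ∀ y ∈ S, x ≤ y → f x ≤ f y)
    {b : β} (hb : b ∈ T) (hbot : ∀ t ∈ T, b ≤ t) :
    eu S = ∑ t ∈ hT.toFinset, eu {x | x ∈ S ∧ f x ≤ t} * eu {s | s ∈ T ∧ t < s} := by
  classical
  have h1 : ∀ t, eu {x | x ∈ S ∧ f x ≤ t} =
      1 - ∑ x ∈ hS.toFinset, if f x ≤ t then eu {y | y ∈ S ∧ y < x} else 0 := by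
    intro t
    have hSt : {x | x ∈ S ∧ f x ≤ t}.Finite := hS.subset fun x hx => hx.1
    rw [eu_rec hSt, ← Finset.sum_filter]
    have h2 : (hS.toFinset.filter fun x => f x ≤ t) = hSt.toFinset := by
      ext x
      rw [Finset.mem_filter, Set.Finite.mem_toFinset, Set.Finite.mem_toFinset]
      exact Iff.rfl
    rw [h2]
    congr 1
    refine Finset.sum_congr rfl fun x hx => ?_
    rw [Set.Finite.mem_toFinset] at hx
    congr 1
    ext y
    exact ⟨fun h => ⟨h.1.1, h.2⟩,
      fun h => ⟨⟨h.1, (hmono y h.1 x hx.1 h.2.le).trans hx.2⟩, h.2⟩⟩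
  have h3 : ∑ t ∈ hT.toFinset, eu {s | s ∈ T ∧ t < s} = 1 := by
    rw [← sum_weights hT hb]
    refine Finset.sum_congr rfl fun t ht => ?_
    rw [Set.Finite.mem_toFinset] at ht
    rw [if_pos (hbot t ht)]
  have h4 : ∀ t ∈ hT.toFinset, eu {x | x ∈ S ∧ f x ≤ t} * eu {s | s ∈ T ∧ t < s} =
      eu {s | s ∈ T ∧ t < s} - ∑ x ∈ hS.toFinset, eu {y | y ∈ S ∧ y < x} *
        (if f x ≤ t then eu {s | s ∈ T ∧ t < s} else 0) := by
    intro t _
    rw [h1 t, sub_mul, one_mul, Finset.sum_mul]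
    congr 1
    refine Finset.sum_congr rfl fun x _ => ?_
    split_ifs
    · rfl
    · rw [zero_mul, mul_zero]
  rw [Finset.sum_congr rfl h4, Finset.sum_sub_distrib, h3, Finset.sum_comm, eu_rec hS]
  congr 1
  refine Finset.sum_congr rfl fun x hx => ?_
  rw [Set.Finite.mem_toFinset] at hx
  rw [← Finset.mul_sum, sum_weights hT (hf x hx), mul_one]

/-- attaching a down-closed part -/
lemma eu_attach_aux : ∀ (n : ℕ) (S B : Set α) (hS : S.Finite) (hB : B ⊆ S), Nat.card S = n →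
    (∀ x ∈ B, ∀ y ∈ S, y ≤ x → y ∈ B) →
    eu S = eu (S \ B) - ∑ F ∈ (hS.subset hB).toFinset,
      eu {y | y ∈ S ∧ y < F} * eu {y | y ∈ S \ B ∧ F < y} := by
  classical
  intro n
  induction n using Nat.strong_induction_on with
  | _ n ih =>
    intro S B hS hB hn hdown
    have hU : (S \ B).Finite := hS.subset Set.sdiff_subset
    have hBf : B.Finite := hS.subset hB
    have hlt : ∀ x ∈ S, Nat.card {y | y ∈ S ∧ y < x} < n := by
      intro x hx
      rw [← hn]
      refine Set.Finite.card_lt_card hS ⟨fun y hy => hy.1, fun h => ?_⟩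
      exact lt_irrefl x (h hx).2
    -- the recursion for the sets below an element of the complement
    have h1 : ∀ x ∈ hU.toFinset, eu {y | y ∈ S ∧ y < x} = eu {y | y ∈ S \ B ∧ y < x} -
        ∑ F ∈ hBf.toFinset, eu {y | y ∈ S ∧ y < F} *
          (if F < x then eu {y | y ∈ {y | y ∈ S \ B ∧ F < y} ∧ y < x} else 0) := by
      intro x hx
      rw [Set.Finite.mem_toFinset] at hx
      have hSx : {y | y ∈ S ∧ y < x}.Finite := hS.subset fun y hy => hy.1
      have hBx : {y | y ∈ B ∧ y < x} ⊆ {y | y ∈ S ∧ y < x} := fun y hy => ⟨hB hy.1, hy.2⟩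
      have h2 := ih _ (hlt x hx.1) {y | y ∈ S ∧ y < x} {y | y ∈ B ∧ y < x} hSx hBx rfl
        (fun y hy z hz hzy => ⟨hdown y hy.1 z hz.1 hzy, hz.2⟩)
      rw [h2]
      have h3 : {y | y ∈ S ∧ y < x} \ {y | y ∈ B ∧ y < x} = {y | y ∈ S \ B ∧ y < x} := by
        ext y
        constructor
        · rintro ⟨h4, h5⟩
          exact ⟨⟨h4.1, fun h => h5 ⟨h, h4.2⟩⟩, h4.2⟩
        · rintro ⟨h4, h5⟩
          exact ⟨⟨h4.1, h5⟩, fun h => h4.2 h.1⟩
      rw [h3]
      congr 1
      have h4 : (hSx.subset hBx).toFinset = hBf.toFinset.filter fun F => F < x := by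
        ext y
        rw [Finset.mem_filter, Set.Finite.mem_toFinset, Set.Finite.mem_toFinset]
        exact Iff.rfl
      rw [h4, Finset.sum_filter]
      refine Finset.sum_congr rfl fun F _ => ?_
      split_ifs with hFx
      · have h5 : {y | y ∈ {y | y ∈ S ∧ y < x} ∧ y < F} = {y | y ∈ S ∧ y < F} := by
          ext y
          exact ⟨fun h => ⟨h.1.1, h.2⟩, fun h => ⟨⟨h.1, h.2.trans hFx⟩, h.2⟩⟩
        have h6 : {y | y ∈ {y | y ∈ S \ B ∧ y < x} ∧ F < y} =
            {y | y ∈ {y | y ∈ S \ B ∧ F < y} ∧ y < x} := by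
          ext y
          exact ⟨fun h => ⟨⟨h.1.1, h.2⟩, h.1.2⟩, fun h => ⟨⟨h.1.1, h.2⟩, h.1.2⟩⟩
        rw [h5, h6]
      · rw [mul_zero]
    -- the recursion above an element of `B`
    have h7 : ∀ F ∈ hBf.toFinset, eu {y | y ∈ S ∧ y < F} * eu {y | y ∈ S \ B ∧ F < y} =
        eu {y | y ∈ S ∧ y < F} - ∑ x ∈ hU.toFinset, eu {y | y ∈ S ∧ y < F} *
          (if F < x then eu {y | y ∈ {y | y ∈ S \ B ∧ F < y} ∧ y < x} else 0) := by
      intro F _
      have hUF : {y | y ∈ S \ B ∧ F < y}.Finite := hU.subset fun y hy => hy.1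
      rw [eu_rec hUF, mul_sub, mul_one, ← Finset.mul_sum]
      congr 2
      have h8 : hUF.toFinset = hU.toFinset.filter fun x => F < x := by
        ext y
        rw [Finset.mem_filter, Set.Finite.mem_toFinset, Set.Finite.mem_toFinset]
        exact Iff.rfl
      rw [h8, Finset.sum_filter]
    have h9 : hS.toFinset = hBf.toFinset ∪ hU.toFinset := by
      ext y
      rw [Finset.mem_union, Set.Finite.mem_toFinset, Set.Finite.mem_toFinset,
        Set.Finite.mem_toFinset]
      constructor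
      · intro hy
        by_cases h : y ∈ B
        · exact Or.inl h
        · exact Or.inr ⟨hy, h⟩
      · rintro (h | h)
        · exact hB h
        · exact h.1
    have h10 : Disjoint hBf.toFinset hU.toFinset := by
      rw [Finset.disjoint_left]
      intro y hy hy'
      rw [Set.Finite.mem_toFinset] at hy hy'
      exact hy'.2 hy
    have e1 : eu S = 1 - (∑ x ∈ hBf.toFinset, eu {y | y ∈ S ∧ y < x} +
        ∑ x ∈ hU.toFinset, eu {y | y ∈ S ∧ y < x}) := by
      rw [eu_rec hS, h9, Finset.sum_union h10]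
    have e2 : ∑ x ∈ hU.toFinset, eu {y | y ∈ S ∧ y < x} =
        ∑ x ∈ hU.toFinset, eu {y | y ∈ S \ B ∧ y < x} -
        ∑ F ∈ hBf.toFinset, ∑ x ∈ hU.toFinset, eu {y | y ∈ S ∧ y < F} *
          (if F < x then eu {y | y ∈ {y | y ∈ S \ B ∧ F < y} ∧ y < x} else 0) := by
      rw [Finset.sum_congr rfl h1, Finset.sum_sub_distrib]
      congr 1
      exact Finset.sum_comm
    have e3 : ∑ F ∈ (hS.subset hB).toFinset, eu {y | y ∈ S ∧ y < F} * eu {y | y ∈ S \ B ∧ F < y} =
        ∑ F ∈ hBf.toFinset, eu {y | y ∈ S ∧ y < F} -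
        ∑ F ∈ hBf.toFinset, ∑ x ∈ hU.toFinset, eu {y | y ∈ S ∧ y < F} *
          (if F < x then eu {y | y ∈ {y | y ∈ S \ B ∧ F < y} ∧ y < x} else 0) := by
      rw [← Finset.sum_sub_distrib]
      exact Finset.sum_congr rfl h7
    rw [e1, e2, e3, eu_rec hU]
    ring

/-- attaching a down-closed part -/
lemma eu_attach (hS : S.Finite) {B : Set α} (hB : B ⊆ S)
    (hdown : ∀ x ∈ B, ∀ y ∈ S, y ≤ x → y ∈ B) :
    eu S = eu (S \ B) - ∑ F ∈ (hS.subset hB).toFinset,
      eu {y | y ∈ S ∧ y < F} * eu {y | y ∈ S \ B ∧ F < y} :=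
  eu_attach_aux _ S B hS hB rfl hdown

end

end Vale.Agent.P240.K
end

section

namespace Vale.Agent.P240.K

open Finsupp Subgroup

section
variable {G : Type*} [Group G]

/-- minus the reduced Euler characteristic of the poset of fixed points of `g` on the elementary
abelian `p`-subgroups of `K` -/
noncomputable def lam (p : ℕ) (K : Subgroup G) (g : G) : ℤ :=
  eu {E | E ∈ Ain p K ∧ g ∈ normalizer (E : Set G)}

end

end Vale.Agent.P240.K
end

section

/-!
P240-W2. Webb's theorem in Euler characteristic form, relative version.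

Proof of `webb_rel` (`G` finite, everything inside `G`). Notation `Sp P H` for the finite set
`{Q | IsPGroup p Q ∧ P < Q ∧ Q ≤ H}` of subgroups of `G`, `fx x X` for `{Q ∈ X | x ∈ normalizer Q}`.
Strong induction on `Nat.card H - Nat.card P` (or on the index): let `P ≤ H`, `P` a `p`-group normal in
`H`. (If `Sp P H` is empty the sum is `Nat.card H`, since `eu ∅ = 1`.) By `eu_rec'`:
`eu (fx x (Sp P H)) = 1 - ∑ Q ∈ fx x (Sp P H), eu {Q' ∈ fx x (Sp P H) | Q < Q'}`.
Sum over `x ∈ H` and exchange: `= card H - ∑ Q ∈ Sp P H, ∑ x ∈ N_H(Q), eu (fx x (Sp Q H))`, where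
`N_H(Q) = H ⊓ normalizer Q`. For `x ∈ N_H(Q)`, the map `Q' ↦ Q' ⊓ normalizer Q` is a coreflection
(`eu_coreflect`) of `fx x (Sp Q H)` onto `fx x (Sp Q (N_H(Q)))`: `Q < Q'`, `Q'` a `p`-group, gives
`Q < Q' ⊓ normalizer Q` (normalizer condition for the finite `p`-group `Q'`, e.g.
`IsPGroup.isNilpotent` and `Group.normalizerCondition_of_isNilpotent`), and `x` normalizes `Q` hence
`normalizer Q`. So the inner sum is the left side for the pair `(Q, N_H(Q))`, which has a smaller
measure: it is `0` if `Sp Q (N_H(Q))` is nonempty and `card (N_H(Q))` otherwise. `Sp Q (N_H(Q))` is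
empty iff `Q` is a Sylow `p`-subgroup of `H` (same normalizer condition; a maximal `p`-subgroup of
`H`). As `Sp P H` is nonempty, the Sylow `p`-subgroups of `H` all lie in `Sp P H` (they contain `P`,
which is a normal `p`-subgroup of `H`, and they are not equal to `P`), and
`∑ Q Sylow, card (N_H(Q)) = card H` (all conjugate, orbit-stabilizer; e.g. `Sylow.card_eq_index_normalizer`
in the group `H`, or count pairs). Total `card H - card H = 0`.
-/

namespace Vale.Agent.P240.K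

open Finsupp Subgroup

section
variable {G : Type*} [Group G] {p : ℕ}

lemma w2_nc [hp : Fact p.Prime] [Finite G] {Q R : Subgroup G} (hR : IsPGroup p R) (h : Q < R) :
    Q < R ⊓ normalizer (Q : Set G) := by
  have hnil : Group.IsNilpotent R := hR.isNilpotent
  have hnc : NormalizerCondition R := Group.normalizerCondition_of_isNilpotent
  have h1 : Q.subgroupOf R < ⊤ := by
    rw [lt_top_iff_ne_top]
    intro h2
    rw [subgroupOf_eq_top] at h2
    exact absurd (h.le.antisymm h2) h.ne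
  have h2 := hnc _ h1
  rw [← subgroupOf_normalizer_eq h.le] at h2
  obtain ⟨y, hy1, hy2⟩ := SetLike.exists_of_lt h2
  rw [mem_subgroupOf] at hy1 hy2
  refine lt_of_le_of_ne (le_inf h.le le_normalizer) fun h3 => hy2 ?_
  rw [h3]
  exact ⟨y.2, hy1⟩

lemma w2_conj {A B : Subgroup G} {x : G} (hA : x ∈ normalizer (A : Set G)) (hB : x ∈ B) :
    x ∈ normalizer ((A ⊓ B : Subgroup G) : Set G) := by
  rw [mem_normalizer_iff] at hA ⊢
  intro h
  have h1 : h ∈ B ↔ x * h * x⁻¹ ∈ B := by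
    rw [Subgroup.mul_mem_cancel_right B (inv_mem hB), Subgroup.mul_mem_cancel_left B hB]
  show h ∈ A ⊓ B ↔ x * h * x⁻¹ ∈ A ⊓ B
  rw [mem_inf, mem_inf, ← h1]
  have := hA h
  exact and_congr_left fun _ => this

/-- the sum of the orders of the normalizers of the Sylow subgroups -/
lemma w2_syl (H : Type*) [Group H] [Finite H] [hp : Fact p.Prime] [Fintype (Sylow p H)] :
    ∑ S : Sylow p H, Nat.card (normalizer (S : Set H)) = Nat.card H := by
  have h1 : ∀ S : Sylow p H, Nat.card (normalizer (S : Set H)) * Nat.card (Sylow p H) =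
      Nat.card H := by
    intro S
    rw [S.card_eq_index_normalizer]
    exact Subgroup.card_mul_index _
  have h2 : (∑ S : Sylow p H, Nat.card (normalizer (S : Set H))) * Nat.card (Sylow p H) =
      Nat.card H * Nat.card (Sylow p H) := by
    rw [Finset.sum_mul, Finset.sum_congr rfl fun S _ => h1 S, Finset.sum_const,
      Finset.card_univ, ← Nat.card_eq_fintype_card, smul_eq_mul, mul_comm]
  exact Nat.eq_of_mul_eq_mul_right Nat.card_pos h2

lemma w2_card {H : Subgroup G} (S : Subgroup H) :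
    Nat.card (H ⊓ normalizer ((S.map H.subtype : Subgroup G) : Set G) : Subgroup G) =
      Nat.card (normalizer (S : Set H)) := by
  have h1 : (S.map H.subtype).subgroupOf H = S := by
    rw [subgroupOf, comap_map_eq_self_of_injective H.subtype_injective]
  have h2 := subgroupOf_normalizer_eq (map_subtype_le S)
  rw [h1] at h2
  have h3 : H ⊓ normalizer ((S.map H.subtype : Subgroup G) : Set G) =
      (normalizer (S : Set H)).map H.subtype := by
    rw [← h2, subgroupOf_map_subtype, inf_comm]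
  rw [h3]
  exact (Nat.card_congr (Subgroup.equivMapOfInjective _ _ H.subtype_injective).toEquiv).symm

lemma w2_set [hp : Fact p.Prime] [Finite G] {P H : Subgroup G} (hPH : P ≤ H)
    (hP : IsPGroup p P) (hn : H ≤ normalizer (P : Set G))
    (hex : ∃ Q : Subgroup G, IsPGroup p Q ∧ P < Q ∧ Q ≤ H) (Q : Subgroup G) :
    (IsPGroup p Q ∧ P < Q ∧ Q ≤ H ∧ ¬ ∃ Q' : Subgroup G, IsPGroup p Q' ∧ Q < Q' ∧
      Q' ≤ H ⊓ normalizer (Q : Set G)) ↔ ∃ S : Sylow p H, (S : Subgroup H).map H.subtype = Q := by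
  constructor
  · rintro ⟨h1, h2, h3, h4⟩
    obtain ⟨S, hS⟩ := (h1.comap_subtype (K := H)).exists_le_sylow
    refine ⟨S, ?_⟩
    have h5 : Q ≤ (S : Subgroup H).map H.subtype := by
      intro y hy
      exact ⟨⟨y, h3 hy⟩, hS hy, rfl⟩
    by_contra hne
    have h6 : Q < (S : Subgroup H).map H.subtype := lt_of_le_of_ne h5 (Ne.symm hne)
    have h7 : IsPGroup p ((S : Subgroup H).map H.subtype) := S.isPGroup'.map _
    refine h4 ⟨_, h7.to_le inf_le_left, w2_nc h7 h6, ?_⟩
    exact inf_le_inf_right _ (map_subtype_le _)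
  · rintro ⟨S, rfl⟩
    have hPn : (P.subgroupOf H).Normal := (normal_subgroupOf_iff_le_normalizer hPH).2 hn
    have h0 : IsPGroup p (P.subgroupOf H) := hP.comap_subtype (K := H)
    have h1 : P.subgroupOf H ≤ S := h0.le_sylow_of_normal S
    have h2 : P ≤ (S : Subgroup H).map H.subtype := by
      intro y hy
      exact ⟨⟨y, hPH hy⟩, h1 hy, rfl⟩
    have hmax : ∀ Q' : Subgroup G, IsPGroup p Q' → (S : Subgroup H).map H.subtype ≤ Q' →
        Q' ≤ H → Q' ≤ (S : Subgroup H).map H.subtype := by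
      intro Q' hQ' hle hQH
      have h3 : (S : Subgroup H) ≤ Q'.subgroupOf H := by
        intro y hy
        exact hle ⟨y, hy, rfl⟩
      have h4 := S.is_maximal' (hQ'.comap_subtype (K := H)) h3
      intro y hy
      refine ⟨⟨y, hQH hy⟩, ?_, rfl⟩
      have h5 : (⟨y, hQH hy⟩ : H) ∈ Q'.subgroupOf H := hy
      have h6 : Q'.subgroupOf H = (S : Subgroup H) := h4
      rw [h6] at h5
      exact h5
    refine ⟨S.isPGroup'.map _, lt_of_le_of_ne h2 ?_, map_subtype_le _, ?_⟩
    · intro h3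
      obtain ⟨Q, hQ, hPQ, hQH⟩ := hex
      have := hmax Q hQ (h3 ▸ hPQ.le) hQH
      rw [← h3] at this
      exact absurd hPQ (not_lt_of_ge this)
    · rintro ⟨Q', hQ', hlt, hle⟩
      exact absurd hlt (not_lt_of_ge (hmax Q' hQ' hlt.le (hle.trans inf_le_left)))

/-- the fixed points of `x` on the `p`-subgroups between `P` and `H` -/
def w2S (p : ℕ) (P H : Subgroup G) (x : G) : Set (Subgroup G) :=
  {Q : Subgroup G | IsPGroup p Q ∧ P < Q ∧ Q ≤ H ∧ x ∈ normalizer (Q : Set G)}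

lemma w2_coreflect [hp : Fact p.Prime] [Finite G] {Q H : Subgroup G} {x : G}
    (hx : x ∈ normalizer (Q : Set G)) :
    eu (w2S p Q H x) = eu (w2S p Q (H ⊓ normalizer (Q : Set G)) x) := by
  refine eu_coreflect (fun R => R ⊓ normalizer (Q : Set G)) _ _ _ (Set.toFinite _) rfl ?_ ?_ ?_ ?_
  · rintro R ⟨h1, h2, h3, h4⟩
    exact ⟨h1, h2, h3.trans inf_le_left, h4⟩
  · rintro R ⟨h1, h2, h3, h4⟩
    exact ⟨h1.to_le inf_le_left, w2_nc h1 h2, inf_le_inf_right _ h3, w2_conj h4 hx⟩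
  · intro R _
    exact inf_le_left
  · rintro R _ R' ⟨_, _, h3, _⟩ hle
    exact le_inf hle (h3.trans inf_le_right)

lemma w2_rec [Finite G] (P H : Subgroup G) (x : G) :
    eu (w2S p P H x) = 1 - ∑ Q ∈ (Set.toFinite (w2S p P H x)).toFinset, eu (w2S p Q H x) := by
  rw [eu_rec' (Set.toFinite _)]
  congr 1
  refine Finset.sum_congr rfl fun Q hQ => ?_
  rw [Set.Finite.mem_toFinset] at hQ
  congr 1
  ext R
  constructor
  · rintro ⟨⟨h1, h2, h3, h4⟩, h5⟩
    exact ⟨h1, h5, h3, h4⟩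
  · rintro ⟨h1, h2, h3, h4⟩
    exact ⟨⟨h1, hQ.2.1.trans h2, h3, h4⟩, h2⟩

/-- the orbit sum -/
noncomputable def w2W (p : ℕ) [Finite G] (P H : Subgroup G) : ℤ :=
  ∑ x ∈ (Set.toFinite (H : Set G)).toFinset, eu (w2S p P H x)

/-- the `p`-subgroups between `P` and `H` -/
def w2P (p : ℕ) (P H : Subgroup G) : Set (Subgroup G) :=
  {Q : Subgroup G | IsPGroup p Q ∧ P < Q ∧ Q ≤ H}

lemma w2_sum [hp : Fact p.Prime] [Finite G] (P H : Subgroup G) :
    w2W p P H = Nat.card H - ∑ Q ∈ (Set.toFinite (w2P p P H)).toFinset,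
      w2W p Q (H ⊓ normalizer (Q : Set G)) := by
  classical
  unfold w2W
  rw [Finset.sum_congr rfl fun x _ => w2_rec P H x, Finset.sum_sub_distrib]
  congr 1
  · rw [Finset.sum_const, ← Nat.card_eq_card_finite_toFinset]
    simp
  · have h1 : ∀ x ∈ (Set.toFinite (H : Set G)).toFinset,
        ∑ Q ∈ (Set.toFinite (w2S p P H x)).toFinset, eu (w2S p Q H x) =
        ∑ Q ∈ (Set.toFinite (w2P p P H)).toFinset,
          if x ∈ normalizer (Q : Set G) then eu (w2S p Q H x) else 0 := by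
      intro x _
      rw [← Finset.sum_filter]
      refine Finset.sum_congr ?_ fun _ _ => rfl
      ext Q
      rw [Finset.mem_filter, Set.Finite.mem_toFinset, Set.Finite.mem_toFinset]
      exact ⟨fun h => ⟨⟨h.1, h.2.1, h.2.2.1⟩, h.2.2.2⟩,
        fun h => ⟨h.1.1, h.1.2.1, h.1.2.2, h.2⟩⟩
    rw [Finset.sum_congr rfl h1, Finset.sum_comm]
    refine Finset.sum_congr rfl fun Q _ => ?_
    rw [← Finset.sum_filter]
    have h2 : ((Set.toFinite (H : Set G)).toFinset.filter fun x => x ∈ normalizer (Q : Set G)) =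
        (Set.toFinite ((H ⊓ normalizer (Q : Set G) : Subgroup G) : Set G)).toFinset := by
      ext x
      rw [Finset.mem_filter, Set.Finite.mem_toFinset, Set.Finite.mem_toFinset]
      exact Iff.rfl
    rw [h2]
    refine Finset.sum_congr rfl fun x hx => ?_
    rw [Set.Finite.mem_toFinset] at hx
    exact w2_coreflect hx.2

lemma w2_empty [hp : Fact p.Prime] [Finite G] (P H : Subgroup G)
    (h : ¬ ∃ Q : Subgroup G, IsPGroup p Q ∧ P < Q ∧ Q ≤ H) : w2W p P H = Nat.card H := by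
  rw [w2_sum]
  have : (Set.toFinite (w2P p P H)).toFinset = ∅ := by
    rw [Finset.eq_empty_iff_forall_notMem]
    intro Q hQ
    rw [Set.Finite.mem_toFinset] at hQ
    exact h ⟨Q, hQ⟩
  rw [this, Finset.sum_empty, sub_zero]

lemma w2_main [hp : Fact p.Prime] [Finite G] : ∀ (n : ℕ) (P H : Subgroup G), P ≤ H →
    IsPGroup p P → H ≤ normalizer (P : Set G) → Nat.card H - Nat.card P ≤ n →
    (∃ Q : Subgroup G, IsPGroup p Q ∧ P < Q ∧ Q ≤ H) → w2W p P H = 0 := by
  classical
  intro n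
  induction n with
  | zero =>
    intro P H hPH _ _ hn hex
    obtain ⟨Q, _, h1, h2⟩ := hex
    have h3 : Nat.card P < Nat.card Q := Set.Finite.card_lt_card (Set.toFinite _) h1
    have h4 : Nat.card Q ≤ Nat.card H := Subgroup.card_le_of_le h2
    omega
  | succ n ih =>
    intro P H hPH hP hn hc hex
    have : Fintype (Sylow p H) := Fintype.ofFinite _
    rw [w2_sum]
    have h1 : ∀ Q ∈ (Set.toFinite (w2P p P H)).toFinset,
        w2W p Q (H ⊓ normalizer (Q : Set G)) =
          if (∃ Q' : Subgroup G, IsPGroup p Q' ∧ Q < Q' ∧ Q' ≤ H ⊓ normalizer (Q : Set G))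
          then 0 else (Nat.card (H ⊓ normalizer (Q : Set G) : Subgroup G) : ℤ) := by
      intro Q hQ
      rw [Set.Finite.mem_toFinset] at hQ
      obtain ⟨h1, h2, h3⟩ := hQ
      split_ifs with h4
      · have h5 : Nat.card P < Nat.card Q := Set.Finite.card_lt_card (Set.toFinite _) h2
        have h6 : Q ≤ H ⊓ normalizer (Q : Set G) := le_inf h3 le_normalizer
        have h7 : Nat.card Q ≤ Nat.card (H ⊓ normalizer (Q : Set G) : Subgroup G) :=
          Subgroup.card_le_of_le h6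
        have h8 : Nat.card (H ⊓ normalizer (Q : Set G) : Subgroup G) ≤ Nat.card H :=
          Subgroup.card_le_of_le inf_le_left
        exact ih Q _ h6 h1 inf_le_right (by omega) h4
      · exact w2_empty _ _ h4
    rw [Finset.sum_congr rfl h1, Finset.sum_ite, Finset.sum_const_zero, zero_add, sub_eq_zero,
      ← w2_syl (p := p) H]
    push_cast
    refine Finset.sum_bij (fun S _ => (S : Subgroup H).map H.subtype) ?_ ?_ ?_ ?_
    · intro S _
      have h2 := (w2_set hPH hP hn hex _).2 ⟨S, rfl⟩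
      rw [Finset.mem_filter, Set.Finite.mem_toFinset]
      exact ⟨⟨h2.1, h2.2.1, h2.2.2.1⟩, h2.2.2.2⟩
    · intro S _ T _ h2
      exact Sylow.ext (Subgroup.map_injective H.subtype_injective h2)
    · intro Q hQ
      rw [Finset.mem_filter, Set.Finite.mem_toFinset] at hQ
      obtain ⟨⟨h2, h3, h4⟩, h5⟩ := hQ
      obtain ⟨S, hS⟩ := (w2_set hPH hP hn hex Q).1 ⟨h2, h3, h4, h5⟩
      exact ⟨S, Finset.mem_univ _, hS⟩
    · intro S _
      rw [w2_card]
      rfl

theorem webb_rel [hp : Fact p.Prime] [Finite G] (P H : Subgroup G) (hPH : P ≤ H)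
    (hP : IsPGroup p P) (hn : H ≤ normalizer (P : Set G))
    (hex : ∃ Q : Subgroup G, IsPGroup p Q ∧ P < Q ∧ Q ≤ H) :
    ∑ x ∈ (Set.toFinite (H : Set G)).toFinset,
      eu {Q : Subgroup G | IsPGroup p Q ∧ P < Q ∧ Q ≤ H ∧ x ∈ normalizer (Q : Set G)} = 0 :=
  w2_main _ P H hPH hP hn le_rfl hex

end

end Vale.Agent.P240.K
end

section

/-!
P240-W6. Elementary abelian `p`-subgroups versus all nontrivial `p`-subgroups (fixed points of `x`).

Proof of `lam_eq`. Let `X` be the set on the right, `Y = {E | E ∈ Ain p K ∧ x ∈ normalizer E} ⊆ X`.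
Claim: `eu Z = eu (Z ∩ Y)` for every `Z ⊆ X` closed under going down in `X`, by strong induction on
`Nat.card Z`: by `eu_rec`, `eu Z = 1 - ∑ P ∈ Z, eu {Q ∈ X | Q < P}` and by induction
`eu {Q ∈ X | Q < P} = eu {Q ∈ Y | Q < P}`; likewise `eu (Z ∩ Y) = 1 - ∑ P ∈ Z ∩ Y, eu {Q ∈ Y | Q < P}`; so
it suffices that `eu {Q ∈ Y | Q < P} = 0` for `P ∈ X \ Y`. Let `Z₀` be the subgroup of all `z ∈ P`
with `z ^ p = 1` commuting with all elements of `P`; it is nontrivial (the centre of a nontrivial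
finite `p`-group is nontrivial), it is normalized by `x`, so it lies in `Y`; `Z₀ < P` as `P ∉ Y`. The
map `E ↦ E ⊔ Z₀` is a reflection (`eu_reflect`) of `{Q ∈ Y | Q < P}` onto
`{Q ∈ Y | Q < P ∧ Z₀ ≤ Q}` (`sup_mem_ApS`; `E ⊔ Z₀ ≠ P` since `P` is not elementary abelian), which has
the least element `Z₀`, so `eu = 0` by `eu_bot`.
-/

namespace Vale.Agent.P240.K

open Finsupp Subgroup

section
variable {α : Type*} [PartialOrder α]

/-- If the part of `Y` below every element of `X \ Y` has trivial Euler characteristic, then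
`eu X = eu Y`. -/
lemma speq_eu_of_zero {X Y : Set α} (hX : X.Finite) (hYX : Y ⊆ X)
    (h0 : ∀ P ∈ X, P ∉ Y → eu {Q | Q ∈ Y ∧ Q < P} = 0) : eu X = eu Y := by
  classical
  have key : ∀ n : ℕ, ∀ Z : Set α, Z ⊆ X → (∀ P ∈ Z, ∀ Q ∈ X, Q ≤ P → Q ∈ Z) →
      Nat.card Z = n → eu Z = eu {Q | Q ∈ Z ∧ Q ∈ Y} := by
    intro n
    induction n using Nat.strong_induction_on with
    | _ n ih =>
      intro Z hZ hdown hn
      have hZf : Z.Finite := hX.subset hZ
      have hZYf : {Q | Q ∈ Z ∧ Q ∈ Y}.Finite := hZf.subset fun Q hQ => hQ.1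
      rw [eu_rec hZf, eu_rec hZYf]
      congr 1
      have e1 : ∀ P ∈ hZf.toFinset, eu {y | y ∈ Z ∧ y < P} = eu {y | y ∈ Y ∧ y < P} := by
        intro P hP
        have hPZ : P ∈ Z := by simpa using hP
        have hlt : Nat.card {y | y ∈ Z ∧ y < P} < n := by
          rw [← hn]
          refine Set.Finite.card_lt_card hZf ?_
          refine ⟨fun y hy => hy.1, fun h => ?_⟩
          exact lt_irrefl P (h hPZ).2
        rw [ih _ hlt {y | y ∈ Z ∧ y < P} (fun y hy => hZ hy.1)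
          (fun Q hQ R hR hRQ => ⟨hdown Q hQ.1 R hR hRQ, lt_of_le_of_lt hRQ hQ.2⟩) rfl]
        congr 1
        ext y
        constructor
        · rintro ⟨⟨_, h2⟩, h3⟩
          exact ⟨h3, h2⟩
        · rintro ⟨h1, h2⟩
          exact ⟨⟨hdown P hPZ y (hYX h1) h2.le, h2⟩, h1⟩
      rw [Finset.sum_congr rfl e1]
      have e2 : ∀ P ∈ hZYf.toFinset,
          eu {y | y ∈ {Q | Q ∈ Z ∧ Q ∈ Y} ∧ y < P} = eu {y | y ∈ Y ∧ y < P} := by
        intro P hP
        have hPZ : P ∈ Z ∧ P ∈ Y := by simpa using hP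
        congr 1
        ext y
        constructor
        · rintro ⟨⟨_, h2⟩, h3⟩
          exact ⟨h2, h3⟩
        · rintro ⟨h1, h2⟩
          exact ⟨⟨hdown P hPZ.1 y (hYX h1) h2.le, h1⟩, h2⟩
      rw [Finset.sum_congr rfl e2]
      symm
      refine Finset.sum_subset ?_ ?_
      · intro P hP
        have hPZ : P ∈ Z ∧ P ∈ Y := by simpa using hP
        simpa using hPZ.1
      · intro P hP hP'
        have hPZ : P ∈ Z := by simpa using hP
        refine h0 P (hZ hPZ) fun hPY => hP' ?_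
        simpa using And.intro hPZ hPY
  rw [key _ X subset_rfl (fun P _ Q hQ _ => hQ) rfl]
  congr 1
  ext y
  exact ⟨fun h => h.2, fun h => ⟨hYX h, h⟩⟩

end

section
variable {G : Type*} [Group G] {p : ℕ}

/-- the elements of order `p` (or `1`) in the centre of `P` -/
def speqZ (p : ℕ) (P : Subgroup G) : Subgroup G where
  carrier := {z | z ∈ P ∧ (∀ y ∈ P, z * y = y * z) ∧ z ^ p = 1}
  one_mem' := ⟨one_mem _, fun y _ => by simp, one_pow _⟩
  mul_mem' := by
    rintro a b ⟨ha, ha1, ha2⟩ ⟨hb, hb1, hb2⟩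
    refine ⟨mul_mem ha hb, fun y hy => ?_, ?_⟩
    · rw [mul_assoc, hb1 y hy, ← mul_assoc, ha1 y hy, mul_assoc]
    · have : Commute a b := ha1 b hb
      rw [this.mul_pow, ha2, hb2, one_mul]
  inv_mem' := by
    rintro a ⟨ha, ha1, ha2⟩
    refine ⟨inv_mem ha, fun y hy => ?_, by rw [inv_pow, ha2, inv_one]⟩
    have : Commute a y := ha1 y hy
    exact this.inv_left

lemma speqZ_mem {P : Subgroup G} {z : G} :
    z ∈ speqZ p P ↔ z ∈ P ∧ (∀ y ∈ P, z * y = y * z) ∧ z ^ p = 1 := Iff.rfl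

lemma speqZ_le (P : Subgroup G) : speqZ p P ≤ P := fun _ hz => hz.1

lemma speqZ_ne_bot [hp : Fact p.Prime] [Finite G] {P : Subgroup G} (hP : IsPGroup p P)
    (hP1 : P ≠ ⊥) : speqZ p P ≠ ⊥ := by
  have : Nontrivial P := (Subgroup.nontrivial_iff_ne_bot P).2 hP1
  have hc : Nontrivial (Subgroup.center P) := hP.center_nontrivial
  have hcp : IsPGroup p (Subgroup.center P) := hP.to_subgroup _
  have hd : p ∣ Nat.card (Subgroup.center P) := by
    obtain ⟨n, hn⟩ := IsPGroup.iff_card.1 hcp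
    have h1 : 1 < Nat.card (Subgroup.center P) := Finite.one_lt_card
    rcases n with _ | n
    · simp [hn] at h1
    · rw [hn]
      exact dvd_pow_self p (Nat.succ_ne_zero n)
  obtain ⟨z, hz⟩ := exists_prime_orderOf_dvd_card' p hd
  intro hb
  have hmem : ((z : P) : G) ∈ speqZ p P := by
    refine ⟨(z : P).2, fun y hy => ?_, ?_⟩
    · have h1 := Subgroup.mem_center_iff.1 z.2 ⟨y, hy⟩
      exact (congrArg Subtype.val h1).symm
    · have h1 : z ^ p = 1 := by rw [← hz]; exact pow_orderOf_eq_one z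
      have h2 := congrArg (fun t : Subgroup.center P => ((t : P) : G)) h1
      simpa using h2
  rw [hb, Subgroup.mem_bot] at hmem
  have h3 : z = 1 := by
    apply Subtype.ext
    apply Subtype.ext
    simpa using hmem
  rw [h3, orderOf_one] at hz
  exact hp.out.one_lt.ne hz

lemma speq_conj_mem {P : Subgroup G} {x : G} (hx : x ∈ normalizer (P : Set G)) {z : G} :
    z ∈ P ↔ x * z * x⁻¹ ∈ P := by
  rw [Subgroup.mem_normalizer_iff] at hx
  exact hx z

lemma speqZ_norm {P : Subgroup G} {x : G} (hx : x ∈ normalizer (P : Set G)) :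
    x ∈ normalizer ((speqZ p P : Subgroup G) : Set G) := by
  rw [Subgroup.mem_normalizer_iff]
  intro z
  rw [speqZ_mem, speqZ_mem, ← speq_conj_mem hx]
  refine and_congr_right fun hz => and_congr ?_ ?_
  · constructor
    · intro h y hy
      have hy' : x⁻¹ * y * x ∈ P := by
        rw [speq_conj_mem hx]
        simpa [mul_assoc] using hy
      have h1 := h _ hy'
      calc x * z * x⁻¹ * y = x * (z * (x⁻¹ * y * x)) * x⁻¹ := by group
        _ = x * ((x⁻¹ * y * x) * z) * x⁻¹ := by rw [h1]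
        _ = y * (x * z * x⁻¹) := by group
    · intro h y hy
      have h1 := h _ ((speq_conj_mem hx).1 hy)
      calc z * y = x⁻¹ * (x * z * x⁻¹ * (x * y * x⁻¹)) * x := by group
        _ = x⁻¹ * (x * y * x⁻¹ * (x * z * x⁻¹)) * x := by rw [h1]
        _ = y * z := by group
  · rw [conj_pow]
    constructor
    · intro h
      rw [h]
      group
    · intro h
      calc z ^ p = x⁻¹ * (x * z ^ p * x⁻¹) * x := by group
        _ = 1 := by rw [h]; group

lemma speq_norm_sup {A B : Subgroup G} {x : G} (hA : x ∈ normalizer (A : Set G))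
    (hB : x ∈ normalizer (B : Set G)) : x ∈ normalizer ((A ⊔ B : Subgroup G) : Set G) := by
  have h : ∀ {C : Subgroup G}, x ∈ normalizer (C : Set G) ↔
      C.map (MulAut.conj x).toMonoidHom = C := by
    intro C
    rw [Subgroup.mem_normalizer_iff]
    constructor
    · intro hC
      ext z
      rw [Subgroup.mem_map]
      constructor
      · rintro ⟨y, hy, rfl⟩
        simpa using (hC y).1 hy
      · intro hz
        refine ⟨x⁻¹ * z * x, ?_, by simp [mul_assoc]⟩
        rw [hC]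
        simpa [mul_assoc] using hz
    · intro hC z
      constructor
      · intro hz
        have : (MulAut.conj x).toMonoidHom z ∈ C.map (MulAut.conj x).toMonoidHom :=
          Subgroup.mem_map_of_mem _ hz
        rw [hC] at this
        simpa using this
      · intro hz
        have hz' : x * z * x⁻¹ ∈ C.map (MulAut.conj x).toMonoidHom := by
          rw [hC]
          exact hz
        obtain ⟨y, hy, hyz⟩ := hz'
        have : y = z := by simpa using hyz
        rw [← this]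
        exact hy
  rw [h] at hA hB ⊢
  rw [Subgroup.map_sup, hA, hB]

theorem lam_eq [hp : Fact p.Prime] [Finite G] (K : Subgroup G) (x : G) :
    lam p K x =
      eu {Q : Subgroup G | IsPGroup p Q ∧ Q ≠ ⊥ ∧ Q ≤ K ∧ x ∈ normalizer (Q : Set G)} := by
  rw [lam]
  symm
  refine speq_eu_of_zero (Set.toFinite _) ?_ ?_
  · rintro E ⟨⟨h1, h2⟩, h3⟩
    exact ⟨ApS_isPGroup h1, h1.1, h2, h3⟩
  · rintro P ⟨hP, hP1, hPK, hPx⟩ hPY
    have hZ0 : speqZ p P ∈ ApS p G :=
      ⟨speqZ_ne_bot hP hP1, fun a ha b hb => ha.2.1 b hb.1, fun a ha => ha.2.2⟩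
    have hne : ∀ E ∈ ApS p G, E ≤ P → E ≠ P := by
      rintro E hE _ rfl
      exact hPY ⟨⟨hE, hPK⟩, hPx⟩
    have hZlt : speqZ p P < P := lt_of_le_of_ne (speqZ_le P) (hne _ hZ0 (speqZ_le P))
    have hZx := speqZ_norm (p := p) hPx
    have hred := eu_reflect (fun E : Subgroup G => E ⊔ speqZ p P)
      {Q | Q ∈ {E | E ∈ Ain p K ∧ x ∈ normalizer (E : Set G)} ∧ Q < P}
      {Q | (Q ∈ {E | E ∈ Ain p K ∧ x ∈ normalizer (E : Set G)} ∧ Q < P) ∧ speqZ p P ≤ Q}
      (Set.toFinite _) (fun Q hQ => hQ.1) ?_ (fun E _ => le_sup_left)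
      (fun E _ F hF hEF => sup_le hEF hF.2)
    · rw [hred]
      refine eu_bot (Set.toFinite _) (m := speqZ p P) ?_ (fun Q hQ => hQ.2)
      exact ⟨⟨⟨⟨hZ0, hZlt.le.trans hPK⟩, hZx⟩, hZlt⟩, le_rfl⟩
    · rintro E ⟨⟨⟨hE, hEK⟩, hEx⟩, hEP⟩
      have hsup : E ⊔ speqZ p P ∈ ApS p G := sup_mem_ApS hE hZ0
        fun a ha b hb => (hb.2.1 a (hEP.le ha)).symm
      have hle : E ⊔ speqZ p P ≤ P := sup_le hEP.le (speqZ_le P)
      exact ⟨⟨⟨⟨hsup, hle.trans hPK⟩, speq_norm_sup hEx hZx⟩,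
        lt_of_le_of_ne hle (hne _ hsup hle)⟩, le_sup_right⟩

end

end Vale.Agent.P240.K
end

section

namespace Vale.Agent.P240.K

open Finsupp Subgroup

section
variable {G : Type*} [Group G] {p : ℕ}

/-- **Webb** -/
theorem webb [hp : Fact p.Prime] [Finite G] (K : Subgroup G) (hK : p ∣ Nat.card K) :
    ∑ x ∈ (Set.toFinite (K : Set G)).toFinset, lam p K x = 0 := by
  have hex : ∃ Q : Subgroup G, IsPGroup p Q ∧ ⊥ < Q ∧ Q ≤ K := by
    obtain ⟨x, hx⟩ := exists_prime_orderOf_dvd_card' p hK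
    have hxp : (x : G) ^ p = 1 := by
      have h1 : x ^ p = 1 := by rw [← hx]; exact pow_orderOf_eq_one x
      simpa using congrArg Subtype.val h1
    have hx1 : (x : G) ≠ 1 := by
      intro h
      have : x = 1 := Subtype.ext h
      rw [this, orderOf_one] at hx
      exact hp.out.one_lt.ne hx
    refine ⟨zpowers (x : G), ?_, ?_, ?_⟩
    · intro y
      refine ⟨1, ?_⟩
      rw [pow_one]
      exact Subtype.ext ((zpowers_mem_ApS hxp hx1).2.2 y y.2)
    · rw [bot_lt_iff_ne_bot]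
      exact (zpowers_mem_ApS hxp hx1).1
    · rw [Subgroup.zpowers_le]
      exact x.2
  have h := webb_rel (p := p) ⊥ K bot_le IsPGroup.of_bot
    (fun g _ => by rw [mem_normalizer_iff]; intro y; simp [mem_bot]) hex
  rw [← h]
  refine Finset.sum_congr rfl fun x _ => ?_
  rw [lam_eq]
  congr 1
  ext Q
  simp only [Set.mem_setOf_eq, bot_lt_iff_ne_bot]

end

end Vale.Agent.P240.K
end

section

/-!
P240-W3. Fixed points of `p`-groups.

`dvd_card_inf_centralizer`: `B` acts by conjugation on the set `L`; the number of fixed points is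
congruent to `card L` modulo `p` (`IsPGroup.card_modEq_card_fixedPoints`), hence divisible by `p`,
and it is the order of `L ⊓ centralizer B`.
-/

namespace Vale.Agent.P240.K

open Finsupp Subgroup

section
variable {G : Type*} [Group G] {p : ℕ}

lemma dvd_card_inf_centralizer [hp : Fact p.Prime] [Finite G] {L B : Subgroup G}
    (hB : IsPGroup p B) (hn : B ≤ normalizer (L : Set G)) (hL : p ∣ Nat.card L) :
    p ∣ Nat.card (L ⊓ centralizer (B : Set G) : Subgroup G) := by
  have hmem : ∀ (b : B) (x : L), (b : G) * (x : G) * (b : G)⁻¹ ∈ L := fun b x =>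
    (Subgroup.mem_normalizer_iff.1 (hn b.2) (x : G)).1 x.2
  let act : MulAction B L :=
    { smul := fun b x => ⟨(b : G) * (x : G) * (b : G)⁻¹, hmem b x⟩
      one_smul := by
        intro x
        apply Subtype.ext
        change ((1 : B) : G) * (x : G) * ((1 : B) : G)⁻¹ = x
        simp
      mul_smul := by
        intro a b x
        apply Subtype.ext
        change ((a * b : B) : G) * (x : G) * ((a * b : B) : G)⁻¹
          = (a : G) * ((b : G) * (x : G) * (b : G)⁻¹) * (a : G)⁻¹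
        push_cast
        group }
  have hmod : Nat.card L ≡ Nat.card (MulAction.fixedPoints B L) [MOD p] :=
    hB.card_modEq_card_fixedPoints (α := L)
  have hcard : Nat.card (L ⊓ centralizer (B : Set G) : Subgroup G)
      = Nat.card (MulAction.fixedPoints B L) := by
    refine Nat.card_congr
      { toFun := fun x => ⟨⟨x.1, x.2.1⟩, ?_⟩
        invFun := fun y => ⟨y.1.1, y.1.2, ?_⟩
        left_inv := fun x => rfl
        right_inv := fun y => rfl }
    · intro b
      apply Subtype.ext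
      change (b : G) * (x.1 : G) * (b : G)⁻¹ = x.1
      have h := Subgroup.mem_centralizer_iff.1 x.2.2 b b.2
      rw [h]
      group
    · refine Subgroup.mem_centralizer_iff.2 fun b hb => ?_
      have h := congrArg Subtype.val (y.2 ⟨b, hb⟩)
      have h' : b * (y.1.1 : G) * b⁻¹ = y.1.1 := h
      exact mul_inv_eq_iff_eq_mul.1 h'
  rw [hcard]
  exact (Nat.modEq_zero_iff_dvd.1 (hmod.symm.trans (Nat.modEq_zero_iff_dvd.2 hL)))

end

end Vale.Agent.P240.K
end

section

/-!
P240-W4. The product formula.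

`lam_sup`: put `S = {E | E ∈ Ain p (K₁ ⊔ K₂) ∧ g ∈ normalizer E}`,
`T = {F | F ∈ ApB p G ∧ F ≤ K₂ ∧ g ∈ normalizer F}` (it has the least element `⊥`),
`f E = (E ⊔ K₁) ⊓ K₂` (the projection of `E` to `K₂`: as `K₁` and `K₂` commute and meet trivially,
`(E ⊔ K₁) ⊓ K₂ = {y ∈ K₂ | ∃ x ∈ K₁, x * y ∈ E}`). Apply `eu_fibre`. For `t ∈ T`:
`{E ∈ S | f E ≤ t} = {E ∈ S | E ≤ K₁ ⊔ t}`. If `t ≠ ⊥`, then `t ∈ ApS p G`, `t` commutes with all
elements of `K₁ ⊔ t`, and `E ↦ E ⊔ t` (`sup_mem_ApS`, `eu_reflect`) retracts this set onto its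
elements containing `t`, a set with least element `t`, so `eu = 0` by `eu_bot`. For `t = ⊥` the set is
`{E | E ∈ Ain p K₁ ∧ g ∈ normalizer E}`, and `{s | s ∈ T ∧ ⊥ < s} = {E | E ∈ Ain p K₂ ∧ g ∈ normalizer E}`.

`lam_mul_right`: `k` commutes with all elements of all `E ≤ K`, so `g * k` normalizes `E` iff `g` does.
-/

namespace Vale.Agent.P240.K

open Finsupp Subgroup

section
variable {G : Type*} [Group G] {p : ℕ}

/-- elements of the join of two commuting subgroups -/
lemma pf_mem_sup_comm {A B : Subgroup G} (h : ∀ x ∈ A, ∀ y ∈ B, x * y = y * x) {z : G} :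
    z ∈ A ⊔ B ↔ ∃ x ∈ A, ∃ y ∈ B, x * y = z := by
  constructor
  · intro hz
    let M : Subgroup G :=
      { carrier := {z | ∃ x ∈ A, ∃ y ∈ B, x * y = z}
        one_mem' := ⟨1, one_mem _, 1, one_mem _, mul_one 1⟩
        mul_mem' := by
          rintro _ _ ⟨x, hx, y, hy, rfl⟩ ⟨x', hx', y', hy', rfl⟩
          refine ⟨x * x', mul_mem hx hx', y * y', mul_mem hy hy', ?_⟩
          rw [mul_assoc, ← mul_assoc x' y y', h x' hx' y hy, mul_assoc y x' y', ← mul_assoc x y]
        inv_mem' := by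
          rintro _ ⟨x, hx, y, hy, rfl⟩
          exact ⟨x⁻¹, inv_mem hx, y⁻¹, inv_mem hy, by
            rw [mul_inv_rev, h _ (inv_mem hx) _ (inv_mem hy)]⟩ }
    have hle : A ⊔ B ≤ M := sup_le (fun x hx => ⟨x, hx, 1, one_mem _, mul_one x⟩)
      (fun y hy => ⟨1, one_mem _, y, hy, one_mul y⟩)
    exact hle hz
  · rintro ⟨x, hx, y, hy, rfl⟩
    exact mul_mem (Subgroup.mem_sup_left hx) (Subgroup.mem_sup_right hy)

/-- uniqueness of the decomposition in an internal direct product -/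
lemma pf_prod_unique {A B : Subgroup G} (hint : A ⊓ B = ⊥) {x x' y y' : G} (hx : x ∈ A)
    (hx' : x' ∈ A) (hy : y ∈ B) (hy' : y' ∈ B) (h : x * y = x' * y') : x = x' ∧ y = y' := by
  have h1 : x'⁻¹ * x = y' * y⁻¹ := by
    rw [eq_mul_inv_iff_mul_eq, mul_assoc, h, inv_mul_cancel_left]
  have h2 : x'⁻¹ * x ∈ A ⊓ B := by
    refine Subgroup.mem_inf.2 ⟨mul_mem (inv_mem hx') hx, ?_⟩
    rw [h1]
    exact mul_mem hy' (inv_mem hy)
  rw [hint, Subgroup.mem_bot] at h2
  have h3 : x = x' := by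
    rw [inv_mul_eq_one] at h2
    exact h2.symm
  refine ⟨h3, ?_⟩
  rw [h3] at h
  exact mul_left_cancel h

lemma pf_mem_nz {E : Subgroup G} {g : G} :
    g ∈ normalizer (E : Set G) ↔ ∀ x, x ∈ E ↔ g * x * g⁻¹ ∈ E := by
  rw [Subgroup.mem_normalizer_iff]

/-- enough to map `E` into itself, for `g` and for its inverse -/
lemma pf_mem_nz_of {E : Subgroup G} {g : G} (h1 : ∀ x ∈ E, g * x * g⁻¹ ∈ E)
    (h2 : ∀ x ∈ E, g⁻¹ * x * g ∈ E) : g ∈ normalizer (E : Set G) := by
  rw [pf_mem_nz]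
  refine fun x => ⟨h1 x, fun hx => ?_⟩
  have := h2 _ hx
  simpa [mul_assoc] using this

lemma pf_nz_conj {E : Subgroup G} {g : G} (hg : g ∈ normalizer (E : Set G)) {x : G} (hx : x ∈ E) :
    g * x * g⁻¹ ∈ E := (pf_mem_nz.1 hg x).1 hx

lemma pf_nz_conj' {E : Subgroup G} {g : G} (hg : g ∈ normalizer (E : Set G)) {x : G} (hx : x ∈ E) :
    g⁻¹ * x * g ∈ E := by
  have := pf_nz_conj (inv_mem hg) hx
  rwa [inv_inv] at this

lemma pf_nz_sup {E F : Subgroup G} {g : G} (hE : g ∈ normalizer (E : Set G))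
    (hF : g ∈ normalizer (F : Set G)) : g ∈ normalizer ((E ⊔ F : Subgroup G) : Set G) := by
  have key : ∀ k : G, k ∈ normalizer (E : Set G) → k ∈ normalizer (F : Set G) →
      ∀ x ∈ E ⊔ F, k * x * k⁻¹ ∈ E ⊔ F := by
    intro k hkE hkF x hx
    have hle : E ⊔ F ≤ (E ⊔ F).comap (MulAut.conj k).toMonoidHom := by
      refine sup_le (fun y hy => ?_) (fun y hy => ?_)
      · rw [Subgroup.mem_comap]
        exact Subgroup.mem_sup_left (pf_nz_conj hkE hy)
      · rw [Subgroup.mem_comap]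
        exact Subgroup.mem_sup_right (pf_nz_conj hkF hy)
    exact hle hx
  refine pf_mem_nz_of (key g hE hF) fun x hx => ?_
  have := key g⁻¹ (inv_mem hE) (inv_mem hF) x hx
  rwa [inv_inv] at this

/-- the projection to `K₂` of a subgroup of the direct product of `K₁` and `K₂` -/
def pfPrj {K₁ K₂ : Subgroup G} (hcomm : ∀ x ∈ K₁, ∀ y ∈ K₂, x * y = y * x) (E : Subgroup G) :
    Subgroup G where
  carrier := {y | y ∈ K₂ ∧ ∃ x ∈ K₁, x * y ∈ E}
  one_mem' := ⟨one_mem _, 1, one_mem _, by rw [mul_one]; exact one_mem _⟩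
  mul_mem' := by
    rintro y y' ⟨hy, x, hx, h⟩ ⟨hy', x', hx', h'⟩
    refine ⟨mul_mem hy hy', x * x', mul_mem hx hx', ?_⟩
    have : x * x' * (y * y') = x * y * (x' * y') := by
      rw [mul_assoc, ← mul_assoc x' y y', hcomm x' hx' y hy, mul_assoc y x' y', ← mul_assoc x y]
    rw [this]
    exact mul_mem h h'
  inv_mem' := by
    rintro y ⟨hy, x, hx, h⟩
    refine ⟨inv_mem hy, x⁻¹, inv_mem hx, ?_⟩
    rw [hcomm _ (inv_mem hx) _ (inv_mem hy), ← mul_inv_rev]
    exact inv_mem h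

lemma pf_prj_le_iff {K₁ K₂ : Subgroup G} {hcomm : ∀ x ∈ K₁, ∀ y ∈ K₂, x * y = y * x}
    (hint : K₁ ⊓ K₂ = ⊥) {E t : Subgroup G} (hE : E ≤ K₁ ⊔ K₂) (ht : t ≤ K₂) :
    pfPrj hcomm E ≤ t ↔ E ≤ K₁ ⊔ t := by
  constructor
  · intro h e he
    obtain ⟨x, hx, y, hy, rfl⟩ := (pf_mem_sup_comm hcomm).1 (hE he)
    exact mul_mem (Subgroup.mem_sup_left hx) (Subgroup.mem_sup_right (h ⟨hy, x, hx, he⟩))
  · rintro h y ⟨hy, x, hx, hxy⟩
    obtain ⟨x', hx', y', hy', h'⟩ :=
      (pf_mem_sup_comm fun a ha b hb => hcomm a ha b (ht hb)).1 (h hxy)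
    rw [← (pf_prod_unique hint hx' hx (ht hy') hy h').2]
    exact hy'

lemma pf_prj_mem_ApB {K₁ K₂ : Subgroup G} {hcomm : ∀ x ∈ K₁, ∀ y ∈ K₂, x * y = y * x}
    (hint : K₁ ⊓ K₂ = ⊥) {E : Subgroup G} (hE : E ∈ ApS p G) : pfPrj hcomm E ∈ ApB p G := by
  by_cases hb : pfPrj hcomm E = ⊥
  · exact Or.inl hb
  · refine Or.inr ⟨hb, ?_, ?_⟩
    · rintro y ⟨hy, x, hx, h⟩ y' ⟨hy', x', hx', h'⟩
      have h1 := hE.2.1 _ h _ h'
      have h2 : x * x' * (y * y') = x' * x * (y' * y) := by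
        have e1 : x * x' * (y * y') = x * y * (x' * y') := by
          rw [mul_assoc, ← mul_assoc x' y y', hcomm x' hx' y hy, mul_assoc y x' y',
            ← mul_assoc x y]
        have e2 : x' * x * (y' * y) = x' * y' * (x * y) := by
          rw [mul_assoc, ← mul_assoc x y' y, hcomm x hx y' hy', mul_assoc y' x y,
            ← mul_assoc x' y']
        rw [e1, e2, h1]
      exact (pf_prod_unique hint (mul_mem hx hx') (mul_mem hx' hx) (mul_mem hy hy')
        (mul_mem hy' hy) h2).2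
    · rintro y ⟨hy, x, hx, h⟩
      have h1 := hE.2.2 _ h
      have hc : Commute x y := hcomm x hx y hy
      rw [hc.mul_pow] at h1
      have h2 : x ^ p * y ^ p = 1 * 1 := by rw [h1, mul_one]
      exact (pf_prod_unique hint (pow_mem hx p) (one_mem _) (pow_mem hy p) (one_mem _) h2).2

lemma pf_nz_prj {K₁ K₂ : Subgroup G} {hcomm : ∀ x ∈ K₁, ∀ y ∈ K₂, x * y = y * x} {g : G}
    (hg1 : g ∈ normalizer (K₁ : Set G)) (hg2 : g ∈ normalizer (K₂ : Set G)) {E : Subgroup G}
    (hE : g ∈ normalizer (E : Set G)) : g ∈ normalizer (pfPrj hcomm E : Set G) := by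
  refine pf_mem_nz_of ?_ ?_
  · rintro y ⟨hy, x, hx, h⟩
    refine ⟨pf_nz_conj hg2 hy, g * x * g⁻¹, pf_nz_conj hg1 hx, ?_⟩
    have : g * x * g⁻¹ * (g * y * g⁻¹) = g * (x * y) * g⁻¹ := by group
    rw [this]
    exact pf_nz_conj hE h
  · rintro y ⟨hy, x, hx, h⟩
    refine ⟨pf_nz_conj' hg2 hy, g⁻¹ * x * g, pf_nz_conj' hg1 hx, ?_⟩
    have : g⁻¹ * x * g * (g⁻¹ * y * g) = g⁻¹ * (x * y) * g := by group
    rw [this]
    exact pf_nz_conj' hE h

/-- product formula -/
theorem lam_sup [hp : Fact p.Prime] [Finite G] {K₁ K₂ : Subgroup G}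
    (hcomm : ∀ x ∈ K₁, ∀ y ∈ K₂, x * y = y * x) (hint : K₁ ⊓ K₂ = ⊥) {g : G}
    (hg1 : g ∈ normalizer (K₁ : Set G)) (hg2 : g ∈ normalizer (K₂ : Set G)) :
    lam p (K₁ ⊔ K₂) g = lam p K₁ g * lam p K₂ g := by
  classical
  set S : Set (Subgroup G) := {E | E ∈ Ain p (K₁ ⊔ K₂) ∧ g ∈ normalizer (E : Set G)} with hSdef
  set T : Set (Subgroup G) := {F | F ∈ ApB p G ∧ F ≤ K₂ ∧ g ∈ normalizer (F : Set G)} with hTdef
  have hS : S.Finite := Set.toFinite _
  have hT : T.Finite := Set.toFinite _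
  have hbT : (⊥ : Subgroup G) ∈ T := by
    refine ⟨Or.inl rfl, bot_le, ?_⟩
    refine pf_mem_nz_of (fun x hx => ?_) (fun x hx => ?_)
    · rw [Subgroup.mem_bot] at hx ⊢
      rw [hx]; group
    · rw [Subgroup.mem_bot] at hx ⊢
      rw [hx]; group
  have hfib := eu_fibre (S := S) (T := T) (pfPrj hcomm) hS hT
    (fun E hE => ⟨pf_prj_mem_ApB hint hE.1.1, fun y hy => hy.1, pf_nz_prj hg1 hg2 hE.2⟩)
    (fun E _ E' _ h y hy => ⟨hy.1, hy.2.choose, hy.2.choose_spec.1, h hy.2.choose_spec.2⟩)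
    hbT (fun t _ => bot_le)
  have hset : ∀ t ∈ T, {E | E ∈ S ∧ pfPrj hcomm E ≤ t} =
      {E | (E ∈ ApS p G ∧ E ≤ K₁ ⊔ t) ∧ g ∈ normalizer (E : Set G)} := by
    intro t ht
    ext E
    constructor
    · rintro ⟨hE, h⟩
      exact ⟨⟨hE.1.1, (pf_prj_le_iff hint hE.1.2 ht.2.1).1 h⟩, hE.2⟩
    · rintro ⟨⟨h1, h2⟩, h3⟩
      have h4 : E ≤ K₁ ⊔ K₂ := h2.trans (sup_le_sup_left ht.2.1 _)
      exact ⟨⟨⟨h1, h4⟩, h3⟩, (pf_prj_le_iff hint h4 ht.2.1).2 h2⟩
  have hzero : ∀ t ∈ T, t ≠ ⊥ → eu {E | E ∈ S ∧ pfPrj hcomm E ≤ t} = 0 := by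
    intro t ht hne
    rw [hset t ht]
    have htA : t ∈ ApS p G := ht.1.resolve_left hne
    set St : Set (Subgroup G) :=
      {E | (E ∈ ApS p G ∧ E ≤ K₁ ⊔ t) ∧ g ∈ normalizer (E : Set G)} with hSt
    have hStf : St.Finite := Set.toFinite _
    have hcomm' : ∀ E ∈ St, ∀ x ∈ E, ∀ u ∈ t, x * u = u * x := by
      intro E hE e he u hu
      obtain ⟨x, hx, y, hy, rfl⟩ :=
        (pf_mem_sup_comm fun a ha b hb => hcomm a ha b (ht.2.1 hb)).1 (hE.1.2 he)
      rw [mul_assoc, htA.2.1 y hy u hu, ← mul_assoc, hcomm x hx u (ht.2.1 hu), mul_assoc]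
    have hred : eu St = eu {E | E ∈ St ∧ t ≤ E} := by
      refine eu_reflect (fun E => E ⊔ t) St _ hStf (fun E hE => hE.1) ?_ ?_ ?_
      · intro E hE
        exact ⟨⟨⟨sup_mem_ApS hE.1.1 htA (hcomm' E hE), sup_le hE.1.2 le_sup_right⟩,
          pf_nz_sup hE.2 ht.2.2⟩, le_sup_right⟩
      · exact fun E _ => le_sup_left
      · exact fun E _ F hF h => sup_le h hF.2
    rw [hred]
    exact eu_bot (Set.toFinite _) (m := t) ⟨⟨⟨htA, le_sup_right⟩, ht.2.2⟩, le_rfl⟩
      (fun E hE => hE.2)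
  have h1 : lam p (K₁ ⊔ K₂) g = eu S := rfl
  rw [h1, hfib, Finset.sum_eq_single (⊥ : Subgroup G)]
  · congr 1
    · rw [hset ⊥ hbT]
      unfold lam Ain
      congr 1
      ext E
      simp only [sup_bot_eq, Set.mem_ofPred_eq]
    · unfold lam
      congr 1
      ext E
      constructor
      · rintro ⟨hE, h⟩
        exact ⟨⟨hE.1.resolve_left h.ne', hE.2.1⟩, hE.2.2⟩
      · rintro ⟨⟨h1, h2⟩, h3⟩
        exact ⟨⟨Or.inr h1, h2, h3⟩, bot_lt_iff_ne_bot.2 h1.1⟩
  · intro t ht hne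
    rw [hzero t (hT.mem_toFinset.1 ht) hne, zero_mul]
  · intro h
    exact absurd (hT.mem_toFinset.2 hbT) h

/-- elements centralizing `K` normalize its subgroups -/
lemma pf_nz_of_comm {K E : Subgroup G} {k : G} (hk : ∀ x ∈ K, k * x = x * k) (hE : E ≤ K) :
    k ∈ normalizer (E : Set G) := by
  refine pf_mem_nz_of (fun x hx => ?_) (fun x hx => ?_)
  · rw [hk x (hE hx), mul_inv_cancel_right]
    exact hx
  · rw [mul_assoc, ← hk x (hE hx), inv_mul_cancel_left]
    exact hx

lemma lam_mul_right {K : Subgroup G} {g k : G} (hk : ∀ x ∈ K, k * x = x * k) :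
    lam p K (g * k) = lam p K g := by
  unfold lam
  congr 1
  ext E
  constructor
  · rintro ⟨h1, h2⟩
    exact ⟨h1, ((normalizer (E : Set G)).mul_mem_cancel_right (pf_nz_of_comm hk h1.2)).1 h2⟩
  · rintro ⟨h1, h2⟩
    exact ⟨h1, mul_mem h2 (pf_nz_of_comm hk h1.2)⟩

lemma lam_mul_left {K : Subgroup G} {g k : G} (hk : ∀ x ∈ K, k * x = x * k) :
    lam p K (k * g) = lam p K g := by
  unfold lam
  congr 1
  ext E
  constructor
  · rintro ⟨h1, h2⟩
    exact ⟨h1, ((normalizer (E : Set G)).mul_mem_cancel_left (pf_nz_of_comm hk h1.2)).1 h2⟩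
  · rintro ⟨h1, h2⟩
    exact ⟨h1, mul_mem (pf_nz_of_comm hk h1.2) h2⟩

end

end Vale.Agent.P240.K
end

section

/-!
P240-W5. Attaching elementary abelian complements.

`lam_attach`: put `S = {E | E ∈ Ain p H ∧ g ∈ normalizer E}`, `B = {E ∈ S | E ⊓ N = ⊥}` and use
`eu_attach`. `S \ B` coreflects (`eu_coreflect`, `E ↦ E ⊓ N`) onto `{E | E ∈ Ain p N ∧ g ∈ normalizer E}`
(`g ∈ N`); this is the term `F = ⊥` of the right side (`mb p ⊥ = 1`, `centralizer ⊥ = ⊤`). For `F ∈ B`:
for `f ∈ F` the commutator `g * f * g⁻¹ * f⁻¹` lies in `F` and in `N` (as `N` is normalized by `H`), so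
it is `1`: `F ≤ centralizer {g}`; hence `g` normalizes every subgroup of `F`, and
`eu {y | y ∈ S ∧ y < F} = eu {Y | Y ∈ ApS p G ∧ Y < F} = - mb p F` (`mb_of_mem`). It remains that
`eu {E | E ∈ S \ B ∧ F < E} = lam p (N ⊓ centralizer F) g`. Let `Z` be the union of
`A = {E | E ∈ S \ B ∧ F < E}` and `C = {E | E ∈ Ain p (N ⊓ centralizer F) ∧ g ∈ normalizer E}`. The map
`E ↦ E ⊓ N` is a coreflection of `Z` onto `C` (for `E ∈ A`, `E ⊓ N ≠ ⊥` and `E ⊓ N ≤ centralizer F` as
`E` is abelian and contains `F`; for `E ∈ C`, `E ⊓ N = E`), the map `E ↦ E ⊔ F` is a reflection of `Z`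
onto `A` (for `E ∈ C`: `E ⊔ F ∈ ApS` by `sup_mem_ApS`, it contains `F` properly since `E ≤ N`, `E ≠ ⊥`,
`F ⊓ N = ⊥`; and `E ≤ (E ⊔ F) ⊓ N`). So `eu A = eu Z = eu C`.
-/

namespace Vale.Agent.P240.K

open Finsupp Subgroup

section
variable {G : Type*} [Group G] {p : ℕ}

/-- the elementary abelian subgroups of `H` normalized by `g` -/
def aS (p : ℕ) (H : Subgroup G) (g : G) : Set (Subgroup G) :=
  {E | E ∈ Ain p H ∧ g ∈ normalizer (E : Set G)}

/-- those meeting `N` trivially -/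
def aB (p : ℕ) (H N : Subgroup G) (g : G) : Set (Subgroup G) :=
  {E | E ∈ aS p H g ∧ E ⊓ N = ⊥}

lemma norm_inf_mem {E N : Subgroup G} {g : G} (hE : g ∈ normalizer (E : Set G)) (hg : g ∈ N) :
    g ∈ normalizer ((E ⊓ N : Subgroup G) : Set G) := by
  rw [mem_normalizer_iff] at hE ⊢
  intro y
  constructor
  · intro hy
    have hy' := Subgroup.mem_inf.1 hy
    exact Subgroup.mem_inf.2 ⟨(hE y).1 hy'.1, mul_mem (mul_mem hg hy'.2) (inv_mem hg)⟩
  · intro hy
    have hy' := Subgroup.mem_inf.1 hy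
    refine Subgroup.mem_inf.2 ⟨(hE y).2 hy'.1, ?_⟩
    have h1 : y = g⁻¹ * (g * y * g⁻¹) * g := by group
    rw [h1]
    exact mul_mem (mul_mem (inv_mem hg) hy'.2) hg

lemma att_bot [Finite G] {H N : Subgroup G} (hNH : N ≤ H) {g : G} (hg : g ∈ N) :
    eu (aS p H g \ aB p H N g) = lam p N g := by
  refine eu_coreflect (fun E => E ⊓ N) _ _ _ (Set.toFinite _) rfl ?_ ?_ ?_ ?_
  · rintro E ⟨hE, hE3⟩
    refine ⟨⟨⟨hE.1, hE.2.trans hNH⟩, hE3⟩, fun h => hE.1.1 ?_⟩
    have h2 := h.2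
    rwa [inf_eq_left.2 hE.2] at h2
  · rintro E ⟨⟨hE, hE3⟩, h⟩
    have hne : E ⊓ N ≠ ⊥ := fun h' => h ⟨⟨hE, hE3⟩, h'⟩
    exact ⟨⟨mem_ApS_of_le hE.1 inf_le_left hne, inf_le_right⟩, norm_inf_mem hE3 hg⟩
  · intro E _
    exact inf_le_left
  · rintro E _ Y ⟨⟨_, hY2⟩, _⟩ hYE
    exact le_inf hYE hY2

lemma att_cent {H N : Subgroup G} (hN : ∀ h ∈ H, ∀ n ∈ N, h * n * h⁻¹ ∈ N) {g : G}
    (hg : g ∈ N) {F : Subgroup G} (hF : F ∈ aB p H N g) : ∀ f ∈ F, g * f = f * g := by
  intro f hf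
  obtain ⟨⟨hF1, hF2⟩, hF3⟩ := hF
  rw [mem_normalizer_iff] at hF2
  have h1 : g * f * g⁻¹ ∈ F := (hF2 f).1 hf
  have h2 : g * f * g⁻¹ * f⁻¹ ∈ F := mul_mem h1 (inv_mem hf)
  have h3 : g * f * g⁻¹ * f⁻¹ ∈ N := by
    have h4 : f * g⁻¹ * f⁻¹ ∈ N := hN f (hF1.2 hf) _ (inv_mem hg)
    have h5 : g * f * g⁻¹ * f⁻¹ = g * (f * g⁻¹ * f⁻¹) := by group
    rw [h5]
    exact mul_mem hg h4
  have h6 : g * f * g⁻¹ * f⁻¹ ∈ F ⊓ N := Subgroup.mem_inf.2 ⟨h2, h3⟩
  rw [hF3, Subgroup.mem_bot] at h6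
  calc g * f = (g * f * g⁻¹ * f⁻¹) * (f * g) := by group
    _ = f * g := by rw [h6, one_mul]

lemma att_low {H N : Subgroup G} (hN : ∀ h ∈ H, ∀ n ∈ N, h * n * h⁻¹ ∈ N) {g : G}
    (hg : g ∈ N) {F : Subgroup G} (hF : F ∈ aB p H N g) :
    {y | y ∈ aS p H g ∧ y < F} = {Y | Y ∈ ApS p G ∧ Y < F} := by
  ext E
  constructor
  · rintro ⟨h1, h2⟩
    exact ⟨h1.1.1, h2⟩
  · rintro ⟨h1, h2⟩
    exact ⟨⟨⟨h1, h2.le.trans hF.1.1.2⟩, mem_of_comm fun y hy => att_cent hN hg hF y (h2.le hy)⟩,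
      h2⟩

lemma norm_sup_mem {E F : Subgroup G} {g : G} (hE : g ∈ normalizer (E : Set G))
    (hF : ∀ f ∈ F, g * f = f * g) : g ∈ normalizer ((E ⊔ F : Subgroup G) : Set G) := by
  rw [← cj_eq_iff] at hE ⊢
  have h1 : cj g F = F := cj_eq_iff.2 (mem_of_comm hF)
  have h2 : cj g (E ⊔ F) = cj g E ⊔ cj g F := by
    rw [cj, cj, cj, Subgroup.map_sup]
  rw [h2, hE, h1]

lemma att_up [Finite G] {H N : Subgroup G} (hNH : N ≤ H)
    (hN : ∀ h ∈ H, ∀ n ∈ N, h * n * h⁻¹ ∈ N) {g : G} (hg : g ∈ N) {F : Subgroup G}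
    (hF : F ∈ aB p H N g) :
    eu {y | y ∈ aS p H g \ aB p H N g ∧ F < y} = lam p (N ⊓ centralizer (F : Set G)) g := by
  set A : Set (Subgroup G) := {y | y ∈ aS p H g \ aB p H N g ∧ F < y} with hA
  set C : Set (Subgroup G) :=
    {E | E ∈ Ain p (N ⊓ centralizer (F : Set G)) ∧ g ∈ normalizer (E : Set G)} with hC
  have hgF := att_cent hN hg hF
  have hAC : ∀ E ∈ A, E ⊓ N ∈ C := by
    rintro E ⟨⟨⟨hE, hE3⟩, h⟩, hFE⟩
    have hne : E ⊓ N ≠ ⊥ := fun h' => h ⟨⟨hE, hE3⟩, h'⟩
    refine ⟨⟨mem_ApS_of_le hE.1 inf_le_left hne, le_inf inf_le_right ?_⟩, norm_inf_mem hE3 hg⟩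
    intro x hx
    rw [mem_centralizer_iff]
    intro y hy
    exact hE.1.2.1 y (hFE.le hy) x (Subgroup.mem_inf.1 hx).1
  have hCA : ∀ E ∈ C, E ⊔ F ∈ A := by
    rintro E ⟨⟨hE1, hE2⟩, hE3⟩
    have hEN : E ≤ N := hE2.trans inf_le_left
    have hEF : E ⊔ F ∈ ApS p G := by
      refine sup_mem_ApS hE1 hF.1.1.1 fun x hx y hy => ?_
      exact (mem_centralizer_iff.1 (Subgroup.mem_inf.1 (hE2 hx)).2 y hy).symm
    have hne : ¬ E ≤ F := fun h => hE1.1 (le_bot_iff.1 ((le_inf h hEN).trans hF.2.le))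
    refine ⟨⟨⟨⟨hEF, sup_le (hEN.trans hNH) hF.1.1.2⟩, norm_sup_mem hE3 hgF⟩, fun h => ?_⟩, ?_⟩
    · exact hE1.1 (le_bot_iff.1 ((le_inf le_sup_left hEN).trans h.2.le))
    · refine lt_of_le_of_ne le_sup_right fun h => hne ?_
      rw [h]
      exact le_sup_left
  have hCN : ∀ E ∈ C, E ⊓ N = E := fun E hE => inf_eq_left.2 (hE.1.2.trans inf_le_left)
  have hAF : ∀ E ∈ A, E ⊔ F = E := fun E hE => sup_eq_left.2 hE.2.le
  have h1 : eu (A ∪ C) = eu C := by
    refine eu_coreflect (fun E => E ⊓ N) _ _ _ (Set.toFinite _) rfl Set.subset_union_right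
      ?_ ?_ ?_
    · rintro E (hE | hE)
      · exact hAC E hE
      · rw [hCN E hE]
        exact hE
    · intro E _
      exact inf_le_left
    · rintro E _ Y hY hYE
      exact le_inf hYE (hY.1.2.trans inf_le_left)
  have h2 : eu (A ∪ C) = eu A := by
    refine eu_reflect (fun E => E ⊔ F) _ _ (Set.toFinite _) Set.subset_union_left ?_ ?_ ?_
    · rintro E (hE | hE)
      · rw [hAF E hE]
        exact hE
      · exact hCA E hE
    · intro E _
      exact le_sup_left
    · rintro E _ Y hY hEY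
      exact sup_le hEY hY.2.le
  rw [← h2, h1]
  rfl

lemma att_inf_bot (N : Subgroup G) : N ⊓ centralizer ((⊥ : Subgroup G) : Set G) = N := by
  refine inf_eq_left.2 fun x _ => mem_centralizer_iff.2 fun y hy => ?_
  have hy1 : y = 1 := Subgroup.mem_bot.1 hy
  rw [hy1, one_mul, mul_one]

theorem lam_attach [hp : Fact p.Prime] [Finite G] {H N : Subgroup G} (hNH : N ≤ H)
    (hN : ∀ h ∈ H, ∀ n ∈ N, h * n * h⁻¹ ∈ N) {g : G} (hg : g ∈ N) :
    lam p H g = ∑ F ∈ (Set.toFinite {F | F ∈ ApB p G ∧ F ≤ H ∧ F ⊓ N = ⊥ ∧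
      F ≤ centralizer ({g} : Set G)}).toFinset,
        mb p F * lam p (N ⊓ centralizer (F : Set G)) g := by
  classical
  have hS : (aS p H g).Finite := Set.toFinite _
  have hB : aB p H N g ⊆ aS p H g := fun E hE => hE.1
  have hdown : ∀ x ∈ aB p H N g, ∀ y ∈ aS p H g, y ≤ x → y ∈ aB p H N g := by
    intro x hx y hy hyx
    exact ⟨hy, le_bot_iff.1 ((inf_le_inf_right N hyx).trans hx.2.le)⟩
  have h := eu_attach hS hB hdown
  have h0 : lam p H g = eu (aS p H g) := rfl
  have hidx : (Set.toFinite {F | F ∈ ApB p G ∧ F ≤ H ∧ F ⊓ N = ⊥ ∧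
      F ≤ centralizer ({g} : Set G)}).toFinset = insert ⊥ (hS.subset hB).toFinset := by
    ext F
    rw [Finset.mem_insert, Set.Finite.mem_toFinset, Set.Finite.mem_toFinset]
    constructor
    · rintro ⟨h1, h2, h3, h4⟩
      rcases h1 with h1 | h1
      · exact Or.inl h1
      · refine Or.inr ⟨⟨⟨h1, h2⟩, mem_of_comm fun y hy => ?_⟩, h3⟩
        exact mem_centralizer_iff.1 (h4 hy) g rfl
    · rintro (h1 | h1)
      · subst h1
        exact ⟨Or.inl rfl, bot_le, bot_inf_eq _, bot_le⟩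
      · refine ⟨Or.inr h1.1.1.1, h1.1.1.2, h1.2, fun f hf => ?_⟩
        rw [mem_centralizer_iff]
        intro y hy
        rw [Set.mem_singleton_iff.1 hy]
        exact att_cent hN hg h1 f hf
  have hnb : (⊥ : Subgroup G) ∉ (hS.subset hB).toFinset := by
    rw [Set.Finite.mem_toFinset]
    exact fun h' => h'.1.1.1.1 rfl
  have hmb : mb p (⊥ : Subgroup G) = 1 := if_pos rfl
  rw [hidx, Finset.sum_insert hnb, hmb, one_mul, att_inf_bot, ← att_bot hNH hg, h0, h,
    sub_eq_add_neg, ← Finset.sum_neg_distrib]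
  congr 1
  refine Finset.sum_congr rfl fun F hF => ?_
  rw [Set.Finite.mem_toFinset] at hF
  rw [att_low hN hg hF, att_up hNH hN hg hF, mb_of_mem hF.1.1.1, neg_mul]

end

end Vale.Agent.P240.K
end

section

/-!
P240-W8. Products of commuting centreless subgroups.

`sum_sup`: `(a, b) ↦ a * b` is a bijection of `A × B` onto `A ⊔ B` (elements of the join of two commuting
subgroups are products, `Subgroup.mem_sup'`-like lemmas for `A ≤ normalizer B`, or
`Subgroup.mul_normal`-style lemmas; injective since `A ⊓ B = ⊥`): use `Finset.sum_product'` and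
`Finset.sum_bij`.
`Fam.gn_inf`: an element `x` of `Gn O ⊓ Gn O'` commutes with all elements of `Gn O` and of `Gn O'`. So it
suffices: `x ∈ Gn O`, `O ⊆ D`, `x` commutes with all members of `O` implies `x = 1`; by
`Set.Finite.induction_on` for `O`: `Gn (insert L O) = L ⊔ Gn O`, `x = l * y` with `l ∈ L`, `y ∈ Gn O`; `x`
and `y` commute with `L`, so `l ∈ L ⊓ centralizer L = ⊥`, `x = y`.
`Fam.inf_centralizer`: `F` normalizes `Gn O` and `Gn O'`; if `x * y` commutes with `f ∈ F`,
`x ∈ Gn O`, `y ∈ Gn O'`, then `(f * x * f⁻¹) * (f * y * f⁻¹) = x * y`, so by uniqueness both `x` and `y`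
commute with `f`.
-/

namespace Vale.Agent.P240.K

open Finsupp Subgroup

section
variable {G : Type*} [Group G] {p : ℕ}

/-- the subgroup generated by the members of `O` -/
def Gn (O : Set (Subgroup G)) : Subgroup G := ⨆ L ∈ O, L

/-- a set of commuting centreless subgroups of `R`, of order divisible by `p`, permuted by `R` -/
structure Fam (p : ℕ) (R : Subgroup G) (D : Set (Subgroup G)) : Prop where
  le : ∀ L ∈ D, L ≤ R
  conj : ∀ L ∈ D, ∀ g ∈ R, cj g L ∈ D
  comm : ∀ L ∈ D, ∀ M ∈ D, L ≠ M → ∀ x ∈ L, ∀ y ∈ M, x * y = y * x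
  centre : ∀ L ∈ D, L ⊓ centralizer (L : Set G) = ⊥
  dvd : ∀ L ∈ D, p ∣ Nat.card L

/-- `g` acts on `L` like an element of `S ∩ L` -/
def At (S : Set G) (L : Subgroup G) (g : G) : Prop :=
  ∃ s ∈ S, s ∈ L ∧ s⁻¹ * g ∈ centralizer (L : Set G)

/-- the number of `L ∈ O` with `At S L g` -/
noncomputable def cnt (S : Set G) (O : Set (Subgroup G)) (g : G) : ℕ :=
  {L | L ∈ O ∧ At S L g}.ncard

private lemma w8_mem_sup {A B : Subgroup G} (hcomm : ∀ x ∈ A, ∀ y ∈ B, x * y = y * x) {z : G}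
    (hz : z ∈ A ⊔ B) : ∃ a ∈ A, ∃ b ∈ B, z = a * b := by
  let H : Subgroup G :=
    { carrier := {z | ∃ a ∈ A, ∃ b ∈ B, z = a * b}
      one_mem' := ⟨1, A.one_mem, 1, B.one_mem, (mul_one 1).symm⟩
      mul_mem' := by
        rintro _ _ ⟨a, ha, b, hb, rfl⟩ ⟨a', ha', b', hb', rfl⟩
        refine ⟨a * a', A.mul_mem ha ha', b * b', B.mul_mem hb hb', ?_⟩
        calc a * b * (a' * b') = a * (b * a') * b' := by group
          _ = a * (a' * b) * b' := by rw [hcomm a' ha' b hb]
          _ = a * a' * (b * b') := by group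
      inv_mem' := by
        rintro _ ⟨a, ha, b, hb, rfl⟩
        refine ⟨a⁻¹, A.inv_mem ha, b⁻¹, B.inv_mem hb, ?_⟩
        rw [mul_inv_rev]
        exact (hcomm _ (A.inv_mem ha) _ (B.inv_mem hb)).symm }
  have h : A ⊔ B ≤ H := sup_le
    (fun a ha => ⟨a, ha, 1, B.one_mem, (mul_one a).symm⟩)
    (fun b hb => ⟨1, A.one_mem, b, hb, (one_mul b).symm⟩)
  exact h hz

private lemma w8_unique {A B : Subgroup G} (hint : A ⊓ B = ⊥) {a a' b b' : G} (ha : a ∈ A)
    (ha' : a' ∈ A) (hb : b ∈ B) (hb' : b' ∈ B) (h : a * b = a' * b') : a = a' ∧ b = b' := by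
  have h1 : a'⁻¹ * a = b' * b⁻¹ := by
    rw [inv_mul_eq_iff_eq_mul, ← mul_assoc, ← h, mul_assoc, mul_inv_cancel, mul_one]
  have h2 : a'⁻¹ * a ∈ A ⊓ B :=
    ⟨A.mul_mem (A.inv_mem ha') ha, by rw [h1]; exact B.mul_mem hb' (B.inv_mem hb)⟩
  rw [hint, Subgroup.mem_bot] at h2
  have h3 : a = a' := (inv_mul_eq_one.1 h2).symm
  refine ⟨h3, ?_⟩
  rw [h3] at h
  exact mul_left_cancel h

lemma sum_sup [Finite G] {M : Type*} [AddCommMonoid M] {A B : Subgroup G}
    (hcomm : ∀ x ∈ A, ∀ y ∈ B, x * y = y * x) (hint : A ⊓ B = ⊥) (f : G → M) :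
    ∑ g ∈ (Set.toFinite ((A ⊔ B : Subgroup G) : Set G)).toFinset, f g =
      ∑ a ∈ (Set.toFinite (A : Set G)).toFinset,
        ∑ b ∈ (Set.toFinite (B : Set G)).toFinset, f (a * b) := by
  classical
  rw [← Finset.sum_product']
  symm
  refine Finset.sum_bij (fun q _ => q.1 * q.2) ?_ ?_ ?_ ?_
  · rintro ⟨a, b⟩ hq
    simp only [Finset.mem_product, Set.Finite.mem_toFinset, SetLike.mem_coe] at hq ⊢
    exact mul_mem (le_sup_left (a := A) (b := B) hq.1) (le_sup_right (a := A) (b := B) hq.2)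
  · rintro ⟨a, b⟩ hq ⟨a', b'⟩ hq' h
    simp only [Finset.mem_product, Set.Finite.mem_toFinset, SetLike.mem_coe] at hq hq'
    obtain ⟨h1, h2⟩ := w8_unique hint hq.1 hq'.1 hq.2 hq'.2 h
    rw [h1, h2]
  · intro z hz
    simp only [Set.Finite.mem_toFinset, SetLike.mem_coe] at hz
    obtain ⟨a, ha, b, hb, rfl⟩ := w8_mem_sup hcomm hz
    refine ⟨(a, b), ?_, rfl⟩
    simp only [Finset.mem_product, Set.Finite.mem_toFinset, SetLike.mem_coe]
    exact ⟨ha, hb⟩
  · intro q _
    rfl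

lemma At_mul_right {S : Set G} {L : Subgroup G} {g k : G} (hk : k ∈ centralizer (L : Set G)) :
    At S L (g * k) ↔ At S L g := by
  unfold At
  refine exists_congr fun s => and_congr_right fun _ => and_congr_right fun _ => ?_
  rw [← mul_assoc]
  exact Subgroup.mul_mem_cancel_right _ hk

lemma At_mul_left {S : Set G} {L : Subgroup G} {g k : G} (hk : k ∈ centralizer (L : Set G)) :
    At S L (k * g) ↔ At S L g := by
  unfold At
  refine exists_congr fun s => and_congr_right fun _ => and_congr_right fun hs => ?_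
  have h1 : s⁻¹ * (k * g) = k * (s⁻¹ * g) := by
    rw [← mul_assoc, ← mul_assoc, Subgroup.mem_centralizer_iff.1 hk s⁻¹ (L.inv_mem hs)]
  rw [h1]
  exact Subgroup.mul_mem_cancel_left _ hk

lemma Gn_union (O O' : Set (Subgroup G)) : Gn (O ∪ O') = Gn O ⊔ Gn O' := by
  unfold Gn
  exact iSup_union

lemma le_Gn {O : Set (Subgroup G)} {L : Subgroup G} (hL : L ∈ O) : L ≤ Gn O := by
  exact le_iSup₂_of_le L hL le_rfl

/-- an element permuting `O` normalizes `Gn O` -/
lemma mem_normalizer_Gn [Finite G] {O : Set (Subgroup G)} {g : G} (hg : ∀ L ∈ O, cj g L ∈ O) :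
    g ∈ normalizer (Gn O : Set G) := by
  have h1 : (Gn O).map (MulAut.conj g).toMonoidHom ≤ Gn O := by
    unfold Gn
    rw [Subgroup.map_iSup]
    refine iSup_le fun L => ?_
    rw [Subgroup.map_iSup]
    refine iSup_le fun hL => ?_
    exact le_Gn (hg L hL)
  have h2 : ∀ h ∈ Gn O, g * h * g⁻¹ ∈ Gn O := fun h hh =>
    h1 (Subgroup.mem_map.2 ⟨h, hh, rfl⟩)
  have h3 : Function.Surjective (fun h : Gn O => (⟨g * h * g⁻¹, h2 h h.2⟩ : Gn O)) := by
    refine Finite.surjective_of_injective fun a b hab => ?_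
    have := congrArg Subtype.val hab
    simp only [mul_left_inj, mul_right_inj] at this
    exact Subtype.ext this
  rw [Subgroup.mem_normalizer_iff]
  intro h
  refine ⟨fun hh => h2 h hh, fun hh => ?_⟩
  obtain ⟨⟨h', hh'⟩, he⟩ := h3 ⟨g * h * g⁻¹, hh⟩
  have := congrArg Subtype.val he
  simp only [mul_left_inj, mul_right_inj] at this
  rw [← this]
  exact hh'

lemma Fam.gn_comm {R : Subgroup G} {D O O' : Set (Subgroup G)} (hD : Fam p R D) (hO : O ⊆ D)
    (hO' : O' ⊆ D) (hdis : Disjoint O O') : ∀ x ∈ Gn O, ∀ y ∈ Gn O', x * y = y * x := by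
  have h1 : Gn O ≤ centralizer (Gn O' : Set G) := by
    unfold Gn
    refine iSup₂_le fun L hL => ?_
    rw [Subgroup.le_centralizer_iff]
    refine iSup₂_le fun M hM y hy => ?_
    rw [Subgroup.mem_centralizer_iff]
    intro x hx
    exact hD.comm L (hO hL) M (hO' hM) (fun h => Set.disjoint_left.1 hdis hL (h ▸ hM)) x hx y hy
  intro x hx y hy
  exact (Subgroup.mem_centralizer_iff.1 (h1 hx) y hy).symm

lemma Fam.gn_inf [Finite G] {R : Subgroup G} {D O O' : Set (Subgroup G)} (hD : Fam p R D)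
    (hO : O ⊆ D) (hO' : O' ⊆ D) (hdis : Disjoint O O') : Gn O ⊓ Gn O' = ⊥ := by
  have key : ∀ T : Set (Subgroup G), T.Finite → T ⊆ D → ∀ x ∈ Gn T,
      (∀ L ∈ T, ∀ l ∈ L, x * l = l * x) → x = 1 := by
    intro T hT
    induction T, hT using Set.Finite.induction_on with
    | empty =>
      intro _ x hx _
      unfold Gn at hx
      simpa using hx
    | @insert L T hLT hT ih =>
      intro hTD x hx hc
      have hcom : ∀ a ∈ L, ∀ b ∈ Gn T, a * b = b * a := by
        intro a ha b hb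
        refine hD.gn_comm (O := {L}) (O' := T) ?_ ?_ ?_ a (le_Gn (Set.mem_singleton L) ha) b hb
        · rw [Set.singleton_subset_iff]
          exact hTD (Set.mem_insert L T)
        · exact (Set.subset_insert L T).trans hTD
        · rw [Set.disjoint_singleton_left]
          exact hLT
      have h1 : Gn (insert L T) = L ⊔ Gn T := by
        unfold Gn
        exact iSup_insert
      rw [h1] at hx
      obtain ⟨l, hl, y, hy, rfl⟩ := w8_mem_sup hcom hx
      have h2 : l = 1 := by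
        have h3 : l ∈ L ⊓ centralizer (L : Set G) := by
          refine ⟨hl, Subgroup.mem_centralizer_iff.2 fun z hz => ?_⟩
          have h4 := hc L (Set.mem_insert L T) z hz
          have h5 := hcom z hz y hy
          have h6 : z * l * y = l * z * y := by
            calc z * l * y = z * (l * y) := by group
              _ = l * y * z := h4.symm
              _ = l * (y * z) := by group
              _ = l * (z * y) := by rw [h5]
              _ = l * z * y := by group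
          exact mul_right_cancel h6
        rw [hD.centre L (hTD (Set.mem_insert L T))] at h3
        exact Subgroup.mem_bot.1 h3
      subst h2
      rw [one_mul] at hc ⊢
      exact ih ((Set.subset_insert L T).trans hTD) y hy
        fun M hM l hl => hc M (Set.mem_insert_of_mem L hM) l hl
  rw [eq_bot_iff]
  intro x hx
  rw [Subgroup.mem_bot]
  exact key O (Set.toFinite O) hO x hx.1 fun L hL l hl =>
    (hD.gn_comm hO hO' hdis l (le_Gn hL hl) x hx.2).symm

lemma Fam.inf_centralizer [Finite G] {R : Subgroup G} {D O O' : Set (Subgroup G)}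
    (hD : Fam p R D) (hO : O ⊆ D) (hO' : O' ⊆ D) (hdis : Disjoint O O') {F : Subgroup G}
    (hF : ∀ f ∈ F, ∀ L ∈ O, cj f L ∈ O) (hF' : ∀ f ∈ F, ∀ L ∈ O', cj f L ∈ O') :
    Gn (O ∪ O') ⊓ centralizer (F : Set G) =
      (Gn O ⊓ centralizer (F : Set G)) ⊔ (Gn O' ⊓ centralizer (F : Set G)) := by
  have hcom := hD.gn_comm hO hO' hdis
  have hint := hD.gn_inf hO hO' hdis
  refine le_antisymm ?_ ?_
  · rintro z ⟨hz, hzc⟩
    have hz' : z ∈ Gn O ⊔ Gn O' := by
      rw [← Gn_union]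
      exact hz
    obtain ⟨x, hx, y, hy, rfl⟩ := w8_mem_sup hcom hz'
    have key : ∀ f ∈ F, f * x = x * f ∧ f * y = y * f := by
      intro f hf
      have h1 : f * x * f⁻¹ ∈ Gn O :=
        ((Subgroup.mem_normalizer_iff.1 (mem_normalizer_Gn (hF f hf))) x).1 hx
      have h2 : f * y * f⁻¹ ∈ Gn O' :=
        ((Subgroup.mem_normalizer_iff.1 (mem_normalizer_Gn (hF' f hf))) y).1 hy
      have h3 := Subgroup.mem_centralizer_iff.1 hzc f hf
      have h4 : (f * x * f⁻¹) * (f * y * f⁻¹) = x * y := by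
        calc (f * x * f⁻¹) * (f * y * f⁻¹) = f * (x * y) * f⁻¹ := by group
          _ = x * y * f * f⁻¹ := by rw [h3]
          _ = x * y := by group
      obtain ⟨h5, h6⟩ := w8_unique hint h1 hx h2 hy h4
      exact ⟨mul_inv_eq_iff_eq_mul.1 h5, mul_inv_eq_iff_eq_mul.1 h6⟩
    refine mul_mem (le_sup_left (a := Gn O ⊓ centralizer (F : Set G))
      (b := Gn O' ⊓ centralizer (F : Set G)) ⟨hx, ?_⟩)
      (le_sup_right (a := Gn O ⊓ centralizer (F : Set G))
      (b := Gn O' ⊓ centralizer (F : Set G)) ⟨hy, ?_⟩)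
    · exact Subgroup.mem_centralizer_iff.2 fun f hf => (key f hf).1
    · exact Subgroup.mem_centralizer_iff.2 fun f hf => (key f hf).2
  · rw [Gn_union]
    exact sup_le (inf_le_inf_right _ le_sup_left) (inf_le_inf_right _ le_sup_right)

lemma Fam.cnt_mul [Finite G] {R : Subgroup G} {D O O' : Set (Subgroup G)} (hD : Fam p R D)
    (hO : O ⊆ D) (hO' : O' ⊆ D) (hdis : Disjoint O O') (S : Set G) {x y : G} (hx : x ∈ Gn O)
    (hy : y ∈ Gn O') : cnt S (O ∪ O') (x * y) = cnt S O x + cnt S O' y := by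
  have hcom := hD.gn_comm hO hO' hdis
  have e : {L | L ∈ O ∪ O' ∧ At S L (x * y)} =
      {L | L ∈ O ∧ At S L x} ∪ {L | L ∈ O' ∧ At S L y} := by
    ext L
    simp only [Set.mem_union, Set.mem_ofPred_eq]
    constructor
    · rintro ⟨hL | hL, hA⟩
      · refine Or.inl ⟨hL, ?_⟩
        rwa [At_mul_right] at hA
        exact Subgroup.mem_centralizer_iff.2 fun z hz => hcom z (le_Gn hL hz) y hy
      · refine Or.inr ⟨hL, ?_⟩
        rwa [At_mul_left] at hA
        exact Subgroup.mem_centralizer_iff.2 fun z hz => (hcom x hx z (le_Gn hL hz)).symm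
    · rintro (⟨hL, hA⟩ | ⟨hL, hA⟩)
      · refine ⟨Or.inl hL, ?_⟩
        rwa [At_mul_right]
        exact Subgroup.mem_centralizer_iff.2 fun z hz => hcom z (le_Gn hL hz) y hy
      · refine ⟨Or.inr hL, ?_⟩
        rwa [At_mul_left]
        exact Subgroup.mem_centralizer_iff.2 fun z hz => (hcom x hx z (le_Gn hL hz)).symm
  unfold cnt
  rw [e]
  refine Set.ncard_union_eq ?_ (Set.toFinite _) (Set.toFinite _)
  rw [Set.disjoint_left]
  rintro L ⟨h1, _⟩ ⟨h2, _⟩
  exact Set.disjoint_left.1 hdis h1 h2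

end

end Vale.Agent.P240.K
end

section

/-!
P240-W7. Orbits of components.
-/

namespace Vale.Agent.P240.K

open Finsupp Subgroup

section
variable {G : Type*} [Group G] {p : ℕ}

/-- conjugating with an element that moves `M` and centralizes `x` -/
lemma orb_At_step {R : Subgroup G} {D : Set (Subgroup G)} {S : Set G}
    (hS : ∀ L ∈ D, ∀ h ∈ R, h ^ p = 1 → h ∉ normalizer (L : Set G) → ∀ s ∈ S, s ∈ L →
      h * s * h⁻¹ ∈ S)
    {M : Subgroup G} (hM : M ∈ D) {f x : G} (hfR : f ∈ R) (hfp : f ^ p = 1)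
    (hfx : f * x = x * f) (h : At S M x) : At S (cj f M) x := by
  by_cases hn : f ∈ normalizer (M : Set G)
  · rw [cj_eq_iff.2 hn]
    exact h
  · obtain ⟨s, hs, hsM, hc⟩ := h
    refine ⟨f * s * f⁻¹, hS M hM f hfR hfp hn s hs hsM, cj_mul_mem hsM, ?_⟩
    rw [mem_centralizer_iff] at hc ⊢
    intro y hy
    have hy' : f⁻¹ * y * f ∈ M := mem_cj.1 hy
    have h1 := hc _ hy'
    have h2 : (f * s * f⁻¹)⁻¹ * x = f * (s⁻¹ * x) * f⁻¹ := by
      have h3 : f⁻¹ * x = x * f⁻¹ := by
        have := congrArg (fun z => f⁻¹ * z * f⁻¹) hfx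
        simp only [← mul_assoc, inv_mul_cancel, one_mul] at this
        simp only [mul_assoc, mul_inv_cancel, mul_one] at this
        exact this.symm
      calc (f * s * f⁻¹)⁻¹ * x = f * s⁻¹ * (f⁻¹ * x) := by group
        _ = f * s⁻¹ * (x * f⁻¹) := by rw [h3]
        _ = f * (s⁻¹ * x) * f⁻¹ := by group
    rw [h2]
    calc y * (f * (s⁻¹ * x) * f⁻¹) = f * ((f⁻¹ * y * f) * (s⁻¹ * x)) * f⁻¹ := by group
      _ = f * ((s⁻¹ * x) * (f⁻¹ * y * f)) * f⁻¹ := by rw [h1]
      _ = f * (s⁻¹ * x) * f⁻¹ * y := by group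

/-- a `p`-group `F ≤ R` that permutes the members of an orbit `O` of length `> 1`; an element `x`
centralizing `F` has `At S M x` for no or for all `M ∈ O`, so `p ∣ cnt S O x`. The length of the orbit
of `L` is the index of `{f ∈ F | cj f L = L}`, a power of `p` larger than `1`. -/
lemma Fam.dvd_cnt [hp : Fact p.Prime] [Finite G] {R : Subgroup G} {D : Set (Subgroup G)}
    (hD : Fam p R D) {S : Set G}
    (hS : ∀ L ∈ D, ∀ h ∈ R, h ^ p = 1 → h ∉ normalizer (L : Set G) → ∀ s ∈ S, s ∈ L →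
      h * s * h⁻¹ ∈ S)
    {F : Subgroup G} (hF : F ∈ ApS p G) (hFR : F ≤ R) {L : Subgroup G} (hL : L ∈ D)
    (hmove : ¬ F ≤ normalizer (L : Set G)) {x : G} (hx : x ∈ centralizer (F : Set G)) :
    p ∣ cnt S {M | ∃ f ∈ F, M = cj f L} x := by
  classical
  have hfx : ∀ f ∈ F, f * x = x * f := fun f hf => (mem_centralizer_iff.1 hx) f hf
  have hD' : ∀ f ∈ F, cj f L ∈ D := fun f hf => hD.conj L hL f (hFR hf)
  -- all or none
  have hall : ∀ f ∈ F, (At S (cj f L) x ↔ At S L x) := by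
    intro f hf
    constructor
    · intro h
      have h1 := orb_At_step hS (hD' f hf) (hFR (inv_mem hf)) (hF.2.2 _ (inv_mem hf))
        (hfx _ (inv_mem hf)) h
      rwa [← cj_mul, inv_mul_cancel, cj_one] at h1
    · intro h
      exact orb_At_step hS hL (hFR hf) (hF.2.2 _ hf) (hfx _ hf) h
  by_cases hat : At S L x
  · -- the whole orbit
    have hset : {M | M ∈ {M | ∃ f ∈ F, M = cj f L} ∧ At S M x} = {M | ∃ f ∈ F, M = cj f L} := by
      ext M
      constructor
      · exact fun h => h.1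
      · rintro ⟨f, hf, rfl⟩
        exact ⟨⟨f, hf, rfl⟩, (hall f hf).2 hat⟩
    unfold cnt
    rw [hset]
    let act : MulAction F (Subgroup G) :=
      { smul := fun f M => cj (f : G) M
        one_smul := fun M => cj_one M
        mul_smul := fun f g M => cj_mul (f : G) (g : G) M }
    have horb : {M | ∃ f ∈ F, M = cj f L} = MulAction.orbit F L := by
      ext M
      rw [MulAction.mem_orbit_iff]
      constructor
      · rintro ⟨f, hf, rfl⟩
        exact ⟨⟨f, hf⟩, rfl⟩
      · rintro ⟨f, rfl⟩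
        exact ⟨f, f.2, rfl⟩
    rw [horb]
    have hpG : IsPGroup p F := by
      intro g
      refine ⟨1, ?_⟩
      rw [pow_one]
      apply Subtype.ext
      simpa using hF.2.2 g g.2
    obtain ⟨n, hn⟩ := hpG.card_orbit (α := Subgroup G) L
    have hcard : (MulAction.orbit F L).ncard = p ^ n := by
      rw [← hn]
      rfl
    rw [hcard]
    rcases Nat.eq_zero_or_pos n with h0 | h0
    · exfalso
      rw [h0, pow_zero] at hcard
      obtain ⟨M, hM⟩ := Set.ncard_eq_one.1 hcard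
      apply hmove
      intro f hf
      rw [← cj_eq_iff]
      have h1 : cj f L ∈ MulAction.orbit F L := by rw [← horb]; exact ⟨f, hf, rfl⟩
      have h2 : L ∈ MulAction.orbit F L := MulAction.mem_orbit_self L
      rw [hM, Set.mem_singleton_iff] at h1 h2
      rw [h1, h2]
    · exact dvd_pow_self p h0.ne'
  · have hset : {M | M ∈ {M | ∃ f ∈ F, M = cj f L} ∧ At S M x} = ∅ := by
      ext M
      simp only [Set.mem_ofPred_eq, Set.mem_empty_iff_false, iff_false]
      rintro ⟨⟨f, hf, rfl⟩, h⟩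
      exact hat ((hall f hf).1 h)
    unfold cnt
    rw [hset, Set.ncard_empty]
    exact dvd_zero p

end

end Vale.Agent.P240.K
end

section

namespace Vale.Agent.P240.K

open Subgroup

section
variable {G : Type*} [Group G]

/-- The elements `z` of the subgroup generated by the members of `D` such that for every `L ∈ D` the
`L`-component of `z`, that is, the element `s ∈ L` acting on `L` like `z`, lies in `S`. -/
def Sel (D : Set (Subgroup G)) (S : Set G) : Set G :=
  {z | z ∈ ⨆ L ∈ D, L ∧ ∀ L ∈ D, ∃ s ∈ S, s ∈ L ∧ s⁻¹ * z ∈ centralizer (L : Set G)}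

/-- The centralizer of `z` in the group of all elements of `Rest F D` normalizing all `L ∈ D`. -/
def Cent0 (F D : Set (Subgroup G)) (z : G) : Subgroup G :=
  Cent F D z ⊓ ⨅ L ∈ D, normalizer (L : Set G)

end

end Vale.Agent.P240.K
end

section

namespace Vale.Agent.P240.K

open Finsupp Subgroup

section
variable {G : Type*} [Group G] {p : ℕ}

lemma stable_diff {D O : Set (Subgroup G)} {F : Subgroup G} (hO : ∀ f ∈ F, ∀ L ∈ O, cj f L ∈ O)
    (hD : ∀ f ∈ F, ∀ L ∈ D, cj f L ∈ D) : ∀ f ∈ F, ∀ L ∈ D \ O, cj f L ∈ D \ O := by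
  rintro f hf L ⟨h1, h2⟩
  refine ⟨hD f hf L h1, fun h => h2 ?_⟩
  have h3 := hO f⁻¹ (inv_mem hf) _ h
  rwa [← cj_mul, inv_mul_cancel, cj_one] at h3

lemma mem_normalizer_of_comm {A : Subgroup G} {g : G} (h : ∀ x ∈ A, g * x = x * g) :
    g ∈ normalizer (A : Set G) := mem_of_comm h

/-- zero sum over a stable nonempty part -/
lemma Fam.zero_sum [hp : Fact p.Prime] [Finite G] {R : Subgroup G} {D O : Set (Subgroup G)}
    (hD : Fam p R D) (hO : O ⊆ D) (hne : O.Nonempty) {F : Subgroup G} (hFp : IsPGroup p F)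
    (hFR : F ≤ R) (hF : ∀ f ∈ F, ∀ L ∈ O, cj f L ∈ O) {y : G}
    (hy : y ∈ Gn (D \ O) ⊓ centralizer (F : Set G)) :
    ∑ x ∈ (Set.toFinite ((Gn O ⊓ centralizer (F : Set G) : Subgroup G) : Set G)).toFinset,
      lam p (Gn D ⊓ centralizer (F : Set G)) (x * y) = 0 := by
  have hdis : Disjoint O (D \ O) := Set.disjoint_sdiff_right
  have hF' := stable_diff hF (fun f hf L hL => hD.conj L hL f (hFR hf))
  have hdec := hD.inf_centralizer hO Set.sdiff_subset hdis hF hF'
  rw [Set.union_sdiff_cancel hO] at hdec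
  set A : Subgroup G := Gn O ⊓ centralizer (F : Set G) with hA
  set B : Subgroup G := Gn (D \ O) ⊓ centralizer (F : Set G) with hB
  have hcomm : ∀ x ∈ A, ∀ y ∈ B, x * y = y * x := fun x hx y hy =>
    hD.gn_comm hO Set.sdiff_subset hdis x (Subgroup.mem_inf.1 hx).1 y (Subgroup.mem_inf.1 hy).1
  have hint : A ⊓ B = ⊥ := by
    rw [eq_bot_iff, ← hD.gn_inf hO Set.sdiff_subset hdis]
    exact inf_le_inf inf_le_left inf_le_left
  have hcard : p ∣ Nat.card A := by
    obtain ⟨L, hL⟩ := hne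
    refine dvd_card_inf_centralizer hFp (fun f hf => mem_normalizer_Gn (hF f hf)) ?_
    exact (hD.dvd L (hO hL)).trans (Subgroup.card_dvd_of_le (le_Gn hL))
  rw [hdec]
  have hterm : ∀ x ∈ (Set.toFinite (A : Set G)).toFinset,
      lam p (A ⊔ B) (x * y) = lam p A x * lam p B y := by
    intro x hx
    rw [Set.Finite.mem_toFinset] at hx
    have hyA : ∀ z ∈ A, y * z = z * y := fun z hz => (hcomm z hz y hy).symm
    have hxB : ∀ z ∈ B, x * z = z * x := fun z hz => hcomm x hx z hz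
    rw [lam_sup hcomm hint (mul_mem (Subgroup.le_normalizer hx) (mem_normalizer_of_comm hyA))
      (mul_mem (mem_normalizer_of_comm hxB) (Subgroup.le_normalizer hy)),
      lam_mul_right hyA, lam_mul_left hxB]
  rw [Finset.sum_congr rfl hterm, ← Finset.sum_mul, webb A hcard, zero_mul]

/-- sum over the fixed points: the general scheme -/
lemma Fam.sum_zero [hp : Fact p.Prime] [Finite G] {R : Subgroup G} {D O : Set (Subgroup G)}
    (hD : Fam p R D) (hO : O ⊆ D) (hne : O.Nonempty) {F : Subgroup G} (hFp : IsPGroup p F)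
    (hFR : F ≤ R) (hF : ∀ f ∈ F, ∀ L ∈ O, cj f L ∈ O) {K : Type*} [CommRing K] (φ : G → K)
    (hφ : ∀ x ∈ Gn O ⊓ centralizer (F : Set G), ∀ y ∈ Gn (D \ O) ⊓ centralizer (F : Set G),
      φ (x * y) = φ y) :
    ∑ g ∈ (Set.toFinite ((Gn D ⊓ centralizer (F : Set G) : Subgroup G) : Set G)).toFinset,
      φ g * (lam p (Gn D ⊓ centralizer (F : Set G)) g : K) = 0 := by
  have hdis : Disjoint O (D \ O) := Set.disjoint_sdiff_right
  have hF' := stable_diff hF (fun f hf L hL => hD.conj L hL f (hFR hf))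
  have hdec := hD.inf_centralizer hO Set.sdiff_subset hdis hF hF'
  rw [Set.union_sdiff_cancel hO] at hdec
  have hcomm : ∀ x ∈ Gn O ⊓ centralizer (F : Set G),
      ∀ y ∈ Gn (D \ O) ⊓ centralizer (F : Set G), x * y = y * x := fun x hx y hy =>
    hD.gn_comm hO Set.sdiff_subset hdis x (Subgroup.mem_inf.1 hx).1 y (Subgroup.mem_inf.1 hy).1
  have hint : (Gn O ⊓ centralizer (F : Set G)) ⊓ (Gn (D \ O) ⊓ centralizer (F : Set G)) = ⊥ := by
    rw [eq_bot_iff, ← hD.gn_inf hO Set.sdiff_subset hdis]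
    exact inf_le_inf inf_le_left inf_le_left
  have h1 : ∀ f : G → K,
      ∑ g ∈ (Set.toFinite ((Gn D ⊓ centralizer (F : Set G) : Subgroup G) : Set G)).toFinset, f g =
      ∑ g ∈ (Set.toFinite (((Gn O ⊓ centralizer (F : Set G)) ⊔
        (Gn (D \ O) ⊓ centralizer (F : Set G)) : Subgroup G) : Set G)).toFinset, f g := by
    intro f
    refine Finset.sum_congr ?_ fun _ _ => rfl
    ext g
    rw [Set.Finite.mem_toFinset, Set.Finite.mem_toFinset, hdec]
  rw [h1, sum_sup hcomm hint, Finset.sum_comm]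
  refine Finset.sum_eq_zero fun y hy => ?_
  rw [Set.Finite.mem_toFinset] at hy
  have h2 : ∀ x ∈ (Set.toFinite ((Gn O ⊓ centralizer (F : Set G) : Subgroup G) : Set G)).toFinset,
      φ (x * y) * (lam p (Gn D ⊓ centralizer (F : Set G)) (x * y) : K) =
        φ y * (lam p (Gn D ⊓ centralizer (F : Set G)) (x * y) : K) := by
    intro x hx
    rw [Set.Finite.mem_toFinset] at hx
    rw [hφ x hx y hy]
  rw [Finset.sum_congr rfl h2, ← Finset.mul_sum, ← Int.cast_sum,
    hD.zero_sum hO hne hFp hFR hF hy, Int.cast_zero, mul_zero]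

lemma isPGroup_of_ApS {F : Subgroup G} (hF : F ∈ ApS p G) : IsPGroup p F := fun x =>
  ⟨1, by rw [pow_one]; exact Subtype.ext (hF.2.2 x x.2)⟩

lemma isPGroup_of_ApB {F : Subgroup G} (hF : F ∈ ApB p G) : IsPGroup p F := by
  rcases hF with h | h
  · rw [h]; exact IsPGroup.of_bot
  · exact isPGroup_of_ApS h

lemma Fam.kill [hp : Fact p.Prime] [Finite G] {R : Subgroup G} {D : Set (Subgroup G)}
    (hD : Fam p R D) {S : Set G}
    (hS : ∀ L ∈ D, ∀ h ∈ R, h ^ p = 1 → h ∉ normalizer (L : Set G) → ∀ s ∈ S, s ∈ L →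
      h * s * h⁻¹ ∈ S)
    {K : Type*} [CommRing K] {ζ : K} (hζ : ζ ^ p = 1) {F : Subgroup G} (hF : F ∈ ApB p G)
    (hFR : F ≤ R) (hmove : ∃ L ∈ D, ¬ F ≤ normalizer (L : Set G)) :
    ∑ g ∈ (Set.toFinite ((Gn D ⊓ centralizer (F : Set G) : Subgroup G) : Set G)).toFinset,
      ζ ^ cnt S D g * (lam p (Gn D ⊓ centralizer (F : Set G)) g : K) = 0 := by
  obtain ⟨L, hL, hmv⟩ := hmove
  have hFS : F ∈ ApS p G := by
    rcases hF with h | h
    · exact absurd (by rw [h]; exact bot_le) hmv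
    · exact h
  have hO : {M | ∃ f ∈ F, M = cj f L} ⊆ D := by
    rintro M ⟨f, hf, rfl⟩
    exact hD.conj L hL f (hFR hf)
  have hst : ∀ f ∈ F, ∀ M ∈ {M | ∃ f ∈ F, M = cj f L}, cj f M ∈ {M | ∃ f ∈ F, M = cj f L} := by
    rintro f hf M ⟨f', hf', rfl⟩
    exact ⟨f * f', mul_mem hf hf', by rw [cj_mul]⟩
  refine hD.sum_zero hO ⟨L, 1, one_mem _, by rw [cj_one]⟩ (isPGroup_of_ApS hFS) hFR hst _ ?_
  intro x hx y hy
  have h1 := hD.cnt_mul hO Set.sdiff_subset Set.disjoint_sdiff_right S (Subgroup.mem_inf.1 hx).1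
    (Subgroup.mem_inf.1 hy).1
  rw [Set.union_sdiff_cancel hO] at h1
  have h2 := hD.cnt_mul hO Set.sdiff_subset Set.disjoint_sdiff_right S (one_mem (Gn _))
    (Subgroup.mem_inf.1 hy).1
  rw [Set.union_sdiff_cancel hO, one_mul] at h2
  obtain ⟨a, ha⟩ := hD.dvd_cnt hS hFS hFR hL hmv (Subgroup.mem_inf.1 hx).2
  obtain ⟨b, hb⟩ := hD.dvd_cnt hS hFS hFR hL hmv (one_mem (centralizer (F : Set G)))
  rw [h1, h2, ha, hb, pow_add, pow_add, pow_mul, pow_mul, hζ, one_pow, one_pow]

/-- exchange of sums -/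
lemma sum_attach [hp : Fact p.Prime] [Finite G] {H N : Subgroup G} (hNH : N ≤ H)
    (hN : ∀ h ∈ H, ∀ n ∈ N, h * n * h⁻¹ ∈ N) {K : Type*} [CommRing K] (φ : G → K) :
    ∑ g ∈ (Set.toFinite (N : Set G)).toFinset, φ g * (lam p H g : K) =
      ∑ F ∈ (Set.toFinite {F | F ∈ ApB p G ∧ F ≤ H ∧ F ⊓ N = ⊥}).toFinset,
        (mb p F : K) * ∑ g ∈ (Set.toFinite
          ((N ⊓ centralizer (F : Set G) : Subgroup G) : Set G)).toFinset,
            φ g * (lam p (N ⊓ centralizer (F : Set G)) g : K) := by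
  have h1 : ∀ g ∈ (Set.toFinite (N : Set G)).toFinset, φ g * (lam p H g : K) =
      ∑ F ∈ (Set.toFinite {F | F ∈ ApB p G ∧ F ≤ H ∧ F ⊓ N = ⊥ ∧
        F ≤ centralizer ({g} : Set G)}).toFinset,
        (mb p F : K) * (φ g * (lam p (N ⊓ centralizer (F : Set G)) g : K)) := by
    intro g hg
    rw [Set.Finite.mem_toFinset] at hg
    rw [lam_attach hNH hN hg]
    push_cast
    rw [Finset.mul_sum]
    exact Finset.sum_congr rfl fun F _ => by ring
  rw [Finset.sum_congr rfl h1]
  simp only [Finset.mul_sum]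
  refine Finset.sum_comm' ?_
  intro g F
  rw [Set.Finite.mem_toFinset, Set.Finite.mem_toFinset, Set.Finite.mem_toFinset,
    Set.Finite.mem_toFinset]
  have h2 : F ≤ centralizer ({g} : Set G) ↔ g ∈ centralizer (F : Set G) := by
    constructor
    · intro h
      rw [mem_centralizer_iff]
      intro f hf
      exact ((mem_centralizer_iff.1 (h hf)) g rfl).symm
    · intro h f hf
      rw [mem_centralizer_iff]
      intro y hy
      rw [Set.mem_singleton_iff.1 hy]
      exact ((mem_centralizer_iff.1 h) f hf).symm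
  constructor
  · rintro ⟨hg, h3, h4, h5, h6⟩
    exact ⟨Subgroup.mem_inf.2 ⟨hg, h2.1 h6⟩, h3, h4, h5⟩
  · rintro ⟨hg, h3, h4, h5⟩
    exact ⟨(Subgroup.mem_inf.1 hg).1, h3, h4, h5, h2.2 (Subgroup.mem_inf.1 hg).2⟩

lemma Fam.gn_le {R : Subgroup G} {D : Set (Subgroup G)} (hD : Fam p R D) : Gn D ≤ R :=
  iSup₂_le hD.le

lemma Fam.gn_normal [Finite G] {R : Subgroup G} {D : Set (Subgroup G)} (hD : Fam p R D) :
    ∀ h ∈ R, ∀ n ∈ Gn D, h * n * h⁻¹ ∈ Gn D := by
  intro h hh n hn
  have h1 : h ∈ normalizer (Gn D : Set G) := mem_normalizer_Gn fun L hL => hD.conj L hL h hh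
  exact (mem_normalizer_iff.1 h1 n).1 hn

/-- the elements of `R` normalizing all members of `D` -/
def Rz (R : Subgroup G) (D : Set (Subgroup G)) : Subgroup G :=
  R ⊓ ⨅ L ∈ D, normalizer (L : Set G)

lemma mem_Rz {R : Subgroup G} {D : Set (Subgroup G)} {x : G} :
    x ∈ Rz R D ↔ x ∈ R ∧ ∀ L ∈ D, x ∈ normalizer (L : Set G) := by
  rw [Rz, Subgroup.mem_inf]
  simp only [mem_iInf]

lemma Fam.gn_le_Rz {R : Subgroup G} {D : Set (Subgroup G)} (hD : Fam p R D) :
    Gn D ≤ Rz R D := by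
  refine iSup₂_le fun M hM x hx => mem_Rz.2 ⟨hD.le M hM hx, fun L hL => ?_⟩
  by_cases h : M = L
  · rw [← h]; exact Subgroup.le_normalizer hx
  · exact mem_of_comm fun y hy => hD.comm M hM L hL h x hx y hy

lemma Fam.mass_zero [hp : Fact p.Prime] [Finite G] {R : Subgroup G} {D J : Set (Subgroup G)}
    (hD : Fam p R D) (S : Set G) (hJ : J ⊆ D) (hne : J ≠ D) {K : Type*} [CommRing K] (ψ : G → K)
    (hψ : ∀ L ∈ D, L ∉ J → ∀ x ∈ L, ∀ y, ψ (x * y) = ψ y) :
    ∑ g ∈ (Set.toFinite (Gn D : Set G)).toFinset, ψ g * (lam p (Rz R D) g : K) = 0 := by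
  obtain ⟨M, hM, hMJ⟩ : ∃ M ∈ D, M ∉ J := by
    by_contra h
    push Not at h
    exact hne (Set.Subset.antisymm hJ h)
  rw [sum_attach hD.gn_le_Rz (fun h hh => hD.gn_normal h (mem_Rz.1 hh).1)]
  refine Finset.sum_eq_zero fun F hF => ?_
  rw [Set.Finite.mem_toFinset] at hF
  have hO : ({M} : Set (Subgroup G)) ⊆ D := by
    intro L hL
    rw [Set.mem_singleton_iff.1 hL]
    exact hM
  rw [hD.sum_zero hO ⟨M, rfl⟩ (isPGroup_of_ApB hF.1) (hF.2.1.trans inf_le_left) ?_ ψ ?_, mul_zero]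
  · intro f hf L hL
    rw [Set.mem_singleton_iff.1 hL, Set.mem_singleton_iff, cj_eq_iff]
    exact (mem_Rz.1 (hF.2.1 hf)).2 M hM
  · intro x hx y hy
    refine hψ M hM hMJ x ?_ y
    have h1 := (Subgroup.mem_inf.1 hx).1
    rw [Gn] at h1
    simpa using h1

/-- permutations do not contribute -/
theorem Fam.trick_one [hp : Fact p.Prime] [Finite G] {R : Subgroup G} {D : Set (Subgroup G)}
    (hD : Fam p R D) {S : Set G}
    (hS : ∀ L ∈ D, ∀ h ∈ R, h ^ p = 1 → h ∉ normalizer (L : Set G) → ∀ s ∈ S, s ∈ L →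
      h * s * h⁻¹ ∈ S)
    {K : Type*} [CommRing K] {ζ : K} (hζ : ζ ^ p = 1) :
    ∑ g ∈ (Set.toFinite (Gn D : Set G)).toFinset, ζ ^ cnt S D g * (lam p R g : K) =
      ∑ g ∈ (Set.toFinite (Gn D : Set G)).toFinset, ζ ^ cnt S D g * (lam p (Rz R D) g : K) := by
  rw [sum_attach hD.gn_le hD.gn_normal,
    sum_attach hD.gn_le_Rz (fun h hh => hD.gn_normal h (mem_Rz.1 hh).1)]
  symm
  refine Finset.sum_subset ?_ ?_
  · intro F hF
    rw [Set.Finite.mem_toFinset] at hF ⊢
    exact ⟨hF.1, hF.2.1.trans inf_le_left, hF.2.2⟩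
  · intro F hF hF'
    rw [Set.Finite.mem_toFinset] at hF hF'
    rw [hD.kill hS hζ hF.1 hF.2.1 ?_, mul_zero]
    by_contra h
    push Not at h
    exact hF' ⟨hF.1, fun x hx => mem_Rz.2 ⟨hF.2.1 hx, fun L hL => h L hL hx⟩, hF.2.2⟩

/-- **The trick**: a twisted sum of Lefschetz numbers does not see the permutations. -/
theorem Fam.trick [hp : Fact p.Prime] [Finite G] {R : Subgroup G} {D : Set (Subgroup G)}
    (hD : Fam p R D) {S : Set G}
    (hS : ∀ L ∈ D, ∀ h ∈ R, h ^ p = 1 → h ∉ normalizer (L : Set G) → ∀ s ∈ S, s ∈ L →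
      h * s * h⁻¹ ∈ S)
    {K : Type*} [CommRing K] {ζ : K} (hζ : ζ ^ p = 1) :
    ∑ g ∈ (Set.toFinite (Gn D : Set G)).toFinset, ζ ^ cnt S D g * (lam p R g : K) =
      (ζ - 1) ^ D.ncard *
        ∑ g ∈ (Set.toFinite (Sel D S)).toFinset, (lam p (Rz R D) g : K) := by
  classical
  rw [hD.trick_one hS hζ]
  have hfin : D.Finite := Set.toFinite D
  have hpow : ∀ g : G, ζ ^ cnt S D g = ∑ J ∈ hfin.toFinset.powerset,
      (ζ - 1) ^ J.card * (if ∀ L ∈ J, At S L g then (1 : K) else 0) := by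
    intro g
    have h1 : ζ ^ cnt S D g = ∏ L ∈ hfin.toFinset, (1 + if At S L g then ζ - 1 else 0) := by
      have h2 : ∀ L ∈ hfin.toFinset, (1 + if At S L g then ζ - 1 else 0) =
          if At S L g then ζ else 1 := by
        intro L _
        split_ifs <;> ring
      rw [Finset.prod_congr rfl h2, Finset.prod_ite, Finset.prod_const, Finset.prod_const_one,
        mul_one]
      congr 1
      rw [cnt, Set.ncard_eq_toFinset_card _ (Set.toFinite _)]
      congr 1
      ext L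
      rw [Set.Finite.mem_toFinset, Finset.mem_filter, Set.Finite.mem_toFinset]
      rfl
    rw [h1, Finset.prod_one_add]
    refine Finset.sum_congr rfl fun J _ => ?_
    rw [Finset.prod_ite_zero, Finset.prod_const]
    split_ifs <;> ring
  have hstep : ∀ J ∈ hfin.toFinset.powerset, J ≠ hfin.toFinset →
      ∑ g ∈ (Set.toFinite (Gn D : Set G)).toFinset,
        (ζ - 1) ^ J.card * (if ∀ L ∈ J, At S L g then (1 : K) else 0) *
          (lam p (Rz R D) g : K) = 0 := by
    intro J hJ hne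
    rw [Finset.mem_powerset] at hJ
    have hJD : (J : Set (Subgroup G)) ⊆ D := by
      intro L hL
      exact (Set.Finite.mem_toFinset hfin).1 (hJ hL)
    refine hD.mass_zero S hJD ?_ (fun g => (ζ - 1) ^ J.card *
      (if ∀ L ∈ J, At S L g then (1 : K) else 0)) ?_
    · intro h
      apply hne
      ext L
      rw [Set.Finite.mem_toFinset, ← h]
      rfl
    · intro M hM hMJ x hx y
      have h1 : (∀ L ∈ J, At S L (x * y)) ↔ ∀ L ∈ J, At S L y := by
        refine forall₂_congr fun L hL => At_mul_left ?_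
        rw [mem_centralizer_iff]
        intro z hz
        refine hD.comm L (hJD hL) M hM ?_ z hz x hx
        rintro rfl
        exact hMJ hL
      simp only [h1]
  have hsum : ∑ g ∈ (Set.toFinite (Gn D : Set G)).toFinset,
      ζ ^ cnt S D g * (lam p (Rz R D) g : K) =
      ∑ g ∈ (Set.toFinite (Gn D : Set G)).toFinset,
        (ζ - 1) ^ hfin.toFinset.card *
          (if ∀ L ∈ hfin.toFinset, At S L g then (1 : K) else 0) * (lam p (Rz R D) g : K) := by
    rw [Finset.sum_congr rfl fun g _ => by rw [hpow g, Finset.sum_mul], Finset.sum_comm]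
    exact Finset.sum_eq_single _ hstep fun h => absurd (Finset.mem_powerset.2 subset_rfl) h
  rw [hsum, ← Set.ncard_eq_toFinset_card D hfin, Finset.mul_sum]
  have h5 : ∀ g ∈ (Set.toFinite (Gn D : Set G)).toFinset,
      (ζ - 1) ^ D.ncard * (if ∀ L ∈ hfin.toFinset, At S L g then (1 : K) else 0) *
        (lam p (Rz R D) g : K) =
      if g ∈ Sel D S then (ζ - 1) ^ D.ncard * (lam p (Rz R D) g : K) else 0 := by
    intro g hg
    rw [Set.Finite.mem_toFinset] at hg
    have h6 : (∀ L ∈ hfin.toFinset, At S L g) ↔ g ∈ Sel D S := by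
      constructor
      · intro h
        exact ⟨hg, fun L hL => h L ((Set.Finite.mem_toFinset hfin).2 hL)⟩
      · intro h L hL
        exact h.2 L ((Set.Finite.mem_toFinset hfin).1 hL)
    by_cases h7 : g ∈ Sel D S
    · rw [if_pos h7, if_pos (h6.2 h7), mul_one]
    · rw [if_neg h7, if_neg (fun h => h7 (h6.1 h)), mul_zero, zero_mul]
  rw [Finset.sum_congr rfl h5, ← Finset.sum_filter]
  refine Finset.sum_congr ?_ fun _ _ => rfl
  ext g
  rw [Finset.mem_filter, Set.Finite.mem_toFinset, Set.Finite.mem_toFinset]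
  exact ⟨fun h => h.2, fun h => ⟨h.1, h⟩⟩

end

end Vale.Agent.P240.K
end

section

/-!
P240-W9. The sign of the Euler characteristic of a solvable-by-Cohen-Macaulay group is `(-1)` to the
`p`-rank.

`cm_sign_aux`: this is exactly what the proof of `cm_ne_zero` (in `Vale/Agent/P240/K/CM.lean`, and in
`Bdl/B6.lean` or one of the other `Bdl` files) shows (its local fact `hkey`), where `m` is the number of
the definition `CohenMacaulay`; copy that proof. In addition:
(a) every `E ∈ ApB p G` has `Nat.card E = p ^ j` with `j ≤ m`: `E` is mapped injectively to `G ⧸ W` (it meets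
the `p'`-group `W` trivially) and its image lies in `ApB p (G ⧸ W)`, now use the definition;
(b) there is `E ∈ ApB p G` with `Nat.card E = p ^ m`: take `F ∈ ApB p (G ⧸ W)` of largest order `p ^ k`;
if `k < m`, then `LowAcyclic {A : Ap p S // F < A.1} (m - k)` at degree `n = 0` applied to the chain
`Finsupp.single [] 1` (a cycle: `bd` of it is `0`) gives a chain `b` of length-one lists in the EMPTY type
with `bd b = single [] 1`, impossible (`b = 0`). So `k = m`. Lift `F` to `G`: in the subgroup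
`F.comap (mk' W)` the normal subgroup `W` has order prime to the order of the quotient `F`, so it has a
complement (Schur-Zassenhaus, `Subgroup.exists_right_complement'_of_coprime`), isomorphic to `F`,
so in `ApB p G`. (Or use the subgroup `P` built in `eu_comap_pos`, whose image is `F`.)

`cm_sign`: by (a), (b) the `p`-rank `k` is `m`; `euler_Ap : euler p H = eu (ApS p H)`.
-/

namespace Vale.Agent.P240.K

open Finsupp Subgroup

universe u

section
variable {G : Type u} [Group G] {p : ℕ}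

lemma cs_apB {E : Subgroup G} : E ∈ ApB p G ↔
    (∀ x ∈ E, ∀ y ∈ E, x * y = y * x) ∧ ∀ x ∈ E, x ^ p = 1 := by
  constructor
  · rintro (h | h)
    · subst h
      refine ⟨fun x hx y hy => ?_, fun x hx => ?_⟩
      · rw [mem_bot] at hx hy
        rw [hx, hy]
      · rw [mem_bot] at hx
        rw [hx, one_pow]
    · exact h.2
  · intro h
    by_cases hE : E = ⊥
    · exact Or.inl hE
    · exact Or.inr ⟨hE, h⟩

end

end Vale.Agent.P240.K
end

section

namespace Vale.Agent.P240.K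

open Finsupp Subgroup

universe u v

variable {𝕜 : Type v} [Field 𝕜]

section
variable {G : Type u} [Group G] {p : ℕ}

lemma family_Fam {F : Set (Subgroup G)} (hF : Family p F) {D : Set (Subgroup G)} (hDF : D ⊆ F)
    (hconj : ∀ L ∈ D, ∀ g : G, L.map (MulAut.conj g).toMonoidHom ∈ D) :
    Fam p (Rest F D) D where
  le := fun L hL => le_Rest fun M hM hMD => by
    intro x hx
    rw [mem_centralizer_iff]
    intro y hy
    refine hF.comm M hM L (hDF hL) ?_ y hy x hx
    rintro rfl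
    exact hMD hL
  conj := fun L hL g _ => hconj L hL g
  comm := fun L hL M hM h => hF.comm L (hDF hL) M (hDF hM) h
  centre := fun L hL => hF.centre L (hDF hL)
  dvd := fun L hL => hF.dvd L (hDF hL)

/-- the residue argument: reduction to `Rest F D` -/
theorem residue_lam [Fact p.Prime] [Finite G] {F : Set (Subgroup G)} (hF : Family p F)
    {T D : Set (Subgroup G)} (hTF : T ⊆ F) (hDT : ∀ L ∈ D, L ∉ T) {r : ℕ} (hrp : r ≠ p)
    (hT : ∀ L ∈ F, L ∉ T → L ∉ D → r.Prime ∧ FreeSub p r L)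
    (hac : ¬ NA ℚ (Ain p (Cen T))) {g : G} (hg : g ∈ Rest F D) :
    (r : ℤ) ∣ lam p (Rest F D) g := by
  classical
  have hRC : Rest F D ≤ Cen T := by
    intro x hx
    rw [mem_Cen]
    exact fun L hL => mem_Rest.1 hx L (hTF hL) fun h => hDT L h hL
  have hS : (Ain p (Cen T)).Finite := Set.toFinite _
  have hlef := lefschetz (σ := cj g) (S := Ain p (Cen T)) (fun E hE => cj_mem_Ain (hRC hg) hE)
    (fun x _ y _ h => cj_lt.2 h) hS hac (Nat.lt_succ_self _)
  have hfixfin : {E | E ∈ Ain p (Cen T) ∧ cj g E = E}.Finite := Set.toFinite _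
  rw [K.eu_eq hfixfin] at hlef
  swap
  · rw [← Nat.card_eq_card_finite_toFinset hS]
    exact (Nat.card_mono hS fun E hE => hE.1).trans (Nat.le_succ _)
  by_cases hr : r.Prime
  swap
  · have h1 : {E | E ∈ Ain p (Rest F D) ∧ g ∈ normalizer (E : Set G)} =
        {E | E ∈ Ain p (Cen T) ∧ cj g E = E} := by
      ext E
      constructor
      · rintro ⟨h1, h2⟩
        exact ⟨⟨h1.1, h1.2.trans hRC⟩, cj_eq_iff.2 h2⟩
      · rintro ⟨h1, h2⟩
        refine ⟨⟨h1.1, le_Rest fun L hL hLD => ?_⟩, cj_eq_iff.1 h2⟩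
        by_cases hLT : L ∈ T
        · exact fun x hx => mem_Cen.1 (h1.2 hx) L hLT
        · exact absurd (hT L hL hLT hLD).1 hr
    rw [lam, h1, hlef]
    exact dvd_zero _
  have : Fact r.Prime := ⟨hr⟩
  have hT' : ∀ L ∈ F, L ∉ T → L ∉ D → FreeSub p r L := fun L h1 h2 h3 => (hT L h1 h2 h3).2
  choose! U hUL hU hfree using hT'
  have hgrp : ∀ B : Set (Subgroup G), B.Finite → B ⊆ {L | L ∈ F ∧ L ∉ T ∧ L ∉ D} →
      IsPGroup r (⨆ L ∈ B, U L : Subgroup G) := by
    intro B hfin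
    induction B, hfin using Set.Finite.induction_on with
    | empty =>
      intro _
      have hb : (⨆ L ∈ (∅ : Set (Subgroup G)), U L : Subgroup G) = ⊥ := by simp
      rw [hb]
      exact IsPGroup.of_bot
    | @insert L B hLB _ ih =>
      intro hsub
      rw [iSup_insert]
      have hL := hsub (Set.mem_insert _ _)
      refine IsPGroup.to_sup_of_normal_left' (hU L hL.1 hL.2.1 hL.2.2)
        (ih fun M hM => hsub (Set.mem_insert_of_mem _ hM)) ?_
      refine iSup₂_le fun M hM => ?_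
      have hM' := hsub (Set.mem_insert_of_mem _ hM)
      intro y hy
      have hne : L ≠ M := by
        rintro rfl
        exact hLB hM
      refine mem_of_comm fun x hx => ?_
      exact (hF.comm L hL.1 M hM'.1 hne x (hUL L hL.1 hL.2.1 hL.2.2 hx) y
        (hUL M hM'.1 hM'.2.1 hM'.2.2 hy)).symm
  set W : Subgroup G := ⨆ L ∈ {L | L ∈ F ∧ L ∉ T ∧ L ∉ D}, U L with hW
  have hWp : IsPGroup r W := hgrp _ (Set.toFinite _) (Set.Subset.refl _)
  have hWC : W ≤ Cen T := by
    refine iSup₂_le fun M hM => ?_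
    exact (hUL M hM.1 hM.2.1 hM.2.2).trans (hF.le_Cen hTF hM.1 hM.2.1)
  have hWR : ∀ u ∈ W, ∀ x ∈ Rest F D, u * x = x * u := by
    have h1 : W ≤ centralizer ((Rest F D : Subgroup G) : Set G) := by
      refine iSup₂_le fun M hM => ?_
      intro u hu
      rw [mem_centralizer_iff]
      intro x hx
      exact ((mem_centralizer_iff.1 (mem_Rest.1 hx M hM.1 hM.2.2)) u
        (hUL M hM.1 hM.2.1 hM.2.2 hu)).symm
    intro u hu x hx
    exact ((mem_centralizer_iff.1 (h1 hu)) x hx).symm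
  have hmod := eu_mod (r := r) (S := {E | E ∈ Ain p (Cen T) ∧ cj g E = E}) W hWp ?_
  swap
  · rintro u hu E ⟨h1, h2⟩
    refine ⟨cj_mem_Ain (hWC hu) h1, ?_⟩
    rw [← cj_mul, ← hWR u hu g hg, cj_mul, h2]
  rw [hlef, zero_sub, dvd_neg] at hmod
  have h1 : {E | E ∈ Ain p (Rest F D) ∧ g ∈ normalizer (E : Set G)} =
      {E | E ∈ {E | E ∈ Ain p (Cen T) ∧ cj g E = E} ∧ W ≤ normalizer (E : Set G)} := by
    ext E
    constructor
    · rintro ⟨h1, h2⟩
      refine ⟨⟨⟨h1.1, h1.2.trans hRC⟩, cj_eq_iff.2 h2⟩, ?_⟩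
      intro u hu
      exact mem_of_comm fun y hy => hWR u hu y (h1.2 hy)
    · rintro ⟨⟨h1, h2⟩, h3⟩
      refine ⟨⟨h1.1, le_Rest fun L hL hLD => ?_⟩, cj_eq_iff.1 h2⟩
      by_cases hLT : L ∈ T
      · exact fun x hx => mem_Cen.1 (h1.2 hx) L hLT
      · have hle : U L ≤ W :=
          le_iSup₂_of_le (f := fun L (_ : L ∈ {L | L ∈ F ∧ L ∉ T ∧ L ∉ D}) => U L) L
            ⟨hL, hLT, hLD⟩ le_rfl
        exact free_spec hrp (hF.compLike hL) (hUL L hL hLT hLD) (hU L hL hLT hLD)
          (hfree L hL hLT hLD) E h1.1 (hle.trans h3)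
  rw [lam, h1]
  exact hmod

/-- the twisted sum modulo `r` -/
theorem twisted [hp : Fact p.Prime] [Finite G] {R : Subgroup G} {D : Set (Subgroup G)}
    (hD : Fam p R D) {S : Set G}
    (hS : ∀ L ∈ D, ∀ h ∈ R, h ^ p = 1 → h ∉ normalizer (L : Set G) → ∀ s ∈ S, s ∈ L →
      h * s * h⁻¹ ∈ S)
    {r : ℕ} (hrp : r ≠ p) (hr : r = 0 ∨ r.Prime) (hdvd : ∀ g ∈ R, (r : ℤ) ∣ lam p R g) :
    (r : ℤ) ∣ ∑ g ∈ (Set.toFinite (Sel D S)).toFinset, lam p (Rz R D) g := by
  -- a field of characteristic `r` with a primitive `p`-th root of unity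
  obtain ⟨K, hK, hchar, ζ, hζ⟩ : ∃ (K : Type) (_ : Field K) (_ : CharP K r) (ζ : K),
      IsPrimitiveRoot ζ p := by
    rcases hr with rfl | hr
    · exact ⟨ℂ, inferInstance, inferInstance, _, Complex.isPrimitiveRoot_exp p hp.out.ne_zero⟩
    · have : Fact r.Prime := ⟨hr⟩
      have hne : NeZero ((p : ℕ) : AlgebraicClosure (ZMod r)) := by
        refine ⟨fun h => hrp ?_⟩
        rw [CharP.cast_eq_zero_iff (AlgebraicClosure (ZMod r)) r] at h
        exact (Nat.prime_dvd_prime_iff_eq hr hp.out).1 h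
      obtain ⟨ζ, hζ⟩ := HasEnoughRootsOfUnity.exists_primitiveRoot (AlgebraicClosure (ZMod r)) p
      exact ⟨AlgebraicClosure (ZMod r), inferInstance, inferInstance, ζ, hζ⟩
  have h1 := hD.trick hS (K := K) hζ.pow_eq_one
  have h2 : ∑ g ∈ (Set.toFinite (Gn D : Set G)).toFinset, ζ ^ cnt S D g * (lam p R g : K) = 0 := by
    refine Finset.sum_eq_zero fun g hg => ?_
    rw [Set.Finite.mem_toFinset] at hg
    rw [(CharP.intCast_eq_zero_iff K r _).2 (hdvd g (hD.gn_le hg)), mul_zero]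
  rw [h2] at h1
  rcases mul_eq_zero.1 h1.symm with h | h
  · exact absurd h (pow_ne_zero _ (sub_ne_zero.2 (hζ.ne_one hp.out.one_lt)))
  · rw [← CharP.intCast_eq_zero_iff K r]
    push_cast
    exact h

/-- **Products of class functions**: permutations of the components are allowed. -/
theorem prod_main [hp : Fact p.Prime] [Finite G] {F : Set (Subgroup G)} (hF : Family p F)
    {D : Set (Subgroup G)} (hDF : D ⊆ F)
    (hconj : ∀ L ∈ D, ∀ g : G, L.map (MulAut.conj g).toMonoidHom ∈ D) {S : Set G}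
    (hS : ∀ L ∈ D, ∀ h ∈ Rest F D, h ^ p = 1 → h ∉ normalizer (L : Set G) → ∀ s ∈ S, s ∈ L →
      h * s * h⁻¹ ∈ S)
    {r : ℕ} (hrp : r ≠ p)
    (hno : ¬ (r : ℤ) ∣ ∑ g ∈ (Set.toFinite (Sel D S)).toFinset, lam p (Rz (Rest F D) D) g)
    (hT : ∀ L ∈ F, L ∈ D ∨ Removable 𝕜 p L ∨ (r.Prime ∧ FreeSub p r L)) : HQ 𝕜 p G := by
  rw [HQ_iff]
  refine remove hF (T := {L | L ∈ F ∧ L ∉ D ∧ Removable 𝕜 p L}) (fun L hL => hL.1)
    (fun L hL => hL.2.2) (NA_of_rat (Set.toFinite _) ?_)
  by_contra hac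
  apply hno
  have hT' : ∀ L ∈ F, L ∉ {L | L ∈ F ∧ L ∉ D ∧ Removable 𝕜 p L} → L ∉ D →
      r.Prime ∧ FreeSub p r L := by
    intro L hL hLT hLD
    rcases hT L hL with h | h | h
    · exact absurd h hLD
    · exact absurd ⟨hL, hLD, h⟩ hLT
    · exact h
  by_cases hr : r.Prime
  · exact twisted (family_Fam hF hDF hconj) hS hrp (Or.inr hr) fun g hg =>
      residue_lam hF (fun L hL => hL.1) (fun L hL h => h.2.1 hL) hrp hT' hac hg
  · have h0 : ((0 : ℕ) : ℤ) ∣ ∑ g ∈ (Set.toFinite (Sel D S)).toFinset,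
        lam p (Rz (Rest F D) D) g :=
      twisted (family_Fam hF hDF hconj) hS hp.out.ne_zero.symm (Or.inl rfl) fun g hg =>
        residue_lam hF (fun L hL => hL.1) (fun L hL h => h.2.1 hL) hp.out.ne_zero.symm
          (fun L h1 h2 h3 => absurd (hT' L h1 h2 h3).1 hr) hac hg
    rw [Nat.cast_zero, zero_dvd_iff] at h0
    rw [h0]
    exact dvd_zero _

end

end Vale.Agent.P240.K
end

section

namespace Vale.Agent.P240.K

open Finsupp Subgroup

universe u v

variable {𝕜 : Type v} [Field 𝕜]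

section
variable {G : Type u} [Group G] {p : ℕ}

lemma Cent0_eq (F D : Set (Subgroup G)) (z : G) :
    Cent0 F D z = Rz (Rest F D) D ⊓ centralizer {z} := by
  rw [Cent0, Cent, Rz, inf_right_comm]

/-- elementary abelian subgroups normalized by a good element -/
lemma GoodElement.fixed [hp : Fact p.Prime] [Finite G] {F : Set (Subgroup G)}
    (hF : Family p F) {D : Set (Subgroup G)} {z : G} (hz : GoodElement p F D z)
    {E : Subgroup G} (hE : E ∈ ApS p G) (hzE : z ∈ normalizer (E : Set G)) :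
    E ⊓ centralizer {z} ∈ ApS p G := by
  have hw : FreeWeight p (F \ D) (∅ : Set (Subgroup G)) (fun _ : G => (0 : ℂ)) :=
    { sub := Set.empty_subset _
      conj := fun L hL => absurd hL (Set.notMem_empty L)
      inv := fun _ _ _ => rfl
      free := fun L hL => absurd hL (Set.notMem_empty L)
      sum := fun L hL => absurd hL (Set.notMem_empty L)
      pow := fun L hL => absurd hL (Set.notMem_empty L) }
  have h := fixed_prod (c := fun _ => 1) hF hz hw (fun L hL => absurd hL (Set.notMem_empty L))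
    (fun L hL => absurd hL (Set.notMem_empty L)) (d := 1) (one_mem _)
    (fun L hL => absurd hL (Set.notMem_empty L)) hE (by rw [mul_one]; exact hzE)
  rwa [mul_one] at h

/-- coreflection to the centralizer of the good element -/
lemma GoodElement.lam_eq' [hp : Fact p.Prime] [Finite G] {F : Set (Subgroup G)}
    (hF : Family p F) {D : Set (Subgroup G)} {z : G} (hz : GoodElement p F D z)
    (K : Subgroup G) : lam p K z = eu (Ain p (K ⊓ centralizer {z})) := by
  rw [lam]
  refine eu_coreflect (fun E => E ⊓ centralizer {z}) _ _ _ (Set.toFinite _) rfl ?_ ?_ ?_ ?_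
  · rintro E ⟨hE1, hE2⟩
    exact ⟨⟨hE1, hE2.trans inf_le_left⟩, mem_of_comm fun y hy =>
      (mem_centralizer_iff.1 (Subgroup.mem_inf.1 (hE2 hy)).2) z rfl⟩
  · rintro E ⟨⟨hE1, hE2⟩, hE3⟩
    exact ⟨hz.fixed hF hE1 hE3, le_inf (inf_le_left.trans hE2) inf_le_right⟩
  · intro E _
    exact inf_le_left
  · rintro E _ Y ⟨hY1, hY2⟩ hYE
    exact le_inf hYE (hY2.trans inf_le_right)

lemma GoodElement.lam_eq [hp : Fact p.Prime] [Finite G] {F : Set (Subgroup G)}
    (hF : Family p F) {D : Set (Subgroup G)} {z : G} (hz : GoodElement p F D z) :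
    lam p (Rz (Rest F D) D) z = eu (Ain p (Cent0 F D z)) := by
  rw [hz.lam_eq' hF, Cent0_eq]

end

end Vale.Agent.P240.K
end

section

/-!
P240-L1. Groups `C` with a solvable normal `p'`-subgroup `W` such that the elements of order `p` commute modulo
`W` and act nontrivially on `W`: the sign of `eu (Ain p C)` (`eu` = minus the reduced Euler characteristic,
`Ain p C` = the nontrivial elementary abelian `p`-subgroups contained in `C`).

`comm_sign`: in `H ⧸ W` let `F = {v | v ^ p = 1}`. Every `v ∈ F` is the image of some `e : H` with `e ^ p = 1`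
(take `x` over `v`, `x ^ p ∈ W`, `m = Nat.card W` prime to `p`, choose `j` with `m * j ≡ 1 [MOD p]`, put
`e = x ^ (m * j)`; `e ^ p = (x ^ p) ^ (m * j) = 1`, and `e`, `x` have the same image as `v ^ (m * j) = v`).
So `F` is an abelian subgroup of exponent `p`, i.e. `F ∈ ApB p (H ⧸ W)`, `Nat.card F = p ^ k` (cf. `cs_apB`;
`IsPGroup.iff_card`). `Om = F.comap (mk' W)`; `Nat.card Om = p ^ k * Nat.card W` (e.g. `Subgroup.card_comap` ...).
All `x` with `x ^ p = 1` are in `Om`, so `ApS p H = Ain p Om` and `eu_comap_pos` (K/CM.lean) gives the sign.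

`comm_sign_sub`: apply `comm_sign` to `H = C` (a subgroup of `G`) and `W.subgroupOf C`, and transport:
`eu_sub : eu (Ain p H) = eu (ApS p H)` (K/Elements.lean), `Om.map C.subtype`.
-/

namespace Vale.Agent.P240.K

open Finsupp Subgroup

universe u

section
variable {G : Type u} [Group G] {p : ℕ}

lemma l1_lift [hp : Fact p.Prime] [Finite G] {W : Subgroup G} [hW : W.Normal]
    (hpW : ¬ p ∣ Nat.card W) {v : G ⧸ W} (hv : v ^ p = 1) :
    ∃ e : G, e ^ p = 1 ∧ (e : G ⧸ W) = v := by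
  obtain ⟨x, rfl⟩ := QuotientGroup.mk_surjective v
  have hxW : x ^ p ∈ W := by
    rw [← QuotientGroup.eq_one_iff, QuotientGroup.mk_pow]
    exact hv
  have hcop : Nat.Coprime (Nat.card W) p :=
    ((Nat.Prime.coprime_iff_not_dvd hp.out).2 hpW).symm
  obtain ⟨j, -, hj⟩ := Nat.exists_mul_mod_eq_one_of_coprime hcop hp.out.one_lt
  have h1 : (x ^ p) ^ Nat.card W = 1 := by
    have h2 : (⟨x ^ p, hxW⟩ : W) ^ Nat.card W = 1 := pow_card_eq_one'
    exact congrArg Subtype.val h2
  refine ⟨x ^ (Nat.card W * j), ?_, ?_⟩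
  · rw [← pow_mul, mul_comm (Nat.card W * j) p, ← mul_assoc, pow_mul, pow_mul, h1, one_pow]
  · have h3 : Nat.card W * j = p * (Nat.card W * j / p) + 1 := by
      conv_lhs => rw [← Nat.div_add_mod (Nat.card W * j) p, hj]
    rw [h3, QuotientGroup.mk_pow, pow_succ, pow_mul, hv, one_pow, one_mul]

lemma comm_sign [hp : Fact p.Prime] [Finite G] {W : Subgroup G} [hW : W.Normal]
    (hsol : Group.IsSolvable W) (hpW : ¬ p ∣ Nat.card W)
    (hfaith : ∀ x : G, x ^ p = 1 → (∀ w ∈ W, x * w = w * x) → x = 1)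
    (hcomm : ∀ x y : G, x ^ p = 1 → y ^ p = 1 → x * y * x⁻¹ * y⁻¹ ∈ W) :
    ∃ (k : ℕ) (Om : Subgroup G), W ≤ Om ∧ Nat.card Om = p ^ k * Nat.card W ∧
      (∀ x : G, x ^ p = 1 → x ∈ Om) ∧ (∀ x ∈ Om, ∃ e : G, e ^ p = 1 ∧ e⁻¹ * x ∈ W) ∧
      0 < (-1 : ℤ) ^ k * eu (ApS p G) := by
  have hc : ∀ v w : G ⧸ W, v ^ p = 1 → w ^ p = 1 → v * w = w * v := by
    intro v w hv hw
    obtain ⟨e, he, rfl⟩ := l1_lift hpW hv
    obtain ⟨f, hf, rfl⟩ := l1_lift hpW hw
    have h1 := hcomm e f he hf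
    rw [← QuotientGroup.eq_one_iff, QuotientGroup.mk_mul, QuotientGroup.mk_mul,
      QuotientGroup.mk_mul, QuotientGroup.mk_inv, QuotientGroup.mk_inv] at h1
    rw [mul_inv_eq_one, mul_inv_eq_iff_eq_mul] at h1
    exact h1
  let F : Subgroup (G ⧸ W) :=
    { carrier := {v | v ^ p = 1}
      mul_mem' := fun {v w} hv hw => by
        have h1 : Commute v w := hc v w hv hw
        have hv' : v ^ p = 1 := hv
        have hw' : w ^ p = 1 := hw
        change (v * w) ^ p = 1
        rw [h1.mul_pow, hv', hw', one_mul]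
      one_mem' := one_pow p
      inv_mem' := fun {v} hv => by
        have hv' : v ^ p = 1 := hv
        change v⁻¹ ^ p = 1
        rw [inv_pow, hv', inv_one] }
  have hF : F ∈ ApB p (G ⧸ W) := cs_apB.2 ⟨fun x hx y hy => hc x y hx hy, fun x hx => hx⟩
  have hP : IsPGroup p F := fun g => ⟨1, by
    rw [pow_one]
    exact Subtype.ext g.2⟩
  obtain ⟨k, hk⟩ := IsPGroup.iff_card.1 hP
  have hOm : ∀ x : G, x ^ p = 1 → x ∈ F.comap (QuotientGroup.mk' W) := by
    intro x hx
    change ((x : G ⧸ W)) ^ p = 1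
    rw [← QuotientGroup.mk_pow, hx, QuotientGroup.mk_one]
  have hA : ApS p G = Ain p (F.comap (QuotientGroup.mk' W)) := by
    ext E
    constructor
    · intro hE
      exact ⟨hE, fun x hx => hOm x (hE.2.2 x hx)⟩
    · intro hE
      exact hE.1
  refine ⟨k, F.comap (QuotientGroup.mk' W), ?_, ?_, hOm, ?_, ?_⟩
  · intro w hw
    change ((w : G ⧸ W)) ∈ F
    rw [(QuotientGroup.eq_one_iff w).2 hw]
    exact one_mem F
  · have h1 := Subgroup.index_comap_of_surjective F (QuotientGroup.mk'_surjective W)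
    have h2 := (F.comap (QuotientGroup.mk' W)).card_mul_index
    have h3 := F.card_mul_index
    have h4 := Subgroup.card_eq_card_quotient_mul_card_subgroup W
    have h5 : 0 < F.index := Nat.pos_of_ne_zero Subgroup.index_ne_zero_of_finite
    rw [h1, h4, ← h3, hk] at h2
    refine Nat.eq_of_mul_eq_mul_right h5 (h2.trans ?_)
    ring
  · intro x hx
    obtain ⟨e, he, hex⟩ := l1_lift hpW (v := (x : G ⧸ W)) hx
    exact ⟨e, he, QuotientGroup.eq.1 hex⟩
  · rw [hA]
    exact eu_comap_pos hsol hpW hfaith hF hk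

lemma comm_sign_sub [hp : Fact p.Prime] [Finite G] {C W : Subgroup G} (hWC : W ≤ C)
    (hn : ∀ x ∈ C, ∀ w ∈ W, x * w * x⁻¹ ∈ W)
    (hsol : Group.IsSolvable W) (hpW : ¬ p ∣ Nat.card W)
    (hfaith : ∀ x ∈ C, x ^ p = 1 → (∀ w ∈ W, x * w = w * x) → x = 1)
    (hcomm : ∀ x ∈ C, ∀ y ∈ C, x ^ p = 1 → y ^ p = 1 → x * y * x⁻¹ * y⁻¹ ∈ W) :
    ∃ (k : ℕ) (Om : Subgroup G), Om ≤ C ∧ W ≤ Om ∧ Nat.card Om = p ^ k * Nat.card W ∧
      (∀ x ∈ C, x ^ p = 1 → x ∈ Om) ∧ (∀ x ∈ Om, ∃ e ∈ C, e ^ p = 1 ∧ e⁻¹ * x ∈ W) ∧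
      0 < (-1 : ℤ) ^ k * eu (Ain p C) := by
  have hN : (W.subgroupOf C).Normal := ⟨fun n hn' g => by
    rw [Subgroup.mem_subgroupOf] at hn' ⊢
    exact hn g g.2 n hn'⟩
  have hcard : Nat.card (W.subgroupOf C) = Nat.card W :=
    Nat.card_congr (Subgroup.subgroupOfEquivOfLe hWC).toEquiv
  have hs : Group.IsSolvable (W.subgroupOf C) := by
    have := hsol
    exact Group.isSolvable_of_isSolvable_injective
      (f := (Subgroup.subgroupOfEquivOfLe hWC).toMonoidHom) (Subgroup.subgroupOfEquivOfLe hWC).injective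
  obtain ⟨k, Om, h1, h2, h3, h4, h5⟩ := comm_sign (G := C) (W := W.subgroupOf C) (p := p) hs
    (by rw [hcard]; exact hpW)
    (fun x hx hxw => by
      refine Subtype.ext (hfaith x x.2 (by
        have := congrArg Subtype.val hx
        exact this) fun w hw => ?_)
      have := hxw ⟨w, hWC hw⟩ (by rw [Subgroup.mem_subgroupOf]; exact hw)
      exact congrArg Subtype.val this)
    (fun x y hx hy => by
      rw [Subgroup.mem_subgroupOf]
      exact hcomm x x.2 y y.2 (congrArg Subtype.val hx) (congrArg Subtype.val hy))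
  refine ⟨k, Om.map C.subtype, Subgroup.map_subtype_le Om, ?_, ?_, ?_, ?_, ?_⟩
  · intro w hw
    exact ⟨⟨w, hWC hw⟩, h1 (by rw [Subgroup.mem_subgroupOf]; exact hw), rfl⟩
  · rw [← hcard, ← h2]
    exact Nat.card_congr (Om.equivMapOfInjective C.subtype C.subtype_injective).toEquiv.symm
  · intro x hx hxp
    exact ⟨⟨x, hx⟩, h3 _ (Subtype.ext hxp), rfl⟩
  · rintro _ ⟨x, hx, rfl⟩
    obtain ⟨e, he, hex⟩ := h4 x hx
    rw [Subgroup.mem_subgroupOf] at hex
    exact ⟨e, e.2, congrArg Subtype.val he, hex⟩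
  · rw [eu_sub]
    exact h5

end

end Vale.Agent.P240.K
end

section

/-! P240-L2, second half: `Rest (Comp G) ∅ = ⊥` from the family properties. -/

namespace Vale.Agent.P240.K

open Subgroup

section
variable {G : Type*} [Group G] {p : ℕ}

/-- A nontrivial normal subgroup of a finite group contains a minimal normal subgroup. -/
theorem l2_exists_min [Finite G] (R : Subgroup G) (hR : R.Normal) (hne : R ≠ ⊥) :
    ∃ M ≤ R, MinNormal M := by
  classical
  have hfin : (Set.univ : Set (Subgroup G)).Finite := Set.toFinite _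
  obtain ⟨M, hM⟩ := (Set.toFinite {N : Subgroup G | N.Normal ∧ N ≠ ⊥ ∧ N ≤ R}).exists_minimal
    ⟨R, hR, hne, le_rfl⟩
  refine ⟨M, hM.1.2.2, hM.1.1, hM.1.2.1, fun N hN hNM => ?_⟩
  by_cases h0 : N = ⊥
  · exact Or.inl h0
  · right
    exact le_antisymm hNM (hM.2 ⟨hN, h0, hNM.trans hM.1.2.2⟩ hNM)

theorem l2_rest_normal {F : Set (Subgroup G)}
    (hF : ∀ L ∈ F, ∀ g : G, L.map (MulAut.conj g).toMonoidHom ∈ F) :
    (Rest F (∅ : Set (Subgroup G))).Normal := by
  constructor
  intro n hn g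
  simp only [Rest, Set.sdiff_empty, mem_iInf, mem_centralizer_iff] at hn ⊢
  intro L hL h hh
  have h1 := hn _ (hF L hL g⁻¹) (g⁻¹ * h * g) ⟨h, hh, by simp⟩
  calc h * (g * n * g⁻¹) = g * ((g⁻¹ * h * g) * n) * g⁻¹ := by group
    _ = g * (n * (g⁻¹ * h * g)) * g⁻¹ := by rw [h1]
    _ = g * n * g⁻¹ * h := by group

/-- `comp_rest` from `comp_family`. -/
theorem l2_comp_rest [Finite G] (hF : Family p (Comp G)) :
    Rest (Comp G) (∅ : Set (Subgroup G)) = ⊥ := by
  by_contra hne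
  obtain ⟨M, hMR, hM⟩ := l2_exists_min _ (l2_rest_normal hF.conj) hne
  have hMt : (⊤ : Subgroup M) ≠ ⊥ := by
    intro h
    apply hM.2.1
    rw [eq_bot_iff]
    intro x hx
    have hx' : (⟨x, hx⟩ : M) ∈ (⊤ : Subgroup M) := mem_top _
    rw [h, mem_bot] at hx'
    exact mem_bot.2 (congrArg Subtype.val hx')
  obtain ⟨K, -, hK⟩ := l2_exists_min (⊤ : Subgroup M) inferInstance hMt
  have hL : K.map M.subtype ∈ Comp G := ⟨M, hM, K, hK, rfl⟩
  have hLM : K.map M.subtype ≤ M := map_subtype_le K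
  have hLC : K.map M.subtype ≤ centralizer ((K.map M.subtype : Subgroup G) : Set G) := by
    refine (hLM.trans hMR).trans ?_
    simp only [Rest, Set.sdiff_empty]
    exact iInf₂_le _ hL
  have h0 : K.map M.subtype = ⊥ := by
    rw [eq_bot_iff, ← hF.centre _ hL]
    exact le_inf le_rfl hLC
  exact hK.2.1 ((map_eq_bot_iff_of_injective K M.subtype_injective).1 h0)

end

end Vale.Agent.P240.K
end

section

/-! P240-L2, first half: `Comp G` is a family. -/

namespace Vale.Agent.P240.K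

open Subgroup

section
variable {G : Type*} [Group G] {p : ℕ}

/-- Automorphisms preserve minimal normal subgroups. -/
theorem l2_min_map {H : Type*} [Group H] {K : Subgroup H} (hK : MinNormal K) (e : H ≃* H) :
    MinNormal (K.map e.toMonoidHom) := by
  refine ⟨hK.1.map _ e.surjective, ?_, ?_⟩
  · intro h
    exact hK.2.1 ((map_eq_bot_iff_of_injective K e.injective).1 h)
  · intro N hN hNK
    have h1 : (N.comap e.toMonoidHom).Normal := hN.comap _
    have h2 : N.comap e.toMonoidHom ≤ K := by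
      intro x hx
      obtain ⟨y, hy, hxy⟩ := hNK (show e x ∈ N from hx)
      have : y = x := e.injective hxy
      exact this ▸ hy
    have h3 : (N.comap e.toMonoidHom).map e.toMonoidHom = N :=
      map_comap_eq_self_of_surjective e.surjective N
    rcases hK.2.2 _ h1 h2 with h | h
    · left; rw [← h3, h, Subgroup.map_bot]
    · right; rw [← h3, h]

theorem l2_conj : ∀ L ∈ Comp G, ∀ g : G, L.map (MulAut.conj g).toMonoidHom ∈ Comp G := by
  rintro L ⟨M, hM, K, hK, rfl⟩ g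
  have := hM.1
  refine ⟨M, hM, K.map (MulAut.conjNormal g : MulAut M).toMonoidHom, l2_min_map hK _, ?_⟩
  ext x
  simp only [mem_map]
  constructor
  · rintro ⟨_, ⟨y, hy, rfl⟩, rfl⟩
    exact ⟨_, ⟨y, hy, rfl⟩, by simp⟩
  · rintro ⟨_, ⟨y, hy, rfl⟩, rfl⟩
    exact ⟨_, ⟨y, hy, rfl⟩, by simp⟩

theorem l2_disj {H : Type*} [Group H] {A B : Subgroup H} (hA : MinNormal A) (hB : MinNormal B)
    (hAB : A ≠ B) : Disjoint A B := by
  rw [disjoint_iff]
  have hn : (A ⊓ B).Normal := by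
    have := hA.1
    have := hB.1
    infer_instance
  rcases hA.2.2 _ hn inf_le_left with h | h
  · exact h
  · have h1 : A ≤ B := h ▸ inf_le_right
    rcases hB.2.2 _ hA.1 h1 with h2 | h2
    · exact absurd h2 hA.2.1
    · exact absurd h2 hAB

theorem l2_comm : ∀ L ∈ Comp G, ∀ M ∈ Comp G, L ≠ M → ∀ x ∈ L, ∀ y ∈ M, x * y = y * x := by
  rintro L ⟨M, hM, K, hK, rfl⟩ L' ⟨M', hM', K', hK', rfl⟩ hne x hx y hy
  by_cases h : M = M'
  · subst h
    have hKK : K ≠ K' := fun h => hne (by rw [h])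
    obtain ⟨a, ha, rfl⟩ := hx
    obtain ⟨b, hb, rfl⟩ := hy
    have := commute_of_normal_of_disjoint K K' hK.1 hK'.1 (l2_disj hK hK' hKK) a b ha hb
    exact congrArg Subtype.val this.eq
  · exact (commute_of_normal_of_disjoint M M' hM.1 hM'.1 (l2_disj hM hM' h) x y
      (map_subtype_le K hx) (map_subtype_le K' hy)).eq

/-- The normal closure of `L ∈ Comp G` is the minimal normal subgroup containing it; here in the
form: a normal subgroup containing `L` contains `M`. -/
theorem l2_le_of_normal {M : Subgroup G} (hM : MinNormal M) {K : Subgroup M} (hK : MinNormal K)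
    {N : Subgroup G} (hN : N.Normal) (h : K.map M.subtype ≤ N) : M ≤ N := by
  have := hM.1
  have hn : (M ⊓ N).Normal := inferInstance
  rcases hM.2.2 _ hn inf_le_left with h0 | h0
  · exfalso
    apply hK.2.1
    rw [← map_eq_bot_iff_of_injective K M.subtype_injective, eq_bot_iff, ← h0]
    exact le_inf (map_subtype_le K) h
  · exact h0 ▸ inf_le_right

/-- The join of two normal subgroups of order prime to `p` has order prime to `p`. -/
theorem l2_sup_card [hp : Fact p.Prime] {H : Type*} [Group H] [Finite H] {A B : Subgroup H}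
    (hB : B.Normal) (h1 : ¬ p ∣ Nat.card A) (h2 : ¬ p ∣ Nat.card B) :
    ¬ p ∣ Nat.card (A ⊔ B : Subgroup H) := by
  intro h
  have h3 := relIndex_mul_relIndex (⊥ : Subgroup H) B (A ⊔ B) bot_le le_sup_right
  rw [relIndex_bot_left, relIndex_bot_left, relIndex_sup_right] at h3
  rw [← h3] at h
  rcases hp.out.dvd_mul.1 h with h | h
  · exact h2 h
  · exact h1 (h.trans (relIndex_dvd_card B A))

/-- The largest normal subgroup of order prime to `p`. -/
theorem l2_exists_pprime [hp : Fact p.Prime] {H : Type*} [Group H] [Finite H] :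
    ∃ Q : Subgroup H, Q.Normal ∧ ¬ p ∣ Nat.card Q ∧
      ∀ N : Subgroup H, N.Normal → ¬ p ∣ Nat.card N → N ≤ Q := by
  obtain ⟨Q, hQ⟩ := (Set.toFinite {N : Subgroup H | N.Normal ∧ ¬ p ∣ Nat.card N}).exists_maximal
    ⟨⊥, inferInstance, by simpa using hp.out.one_lt.ne'⟩
  refine ⟨Q, hQ.1.1, hQ.1.2, fun N hN h => ?_⟩
  have h1 : (N ⊔ Q).Normal := by
    have := hQ.1.1
    infer_instance
  exact le_sup_left.trans (hQ.2 ⟨h1, l2_sup_card hQ.1.1 h hQ.1.2⟩ le_sup_right)

theorem l2_dvd [hp : Fact p.Prime] [Finite G]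
    (hO' : ∀ N : Subgroup G, N.Normal → ¬ p ∣ Nat.card N → N = ⊥) :
    ∀ L ∈ Comp G, p ∣ Nat.card L := by
  rintro L ⟨M, hM, K, hK, rfl⟩
  by_contra hL
  have hMn := hM.1
  obtain ⟨Q, hQn, hQc, hQ⟩ := l2_exists_pprime (p := p) (H := M)
  have hcard : Nat.card (K.map M.subtype) = Nat.card K :=
    (Nat.card_congr (K.equivMapOfInjective M.subtype M.subtype_injective).toEquiv).symm
  have hcardQ : Nat.card (Q.map M.subtype) = Nat.card Q :=
    (Nat.card_congr (Q.equivMapOfInjective M.subtype M.subtype_injective).toEquiv).symm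
  have hKQ : K ≤ Q := hQ K hK.1 (hcard ▸ hL)
  have hQG : (Q.map M.subtype).Normal := by
    constructor
    rintro _ ⟨x, hx, rfl⟩ g
    have h1 : Q.map (MulAut.conjNormal g : MulAut M).toMonoidHom ≤ Q := by
      apply hQ
      · exact hQn.map _ (MulAut.conjNormal g : MulAut M).surjective
      · have : Nat.card (Q.map (MulAut.conjNormal g : MulAut M).toMonoidHom) = Nat.card Q :=
          (Nat.card_congr (Q.equivMapOfInjective _
            (MulAut.conjNormal g : MulAut M).injective).toEquiv).symm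
        rw [this]
        exact hQc
    exact ⟨_, h1 ⟨x, hx, rfl⟩, by simp⟩
  have hbot := hO' _ hQG (hcardQ ▸ hQc)
  rw [map_eq_bot_iff_of_injective Q M.subtype_injective] at hbot
  exact hK.2.1 (eq_bot_iff.2 (hbot ▸ hKQ))

theorem l2_centre [hp : Fact p.Prime] [Finite G] (hO : OpTrivial p G)
    (hO' : ∀ N : Subgroup G, N.Normal → ¬ p ∣ Nat.card N → N = ⊥) :
    ∀ L ∈ Comp G, L ⊓ centralizer (L : Set G) = ⊥ := by
  rintro L ⟨M, hM, K, hK, rfl⟩
  have hMn := hM.1
  have hKn := hK.1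
  have hZ : (K ⊓ centralizer (K : Set M)).Normal := by
    infer_instance
  have key : K ⊓ centralizer (K : Set M) = ⊥ → K.map M.subtype ⊓
      centralizer ((K.map M.subtype : Subgroup G) : Set G) = ⊥ := by
    intro h
    rw [eq_bot_iff]
    rintro _ ⟨⟨x, hx, rfl⟩, h2⟩
    have h4 : x ∈ centralizer (K : Set M) := by
      rw [mem_centralizer_iff]
      intro y hy
      have := mem_centralizer_iff.1 h2 (y : G) ⟨y, hy, rfl⟩
      exact Subtype.ext this
    have h3 : x ∈ K ⊓ centralizer (K : Set M) := ⟨hx, h4⟩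
    rw [h, mem_bot] at h3
    rw [mem_bot, h3]
    rfl
  rcases hK.2.2 _ hZ inf_le_left with h | h
  · exact key h
  · exfalso
    -- `K` is abelian
    have hab : ∀ x ∈ K, ∀ y ∈ K, x * y = y * x := by
      intro x hx y hy
      have : y ∈ K ⊓ centralizer (K : Set M) := h.symm ▸ hy
      exact mem_centralizer_iff.1 this.2 x hx
    set L := K.map M.subtype with hLdef
    have hLC : L ∈ Comp G := ⟨M, hM, K, hK, rfl⟩
    have habL : ∀ x ∈ L, ∀ y ∈ L, x * y = y * x := by
      rintro _ ⟨x, hx, rfl⟩ _ ⟨y, hy, rfl⟩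
      exact congrArg Subtype.val (hab x hx y hy)
    -- all conjugates of `L` commute with `L`
    have hcc : ∀ g : G, ∀ x ∈ L, ∀ y ∈ L, x * (g * y * g⁻¹) = g * y * g⁻¹ * x := by
      intro g x hx y hy
      have hm : g * y * g⁻¹ ∈ L.map (MulAut.conj g).toMonoidHom := ⟨y, hy, by simp⟩
      by_cases he : L = L.map (MulAut.conj g).toMonoidHom
      · exact habL x hx _ (he.symm ▸ hm)
      · exact l2_comm L hLC _ (l2_conj L hLC g) he x hx _ hm
    -- `M` centralizes all the conjugates of `L`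
    let C : Subgroup G := ⨅ g : G, centralizer {z : G | ∃ y ∈ L, z = g * y * g⁻¹}
    have hCn : C.Normal := by
      constructor
      intro n hn g
      simp only [C, mem_iInf, mem_centralizer_iff] at hn ⊢
      rintro k z ⟨y, hy, rfl⟩
      have h1 := hn (g⁻¹ * k) (g⁻¹ * k * y * (g⁻¹ * k)⁻¹) ⟨y, hy, rfl⟩
      calc k * y * k⁻¹ * (g * n * g⁻¹) = g * ((g⁻¹ * k * y * (g⁻¹ * k)⁻¹) * n) * g⁻¹ := by group
        _ = g * (n * (g⁻¹ * k * y * (g⁻¹ * k)⁻¹)) * g⁻¹ := by rw [h1]
        _ = g * n * g⁻¹ * (k * y * k⁻¹) := by group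
    have hLC' : L ≤ C := by
      intro x hx
      simp only [C, mem_iInf, mem_centralizer_iff]
      rintro g z ⟨y, hy, rfl⟩
      exact (hcc g x hx y hy).symm
    have hMC : M ≤ C := l2_le_of_normal hM hK hCn hLC'
    -- hence `M` is abelian
    have hLM : M ≤ centralizer (M : Set G) := by
      have hn : (centralizer (M : Set G)).Normal := inferInstance
      apply l2_le_of_normal hM hK hn
      intro x hx
      rw [mem_centralizer_iff]
      intro m hm
      have h1 := hMC hm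
      simp only [C, mem_iInf, mem_centralizer_iff] at h1
      have := h1 1 x ⟨x, hx, by simp⟩
      exact this.symm
    have habM : ∀ x ∈ M, ∀ y ∈ M, x * y = y * x := by
      intro x hx y hy
      exact mem_centralizer_iff.1 (hLM hy) x hx
    by_cases hpM : p ∣ Nat.card M
    · let Ω : Subgroup G :=
        { carrier := {x | x ∈ M ∧ x ^ p = 1}
          mul_mem' := by
            rintro a b ⟨ha, ha'⟩ ⟨hb, hb'⟩
            refine ⟨M.mul_mem ha hb, ?_⟩
            have : Commute a b := habM a ha b hb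
            rw [this.mul_pow, ha', hb', one_mul]
          one_mem' := ⟨M.one_mem, one_pow p⟩
          inv_mem' := by
            rintro a ⟨ha, ha'⟩
            exact ⟨M.inv_mem ha, by rw [inv_pow, ha', inv_one]⟩ }
      have hΩn : Ω.Normal := by
        constructor
        rintro n ⟨hn, hn'⟩ g
        refine ⟨hMn.conj_mem n hn g, ?_⟩
        rw [conj_pow, hn', mul_one, mul_inv_cancel]
      have hΩp : IsPGroup p Ω := by
        rintro ⟨x, hx, hx'⟩
        exact ⟨1, Subtype.ext (by simpa using hx')⟩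
      have h0 := hO Ω hΩn hΩp
      obtain ⟨x, hx⟩ := exists_prime_orderOf_dvd_card' (G := M) p hpM
      have hxp : (x : G) ^ p = 1 := by
        have := pow_orderOf_eq_one x
        rw [hx] at this
        exact congrArg Subtype.val this
      have hxΩ : (x : G) ∈ Ω := ⟨x.2, hxp⟩
      rw [h0, mem_bot] at hxΩ
      have hx1 : x = 1 := Subtype.ext hxΩ
      rw [hx1, orderOf_one] at hx
      exact hp.out.one_lt.ne hx
    · exact hM.2.1 (hO' M hMn hpM)

theorem l2_comp_family [hp : Fact p.Prime] [Finite G] (hO : OpTrivial p G)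
    (hO' : ∀ N : Subgroup G, N.Normal → ¬ p ∣ Nat.card N → N = ⊥) : Family p (Comp G) :=
  ⟨l2_conj, l2_comm, l2_centre hO hO', l2_dvd hO'⟩

end

end Vale.Agent.P240.K
end

section

/-!
P240-L2. The components of a group with `O_p(G) = O_{p'}(G) = 1`.

`Comp G = {L | L is a minimal normal subgroup of a minimal normal subgroup M of G}`.
Facts: (1) conjugation: if `L = K.map M.subtype`, then `g L g⁻¹ = (K^g).map M.subtype` (`M` is normal), and `K^g` is
minimal normal in `M` again (conjugation by `g` is an automorphism of `M`).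
(2) distinct members commute: members of the same `M`: `K ⊓ K'` is normal in `M`, so trivial, so
`[K, K'] ≤ K ⊓ K' = ⊥`; members of different `M ≠ M'`: `M ⊓ M'` is normal in `G`, so trivial.
(3) centre: `Z = L ⊓ centralizer L` corresponds to a normal subgroup of `M` contained in `K`, so `Z = ⊥` or `Z = L`.
In the second case `L` is abelian. The subgroup generated by the conjugates of `L` in `G` is a nontrivial normal
subgroup of `G` contained in `M`, so equal to `M`; the conjugates commute (by (2)) and are abelian, so `M` is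
abelian. Then `M` is abelian and normal: if `p ∣ Nat.card M`, then `{x ∈ M | x ^ p = 1}` is a nontrivial normal
`p`-subgroup of `G`, contradicting `hO`; if not, `hO'` gives `M = ⊥`.
(4) `p ∣ Nat.card L`: otherwise `M`, generated by the commuting conjugates of `L`, of order prime to `p`, has order
prime to `p` (a finite join of commuting subgroups of order prime to `p`, each normal in the join), so `M = ⊥`.
`comp_rest`: `Rest (Comp G) ∅` is the intersection of the centralizers of all members; it is normal; if nontrivial it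
contains a minimal normal subgroup `M` of `G` (finite group), `M` contains a minimal normal subgroup `K` of `M`,
`L = K.map M.subtype ∈ Comp G`, and `L ≤ M ≤ centralizer L`, so `L = L ⊓ centralizer L = ⊥` by (3). -/

namespace Vale.Agent.P240.K

open Subgroup

section
variable {G : Type*} [Group G] {p : ℕ}

theorem comp_family [hp : Fact p.Prime] [Finite G] (hO : OpTrivial p G)
    (hO' : ∀ N : Subgroup G, N.Normal → ¬ p ∣ Nat.card N → N = ⊥) : Family p (Comp G) :=
  l2_comp_family hO hO'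

theorem comp_rest [hp : Fact p.Prime] [Finite G] (hO : OpTrivial p G)
    (hO' : ∀ N : Subgroup G, N.Normal → ¬ p ∣ Nat.card N → N = ⊥) :
    Rest (Comp G) (∅ : Set (Subgroup G)) = ⊥ :=
  l2_comp_rest (l2_comp_family hO hO')

end

end Vale.Agent.P240.K
end

section

/-!
P240-L3. Basic facts on `z ∈ Sel D S` (products of elements `s ∈ S ∩ L`, `L ∈ D`).

Here `Sel D S = {z | z ∈ ⨆ L ∈ D, L ∧ ∀ L ∈ D, ∃ s ∈ S, s ∈ L ∧ s⁻¹ * z ∈ centralizer L}`.
`sel_comm`: if `x` normalizes `L` and `s⁻¹ * z` centralizes `L` (`s ∈ L`), then `x * z = z * x` implies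
`x * s = s * x`: `x s x⁻¹ s⁻¹ ∈ L` and it acts on `L` as `x z x⁻¹ z⁻¹ = 1`, so it lies in `L ⊓ centralizer L = ⊥`.
`sel_good`: `z` lies in `⨆ L ∈ D, L`, so it centralizes `F \ D` and everything centralizing all of `F`,
normalizes the members; order: `z ^ m = 1` for the product `m` of the orders of the components (cf. the proof of
`fixed_prod` in K/WMain.lean, `Family.center_trivial` in K/FreeEl.lean); `fix` follows from `LocalGood.fix`, as `z` and
`s` act on `L` in the same way.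
`exists_kernel`: choose `s L` and `W L` for `L ∈ D` from `LocalGood.kernel`, `W = ⨆ L ∈ D, W L`.
`W ≤ Gn D`, its elements commute with `z` and centralize `F \ D` and normalize all members; normality: `x ∈ Cent0`
satisfies `x ∈ Cn L (s L)` by `sel_comm`. Solvable, order prime to `p`: finite join of commuting subgroups
(`Set.Finite.induction_on`; `solvable_of_ker_le_range`/products of commuting solvable groups; card divides the product).
Faithful: `x` of order `p` centralizing `W` centralizes all `L ∈ D` (kernel) and all `L ∈ F \ D` (`Cent0 ≤ Rest F D`),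
so `x ∈ Rest F ∅ = ⊥`. Commutators: `x y x⁻¹ y⁻¹ = w_L c_L` for every `L ∈ D` with `w_L ∈ W L`, `c_L ∈ centralizer L`;
by `exists_prod` there is `w ∈ W` (product of the `w_L`; apply the argument of `exists_prod` to the `W L`) acting
on every `L ∈ D` like `w_L`, and `w⁻¹ x y x⁻¹ y⁻¹` centralizes all members of `F`, so it is `1`. -/

namespace Vale.Agent.P240.K

open Finsupp Subgroup

universe u

section
variable {G : Type u} [Group G] {p : ℕ}

/-- the action of `s` and `z` on `L` -/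
private lemma l3_act {L : Subgroup G} {s z e : G} (hs : s ∈ L)
    (hsz : s⁻¹ * z ∈ centralizer (L : Set G)) (he : e ∈ normalizer (L : Set G)) :
    ∃ k ∈ centralizer (L : Set G), s * e * s⁻¹ = k * (z * e * z⁻¹) := by
  have hsN : s ∈ normalizer (L : Set G) := Subgroup.le_normalizer hs
  set c := s⁻¹ * z with hc
  have h1 : e * c⁻¹ * e⁻¹ ∈ centralizer (L : Set G) := conj_centralizer he (inv_mem hsz)
  have h2 : c * (e * c⁻¹ * e⁻¹) ∈ centralizer (L : Set G) :=
    (centralizer (L : Set G)).mul_mem hsz h1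
  have h3 := conj_centralizer hsN ((centralizer (L : Set G)).inv_mem h2)
  refine ⟨_, h3, ?_⟩
  rw [hc]
  group

private lemma l3_mem_Cn {L : Subgroup G} {s x : G} (h1 : x ∈ normalizer (L : Set G))
    (h2 : x * s = s * x) : x ∈ Cn L s := by
  refine Subgroup.mem_inf.2 ⟨h1, ?_⟩
  rw [mem_centralizer_iff]
  intro y hy
  rw [Set.mem_singleton_iff.1 hy]
  exact h2.symm

lemma sel_comm {L : Subgroup G} (hcentre : L ⊓ centralizer (L : Set G) = ⊥) {s z x : G}
    (hs : s ∈ L) (hsz : s⁻¹ * z ∈ centralizer (L : Set G)) (hx : x ∈ normalizer (L : Set G))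
    (hxz : x * z = z * x) : x ∈ Cn L s := by
  refine l3_mem_Cn hx ?_
  have hsN : s ∈ normalizer (L : Set G) := Subgroup.le_normalizer hs
  have h1 : x * s * x⁻¹ * s⁻¹ ∈ L :=
    mul_mem ((mem_normalizer_iff.1 hx s).1 hs) (inv_mem hs)
  have h2 : x * s * x⁻¹ * s⁻¹ ∈ centralizer (L : Set G) := by
    have h3 : x * (s⁻¹ * z)⁻¹ * x⁻¹ ∈ centralizer (L : Set G) :=
      conj_centralizer hx (inv_mem hsz)
    have h4 := conj_centralizer hsN ((centralizer (L : Set G)).mul_mem hsz h3)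
    have h5 : x * s * x⁻¹ * s⁻¹ = s * (s⁻¹ * z * (x * (s⁻¹ * z)⁻¹ * x⁻¹)) * s⁻¹ := by
      have h6 : x * z⁻¹ = z⁻¹ * x := by
        rw [eq_inv_mul_iff_mul_eq, ← mul_assoc, ← hxz, mul_assoc, mul_inv_cancel, mul_one]
      calc x * s * x⁻¹ * s⁻¹ = z * (z⁻¹ * x) * s * x⁻¹ * s⁻¹ := by group
        _ = z * (x * z⁻¹) * s * x⁻¹ * s⁻¹ := by rw [h6]
        _ = _ := by group
    rw [h5]
    exact h4
  have h3 : x * s * x⁻¹ * s⁻¹ ∈ L ⊓ centralizer (L : Set G) := ⟨h1, h2⟩
  rw [hcentre, mem_bot] at h3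
  have h4 := mul_inv_eq_one.1 h3
  exact mul_inv_eq_iff_eq_mul.1 h4

private lemma l3_Gn_eq (D : Set (Subgroup G)) : (⨆ L ∈ D, L) = sSup D := sSup_eq_iSup.symm

private lemma l3_rest {F D : Set (Subgroup G)} (hF : Family p F) (hDF : D ⊆ F) :
    sSup D ≤ Rest F D := by
  refine le_Rest fun M hM hMD => sSup_le fun L hL x hx => ?_
  rw [mem_centralizer_iff]
  intro y hy
  refine hF.comm M hM L (hDF hL) ?_ y hy x hx
  rintro rfl
  exact hMD hL

theorem sel_good [hp : Fact p.Prime] [Finite G] {F D : Set (Subgroup G)} {S : Set G}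
    (hF : Family p F) (hDF : D ⊆ F)
    (hconj : ∀ L ∈ D, ∀ g : G, L.map (MulAut.conj g).toMonoidHom ∈ D)
    (hloc : ∀ L ∈ D, LocalGood p S L) {z : G} (hz : z ∈ Sel D S) : GoodElement p F D z := by
  obtain ⟨hz1, hz2⟩ := hz
  rw [l3_Gn_eq] at hz1
  choose! s hsS hsL hsz using hz2
  refine
    { sub := hDF
      conj := hconj
      rest := l3_rest hF hDF hz1
      order := ?_
      comm := ?_
      norm := fun L hL => sSup_le_norm hF hDF (hDF hL) hz1
      fix := ?_ }
  · have hd1 : ∃ m, ¬ p ∣ m ∧ z ^ m = 1 := by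
      classical
      refine ⟨∏ L ∈ (Set.toFinite D).toFinset, orderOf (s L), ?_, ?_⟩
      · intro h
        obtain ⟨L, hL, h1⟩ := (hp.out.prime.dvd_finsetProd_iff _).1 h
        rw [Set.Finite.mem_toFinset] at hL
        exact (hloc L hL).order (s L) (hsS L hL) (hsL L hL) h1
      · refine hF.center_trivial hDF (pow_mem hz1 _) fun L hL => ?_
        have hc' := hsz L hL
        have h1 : Commute (s L) ((s L)⁻¹ * z) := (mem_centralizer_iff.1 hc') _ (hsL L hL)
        have h0 : z = s L * ((s L)⁻¹ * z) := by group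
        rw [h0, h1.mul_pow]
        have h2 : (s L) ^ (∏ M ∈ (Set.toFinite D).toFinset, orderOf (s M)) = 1 := by
          rw [← orderOf_dvd_iff_pow_eq_one]
          exact Finset.dvd_prod_of_mem (fun M => orderOf (s M))
            ((Set.Finite.mem_toFinset _).2 hL)
        rw [h2, one_mul]
        exact pow_mem hc' _
    obtain ⟨m, hm1, hm2⟩ := hd1
    exact fun h => hm1 (h.trans (orderOf_dvd_of_pow_eq_one hm2))
  · intro g hg _
    have h1 : sSup D ≤ centralizer ({g} : Set G) := by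
      refine sSup_le fun L hL x hx => ?_
      rw [mem_centralizer_iff]
      intro y hy
      rw [Set.mem_singleton_iff.1 hy]
      exact ((mem_centralizer_iff.1 (mem_Rest.1 hg L (hDF hL) (Set.notMem_empty L))) x hx).symm
    exact ((mem_centralizer_iff.1 (h1 hz1)) g rfl).symm
  · intro L hL E hE hEA h1 h2
    refine (hloc L hL).fix (s L) (hsS L hL) (hsL L hL) E (hE.trans inf_le_right) hEA ?_ ?_
    · intro e he
      obtain ⟨k, hk, hk2⟩ := l3_act (hsL L hL) (hsz L hL) (Subgroup.mem_inf.1 (hE he)).2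
      rw [hk2]
      exact mul_mem (mem_sup_right hk) (h1 e he)
    · intro e he h3
      obtain ⟨k, hk, hk2⟩ := l3_act (hsL L hL) (hsz L hL) (Subgroup.mem_inf.1 (hE he)).2
      refine h2 e he ?_
      have h4 : z * e * z⁻¹ * e⁻¹ = k⁻¹ * (s L * e * (s L)⁻¹ * e⁻¹) := by
        rw [hk2]
        group
      rw [h4]
      exact (centralizer (L : Set G)).mul_mem ((centralizer (L : Set G)).inv_mem hk) h3

/-- the join of two commuting subgroups is an image of their product -/
private lemma l3_range {A B : Subgroup G} (h : ∀ a ∈ A, ∀ b ∈ B, a * b = b * a) :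
    ∃ f : A × B →* G, f.range = A ⊔ B := by
  have hc : ∀ (a : A) (b : B), Commute (A.subtype a) (B.subtype b) := fun a b => h a a.2 b b.2
  refine ⟨MonoidHom.noncommCoprod A.subtype B.subtype hc, ?_⟩
  rw [MonoidHom.noncommCoprod_range, Subgroup.range_subtype, Subgroup.range_subtype]

private lemma l3_two {A B : Subgroup G} [Finite G] [hp : Fact p.Prime]
    (h : ∀ a ∈ A, ∀ b ∈ B, a * b = b * a)
    (hA : Group.IsSolvable A) (hB : Group.IsSolvable B) (hA' : ¬ p ∣ Nat.card A)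
    (hB' : ¬ p ∣ Nat.card B) :
    Group.IsSolvable (A ⊔ B : Subgroup G) ∧ ¬ p ∣ Nat.card (A ⊔ B : Subgroup G) := by
  obtain ⟨f, hf⟩ := l3_range h
  rw [← hf]
  constructor
  · exact Group.isSolvable_of_surjective f.rangeRestrict_surjective
  · intro hd
    have h1 := hd.trans (Subgroup.card_range_dvd f)
    rw [Nat.card_prod] at h1
    exact (hp.out.dvd_mul.1 h1).elim hA' hB'

/-- joins of commuting solvable subgroups -/
private lemma l3_fin [hp : Fact p.Prime] [Finite G] {F D : Set (Subgroup G)}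
    (hF : Family p F) (hDF : D ⊆ F) (W : Subgroup G → Subgroup G) (hW : ∀ L ∈ D, W L ≤ L)
    (hW1 : ∀ L ∈ D, Group.IsSolvable (W L)) (hW2 : ∀ L ∈ D, ¬ p ∣ Nat.card (W L)) :
    Group.IsSolvable (⨆ L ∈ D, W L : Subgroup G) ∧ ¬ p ∣ Nat.card (⨆ L ∈ D, W L : Subgroup G) ∧
      ∀ l : Subgroup G → G, (∀ L ∈ D, l L ∈ W L) → ∃ d ∈ (⨆ L ∈ D, W L : Subgroup G),
        ∀ L ∈ D, ∃ c ∈ centralizer (L : Set G), d = l L * c := by
  have key : ∀ T : Set (Subgroup G), T.Finite → T ⊆ D →
      Group.IsSolvable (⨆ L ∈ T, W L : Subgroup G) ∧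
      ¬ p ∣ Nat.card (⨆ L ∈ T, W L : Subgroup G) ∧
      ∀ l : Subgroup G → G, (∀ L ∈ D, l L ∈ W L) → ∃ d ∈ (⨆ L ∈ T, W L : Subgroup G),
        ∀ L ∈ T, ∃ c ∈ centralizer (L : Set G), d = l L * c := by
    intro T hfin
    induction T, hfin using Set.Finite.induction_on with
    | empty =>
      intro _
      have h0 : (⨆ L ∈ (∅ : Set (Subgroup G)), W L : Subgroup G) = ⊥ := by simp
      rw [h0]
      refine ⟨inferInstance, ?_, fun l _ => ⟨1, one_mem _, by simp⟩⟩
      rw [Subgroup.card_bot]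
      exact hp.out.not_dvd_one
    | @insert M T hMT _ ih =>
      intro hsub
      obtain ⟨i1, i2, i3⟩ := ih fun L hL => hsub (Set.mem_insert_of_mem _ hL)
      have hMD : M ∈ D := hsub (Set.mem_insert _ _)
      have hTD : ∀ L ∈ T, L ∈ D := fun L hL => hsub (Set.mem_insert_of_mem _ hL)
      have hTM : (⨆ L ∈ T, W L : Subgroup G) ≤ centralizer (M : Set G) := by
        refine iSup₂_le fun L hL x hx => ?_
        rw [mem_centralizer_iff]
        intro y hy
        refine hF.comm M (hDF hMD) L (hDF (hTD L hL)) ?_ y hy x (hW L (hTD L hL) hx)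
        rintro rfl
        exact hMT hL
      have hsup : (⨆ L ∈ insert M T, W L : Subgroup G) = W M ⊔ ⨆ L ∈ T, W L := iSup_insert
      have htwo := l3_two (A := W M) (B := ⨆ L ∈ T, W L)
        (fun a ha b hb => (mem_centralizer_iff.1 (hTM hb)) a (hW M hMD ha))
        (hW1 M hMD) i1 (hW2 M hMD) i2
      rw [hsup]
      refine ⟨htwo.1, htwo.2, fun l hl => ?_⟩
      obtain ⟨d, hd, h1⟩ := i3 l hl
      refine ⟨l M * d, mul_mem (mem_sup_left (hl M hMD)) (mem_sup_right hd), ?_⟩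
      intro L hL
      rcases Set.mem_insert_iff.1 hL with h | hL2
      · subst h
        exact ⟨d, hTM hd, rfl⟩
      · obtain ⟨c, hc, hdc⟩ := h1 L hL2
        have hLD : L ∈ D := hTD L hL2
        have hne : L ≠ M := by
          rintro rfl
          exact hMT hL2
        have hlM : l M ∈ centralizer (L : Set G) := by
          rw [mem_centralizer_iff]
          intro y hy
          exact hF.comm L (hDF hLD) M (hDF hMD) hne y hy _ (hW M hMD (hl M hMD))
        refine ⟨l M * c, mul_mem hlM hc, ?_⟩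
        have h3 : l L * l M = l M * l L := (mem_centralizer_iff.1 hlM) _ (hW L hLD (hl L hLD))
        rw [hdc, ← mul_assoc, ← h3, mul_assoc]
  exact key D (Set.toFinite _) (Set.Subset.refl _)

theorem exists_kernel [hp : Fact p.Prime] [Finite G] {F D : Set (Subgroup G)} {S : Set G}
    (hF : Family p F) (hDF : D ⊆ F)
    (hconj : ∀ L ∈ D, ∀ g : G, L.map (MulAut.conj g).toMonoidHom ∈ D)
    (hC : Rest F (∅ : Set (Subgroup G)) = ⊥)
    (hloc : ∀ L ∈ D, LocalGood p S L) {z : G} (hz : z ∈ Sel D S) :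
    ∃ W : Subgroup G, W ≤ Gn D ∧ W ≤ Cent0 F D z ∧
      (∀ x ∈ Cent0 F D z, ∀ w ∈ W, x * w * x⁻¹ ∈ W) ∧ Group.IsSolvable W ∧
      ¬ p ∣ Nat.card W ∧
      (∀ x ∈ Cent0 F D z, x ^ p = 1 → (∀ w ∈ W, x * w = w * x) → x = 1) ∧
      ∀ x ∈ Cent0 F D z, ∀ y ∈ Cent0 F D z, x ^ p = 1 → y ^ p = 1 → x * y * x⁻¹ * y⁻¹ ∈ W := by
  have hgood := sel_good hF hDF hconj hloc hz
  obtain ⟨hz1, hz2⟩ := hz
  choose! s hsS hsL hsz using hz2
  have hker : ∀ L ∈ D, ∃ W : Subgroup G, W ≤ L ⊓ Cn L (s L) ∧ Group.IsSolvable W ∧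
      ¬ p ∣ Nat.card W ∧ (∀ x ∈ Cn L (s L), ∀ w ∈ W, x * w * x⁻¹ ∈ W) ∧
      ∀ x ∈ Cn L (s L), x ^ p = 1 →
        ((∀ w ∈ W, x * w = w * x) → x ∈ centralizer (L : Set G)) ∧
        ∀ y ∈ Cn L (s L), y ^ p = 1 → x * y * x⁻¹ * y⁻¹ ∈ W ⊔ centralizer (L : Set G) :=
    fun L hL => (hloc L hL).kernel (s L) (hsS L hL) (hsL L hL)
  choose! W hW1 hW2 hW3 hW4 hW5 using hker
  have hWL : ∀ L ∈ D, W L ≤ L := fun L hL => (hW1 L hL).trans inf_le_left
  have hWC : ∀ L ∈ D, W L ≤ Cn L (s L) := fun L hL => (hW1 L hL).trans inf_le_right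
  obtain ⟨f1, f2, f3⟩ := l3_fin hF hDF W hWL hW2 hW3
  -- elements of `Cent0`
  have hC0 : ∀ x ∈ Cent0 F D z, x ∈ Rest F D ∧ ∀ L ∈ D, x ∈ Cn L (s L) := by
    intro x hx
    obtain ⟨hx1, hx2⟩ := Subgroup.mem_inf.1 hx
    obtain ⟨hx3, hx4⟩ := Subgroup.mem_inf.1 hx1
    refine ⟨hx3, fun L hL => ?_⟩
    simp only [mem_iInf] at hx2
    exact sel_comm (hF.centre L (hDF hL)) (hsL L hL) (hsz L hL) (hx2 L hL)
      ((mem_centralizer_iff.1 hx4) z rfl).symm
  have hWG : (⨆ L ∈ D, W L : Subgroup G) ≤ Gn D := iSup₂_mono hWL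
  have hWR : (⨆ L ∈ D, W L : Subgroup G) ≤ Rest F D :=
    hWG.trans ((l3_Gn_eq D).le.trans (l3_rest hF hDF))
  have hall : ∀ x ∈ Rest F D, (∀ L ∈ D, x ∈ centralizer (L : Set G)) → x = 1 := by
    intro x hx h
    have h1 : x ∈ Rest F (∅ : Set (Subgroup G)) := by
      refine mem_Rest.2 fun M hM _ => ?_
      by_cases hMD : M ∈ D
      · exact h M hMD
      · exact mem_Rest.1 hx M hM hMD
    rw [hC, mem_bot] at h1
    exact h1
  refine ⟨⨆ L ∈ D, W L, hWG, ?_, ?_, f1, f2, ?_, ?_⟩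
  · refine iSup₂_le fun L hL w hw => ?_
    have hwL : w ∈ L := hWL L hL hw
    have hwG : w ∈ sSup D := (le_sSup hL : L ≤ sSup D) hwL
    refine Subgroup.mem_inf.2 ⟨Subgroup.mem_inf.2 ⟨l3_rest hF hDF hwG, ?_⟩, ?_⟩
    · rw [mem_centralizer_iff]
      intro y hy
      rw [Set.mem_singleton_iff.1 hy]
      have h1 : s L * w = w * s L :=
        (mem_centralizer_iff.1 (Subgroup.mem_inf.1 (hWC L hL hw)).2) _ rfl
      have h2 : w * ((s L)⁻¹ * z) = ((s L)⁻¹ * z) * w := (mem_centralizer_iff.1 (hsz L hL)) w hwL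
      calc z * w = s L * (((s L)⁻¹ * z) * w) := by group
        _ = s L * (w * ((s L)⁻¹ * z)) := by rw [h2]
        _ = (s L * w) * ((s L)⁻¹ * z) := by group
        _ = (w * s L) * ((s L)⁻¹ * z) := by rw [h1]
        _ = w * z := by group
    · simp only [mem_iInf]
      exact fun M hM => sSup_le_norm hF hDF (hDF hM) hwG
  · intro x hx w hw
    have h1 : (⨆ L ∈ D, W L : Subgroup G) ≤
        (⨆ L ∈ D, W L : Subgroup G).comap (MulAut.conj x).toMonoidHom := by
      refine iSup₂_le fun L hL w hw => ?_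
      have h2 : W L ≤ ⨆ L ∈ D, W L := le_iSup₂_of_le L hL le_rfl
      exact h2 (hW4 L hL x ((hC0 x hx).2 L hL) w hw)
    exact h1 hw
  · intro x hx hxp hxw
    refine hall x (hC0 x hx).1 fun L hL => ?_
    refine (hW5 L hL x ((hC0 x hx).2 L hL) hxp).1 fun w hw => hxw w ?_
    exact (le_iSup₂_of_le L hL le_rfl : W L ≤ ⨆ L ∈ D, W L) hw
  · intro x hx y hy hxp hyp
    have h1 : ∀ L ∈ D, ∃ w ∈ W L, ∃ c ∈ centralizer (L : Set G),
        x * y * x⁻¹ * y⁻¹ = w * c := by
      intro L hL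
      refine mem_sup_comm (fun a ha b hb => ?_)
        ((hW5 L hL x ((hC0 x hx).2 L hL) hxp).2 y ((hC0 y hy).2 L hL) hyp)
      exact (mem_centralizer_iff.1 hb) a (hWL L hL ha)
    choose! l hl c hc hlc using h1
    obtain ⟨d, hd, hdc⟩ := f3 l hl
    have h2 : d⁻¹ * (x * y * x⁻¹ * y⁻¹) = 1 := by
      refine hall _ ?_ fun L hL => ?_
      · exact mul_mem (inv_mem (hWR hd)) (mul_mem (mul_mem (mul_mem (hC0 x hx).1 (hC0 y hy).1)
          (inv_mem (hC0 x hx).1)) (inv_mem (hC0 y hy).1))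
      · obtain ⟨c', hc', hd'⟩ := hdc L hL
        rw [hlc L hL, hd']
        have h3 : (l L * c')⁻¹ * (l L * c L) = c'⁻¹ * c L := by group
        rw [h3]
        exact (centralizer (L : Set G)).mul_mem ((centralizer (L : Set G)).inv_mem hc') (hc L hL)
    rw [← inv_mul_eq_one.1 h2]
    exact hd

end

end Vale.Agent.P240.K
end

section

/-!
P240-L4. Lifting elements of order `p` from the centralizer of `z ∈ Sel D S` to that of `y ∈ Sel D S`.

Let `x ∈ Cent0 F D z`, `x ^ p = 1`. For `L ∈ D` let `s, t ∈ S ∩ L` be the components of `z`, `y`; `x ∈ Cn L s` by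
`sel_comm`, so `LocalGood.same` gives `n_L ∈ L` with `x n_L ∈ Cn L t`, `(x n_L) ^ p ∈ centralizer L`. Let
`n ∈ ⨆ L ∈ D, L` act on every `L ∈ D` as `n_L` (`exists_prod`, K/FreeEl.lean; `sSup D = ⨆ L ∈ D, L`). Then
`x n` normalizes all `L ∈ D`, centralizes `F \ D`; `x n y (x n)⁻¹ y⁻¹ ∈ Gn D` acts trivially on all `L ∈ D`, so it is
`1` (`Family.center_trivial`); `(x n) ^ p` acts on `L` as `(x n_L) ^ p`, i.e. trivially, and centralizes `F \ D`, so it lies
in `Rest F ∅ = ⊥`. -/

namespace Vale.Agent.P240.K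

open Finsupp Subgroup

universe u

section
variable {G : Type u} [Group G] {p : ℕ}

lemma l4_pow {L : Subgroup G} {a c : G} (ha : a ∈ normalizer (L : Set G))
    (hc : c ∈ centralizer (L : Set G)) (k : ℕ) :
    ∃ c' ∈ centralizer (L : Set G), (a * c) ^ k = c' * a ^ k := by
  induction k with
  | zero => exact ⟨1, one_mem _, by simp⟩
  | succ k ih =>
    obtain ⟨c', hc', h⟩ := ih
    have h1 : a ^ (k + 1) * c * (a ^ (k + 1))⁻¹ ∈ centralizer (L : Set G) :=
      conj_centralizer ((normalizer (L : Set G)).pow_mem ha (k + 1)) hc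
    refine ⟨c' * (a ^ (k + 1) * c * (a ^ (k + 1))⁻¹), mul_mem hc' h1, ?_⟩
    rw [pow_succ, h, pow_succ]
    group

lemma l4_comm {L : Subgroup G} {a c t c' : G} (ha : a ∈ normalizer (L : Set G))
    (hc : c ∈ centralizer (L : Set G)) (ht : t ∈ L) (hc' : c' ∈ centralizer (L : Set G))
    (hat : a * t = t * a) :
    (a * c) * (t * c') * (a * c)⁻¹ * (t * c')⁻¹ ∈ centralizer (L : Set G) := by
  have h1 : t * c = c * t := mem_centralizer_iff.1 hc t ht
  have h2 : c * c' * c⁻¹ ∈ centralizer (L : Set G) := mul_mem (mul_mem hc hc') (inv_mem hc)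
  have h3 : a * (c * c' * c⁻¹) * a⁻¹ ∈ centralizer (L : Set G) := conj_centralizer ha h2
  have h4 : a * (c * c' * c⁻¹) * a⁻¹ * c'⁻¹ ∈ centralizer (L : Set G) := mul_mem h3 (inv_mem hc')
  have h5 : (a * c) * (t * c') * (a * c)⁻¹ * (t * c')⁻¹ =
      t * (a * (c * c' * c⁻¹) * a⁻¹ * c'⁻¹) * t⁻¹ := by
    have e1 : (a * c) * (t * c') * (a * c)⁻¹ * (t * c')⁻¹ =
        a * (c * t) * c' * (a * c)⁻¹ * (t * c')⁻¹ := by group
    rw [e1, ← h1]
    have e2 : a * (t * c) * c' * (a * c)⁻¹ * (t * c')⁻¹ =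
        (a * t) * c * c' * (a * c)⁻¹ * (t * c')⁻¹ := by group
    rw [e2, hat]
    group
  rw [h5]
  exact conj_centralizer (Subgroup.le_normalizer ht) h4

theorem lift_elt [hp : Fact p.Prime] [Finite G] {F D : Set (Subgroup G)} {S : Set G}
    (hF : Family p F) (hDF : D ⊆ F)
    (hconj : ∀ L ∈ D, ∀ g : G, L.map (MulAut.conj g).toMonoidHom ∈ D)
    (hC : Rest F (∅ : Set (Subgroup G)) = ⊥)
    (hloc : ∀ L ∈ D, LocalGood p S L) {z y : G} (hz : z ∈ Sel D S) (hy : y ∈ Sel D S)
    {x : G} (hx : x ∈ Cent0 F D z) (hxp : x ^ p = 1) :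
    ∃ n ∈ Gn D, x * n ∈ Cent0 F D y ∧ (x * n) ^ p = 1 := by
  have hx1 := Subgroup.mem_inf.1 hx
  have hx2 := Subgroup.mem_inf.1 hx1.1
  have hxN : ∀ L ∈ D, x ∈ normalizer (L : Set G) := fun L hL => by
    have h1 := mem_iInf.1 hx1.2 L
    exact mem_iInf.1 h1 hL
  have hxz : x * z = z * x := ((mem_centralizer_iff.1 hx2.2) z rfl).symm
  have hsel : ∀ L : Subgroup G, L ∈ D → ∃ t n : G, t ∈ L ∧ t⁻¹ * y ∈ centralizer (L : Set G) ∧
      n ∈ L ∧ x * n ∈ Cn L t ∧ (x * n) ^ p ∈ centralizer (L : Set G) := by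
    intro L hL
    obtain ⟨s, hsS, hsL, hsz⟩ := hz.2 L hL
    obtain ⟨t, htS, htL, hty⟩ := hy.2 L hL
    have h1 : x ∈ Cn L s := sel_comm (hF.centre L (hDF hL)) hsL hsz (hxN L hL) hxz
    obtain ⟨n, hn, hn1, hn2⟩ := ((hloc L hL).same s hsS hsL t htS htL).2 x h1 hxp
    exact ⟨t, n, htL, hty, hn, hn1, hn2⟩
  choose! t l htL hty hlL hlC hlp using hsel
  obtain ⟨d, hd, hdc⟩ := exists_prod hF hDF l hlL
  have hySup : y ∈ sSup D := by
    rw [sSup_eq_iSup]
    exact hy.1
  have hdGn : d ∈ Gn D := by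
    rw [Gn, ← sSup_eq_iSup]
    exact hd
  have hdC : ∀ M ∈ F, M ∉ D → d ∈ centralizer (M : Set G) := by
    intro M hM hMD
    have : sSup D ≤ centralizer (M : Set G) := by
      refine sSup_le fun L hL => ?_
      intro w hw
      rw [mem_centralizer_iff]
      intro v hv
      refine hF.comm M hM L (hDF hL) ?_ v hv w hw
      rintro rfl
      exact hMD hL
    exact this hd
  have hxdR : x * d ∈ Rest F D := mem_Rest.2 fun M hM hMD =>
    mul_mem (mem_Rest.1 hx2.1 M hM hMD) (hdC M hM hMD)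
  have hxdN : ∀ L ∈ D, x * d ∈ normalizer (L : Set G) := fun L hL =>
    mul_mem (hxN L hL) (sSup_le_norm hF hDF (hDF hL) hd)
  have hcm : (x * d) * y * (x * d)⁻¹ * y⁻¹ = 1 := by
    refine hF.center_trivial hDF (mul_mem (sSup_conj hconj (x * d) hySup) (inv_mem hySup))
      fun L hL => ?_
    obtain ⟨c, hc, hdl⟩ := hdc L hL
    have h1 := Subgroup.mem_inf.1 (hlC L hL)
    have h2 : (x * l L) * t L = t L * (x * l L) :=
      ((mem_centralizer_iff.1 h1.2) (t L) rfl).symm
    have h3 := l4_comm h1.1 hc (htL L hL) (hty L hL) h2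
    have h4 : x * d = (x * l L) * c := by rw [hdl, mul_assoc]
    have h5 : y = t L * ((t L)⁻¹ * y) := by rw [mul_inv_cancel_left]
    rw [← h5, ← h4] at h3
    exact h3
  refine ⟨d, hdGn, ?_, ?_⟩
  · refine Subgroup.mem_inf.2 ⟨Subgroup.mem_inf.2 ⟨hxdR, ?_⟩, ?_⟩
    · rw [mem_centralizer_iff]
      intro w hw
      rw [Set.mem_singleton_iff.1 hw]
      have h1 : (x * d) * y * (x * d)⁻¹ = y := mul_inv_eq_one.1 hcm
      exact (mul_inv_eq_iff_eq_mul.1 h1).symm
    · rw [mem_iInf]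
      intro L
      rw [mem_iInf]
      exact hxdN L
  · have h1 : (x * d) ^ p ∈ Rest F (∅ : Set (Subgroup G)) := by
      refine mem_Rest.2 fun M hM _ => ?_
      by_cases hMD : M ∈ D
      · obtain ⟨c, hc, hdl⟩ := hdc M hMD
        have h2 := (Subgroup.mem_inf.1 (hlC M hMD)).1
        obtain ⟨c', hc', h3⟩ := l4_pow h2 hc p
        have h4 : x * d = (x * l M) * c := by rw [hdl, mul_assoc]
        rw [h4, h3]
        exact mul_mem hc' (hlp M hMD)
      · exact (centralizer (M : Set G)).pow_mem (mem_Rest.1 hxdR M hM hMD) p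
    rw [hC, mem_bot] at h1
    exact h1

end

end Vale.Agent.P240.K
end

section

/-!
P240-L5. The Lefschetz number of `z ∈ Sel D S` on `𝒜ₚ(⨆ L ∈ D, L)` does not depend on `z`.

`lam_prod`: by `Set.Finite.induction_on` for `O ⊆ D`: `lam p (Gn O) z = ∏ L ∈ O, lam p L z` for `z ∈ Gn D`
(`Gn (insert L O) = L ⊔ Gn O`, `lam_sup` in V/ProdF.lean, `Fam.gn_comm`, `Fam.gn_inf` in V/Split.lean; `z`
normalizes all members; `lam p ⊥ z = 1` since `Ain p ⊥ = ∅`, `eu_empty`).
`lam_same`: for `L ∈ D` let `s, t` be the components of `z`, `y`. `lam p L z = lam p L s` (`lam_mul_right` with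
`z = s * (s⁻¹ * z)`), `lam p L y = lam p L t`, and `t = g s g⁻¹` with `g ∈ N(L)` (`LocalGood.same`): conjugation by
`g` is an isomorphism of posets, `lam p L (g s g⁻¹) = lam p L s` (`eu_emb` in K/Elements.lean or the transport lemma
used there). -/

namespace Vale.Agent.P240.K

open Finsupp Subgroup

universe u

section
variable {G : Type u} [Group G] {p : ℕ}

lemma l5_eu_empty {α : Type*} [PartialOrder α] : eu (∅ : Set α) = 1 := by
  rw [eu_rec Set.finite_empty]
  simp

lemma l5_lam_bot {z : G} : lam p (⊥ : Subgroup G) z = 1 := by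
  unfold lam
  have h : {E | E ∈ Ain p (⊥ : Subgroup G) ∧ z ∈ normalizer (E : Set G)} = ∅ := by
    rw [Set.eq_empty_iff_forall_notMem]
    rintro E ⟨⟨h1, h2⟩, _⟩
    exact h1.1 (le_bot_iff.1 h2)
  rw [h, l5_eu_empty]

lemma l5_le_nz {R : Subgroup G} {D : Set (Subgroup G)} (hD : Fam p R D) {L : Subgroup G}
    (hL : L ∈ D) : Gn D ≤ normalizer (L : Set G) := by
  unfold Gn
  refine iSup₂_le fun M hM => ?_
  by_cases h : M = L
  · subst h
    exact le_normalizer
  · intro x hx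
    exact pf_nz_of_comm (fun y hy => hD.comm M hM L hL h x hx y hy) le_rfl

lemma l5_prod [hp : Fact p.Prime] [Finite G] {R : Subgroup G} {D : Set (Subgroup G)}
    (hD : Fam p R D) {z : G} (hz : ∀ L ∈ D, z ∈ normalizer (L : Set G)) (T : Set (Subgroup G))
    (hT : T ⊆ D) : lam p (Gn T) z = ∏ L ∈ (Set.toFinite T).toFinset, lam p L z := by
  classical
  induction T, Set.toFinite T using Set.Finite.induction_on with
  | empty =>
    have h1 : Gn (∅ : Set (Subgroup G)) = ⊥ := by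
      unfold Gn
      simp
    rw [h1, l5_lam_bot]
    simp
  | @insert L T hLT hTf ih =>
    have hTD : T ⊆ D := (Set.subset_insert L T).trans hT
    have hLD : L ∈ D := hT (Set.mem_insert L T)
    have h1 : Gn (insert L T) = L ⊔ Gn T := by
      unfold Gn
      exact iSup_insert
    have h2 : Gn ({L} : Set (Subgroup G)) = L := by
      unfold Gn
      exact iSup_singleton
    have hsub : ({L} : Set (Subgroup G)) ⊆ D := Set.singleton_subset_iff.2 hLD
    have hdis : Disjoint ({L} : Set (Subgroup G)) T := Set.disjoint_singleton_left.2 hLT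
    have hcom := hD.gn_comm hsub hTD hdis
    have hint := hD.gn_inf hsub hTD hdis
    rw [h2] at hcom hint
    have h3 : z ∈ normalizer (Gn T : Set G) := by
      refine mem_normalizer_Gn fun M hM => ?_
      rw [cj_eq_iff.2 (hz M (hTD hM))]
      exact hM
    have h4 : (Set.toFinite (insert L T)).toFinset = insert L (Set.toFinite T).toFinset := by
      ext M
      simp
    rw [h1, lam_sup hcom hint (hz L hLD) h3, ih hTD, h4, Finset.prod_insert]
    rw [Set.Finite.mem_toFinset]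
    exact hLT

lemma lam_prod [hp : Fact p.Prime] [Finite G] {R : Subgroup G} {D : Set (Subgroup G)}
    (hD : Fam p R D) {z : G} (hz : z ∈ Gn D) :
    lam p (Gn D) z = ∏ L ∈ (Set.toFinite D).toFinset, lam p L z :=
  l5_prod hD (fun _ hL => l5_le_nz hD hL hz) D subset_rfl

lemma lam_cj [Finite G] {L : Subgroup G} {g s : G} (hg : g ∈ normalizer (L : Set G)) :
    lam p L (g * s * g⁻¹) = lam p L s := by
  have h : {E | E ∈ Ain p L ∧ g * s * g⁻¹ ∈ normalizer (E : Set G)} =
      cjIso g '' {E | E ∈ Ain p L ∧ s ∈ normalizer (E : Set G)} := by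
    ext E
    constructor
    · rintro ⟨⟨h1, h2⟩, h3⟩
      refine ⟨cj g⁻¹ E, ⟨⟨cj_mem_ApS.2 h1, ?_⟩, ?_⟩, ?_⟩
      · have h4 : cj g⁻¹ L = L := cj_eq_iff.2 (inv_mem hg)
        rw [← h4]
        exact cj_le.2 h2
      · rw [← cj_eq_iff] at h3 ⊢
        rw [← cj_mul]
        have h4 : s * g⁻¹ = g⁻¹ * (g * s * g⁻¹) := by group
        rw [h4, cj_mul, h3]
      · change cj g (cj g⁻¹ E) = E
        rw [← cj_mul, mul_inv_cancel, cj_one]
    · rintro ⟨F, ⟨⟨h1, h2⟩, h3⟩, rfl⟩
      change cj g F ∈ Ain p L ∧ g * s * g⁻¹ ∈ normalizer ((cj g F : Subgroup G) : Set G)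
      refine ⟨⟨cj_mem_ApS.2 h1, ?_⟩, ?_⟩
      · have h4 : cj g L = L := cj_eq_iff.2 hg
        rw [← h4]
        exact cj_le.2 h2
      · rw [← cj_eq_iff] at h3 ⊢
        rw [← cj_mul]
        have h4 : g * s * g⁻¹ * g = g * s := by group
        rw [h4, cj_mul, h3]
  unfold lam
  rw [h, eu_image]

theorem lam_same [hp : Fact p.Prime] [Finite G] {F D : Set (Subgroup G)} {S : Set G}
    (hF : Family p F) (hDF : D ⊆ F)
    (hconj : ∀ L ∈ D, ∀ g : G, L.map (MulAut.conj g).toMonoidHom ∈ D)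
    (hloc : ∀ L ∈ D, LocalGood p S L) {z y : G} (hz : z ∈ Sel D S) (hy : y ∈ Sel D S) :
    lam p (Gn D) z = lam p (Gn D) y := by
  have hD : Fam p (⊤ : Subgroup G) D :=
    { le := fun _ _ => le_top
      conj := fun L hL g _ => hconj L hL g
      comm := fun L hL M hM hne => hF.comm L (hDF hL) M (hDF hM) hne
      centre := fun L hL => hF.centre L (hDF hL)
      dvd := fun L hL => hF.dvd L (hDF hL) }
  have key : ∀ L : Subgroup G, ∀ s x : G, s⁻¹ * x ∈ centralizer (L : Set G) →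
      lam p L x = lam p L s := by
    intro L s x hx
    have h1 : lam p L (s * (s⁻¹ * x)) = lam p L s :=
      lam_mul_right fun y hy => (mem_centralizer_iff.1 hx y hy).symm
    rwa [mul_inv_cancel_left] at h1
  rw [lam_prod hD hz.1, lam_prod hD hy.1]
  refine Finset.prod_congr rfl fun L hL => ?_
  rw [Set.Finite.mem_toFinset] at hL
  obtain ⟨s, hs, hsL, hsz⟩ := hz.2 L hL
  obtain ⟨t, ht, htL, hty⟩ := hy.2 L hL
  obtain ⟨⟨g, hg, hgst⟩, _⟩ := (hloc L hL).same s hs hsL t ht htL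
  rw [key L s z hsz, key L t y hty, ← hgst, lam_cj hg]

end

end Vale.Agent.P240.K
end

section

/-!
P240-L6. The local theorem.

`sign_const`: let `z ∈ Sel D S`, `W` from `exists_kernel`, `k`, `Om` from `comm_sign_sub` for `C = Cent0 F D z`. So
`0 < (-1) ^ k * eu (Ain p (Cent0 F D z))` and `Nat.card Om = p ^ k * Nat.card W`. Put `N = Gn D` (normal in `G`),
`H = N ⊓ centralizer {z}` and apply `comm_sign_sub` to `H`, `W`: `κ`, `Om'`. Then `Om' = Om ⊓ N` (an element
`x ∈ Om ⊓ N` is `e * w`, `e ∈ Cent0`, `e ^ p = 1`, `w ∈ W ≤ N`, so `e ∈ N ⊓ centralizer {z}`), so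
`Nat.card (Om ⊓ N) = p ^ κ * Nat.card W` and `0 < (-1) ^ κ * eu (Ain p H)`, `eu (Ain p H) = lam p N z`
(`GoodElement.lam_eq'`). For another `y ∈ Sel D S`, `Om_z ⊔ N = Om_y ⊔ N` by `lift_elt`, so
`p ^ (k_z - κ_z) = Nat.card Om_z / Nat.card (Om_z ⊓ N)` does not depend on `z`, and the sign of `(-1) ^ κ_z` is that of
`lam p N z`, which does not depend on `z` (`lam_same`). -/

namespace Vale.Agent.P240.K

open Finsupp Subgroup

universe u v

variable {𝕜 : Type v} [Field 𝕜]

section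
variable {G : Type u} [Group G] {p : ℕ}

lemma l6_card [Finite G] {H N : Subgroup G} (hN : N.Normal) :
    Nat.card (H ⊔ N : Subgroup G) * Nat.card (H ⊓ N : Subgroup G) = Nat.card H * Nat.card N := by
  have h1 := Subgroup.relIndex_mul_relIndex ⊥ N (H ⊔ N) bot_le le_sup_right
  have h2 := Subgroup.relIndex_mul_relIndex ⊥ (H ⊓ N) H bot_le inf_le_left
  rw [relIndex_bot_left, relIndex_bot_left, relIndex_sup_right] at h1
  rw [relIndex_bot_left, relIndex_bot_left, inf_relIndex_left] at h2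
  rw [← h1, ← h2]
  ring

lemma l6_normal [Finite G] {D : Set (Subgroup G)}
    (hconj : ∀ L ∈ D, ∀ g : G, L.map (MulAut.conj g).toMonoidHom ∈ D) : (Gn D).Normal := by
  refine ⟨fun n hn g => ?_⟩
  have h1 : g ∈ normalizer (Gn D : Set G) := mem_normalizer_Gn fun L hL => hconj L hL g
  exact (mem_normalizer_iff.1 h1 n).1 hn

/-- the data attached to one `z` -/
lemma l6_data [hp : Fact p.Prime] [Finite G] {F D : Set (Subgroup G)} {S : Set G}
    (hF : Family p F) (hDF : D ⊆ F)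
    (hconj : ∀ L ∈ D, ∀ g : G, L.map (MulAut.conj g).toMonoidHom ∈ D)
    (hC : Rest F (∅ : Set (Subgroup G)) = ⊥)
    (hloc : ∀ L ∈ D, LocalGood p S L) {z : G} (hz : z ∈ Sel D S) :
    ∃ (k κ : ℕ) (Om : Subgroup G), 0 < (-1 : ℤ) ^ k * lam p (Rz (Rest F D) D) z ∧
      0 < (-1 : ℤ) ^ κ * lam p (Gn D) z ∧
      (∀ x ∈ Cent0 F D z, x ^ p = 1 → x ∈ Om) ∧
      (∀ x ∈ Om, ∃ e ∈ Cent0 F D z, e ^ p = 1 ∧ e⁻¹ * x ∈ Gn D) ∧
      Nat.card (Om ⊔ Gn D : Subgroup G) * p ^ κ = p ^ k * Nat.card (Gn D) := by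
  obtain ⟨W, hWN, hWC, hnorm, hsol, hpW, hfaith, hcomm⟩ :=
    exists_kernel hF hDF hconj hC hloc hz
  have hgood := sel_good hF hDF hconj hloc hz
  have hFam := family_Fam hF hDF hconj
  have hNC : Gn D ⊓ centralizer {z} ≤ Cent0 F D z := by
    rw [Cent0_eq]
    exact inf_le_inf_right _ hFam.gn_le_Rz
  have hCz : Cent0 F D z ≤ centralizer {z} := by
    rw [Cent0_eq]
    exact inf_le_right
  obtain ⟨k, Om, hOmC, hWOm, hcard, hall, hex, hpos⟩ :=
    comm_sign_sub hWC hnorm hsol hpW hfaith hcomm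
  obtain ⟨κ, Om', hOmC', hWOm', hcard', hall', hex', hpos'⟩ :=
    comm_sign_sub (C := Gn D ⊓ centralizer {z}) (le_inf hWN (hWC.trans hCz))
      (fun x hx => hnorm x (hNC hx)) hsol hpW (fun x hx => hfaith x (hNC hx))
      (fun x hx y hy => hcomm x (hNC hx) y (hNC hy))
  have hOmeq : Om ⊓ Gn D = Om' := by
    apply le_antisymm
    · intro x hx
      obtain ⟨hx1, hx2⟩ := Subgroup.mem_inf.1 hx
      obtain ⟨e, he, hep, hew⟩ := hex x hx1
      have heN : e ∈ Gn D := by
        have h1 : e = x * (e⁻¹ * x)⁻¹ := by group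
        rw [h1]
        exact mul_mem hx2 (inv_mem (hWN hew))
      have h2 : e ∈ Om' := hall' e (Subgroup.mem_inf.2 ⟨heN, hCz he⟩) hep
      have h3 : x = e * (e⁻¹ * x) := by group
      rw [h3]
      exact mul_mem h2 (hWOm' hew)
    · intro x hx
      obtain ⟨e, he, hep, hew⟩ := hex' x hx
      refine Subgroup.mem_inf.2 ⟨?_, (Subgroup.mem_inf.1 (hOmC' hx)).1⟩
      have h3 : x = e * (e⁻¹ * x) := by group
      rw [h3]
      exact mul_mem (hall e (hNC he) hep) (hWOm hew)
  refine ⟨k, κ, Om, ?_, ?_, hall, ?_, ?_⟩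
  · rw [hgood.lam_eq hF]
    exact hpos
  · rw [hgood.lam_eq' hF]
    exact hpos'
  · intro x hx
    obtain ⟨e, he, hep, hew⟩ := hex x hx
    exact ⟨e, he, hep, hWN hew⟩
  · have h1 := l6_card (H := Om) (l6_normal hconj)
    rw [hOmeq, hcard, hcard'] at h1
    have hW0 : 0 < Nat.card W := Nat.card_pos
    refine Nat.eq_of_mul_eq_mul_right hW0 ?_
    calc Nat.card (Om ⊔ Gn D : Subgroup G) * p ^ κ * Nat.card W
        = Nat.card (Om ⊔ Gn D : Subgroup G) * (p ^ κ * Nat.card W) := by ring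
      _ = p ^ k * Nat.card W * Nat.card (Gn D) := h1
      _ = p ^ k * Nat.card (Gn D) * Nat.card W := by ring

lemma l6_sup_le [hp : Fact p.Prime] [Finite G] {F D : Set (Subgroup G)} {S : Set G}
    (hF : Family p F) (hDF : D ⊆ F)
    (hconj : ∀ L ∈ D, ∀ g : G, L.map (MulAut.conj g).toMonoidHom ∈ D)
    (hC : Rest F (∅ : Set (Subgroup G)) = ⊥)
    (hloc : ∀ L ∈ D, LocalGood p S L) {z y : G} (hz : z ∈ Sel D S) (hy : y ∈ Sel D S)
    {A B : Subgroup G} (hA : ∀ x ∈ A, ∃ e ∈ Cent0 F D z, e ^ p = 1 ∧ e⁻¹ * x ∈ Gn D)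
    (hB : ∀ x ∈ Cent0 F D y, x ^ p = 1 → x ∈ B) : A ⊔ Gn D ≤ B ⊔ Gn D := by
  refine sup_le ?_ le_sup_right
  intro x hx
  obtain ⟨e, he, hep, hen⟩ := hA x hx
  obtain ⟨n, hn, hn1, hn2⟩ := lift_elt hF hDF hconj hC hloc hz hy he hep
  have h1 : x = (e * n) * (n⁻¹ * (e⁻¹ * x)) := by group
  rw [h1]
  exact mul_mem (Subgroup.mem_sup_left (hB _ hn1 hn2))
    (Subgroup.mem_sup_right (mul_mem (inv_mem hn) hen))

lemma l6_parity {a b : ℕ} {l : ℤ} (h1 : 0 < (-1 : ℤ) ^ a * l) (h2 : 0 < (-1 : ℤ) ^ b * l) :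
    (-1 : ℤ) ^ a = (-1 : ℤ) ^ b := by
  rcases neg_one_pow_eq_or ℤ a with ha | ha <;> rcases neg_one_pow_eq_or ℤ b with hb | hb
  · rw [ha, hb]
  · rw [ha] at h1; rw [hb] at h2; linarith
  · rw [ha] at h1; rw [hb] at h2; linarith
  · rw [ha, hb]

theorem sign_const [hp : Fact p.Prime] [Finite G] {F D : Set (Subgroup G)} {S : Set G}
    (hF : Family p F) (hDF : D ⊆ F)
    (hconj : ∀ L ∈ D, ∀ g : G, L.map (MulAut.conj g).toMonoidHom ∈ D)
    (hC : Rest F (∅ : Set (Subgroup G)) = ⊥)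
    (hloc : ∀ L ∈ D, LocalGood p S L) :
    ∃ k : ℕ, ∀ z ∈ Sel D S, 0 < (-1 : ℤ) ^ k * lam p (Rz (Rest F D) D) z := by
  by_cases hne : (Sel D S).Nonempty
  swap
  · exact ⟨0, fun z hz => absurd ⟨z, hz⟩ hne⟩
  obtain ⟨y, hy⟩ := hne
  obtain ⟨k, κ, Om, hk, hκ, hall, hex, hcard⟩ := l6_data hF hDF hconj hC hloc hy
  refine ⟨k, fun z hz => ?_⟩
  obtain ⟨k', κ', Om', hk', hκ', hall', hex', hcard'⟩ := l6_data hF hDF hconj hC hloc hz
  have hsup : Om ⊔ Gn D = Om' ⊔ Gn D :=
    le_antisymm (l6_sup_le hF hDF hconj hC hloc hy hz hex hall')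
      (l6_sup_le hF hDF hconj hC hloc hz hy hex' hall)
  rw [← hsup] at hcard'
  have hT : 0 < Nat.card (Om ⊔ Gn D : Subgroup G) := Nat.card_pos
  have hN : 0 < Nat.card (Gn D) := Nat.card_pos
  have hpow : p ^ (k + κ') = p ^ (k' + κ) := by
    have h1 : Nat.card (Om ⊔ Gn D : Subgroup G) * Nat.card (Gn D) * p ^ (k + κ') =
        Nat.card (Om ⊔ Gn D : Subgroup G) * Nat.card (Gn D) * p ^ (k' + κ) := by
      calc Nat.card (Om ⊔ Gn D : Subgroup G) * Nat.card (Gn D) * p ^ (k + κ')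
          = (p ^ k * Nat.card (Gn D)) * (Nat.card (Om ⊔ Gn D : Subgroup G) * p ^ κ') := by
            rw [pow_add]; ring
        _ = (Nat.card (Om ⊔ Gn D : Subgroup G) * p ^ κ) * (p ^ k' * Nat.card (Gn D)) := by
            rw [hcard, hcard']
        _ = Nat.card (Om ⊔ Gn D : Subgroup G) * Nat.card (Gn D) * p ^ (k' + κ) := by
            rw [pow_add]; ring
    exact Nat.eq_of_mul_eq_mul_left (Nat.mul_pos hT hN) h1
  have hexp : k + κ' = k' + κ := Nat.pow_right_injective hp.out.two_le hpow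
  have hsame : lam p (Gn D) z = lam p (Gn D) y := lam_same hF hDF hconj hloc hz hy
  rw [hsame] at hκ'
  have hpar := l6_parity hκ hκ'
  have hkk : (-1 : ℤ) ^ k = (-1 : ℤ) ^ k' := by
    have h1 : (-1 : ℤ) ^ k * (-1 : ℤ) ^ κ' = (-1 : ℤ) ^ k' * (-1 : ℤ) ^ κ := by
      rw [← pow_add, ← pow_add, hexp]
    rw [hpar] at h1
    exact mul_right_cancel₀ (pow_ne_zero _ (by norm_num)) h1
  rw [hkk]
  exact hk'

theorem sel_nonempty [hp : Fact p.Prime] [Finite G] {F D : Set (Subgroup G)} {S : Set G}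
    (hF : Family p F) (hDF : D ⊆ F) (hloc : ∀ L ∈ D, LocalGood p S L) : (Sel D S).Nonempty := by
  have h := fun L hL => (hloc L hL).ne
  choose! l hlS hlL using h
  obtain ⟨d, hd, hdc⟩ := exists_prod hF hDF l hlL
  refine ⟨d, ?_, fun L hL => ⟨l L, hlS L hL, hlL L hL, ?_⟩⟩
  · rw [sSup_eq_iSup] at hd
    exact hd
  · obtain ⟨c, hc, hdc⟩ := hdc L hL
    rw [hdc, inv_mul_cancel_left]
    exact hc

theorem local_fam [hp : Fact p.Prime] [Finite G] {F D : Set (Subgroup G)} {S : Set G}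
    (hF : Family p F) (hDF : D ⊆ F)
    (hconj : ∀ L ∈ D, ∀ g : G, L.map (MulAut.conj g).toMonoidHom ∈ D)
    (hC : Rest F (∅ : Set (Subgroup G)) = ⊥)
    (hloc : ∀ L ∈ D, LocalGood p S L) (hT : ∀ L ∈ F, L ∈ D ∨ Removable 𝕜 p L) : HQ 𝕜 p G := by
  obtain ⟨k, hk⟩ := sign_const hF hDF hconj hC hloc
  refine prod_main (r := 0) hF hDF hconj
    (fun L hL h _ hp' hn s hs hsL => (hloc L hL).move h hp' hn s hs hsL) hp.out.ne_zero.symm ?_ ?_
  · rw [Nat.cast_zero, zero_dvd_iff]
    intro h0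
    obtain ⟨y, hy⟩ := sel_nonempty hF hDF hloc
    have h1 : 0 < ∑ z ∈ (Set.toFinite (Sel D S)).toFinset,
        (-1 : ℤ) ^ k * lam p (Rz (Rest F D) D) z :=
      Finset.sum_pos (fun z hz => hk z ((Set.Finite.mem_toFinset _).1 hz))
        ⟨y, (Set.Finite.mem_toFinset _).2 hy⟩
    rw [← Finset.mul_sum, h0, mul_zero] at h1
    exact lt_irrefl _ h1
  · intro L hL
    rcases hT L hL with h | h
    · exact Or.inl h
    · exact Or.inr (Or.inl h)

theorem local_main [hp : Fact p.Prime] [Finite G] (hO : OpTrivial p G)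
    (hO' : ∀ N : Subgroup G, N.Normal → ¬ p ∣ Nat.card N → N = ⊥) (D : Set (Subgroup G))
    (S : Set G) (hDF : D ⊆ Comp G)
    (hconj : ∀ L ∈ D, ∀ g : G, L.map (MulAut.conj g).toMonoidHom ∈ D)
    (hloc : ∀ L ∈ D, LocalGood p S L) (hT : ∀ L ∈ Comp G, L ∈ D ∨ Removable 𝕜 p L) :
    HQ 𝕜 p G :=
  local_fam (comp_family hO hO') hDF hconj (comp_rest hO hO') hloc hT

end

end Vale.Agent.P240.K
end

section

/-!
P240-W. The `p`-adic local condition.
-/

namespace Vale.Agent.P240.K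

open Finsupp Subgroup

section
variable {G : Type*} [Group G] {p : ℕ}

lemma eulerFix_eq [Finite G] (S : Subgroup G) (z : G) : eulerFix p S z = lam p S z := by
  change eulerT {E : Subgroup G // ElemAb p E ∧ E ≤ S ∧ z ∈ normalizer (E : Set G)} = _
  refine euler_eq (f := fun A => A.1) (fun A B h => Subtype.ext h) (fun A B => Iff.rfl)
    (Set.toFinite _) ?_
  ext A
  constructor
  · rintro ⟨B, _, rfl⟩
    exact ⟨⟨B.2.1, B.2.2.1⟩, B.2.2.2⟩
  · intro h
    exact ⟨⟨A, h.1.1, h.1.2, h.2⟩, trivial, rfl⟩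

lemma At_iff_mem {S : Set G} {L : Subgroup G} (hc : L ⊓ centralizer (L : Set G) = ⊥) {a : G}
    (ha : a ∈ L) : At S L a ↔ a ∈ S := by
  constructor
  · rintro ⟨s, hs, hsL, h⟩
    have h1 : s⁻¹ * a ∈ L ⊓ centralizer (L : Set G) :=
      Subgroup.mem_inf.2 ⟨L.mul_mem (L.inv_mem hsL) ha, h⟩
    rw [hc, Subgroup.mem_bot, inv_mul_eq_one] at h1
    exact h1 ▸ hs
  · intro h
    exact ⟨a, h, ha, by rw [inv_mul_cancel]; exact one_mem _⟩

lemma lam_bot (g : G) : lam p (⊥ : Subgroup G) g = 1 := by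
  have h : {E : Subgroup G | E ∈ Ain p (⊥ : Subgroup G) ∧ g ∈ normalizer (E : Set G)} = ∅ := by
    ext E
    simp only [Set.mem_ofPred_eq, Set.mem_empty_iff_false, iff_false]
    rintro ⟨h1, _⟩
    exact h1.1.1 (le_bot_iff.1 h1.2)
  rw [lam, h, eu_rec Set.finite_empty]
  simp

lemma lam_conj (n g : G) (K : Subgroup G) : lam p (cj n K) (n * g * n⁻¹) = lam p K g := by
  have h2 : {E | E ∈ Ain p (cj n K) ∧ n * g * n⁻¹ ∈ normalizer (E : Set G)} =
      cjIso n '' {E | E ∈ Ain p K ∧ g ∈ normalizer (E : Set G)} := by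
    have key : ∀ E : Subgroup G, n * g * n⁻¹ ∈ normalizer ((cj n E : Subgroup G) : Set G) ↔
        g ∈ normalizer (E : Set G) := by
      intro E
      rw [← cj_eq_iff, ← cj_eq_iff, ← cj_mul]
      have h3 : n * g * n⁻¹ * n = n * g := by group
      rw [h3, cj_mul]
      exact (cj_injective n).eq_iff
    ext E
    constructor
    · rintro ⟨⟨h1, h2⟩, h3⟩
      have hE : cj n (cj n⁻¹ E) = E := by rw [← cj_mul, mul_inv_cancel, cj_one]
      refine ⟨cj n⁻¹ E, ⟨⟨cj_mem_ApS.2 h1, ?_⟩, ?_⟩, hE⟩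
      · rw [← cj_le (g := n), hE]
        exact h2
      · rw [← key, hE]
        exact h3
    · rintro ⟨Z, ⟨⟨hZ1, hZ2⟩, hZ3⟩, rfl⟩
      exact ⟨⟨cj_mem_ApS.2 hZ1, cj_le.2 hZ2⟩, (key Z).2 hZ3⟩
  rw [lam, h2, eu_image]
  rfl

/-- product sums over the join of the members of `O` centralizing `F` -/
lemma Fam.sum_prod [Finite G] {R : Subgroup G} {D : Set (Subgroup G)} (hD : Fam p R D)
    {F : Subgroup G} (hF : F ≤ Rz R D) (θ : Subgroup G → G → ℤ)
    (Θ : Set (Subgroup G) → G → ℤ) (h0 : Θ ∅ 1 = 1)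
    (hs : ∀ L ∈ D, ∀ O ⊆ D, L ∉ O → ∀ a ∈ L ⊓ centralizer (F : Set G),
      ∀ b ∈ Gn O ⊓ centralizer (F : Set G), Θ (insert L O) (a * b) = θ L a * Θ O b) :
    ∀ O : Set (Subgroup G), O.Finite → O ⊆ D →
      ∑ g ∈ (Set.toFinite ((Gn O ⊓ centralizer (F : Set G) : Subgroup G) : Set G)).toFinset, Θ O g =
        ∏ L ∈ (Set.toFinite O).toFinset,
          ∑ a ∈ (Set.toFinite ((L ⊓ centralizer (F : Set G) : Subgroup G) : Set G)).toFinset,
            θ L a := by
  classical
  intro O hfin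
  induction O, hfin using Set.Finite.induction_on with
  | empty =>
    intro _
    have h1 : (Set.toFinite ((Gn (∅ : Set (Subgroup G)) ⊓ centralizer (F : Set G) :
        Subgroup G) : Set G)).toFinset = {1} := by
      ext x
      rw [Set.Finite.mem_toFinset, Finset.mem_singleton]
      have h2 : Gn (∅ : Set (Subgroup G)) = ⊥ := by simp [Gn]
      rw [h2, bot_inf_eq]
      simp
    rw [h1, Finset.sum_singleton, h0]
    simp
  | @insert L O hLO hfin ih =>
    intro hsub
    have hL : L ∈ D := hsub (Set.mem_insert _ _)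
    have hO : O ⊆ D := fun M hM => hsub (Set.mem_insert_of_mem _ hM)
    have hL1 : ({L} : Set (Subgroup G)) ⊆ D := Set.singleton_subset_iff.2 hL
    have hdis : Disjoint ({L} : Set (Subgroup G)) O := Set.disjoint_singleton_left.2 hLO
    have hst : ∀ f ∈ F, ∀ M ∈ D, cj f M = M := fun f hf M hM =>
      cj_eq_iff.2 ((mem_Rz.1 (hF hf)).2 M hM)
    have hdec := hD.inf_centralizer hL1 hO hdis (F := F)
      (fun f hf M hM => by rw [hst f hf M (hL1 hM)]; exact hM)
      (fun f hf M hM => by rw [hst f hf M (hO hM)]; exact hM)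
    have hGL : Gn ({L} : Set (Subgroup G)) = L := by simp [Gn]
    rw [Set.singleton_union, hGL] at hdec
    have hcomm : ∀ x ∈ L ⊓ centralizer (F : Set G), ∀ y ∈ Gn O ⊓ centralizer (F : Set G),
        x * y = y * x := fun x hx y hy =>
      hD.gn_comm hL1 hO hdis x (by rw [hGL]; exact (Subgroup.mem_inf.1 hx).1) y
        (Subgroup.mem_inf.1 hy).1
    have hint : (L ⊓ centralizer (F : Set G)) ⊓ (Gn O ⊓ centralizer (F : Set G)) = ⊥ := by
      rw [eq_bot_iff]
      refine (inf_le_inf inf_le_left inf_le_left).trans ?_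
      have h3 := hD.gn_inf hL1 hO hdis
      rw [hGL] at h3
      exact h3.le
    have h1 : ∑ g ∈ (Set.toFinite ((Gn (insert L O) ⊓ centralizer (F : Set G) : Subgroup G) :
          Set G)).toFinset, Θ (insert L O) g =
        ∑ g ∈ (Set.toFinite (((L ⊓ centralizer (F : Set G)) ⊔
          (Gn O ⊓ centralizer (F : Set G)) : Subgroup G) : Set G)).toFinset,
            Θ (insert L O) g := by
      refine Finset.sum_congr ?_ fun _ _ => rfl
      ext g
      rw [Set.Finite.mem_toFinset, Set.Finite.mem_toFinset, hdec]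
    rw [h1, sum_sup hcomm hint]
    have h2 : (Set.toFinite (insert L O)).toFinset = insert L (Set.toFinite O).toFinset := by
      ext M
      simp
    have h3 : L ∉ (Set.toFinite O).toFinset := by
      rw [Set.Finite.mem_toFinset]
      exact hLO
    rw [h2, Finset.prod_insert h3, ← ih hO, Finset.sum_mul]
    refine Finset.sum_congr rfl fun a ha => ?_
    rw [Finset.mul_sum]
    refine Finset.sum_congr rfl fun b hb => ?_
    rw [Set.Finite.mem_toFinset] at ha hb
    exact hs L hL O hO hLO a ha b hb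

end

end Vale.Agent.P240.K
end

section

namespace Vale.Agent.P240.K

open Finsupp Subgroup

section
variable {G : Type*} [Group G] {p : ℕ}

open Classical in
lemma wsum_eq [Finite G] (S : Set G) (K : Subgroup G) :
    wsum p S K = ∑ a ∈ (Set.toFinite (K : Set G)).toFinset,
      (if a ∈ S then 1 else 0) * lam p K a := by
  rw [wsum, finsum_mem_eq_finite_toFinset_sum _ (Set.toFinite _)]
  have h1 : ∀ a ∈ (Set.toFinite (K : Set G)).toFinset,
      (if a ∈ S then (1 : ℤ) else 0) * lam p K a = if a ∈ S then eulerFix p K a else 0 := by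
    intro a _
    split_ifs
    · rw [one_mul, eulerFix_eq]
    · rw [zero_mul]
  rw [Finset.sum_congr rfl h1, ← Finset.sum_filter]
  refine Finset.sum_congr ?_ fun _ _ => rfl
  ext a
  rw [Finset.mem_filter, Set.Finite.mem_toFinset, Set.Finite.mem_toFinset]
  exact ⟨fun h => ⟨h.2, h.1⟩, fun h => ⟨h.2, h.1⟩⟩

open Classical in
/-- the twisted sum over the elements centralizing `F` is a product -/
lemma Fam.sum_sel [hp : Fact p.Prime] [Finite G] {R : Subgroup G} {D : Set (Subgroup G)}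
    (hD : Fam p R D) (S : Set G) {F : Subgroup G} (hF : F ≤ Rz R D) :
    ∑ g ∈ (Set.toFinite ((Gn D ⊓ centralizer (F : Set G) : Subgroup G) : Set G)).toFinset,
      (if ∀ L ∈ D, At S L g then (1 : ℤ) else 0) * lam p (Gn D ⊓ centralizer (F : Set G)) g =
      ∏ L ∈ (Set.toFinite D).toFinset, wsum p S (L ⊓ centralizer (F : Set G)) := by
  have h := hD.sum_prod hF
    (fun L a => (if a ∈ S then (1 : ℤ) else 0) * lam p (L ⊓ centralizer (F : Set G)) a)
    (fun O g => (if ∀ L ∈ O, At S L g then (1 : ℤ) else 0) *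
      lam p (Gn O ⊓ centralizer (F : Set G)) g) ?_ ?_ D (Set.toFinite D) subset_rfl
  · rw [h]
    exact Finset.prod_congr rfl fun L _ => (wsum_eq S _).symm
  · have h2 : Gn (∅ : Set (Subgroup G)) = ⊥ := by simp [Gn]
    simp [h2, lam_bot]
  · intro L hL O hO hLO a ha b hb
    have hL1 : ({L} : Set (Subgroup G)) ⊆ D := Set.singleton_subset_iff.2 hL
    have hdis : Disjoint ({L} : Set (Subgroup G)) O := Set.disjoint_singleton_left.2 hLO
    have hst : ∀ f ∈ F, ∀ M ∈ D, cj f M = M := fun f hf M hM =>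
      cj_eq_iff.2 ((mem_Rz.1 (hF hf)).2 M hM)
    have hdec := hD.inf_centralizer hL1 hO hdis (F := F)
      (fun f hf M hM => by rw [hst f hf M (hL1 hM)]; exact hM)
      (fun f hf M hM => by rw [hst f hf M (hO hM)]; exact hM)
    have hGL : Gn ({L} : Set (Subgroup G)) = L := by simp [Gn]
    rw [Set.singleton_union, hGL] at hdec
    have hcom : ∀ x ∈ L, ∀ y ∈ Gn O, x * y = y * x := fun x hx y hy =>
      hD.gn_comm hL1 hO hdis x (by rw [hGL]; exact hx) y hy
    have hcomm : ∀ x ∈ L ⊓ centralizer (F : Set G), ∀ y ∈ Gn O ⊓ centralizer (F : Set G),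
        x * y = y * x := fun x hx y hy =>
      hcom x (Subgroup.mem_inf.1 hx).1 y (Subgroup.mem_inf.1 hy).1
    have hint : (L ⊓ centralizer (F : Set G)) ⊓ (Gn O ⊓ centralizer (F : Set G)) = ⊥ := by
      rw [eq_bot_iff]
      refine (inf_le_inf inf_le_left inf_le_left).trans ?_
      have h3 := hD.gn_inf hL1 hO hdis
      rw [hGL] at h3
      exact h3.le
    have haB : ∀ z ∈ Gn O ⊓ centralizer (F : Set G), a * z = z * a := fun z hz => hcomm a ha z hz
    have hbA : ∀ z ∈ L ⊓ centralizer (F : Set G), b * z = z * b := fun z hz =>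
      (hcomm z hz b hb).symm
    have h1 : (∀ M ∈ insert L O, At S M (a * b)) ↔ a ∈ S ∧ ∀ M ∈ O, At S M b := by
      rw [Set.forall_mem_insert]
      refine and_congr ?_ (forall₂_congr fun M hM => ?_)
      · rw [At_mul_right, At_iff_mem (hD.centre L hL) (Subgroup.mem_inf.1 ha).1]
        rw [mem_centralizer_iff]
        exact fun z hz => hcom z hz b (Subgroup.mem_inf.1 hb).1
      · rw [At_mul_left]
        rw [mem_centralizer_iff]
        exact fun z hz => (hcom a (Subgroup.mem_inf.1 ha).1 z (le_Gn hM hz)).symm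
    have h2 : lam p (Gn (insert L O) ⊓ centralizer (F : Set G)) (a * b) =
        lam p (L ⊓ centralizer (F : Set G)) a * lam p (Gn O ⊓ centralizer (F : Set G)) b := by
      rw [hdec, lam_sup hcomm hint
        (mul_mem (Subgroup.le_normalizer ha) (mem_normalizer_of_comm hbA))
        (mul_mem (mem_normalizer_of_comm haB) (Subgroup.le_normalizer hb)),
        lam_mul_right hbA, lam_mul_left haB]
    simp only [h2]
    by_cases h3 : a ∈ S
    · by_cases h4 : ∀ M ∈ O, At S M b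
      · rw [if_pos (h1.2 ⟨h3, h4⟩), if_pos h3, if_pos h4]
        ring
      · rw [if_neg (fun h => h4 (h1.1 h).2), if_neg h4]
        ring
    · rw [if_neg (fun h => h3 (h1.1 h).1), if_neg h3]
      ring

lemma Fam.card_prod [Finite G] {R : Subgroup G} {D : Set (Subgroup G)}
    (hD : Fam p R D) {F : Subgroup G} (hF : F ≤ Rz R D) :
    (Nat.card (Gn D ⊓ centralizer (F : Set G) : Subgroup G) : ℤ) =
      ∏ L ∈ (Set.toFinite D).toFinset, (Nat.card (L ⊓ centralizer (F : Set G) : Subgroup G) : ℤ) := by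
  have h := hD.sum_prod hF (fun _ _ => 1) (fun _ _ => 1) rfl
    (fun _ _ _ _ _ _ _ _ _ => (mul_one 1).symm) D (Set.toFinite D) subset_rfl
  have h1 : ∀ K : Subgroup G, ∑ a ∈ (Set.toFinite (K : Set G)).toFinset, (1 : ℤ) =
      (Nat.card K : ℤ) := by
    intro K
    rw [Finset.sum_const, nsmul_eq_mul, mul_one, ← Nat.card_eq_card_finite_toFinset]
    rfl
  simp only [h1] at h
  exact h

/-- divisibility of a sum by summing over orbits -/
lemma dvd_sum_orb [Finite G] {N : Subgroup G} (X : Finset (Subgroup G))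
    (hX : ∀ F ∈ X, ∀ g ∈ N, cj g F ∈ X) (f : Subgroup G → ℤ)
    (hf : ∀ F ∈ X, ∀ g ∈ N, f (cj g F) = f F) (m : ℤ)
    (hm : ∀ F ∈ X, m ∣ (Nat.card {Y | ∃ g ∈ N, Y = cj g F} : ℤ) * f F) :
    m ∣ ∑ F ∈ X, f F := by
  classical
  let r : Setoid (Subgroup G) :=
    { r := fun A B => ∃ g ∈ N, B = cj g A
      iseqv :=
        { refl := fun A => ⟨1, one_mem _, (cj_one A).symm⟩
          symm := by
            rintro A B ⟨g, hg, rfl⟩
            exact ⟨g⁻¹, inv_mem hg, by rw [← cj_mul, inv_mul_cancel, cj_one]⟩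
          trans := by
            rintro A B C ⟨g, hg, rfl⟩ ⟨h, hh, rfl⟩
            exact ⟨h * g, mul_mem hh hg, by rw [cj_mul]⟩ } }
  rw [Finset.sum_partition r]
  refine Finset.dvd_sum fun q hq => ?_
  obtain ⟨F, hF, rfl⟩ := Finset.mem_image.1 hq
  have h1 : ∀ Y ∈ X.filter (fun Y => (Quotient.mk r Y) = Quotient.mk r F), f Y = f F := by
    intro Y hY
    rw [Finset.mem_filter] at hY
    obtain ⟨g, hg, h⟩ := Quotient.exact hY.2.symm
    rw [h]
    exact hf F hF g hg
  have h2 : (X.filter (fun Y => (Quotient.mk r Y) = Quotient.mk r F)).card =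
      Nat.card {Y | ∃ g ∈ N, Y = cj g F} := by
    rw [Nat.card_eq_card_finite_toFinset (Set.toFinite {Y | ∃ g ∈ N, Y = cj g F})]
    congr 1
    ext Y
    rw [Finset.mem_filter, Set.Finite.mem_toFinset]
    constructor
    · rintro ⟨_, h⟩
      exact Quotient.exact h.symm
    · rintro ⟨g, hg, rfl⟩
      exact ⟨hX F hF g hg, (Quotient.sound ⟨g, hg, rfl⟩ : Quotient.mk r F = _).symm⟩
  rw [Finset.sum_congr rfl h1, Finset.sum_const, h2, nsmul_eq_mul]
  exact hm F hF

end

end Vale.Agent.P240.K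
end

section

namespace Vale.Agent.P240.K

open Finsupp Subgroup

universe u v

variable {𝕜 : Type v} [Field 𝕜]

/-- For `E ≤ R` elementary abelian, normalizing but not centralizing `L`, the number
`|L : C_L(E)| * wsum p S (C_L(E))` is divisible by a higher power of `l` than `wsum p S L`. -/
def Adic {G : Type*} [Group G] (p l : ℕ) (R : Subgroup G) (S : Set G) (L : Subgroup G) : Prop :=
  ∃ k : ℕ, ¬ (l : ℤ) ^ (k + 1) ∣ wsum p S L ∧
    ∀ E : Subgroup G, ElemAb p E → E ≤ R → E ≤ normalizer (L : Set G) →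
      ¬ E ≤ centralizer (L : Set G) →
      (l : ℤ) ^ (k + 1) ∣ ((L ⊓ centralizer (E : Set G)).relIndex L : ℤ) *
        wsum p S (L ⊓ centralizer (E : Set G))

lemma exact_val {p k : ℕ} {a : ℤ} (h : ¬ (p : ℤ) ^ (k + 1) ∣ a) :
    ∃ v ≤ k, (p : ℤ) ^ v ∣ a ∧ ¬ (p : ℤ) ^ (v + 1) ∣ a := by
  classical
  have hex : ∃ n, ¬ (p : ℤ) ^ (n + 1) ∣ a := ⟨k, h⟩
  refine ⟨Nat.find hex, Nat.find_min' hex h, ?_, Nat.find_spec hex⟩
  rcases Nat.eq_zero_or_pos (Nat.find hex) with h0 | h0
  · rw [h0, pow_zero]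
    exact one_dvd _
  · have h1 := Nat.find_min hex (Nat.sub_lt h0 Nat.one_pos)
    rw [not_not, Nat.sub_add_cancel h0] at h1
    exact h1

lemma exact_prod {ι : Type*} {p : ℕ} [hp : Fact p.Prime] (s : Finset ι) (v : ι → ℕ) (a : ι → ℤ)
    (h1 : ∀ i ∈ s, (p : ℤ) ^ v i ∣ a i) (h2 : ∀ i ∈ s, ¬ (p : ℤ) ^ (v i + 1) ∣ a i) :
    ¬ (p : ℤ) ^ (∑ i ∈ s, v i + 1) ∣ ∏ i ∈ s, a i := by
  classical
  have hpp : Prime (p : ℤ) := Nat.prime_iff_prime_int.1 hp.out
  choose! b hb using h1
  have hb' : ∀ i ∈ s, ¬ (p : ℤ) ∣ b i := by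
    intro i hi hd
    apply h2 i hi
    rw [hb i hi, pow_succ]
    exact mul_dvd_mul_left _ hd
  have h3 : ∏ i ∈ s, a i = (p : ℤ) ^ (∑ i ∈ s, v i) * ∏ i ∈ s, b i := by
    rw [Finset.prod_congr rfl hb, Finset.prod_mul_distrib, Finset.prod_pow_eq_pow_sum]
  rw [h3, pow_succ, mul_dvd_mul_iff_left (pow_ne_zero _ hpp.ne_zero)]
  intro h4
  obtain ⟨i, hi, h5⟩ := (Prime.dvd_finsetProd_iff hpp _).1 h4
  exact hb' i hi h5

lemma strict_prod {ι : Type*} {p : ℕ} (s : Finset ι) (v : ι → ℕ) (a : ι → ℤ)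
    (h1 : ∀ i ∈ s, (p : ℤ) ^ v i ∣ a i) {j : ι} (hj : j ∈ s) (h2 : (p : ℤ) ^ (v j + 1) ∣ a j) :
    (p : ℤ) ^ (∑ i ∈ s, v i + 1) ∣ ∏ i ∈ s, a i := by
  classical
  rw [← Finset.add_sum_erase s v hj, ← Finset.mul_prod_erase s a hj]
  have h3 : v j + ∑ x ∈ s.erase j, v x + 1 = (v j + 1) + ∑ x ∈ s.erase j, v x := by ring
  rw [h3, pow_add]
  refine mul_dvd_mul h2 ?_
  rw [← Finset.prod_pow_eq_pow_sum]
  exact Finset.prod_dvd_prod_of_dvd _ _ fun i hi => h1 i (Finset.mem_of_mem_erase hi)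

section
variable {G : Type u} [Group G] {p : ℕ}

/-- the elements of `Gn D` preserve `S ∩ L` -/
lemma stab_S {D : Set (Subgroup G)}
    (hcomm : ∀ L ∈ D, ∀ M ∈ D, L ≠ M → ∀ x ∈ L, ∀ y ∈ M, x * y = y * x) {S : Set G}
    (hSL : ∀ L ∈ D, ∀ g ∈ L, ∀ s ∈ S, s ∈ L → g * s * g⁻¹ ∈ S) :
    ∀ n ∈ Gn D, ∀ L ∈ D, ∀ s ∈ L, n * s * n⁻¹ ∈ L ∧ (n * s * n⁻¹ ∈ S ↔ s ∈ S) := by
  let H : Subgroup G :=
    { carrier := {n | ∀ L ∈ D, ∀ s ∈ L, (n * s * n⁻¹ ∈ L ∧ (n * s * n⁻¹ ∈ S ↔ s ∈ S)) ∧
        (n⁻¹ * s * n ∈ L ∧ (n⁻¹ * s * n ∈ S ↔ s ∈ S))}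
      one_mem' := by
        intro L _ s hs
        simp [hs]
      mul_mem' := by
        intro a b ha hb L hL s hs
        have h1 := (hb L hL s hs).1
        have h2 := (ha L hL _ h1.1).1
        have h3 := (ha L hL s hs).2
        have h4 := (hb L hL _ h3.1).2
        have e1 : a * b * s * (a * b)⁻¹ = a * (b * s * b⁻¹) * a⁻¹ := by group
        have e2 : (a * b)⁻¹ * s * (a * b) = b⁻¹ * (a⁻¹ * s * a) * b := by group
        rw [e1, e2]
        exact ⟨⟨h2.1, h2.2.trans h1.2⟩, ⟨h4.1, h4.2.trans h3.2⟩⟩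
      inv_mem' := by
        intro a ha L hL s hs
        have h := ha L hL s hs
        rw [inv_inv]
        exact ⟨h.2, h.1⟩ }
  have hle : Gn D ≤ H := by
    refine iSup₂_le fun M hM n hn L hL s hs => ?_
    by_cases h : M = L
    · subst h
      have h1 : n * s * n⁻¹ ∈ M := mul_mem (mul_mem hn hs) (inv_mem hn)
      have h2 : n⁻¹ * s * n ∈ M := mul_mem (mul_mem (inv_mem hn) hs) hn
      refine ⟨⟨h1, ⟨fun h3 => ?_, fun h3 => hSL M hM n hn s h3 hs⟩⟩,
        ⟨h2, ⟨fun h3 => ?_, fun h3 => ?_⟩⟩⟩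
      · have h4 := hSL M hM n⁻¹ (inv_mem hn) _ h3 h1
        have h5 : n⁻¹ * (n * s * n⁻¹) * n⁻¹⁻¹ = s := by group
        rwa [h5] at h4
      · have h4 := hSL M hM n hn _ h3 h2
        have h5 : n * (n⁻¹ * s * n) * n⁻¹ = s := by group
        rwa [h5] at h4
      · have h4 := hSL M hM n⁻¹ (inv_mem hn) s h3 hs
        rwa [inv_inv] at h4
    · have h1 : n * s = s * n := hcomm M hM L hL h n hn s hs
      have h2 : n * s * n⁻¹ = s := by rw [h1, mul_inv_cancel_right]
      have h3 : n⁻¹ * s * n = s := by rw [mul_assoc, ← h1, inv_mul_cancel_left]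
      rw [h2, h3]
      exact ⟨⟨hs, Iff.rfl⟩, ⟨hs, Iff.rfl⟩⟩
  exact fun n hn L hL s hs => (hle hn L hL s hs).1

lemma wsum_conj [Finite G] {S : Set G} {K : Subgroup G} {n : G}
    (hn : ∀ s ∈ K, (n * s * n⁻¹ ∈ S ↔ s ∈ S)) : wsum p S (cj n K) = wsum p S K := by
  classical
  rw [wsum_eq, wsum_eq]
  symm
  refine Finset.sum_bij (fun a _ => n * a * n⁻¹) ?_ ?_ ?_ ?_
  · intro a ha
    rw [Set.Finite.mem_toFinset] at ha ⊢
    exact cj_mul_mem ha
  · intro a _ b _ h
    exact mul_left_cancel (mul_right_cancel h)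
  · intro b hb
    rw [Set.Finite.mem_toFinset] at hb
    obtain ⟨a, ha, rfl⟩ := hb
    exact ⟨a, (Set.Finite.mem_toFinset _).2 ha, rfl⟩
  · intro a ha
    rw [Set.Finite.mem_toFinset] at ha
    rw [lam_conj]
    simp only [hn a ha]

lemma cj_inf_centralizer {L F : Subgroup G} {n : G} (hn : n ∈ normalizer (L : Set G)) :
    L ⊓ centralizer ((cj n F : Subgroup G) : Set G) = cj n (L ⊓ centralizer (F : Set G)) := by
  have key : ∀ (m : G), m ∈ normalizer (L : Set G) → ∀ A : Subgroup G,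
      cj m (L ⊓ centralizer (A : Set G)) ≤ L ⊓ centralizer ((cj m A : Subgroup G) : Set G) := by
    rintro m hm A _ ⟨x, hx, rfl⟩
    refine Subgroup.mem_inf.2 ⟨(mem_normalizer_iff.1 hm x).1 (Subgroup.mem_inf.1 hx).1, ?_⟩
    rw [mem_centralizer_iff]
    rintro _ ⟨a, ha, rfl⟩
    have h1 := mem_centralizer_iff.1 (Subgroup.mem_inf.1 hx).2 a ha
    change m * a * m⁻¹ * (m * x * m⁻¹) = m * x * m⁻¹ * (m * a * m⁻¹)
    have e1 : m * a * m⁻¹ * (m * x * m⁻¹) = m * (a * x) * m⁻¹ := by group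
    have e2 : m * x * m⁻¹ * (m * a * m⁻¹) = m * (x * a) * m⁻¹ := by group
    rw [e1, e2, h1]
  refine le_antisymm ?_ (key n hn F)
  have h2 := key n⁻¹ (inv_mem hn) (cj n F)
  rw [← cj_mul n⁻¹ n F, inv_mul_cancel, cj_one] at h2
  have h3 := (cj_le (g := n)).2 h2
  rwa [← cj_mul, mul_inv_cancel, cj_one] at h3

/-- the local divisibility implies that the sum over the selected elements does not vanish -/
theorem Fam.adic [hp : Fact p.Prime] {l : ℕ} [hl : Fact l.Prime] [Finite G] {R : Subgroup G} {D : Set (Subgroup G)}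
    (hD : Fam p R D) {S : Set G}
    (hSL : ∀ L ∈ D, ∀ g ∈ L, ∀ s ∈ S, s ∈ L → g * s * g⁻¹ ∈ S)
    (hfaith : ∀ E : Subgroup G, ElemAb p E → E ≤ R → ∃ L ∈ D, ¬ E ≤ centralizer (L : Set G))
    (hloc : ∀ L ∈ D, Adic p l R S L) :
    ∑ g ∈ (Set.toFinite (Sel D S)).toFinset, lam p (Rz R D) g ≠ 0 := by
  classical
  set N : Subgroup G := Gn D with hN
  have hNR : N ≤ Rz R D := hD.gn_le_Rz
  set Df := (Set.toFinite D).toFinset with hDf
  have hmemD : ∀ L, L ∈ Df ↔ L ∈ D := fun L => Set.Finite.mem_toFinset _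
  -- the exact powers
  have hval : ∀ L : Subgroup G, ∃ v : ℕ, L ∈ D → (l : ℤ) ^ v ∣ wsum p S L ∧
      ¬ (l : ℤ) ^ (v + 1) ∣ wsum p S L ∧
      ∀ E : Subgroup G, ElemAb p E → E ≤ R → E ≤ normalizer (L : Set G) →
      ¬ E ≤ centralizer (L : Set G) →
      (l : ℤ) ^ (v + 1) ∣ ((L ⊓ centralizer (E : Set G)).relIndex L : ℤ) *
        wsum p S (L ⊓ centralizer (E : Set G)) := by
    intro L
    by_cases hL : L ∈ D
    · obtain ⟨k, hk, hk'⟩ := hloc L hL
      obtain ⟨v, hv, h1, h2⟩ := exact_val hk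
      exact ⟨v, fun _ => ⟨h1, h2, fun E e1 e2 e3 e4 =>
        (pow_dvd_pow _ (Nat.add_le_add_right hv 1)).trans (hk' E e1 e2 e3 e4)⟩⟩
    · exact ⟨0, fun h => absurd h hL⟩
  choose v hv using hval
  -- the sum over the complements
  set X : Finset (Subgroup G) :=
    (Set.toFinite {F | F ∈ ApB p G ∧ F ≤ Rz R D ∧ F ⊓ N = ⊥}).toFinset with hX
  have hmemX : ∀ F, F ∈ X ↔ F ∈ ApB p G ∧ F ≤ Rz R D ∧ F ⊓ N = ⊥ := fun F =>
    Set.Finite.mem_toFinset _
  set f : Subgroup G → ℤ := fun F => mb p F * ∏ L ∈ Df, wsum p S (L ⊓ centralizer (F : Set G))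
    with hf
  have hsum : ∑ g ∈ (Set.toFinite (Sel D S)).toFinset, lam p (Rz R D) g = ∑ F ∈ X, f F := by
    have h1 := sum_attach (p := p) hNR (fun h hh => hD.gn_normal h (mem_Rz.1 hh).1)
      (fun g => if ∀ L ∈ D, At S L g then (1 : ℤ) else 0)
    simp only [Int.cast_id] at h1
    have h2 : ∑ g ∈ (Set.toFinite (N : Set G)).toFinset,
        (if ∀ L ∈ D, At S L g then (1 : ℤ) else 0) * lam p (Rz R D) g =
        ∑ g ∈ (Set.toFinite (Sel D S)).toFinset, lam p (Rz R D) g := by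
      have h3 : ∀ g ∈ (Set.toFinite (N : Set G)).toFinset,
          (if ∀ L ∈ D, At S L g then (1 : ℤ) else 0) * lam p (Rz R D) g =
          if ∀ L ∈ D, At S L g then lam p (Rz R D) g else 0 := by
        intro g _
        split_ifs <;> simp
      rw [Finset.sum_congr rfl h3, ← Finset.sum_filter]
      refine Finset.sum_congr ?_ fun _ _ => rfl
      ext g
      rw [Finset.mem_filter, Set.Finite.mem_toFinset, Set.Finite.mem_toFinset]
      exact Iff.rfl
    rw [← h2, h1]
    refine Finset.sum_congr rfl fun F hF => ?_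
    rw [hmemX] at hF
    rw [hD.sum_sel S hF.2.1]
  rw [hsum]
  have hbX : (⊥ : Subgroup G) ∈ X := (hmemX _).2 ⟨Or.inl rfl, bot_le, bot_inf_eq _⟩
  rw [← Finset.add_sum_erase X f hbX]
  have hf0 : f ⊥ = ∏ L ∈ Df, wsum p S L := by
    have hmb : mb p (⊥ : Subgroup G) = 1 := if_pos rfl
    simp only [hf, hmb, one_mul, att_inf_bot]
  set m : ℤ := (l : ℤ) ^ (∑ L ∈ Df, v L + 1) with hm
  have hnd : ¬ m ∣ f ⊥ := by
    rw [hf0, hm]
    exact exact_prod Df v _ (fun L hL => (hv L ((hmemD L).1 hL)).1)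
      (fun L hL => (hv L ((hmemD L).1 hL)).2.1)
  have hd : m ∣ ∑ F ∈ X.erase ⊥, f F := by
    have hnorm : ∀ F ∈ X, ∀ g ∈ N, cj g F ∈ X := by
      intro F hF g hg
      rw [hmemX] at hF ⊢
      have hgN : cj g N = N := cj_eq_iff.2 (Subgroup.le_normalizer hg)
      have hgR : cj g (Rz R D) = Rz R D := cj_eq_iff.2 (Subgroup.le_normalizer (hNR hg))
      refine ⟨?_, ?_, ?_⟩
      · rcases hF.1 with h | h
        · left
          rw [h, cj, Subgroup.map_bot]
        · right
          exact cj_mem_ApS.2 h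
      · rw [← hgR]
        exact cj_le.2 hF.2.1
      · rw [← hgN, eq_bot_iff]
        rintro x ⟨h1, h2⟩
        obtain ⟨a, ha, rfl⟩ := h1
        obtain ⟨b, hb, hab⟩ := h2
        have hab' : b = a := (MulAut.conj g).injective hab
        subst hab'
        have h3 : b ∈ F ⊓ N := ⟨ha, hb⟩
        rw [hF.2.2, Subgroup.mem_bot] at h3
        rw [h3, map_one]
        exact one_mem _
    refine dvd_sum_orb (N := N) (X.erase ⊥) ?_ f ?_ m ?_
    · intro F hF g hg
      rw [Finset.mem_erase] at hF ⊢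
      refine ⟨fun h => hF.1 ?_, hnorm F hF.2 g hg⟩
      have hb : cj g (⊥ : Subgroup G) = ⊥ := by rw [cj, Subgroup.map_bot]
      exact cj_injective g (h.trans hb.symm)
    · intro F hF g hg
      simp only [hf]
      rw [mb_cj]
      congr 1
      refine Finset.prod_congr rfl fun L hL => ?_
      rw [hmemD] at hL
      rw [cj_inf_centralizer ((mem_Rz.1 (hNR hg)).2 L hL)]
      exact wsum_conj fun s hs => (stab_S hD.comm hSL g hg L hL s (Subgroup.mem_inf.1 hs).1).2
    · intro F hF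
      rw [Finset.mem_erase, hmemX] at hF
      obtain ⟨hF0, hF1, hF2, hF3⟩ := hF
      have hFS : F ∈ ApS p G := hF1.resolve_left hF0
      -- the size of the orbit
      have horb := card_orb (Q := N) (F := F)
        (fun x hx q hq => hD.gn_normal x (mem_Rz.1 (hF2 hx)).1 q hq)
        (fun x hx hxN => by
          have h3 : x ∈ F ⊓ N := ⟨hx, hxN⟩
          rw [hF3, Subgroup.mem_bot] at h3
          exact h3)
      have hcard1 := hD.card_prod hF2
      have hcard0 := hD.card_prod (F := ⊥) bot_le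
      simp only [att_inf_bot] at hcard0
      have hrel : ∀ L ∈ Df, (Nat.card L : ℤ) =
          ((L ⊓ centralizer (F : Set G)).relIndex L : ℤ) *
            (Nat.card (L ⊓ centralizer (F : Set G) : Subgroup G) : ℤ) := by
        intro L _
        have h1 := Subgroup.card_mul_index ((L ⊓ centralizer (F : Set G)).subgroupOf L)
        have h2 : Nat.card ((L ⊓ centralizer (F : Set G)).subgroupOf L) =
            Nat.card (L ⊓ centralizer (F : Set G) : Subgroup G) :=
          Nat.card_congr (Subgroup.subgroupOfEquivOfLe inf_le_left).toEquiv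
        rw [h2] at h1
        rw [← h1, mul_comm]
        push_cast
        rfl
      have hpos : (∏ L ∈ Df, (Nat.card (L ⊓ centralizer (F : Set G) : Subgroup G) : ℤ)) ≠ 0 :=
        Finset.prod_ne_zero_iff.2 fun L _ => by
          exact_mod_cast Nat.card_pos.ne'
      have horb' : (Nat.card {Y | ∃ g ∈ N, Y = cj g F} : ℤ) =
          ∏ L ∈ Df, ((L ⊓ centralizer (F : Set G)).relIndex L : ℤ) := by
        apply mul_right_cancel₀ hpos
        rw [← Finset.prod_mul_distrib, ← Finset.prod_congr rfl hrel, ← hcard1]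
        rw [← hcard0]
        exact_mod_cast horb
      rw [horb']
      simp only [hf]
      have hcalc : (∏ L ∈ Df, ((L ⊓ centralizer (F : Set G)).relIndex L : ℤ)) *
          (mb p F * ∏ L ∈ Df, wsum p S (L ⊓ centralizer (F : Set G))) =
          mb p F * ∏ L ∈ Df, (((L ⊓ centralizer (F : Set G)).relIndex L : ℤ) *
            wsum p S (L ⊓ centralizer (F : Set G))) := by
        rw [Finset.prod_mul_distrib]
        ring
      rw [hcalc]
      apply Dvd.dvd.mul_left
      obtain ⟨L, hL, hLF⟩ := hfaith F hFS (hF2.trans inf_le_left)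
      have hnz : ∀ M ∈ D, F ≤ normalizer (M : Set G) := fun M hM x hx =>
        (mem_Rz.1 (hF2 hx)).2 M hM
      refine strict_prod Df v _ ?_ ((hmemD L).2 hL)
        ((hv L hL).2.2 F hFS (hF2.trans inf_le_left) (hnz L hL) hLF)
      intro M hM
      rw [hmemD] at hM
      by_cases hMF : F ≤ centralizer (M : Set G)
      · have h1 : M ⊓ centralizer (F : Set G) = M :=
          inf_eq_left.2 (Subgroup.le_centralizer_iff.1 hMF)
        rw [h1, Subgroup.relIndex_self, Nat.cast_one, one_mul]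
        exact (hv M hM).1
      · exact (pow_dvd_pow _ (Nat.le_succ _)).trans
          ((hv M hM).2.2 F hFS (hF2.trans inf_le_left) (hnz M hM) hMF)
  intro h0
  apply hnd
  have h1 : f ⊥ = - ∑ F ∈ X.erase ⊥, f F := by linarith
  rw [h1]
  exact (dvd_neg).2 hd

/-- **The `l`-adic local criterion.** -/
theorem adic_fam [hp : Fact p.Prime] {l : ℕ} (hl : l.Prime) [Finite G] {F D : Set (Subgroup G)} {S : Set G}
    (hF : Family p F) (hC : Rest F (∅ : Set (Subgroup G)) = ⊥) (hDF : D ⊆ F)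
    (hconj : ∀ L ∈ D, ∀ g : G, L.map (MulAut.conj g).toMonoidHom ∈ D)
    (hS : ∀ L ∈ D, ∀ h ∈ Rest F D, h ^ p = 1 → h ∉ normalizer (L : Set G) → ∀ s ∈ S, s ∈ L →
      h * s * h⁻¹ ∈ S)
    (hSL : ∀ L ∈ D, ∀ g ∈ L, ∀ s ∈ S, s ∈ L → g * s * g⁻¹ ∈ S)
    (hloc : ∀ L ∈ D, Adic p l (Rest F D) S L)
    (hT : ∀ L ∈ F, L ∈ D ∨ Removable 𝕜 p L) : HQ 𝕜 p G := by
  have : Fact l.Prime := ⟨hl⟩
  refine prod_main hF hDF hconj hS hp.out.ne_zero.symm ?_ fun L hL => (hT L hL).imp_right Or.inl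
  rw [Nat.cast_zero, zero_dvd_iff]
  refine (family_Fam hF hDF hconj).adic hSL ?_ hloc
  intro E hE hER
  by_contra h
  push Not at h
  apply hE.1
  rw [eq_bot_iff]
  intro x hx
  rw [Subgroup.mem_bot]
  rw [← Subgroup.mem_bot, ← hC, mem_Rest]
  intro L hL _
  by_cases hLD : L ∈ D
  · exact h L hLD hx
  · exact mem_Rest.1 (hER hx) L hL hLD

end

end Vale.Agent.P240.K
end

section

namespace Vale.Agent.P240.K

open Subgroup

universe u v

variable {𝕜 : Type v} [Field 𝕜]

section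
variable {G : Type u} [Group G] {p : ℕ}

theorem adic_main [hp : Fact p.Prime] [Finite G] (hO : OpTrivial p G)
    (hO' : ∀ N : Subgroup G, N.Normal → ¬ p ∣ Nat.card N → N = ⊥) (D : Set (Subgroup G))
    (S : Set G) (hDF : D ⊆ Comp G)
    (hconj : ∀ L ∈ D, ∀ g : G, L.map (MulAut.conj g).toMonoidHom ∈ D) {l : ℕ} (hl : l.Prime)
    (hloc : ∀ L ∈ D, AdicGood p l S L) (hT : ∀ L ∈ Comp G, L ∈ D ∨ Removable 𝕜 p L) :
    HQ 𝕜 p G := by
  refine adic_fam hl (comp_family hO hO') (comp_rest hO hO') hDF hconj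
    (fun L hL h _ hh hn => (hloc L hL).move h hh hn) (fun L hL => (hloc L hL).conj) ?_ hT
  intro L hL
  obtain ⟨k, h1, h2⟩ := (hloc L hL).adic
  exact ⟨k, h1, fun E hE _ hEN hEC => h2 E hEN hE hEC⟩

end

end Vale.Agent.P240.K
end

section

namespace Vale.Agent.P240.K

open Finsupp Subgroup

universe u v

/-- the coefficients at the lists that end with `φ` -/
noncomputable def cf {𝕜 : Type v} [Field 𝕜] {α : Type*} (φ : List α) : Ch 𝕜 α →ₗ[𝕜] Ch 𝕜 α :=
  Finsupp.lcomapDomain (fun l => l ++ φ) (List.append_left_injective φ)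

lemma cf_apply {𝕜 : Type v} [Field 𝕜] {α : Type*} (φ : List α) (c : Ch 𝕜 α) (l : List α) :
    cf φ c l = c (l ++ φ) := rfl

/-- `α` is a cycle of `𝒜ₚ(H)` (lists are decreasing) whose lists have the same length `r` as the list `φ`,
with nonzero coefficient at `φ`; here `|F| = p ^ r`, and `φ` starts with `F` (or `F = ⊥` and `φ = []`). -/
structure TopCycle (𝕜 : Type v) [Field 𝕜] {G : Type u} [Group G] (p : ℕ) (H F : Subgroup G)
    (α : Ch 𝕜 (Subgroup G)) (φ : List (Subgroup G)) : Prop where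
  mem : α ∈ Sp 𝕜 (fun l => st (Ain p H) l ∧ l.length = φ.length)
  cyc : bd α = 0
  ne : α φ ≠ 0
  top : (φ = [] ∧ F = ⊥) ∨ ∃ φ', φ = F :: φ'
  card : Nat.card F = p ^ φ.length

end Vale.Agent.P240.K
end

section

/-!
P240-R4. The group theory for the top cycles (`Y` a solvable `p'`-group, `F` elementary abelian, acting faithfully on `Y`).

`Y ≠ ⊥` (otherwise `F` centralizes `Y`, so `F = ⊥`). Take `M` from `exists_top_factor` (K/Weights2.lean) with `P = F`, `Q = Y`: `M < Y` is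
normalized by `F` and by `Y`, `Y/M` is abelian and `F`-irreducible. If no `1 ≠ x ∈ F` centralizes `M` we are done. Let `1 ≠ a ∈ F` centralize `M`.
Let `H = {x ∈ F | ∀ y ∈ Y, x * y * x⁻¹ * y⁻¹ ∈ M}` (a subgroup; in `ApB p G` by `mem_ApS_of_le`).
(1) If `x ∈ F` centralizes `M` and `x y x⁻¹ y⁻¹ ∈ M` for all `y ∈ Y`, then `x = 1`: for `y ∈ Y` write `x y x⁻¹ = m y` with `m ∈ M`; then
`x ^ i y x ^ (-i) = m ^ i y`, so `m ^ p = 1` (`x ^ p = 1`), so `m = 1` since `p` does not divide `|M|`; so `x` centralizes `Y`.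
So `H ⊓ zpowers a = ⊥` (an element of it centralizes `M`) and an `x ∈ H` centralizing `M` is `1`.
(2) If `x ∈ F` is not in `H` and `y ∈ Y` satisfies `x y x⁻¹ y⁻¹ ∈ M`, then `y ∈ M`: `K = {y ∈ Y | x y x⁻¹ y⁻¹ ∈ M}` is a subgroup
(`M` is normal in `Y`, `Y/M` abelian) containing `M`, normalized by `F` (`F` is abelian), so `K = M` or `K = Y` by irreducibility, and `K ≠ Y`
as `x ∉ H`.
(3) `F = H ⊔ zpowers a`: let `b ∈ F`; if `b * a ^ j ∉ H` for all `j`, then use `top_factor_action` (K/Weights2.lean) and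
`pow_one_of_free` (K/Weights.lean) with `A`, `B` the endomorphisms of `V = Y/M` induced by `b`, `a`: by (2) `b a ^ j` and `a ^ i` (`0 < i < p`;
`a ^ i ∉ H` by (1)) have no nontrivial fixed points on `V`, so `v ^ p = 1` for all `v ∈ V`, so `V` is trivial (`|V|` divides `|Y|`, prime to `p`),
contradicting `M < Y`. (See the use of `pow_one_of_free` in K/Weights3.lean.)
(4) `t`: `M` has index prime to `p`; let `y ∈ Y`, `y ∉ M`. The `p`-group `H` acts by conjugation on the coset `{y * m | m ∈ M}` (since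
`x y x⁻¹ ∈ M y = y M`), whose cardinality `|M|` is prime to `p`, so it has a fixed point `t` (`IsPGroup.nonempty_fixed_point_of_prime_not_dvd_card`):
`t ∈ Y`, `t ∉ M`, `t` commutes with `H`.
(5) `t a t⁻¹ ∉ F`: otherwise `t a t⁻¹ a⁻¹ ∈ F ⊓ Y = ⊥` (orders prime to each other), so `a` commutes with `t`, so `t ∈ M` by (2) (as `a ∉ H`).
-/

namespace Vale.Agent.P240.K

open Finsupp Subgroup

universe u v

section
variable {G : Type u} [Group G] {p : ℕ}

lemma r4_eq_one [Finite G] [hp : Fact p.Prime] {M : Subgroup G} (hM : ¬ p ∣ Nat.card M) {m : G}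
    (hm : m ∈ M) (h : m ^ p = 1) : m = 1 := by
  rw [← orderOf_eq_one_iff]
  have h1 : orderOf m ∣ p := orderOf_dvd_of_pow_eq_one h
  have h2 : orderOf m ∣ Nat.card M := by
    have h3 := orderOf_dvd_natCard (⟨m, hm⟩ : M)
    rwa [Subgroup.orderOf_mk] at h3
  rcases (Nat.dvd_prime hp.out).1 h1 with h3 | h3
  · exact h3
  · rw [h3] at h2
    exact absurd h2 hM

lemma r4_conj_pow {x y m : G} (h : x * y * x⁻¹ = m * y) (hc : x * m = m * x) (i : ℕ) :
    x ^ i * y * (x ^ i)⁻¹ = m ^ i * y := by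
  induction i with
  | zero => simp
  | succ i ih =>
    have hc' : x * m ^ i = m ^ i * x := (Commute.pow_right (show Commute x m from hc) i)
    calc x ^ (i + 1) * y * (x ^ (i + 1))⁻¹ = x * (x ^ i * y * (x ^ i)⁻¹) * x⁻¹ := by
          rw [pow_succ']; group
      _ = x * (m ^ i * y) * x⁻¹ := by rw [ih]
      _ = (x * m ^ i) * (y * x⁻¹) := by group
      _ = (m ^ i * x) * (y * x⁻¹) := by rw [hc']
      _ = m ^ i * (x * y * x⁻¹) := by group
      _ = m ^ i * (m * y) := by rw [h]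
      _ = m ^ (i + 1) * y := by rw [pow_succ]; group

theorem quillen_group [hp : Fact p.Prime] [Finite G] {Y F : Subgroup G} (hF : F ∈ ApS p G)
    (hsol : Group.IsSolvable Y) (hY : ¬ p ∣ Nat.card Y) (hn : ∀ x ∈ F, ∀ y ∈ Y, x * y * x⁻¹ ∈ Y)
    (hfaith : ∀ x ∈ F, (∀ y ∈ Y, x * y = y * x) → x = 1) :
    ∃ M : Subgroup G, M < Y ∧ (∀ x ∈ F, ∀ y ∈ M, x * y * x⁻¹ ∈ M) ∧
      ((∀ x ∈ F, (∀ y ∈ M, x * y = y * x) → x = 1) ∨
        ∃ H ∈ ApB p G, ∃ a ∈ F, ∃ t ∈ Y, F = H ⊔ zpowers a ∧ H ⊓ zpowers a = ⊥ ∧ a ≠ 1 ∧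
          (∀ y ∈ M, a * y = y * a) ∧ (∀ y ∈ M, t * y * t⁻¹ ∈ M ∧ t⁻¹ * y * t ∈ M) ∧
          (∀ x ∈ H, t * x = x * t) ∧ t * a * t⁻¹ ∉ F ∧
          (∀ x ∈ H, (∀ y ∈ M, x * y = y * x) → x = 1)) := by
  classical
  obtain ⟨hF0, hPc, hPp⟩ := hF
  have hYne : Y ≠ ⊥ := by
    rintro rfl
    apply hF0
    rw [eq_bot_iff]
    intro x hx
    refine hfaith x hx fun y hy => ?_
    rw [mem_bot.1 hy, mul_one, one_mul]
  obtain ⟨M, hMQ, hPM, hcomm, hirr⟩ := exists_top_factor hYne hsol hn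
  refine ⟨M, hMQ, hPM, ?_⟩
  by_cases hall : ∀ x ∈ F, (∀ y ∈ M, x * y = y * x) → x = 1
  · exact Or.inl hall
  right
  push Not at hall
  obtain ⟨a, haF, hac, ha1⟩ := hall
  have hnorm : ∀ x ∈ Y, ∀ m ∈ M, x * m * x⁻¹ ∈ M := by
    intro x hx m hm
    have h1 := mul_mem (hcomm x hx m (hMQ.le hm)) hm
    rwa [inv_mul_cancel_right] at h1
  have hcard := card_relIndex hMQ.le
  have hpM : ¬ p ∣ Nat.card M := fun h => hY (hcard ▸ Dvd.dvd.mul_right h _)
  have hpI : ¬ p ∣ M.relIndex Y := fun h => hY (hcard ▸ Dvd.dvd.mul_left h _)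
  obtain ⟨H, hH⟩ : ∃ H, H = topKer F Y M hn := ⟨_, rfl⟩
  have hHF : H ≤ F := by
    rw [hH]
    exact fun x hx => hx.1
  have hHm : ∀ x ∈ H, ∀ q ∈ Y, x * q * x⁻¹ * q⁻¹ ∈ M := by
    rw [hH]
    exact fun x hx => hx.2
  have hHi : ∀ x ∈ F, (∀ q ∈ Y, x * q * x⁻¹ * q⁻¹ ∈ M) → x ∈ H := by
    intro x hx h
    rw [hH]
    exact ⟨hx, h⟩
  -- (1)
  have hone : ∀ x ∈ H, (∀ y ∈ M, x * y = y * x) → x = 1 := by
    intro x hx hxc
    refine hfaith x (hHF hx) fun y hy => ?_
    have hm := hHm x hx y hy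
    have e1 : x * y * x⁻¹ = (x * y * x⁻¹ * y⁻¹) * y := by group
    have e2 := r4_conj_pow e1 (hxc _ hm) p
    rw [hPp x (hHF hx), one_mul, inv_one, mul_one] at e2
    have e3 : (x * y * x⁻¹ * y⁻¹) ^ p = 1 := by
      have := e2.symm
      rwa [mul_eq_right] at this
    have e4 := r4_eq_one hpM hm e3
    rw [e4, one_mul] at e1
    exact mul_inv_eq_iff_eq_mul.1 e1
  -- (2)
  have hfix : ∀ x ∈ F, x ∉ H → ∀ y ∈ Y, x * y * x⁻¹ * y⁻¹ ∈ M → y ∈ M := by
    intro f hf hfH
    have k1 : M ≤ fixMod Y M {f} hnorm := by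
      intro m hm
      refine ⟨hMQ.le hm, fun g hg => ?_⟩
      rw [Set.mem_singleton_iff.1 hg]
      exact mul_mem (hPM f hf m hm) (inv_mem hm)
    have k2 : fixMod Y M {f} hnorm ≤ Y := fun q hq => hq.1
    have k3 : ∀ x ∈ F, ∀ q ∈ fixMod Y M {f} hnorm, x * q * x⁻¹ ∈ fixMod Y M {f} hnorm := by
      rintro x hx q ⟨hq1, hq2⟩
      refine ⟨hn x hx q hq1, fun g hg => ?_⟩
      rw [Set.mem_singleton_iff.1 hg]
      have h1 := hPM x hx _ (hq2 f rfl)
      have h2 : f * x = x * f := hPc f hf x hx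
      have h3 : x⁻¹ * f⁻¹ = f⁻¹ * x⁻¹ := by
        rw [← mul_inv_rev, ← mul_inv_rev, h2]
      have h4 : f * (x * q * x⁻¹) * f⁻¹ * (x * q * x⁻¹)⁻¹ = x * (f * q * f⁻¹ * q⁻¹) * x⁻¹ := by
        calc f * (x * q * x⁻¹) * f⁻¹ * (x * q * x⁻¹)⁻¹
            = (f * x) * q * (x⁻¹ * f⁻¹) * (x * q * x⁻¹)⁻¹ := by group
          _ = (x * f) * q * (f⁻¹ * x⁻¹) * (x * q * x⁻¹)⁻¹ := by rw [h2, h3]
          _ = x * (f * q * f⁻¹ * q⁻¹) * x⁻¹ := by group
      rw [h4]
      exact h1
    rcases hirr _ k1 k2 k3 with h | h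
    · intro y hy hym
      rw [← h]
      refine ⟨hy, fun g hg => ?_⟩
      rw [Set.mem_singleton_iff.1 hg]
      exact hym
    · refine absurd (hHi f hf fun q hq => ?_) hfH
      have h1 : q ∈ fixMod Y M {f} hnorm := by rw [h]; exact hq
      exact h1.2 f rfl
  have haH : a ∉ H := fun h => ha1 (hone a h hac)
  have haord : orderOf a = p := orderOf_eq_prime (hPp a haF) ha1
  have hapow : ∀ i : ℕ, ∀ y ∈ M, a ^ i * y = y * a ^ i := fun i y hy =>
    (Commute.pow_left (show Commute a y from hac y hy) i)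
  have hai : ∀ i, 0 < i → i < p → a ^ i ∉ H := by
    intro i hi0 hip hmem
    have h1 := hone _ hmem (hapow i)
    have h2 := orderOf_dvd_of_pow_eq_one h1
    rw [haord] at h2
    exact absurd (Nat.le_of_dvd hi0 h2) (not_le.2 hip)
  -- (3)
  have hcov : ∀ b ∈ F, ∃ j : ℕ, b * a ^ j ∈ H := by
    intro b hbF
    by_contra hno
    push Not at hno
    obtain ⟨V, _, π, β, hπ, hker, hV, hβ⟩ := top_factor_action hn hPM hcomm hMQ.le
    have hfx : ∀ g : F, (g : G) ∉ H → ∀ v, β g v = v → v = 1 := by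
      intro g hg v hv
      obtain ⟨q, rfl⟩ := hπ v
      rw [hβ g q (hn g g.2 q q.2)] at hv
      have h1 : π (⟨_, hn g g.2 q q.2⟩ * q⁻¹) = 1 := by
        rw [map_mul, hv, ← map_mul, mul_inv_cancel, map_one]
      rw [hker] at h1
      rw [hker]
      exact hfix g g.2 hg q q.2 h1
    have hpow : ∀ v : V, v ^ p = 1 := by
      intro v
      have hc : Commute (β ⟨b, hbF⟩) (β ⟨a, haF⟩) := by
        change β _ * β _ = β _ * β _
        rw [← map_mul, ← map_mul]
        congr 1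
        exact Subtype.ext (hPc b hbF a haF)
      refine pow_one_of_free hp.out.pos (β ⟨b, hbF⟩) (β ⟨a, haF⟩) hc ?_ ?_ ?_ ?_ v
      · rw [← map_pow]
        have : (⟨b, hbF⟩ : F) ^ p = 1 := Subtype.ext (hPp b hbF)
        rw [this, map_one]
      · rw [← map_pow]
        have : (⟨a, haF⟩ : F) ^ p = 1 := Subtype.ext (hPp a haF)
        rw [this, map_one]
      · intro j _ w hw'
        rw [← map_pow, ← map_mul] at hw'
        exact hfx _ (hno j) w hw'
      · intro i hi0 hip w hw'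
        rw [← map_pow] at hw'
        exact hfx _ (hai i hi0 hip) w hw'
    have hVfin : Finite V := Finite.of_surjective π hπ
    have htriv : ∀ v : V, v = 1 := by
      intro v
      rw [← orderOf_eq_one_iff]
      have h1 : orderOf v ∣ p := orderOf_dvd_of_pow_eq_one (hpow v)
      have h2 : orderOf v ∣ Nat.card V := orderOf_dvd_natCard v
      rcases (Nat.dvd_prime hp.out).1 h1 with h | h
      · exact h
      · rw [h, hV] at h2
        exact absurd h2 hpI
    apply hMQ.not_ge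
    intro q hq
    exact (hker ⟨q, hq⟩).1 (htriv _)
  -- (4)
  obtain ⟨y, hyY, hyM⟩ := SetLike.exists_of_lt hMQ
  obtain ⟨t, htY, htM, htH⟩ : ∃ t ∈ Y, t ∉ M ∧ ∀ x ∈ H, t * x = x * t := by
    let X := {z : G // y⁻¹ * z ∈ M}
    have hst : ∀ f : H, ∀ z : G, y⁻¹ * z ∈ M → y⁻¹ * ((f : G) * z * (f : G)⁻¹) ∈ M := by
      intro f z hz
      have e1 : y⁻¹ * ((f : G) * z * (f : G)⁻¹) =
          (y⁻¹ * ((f : G) * y * (f : G)⁻¹ * y⁻¹) * y⁻¹⁻¹) *
            ((f : G) * (y⁻¹ * z) * (f : G)⁻¹) := by group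
      rw [e1]
      exact mul_mem (hnorm _ (inv_mem hyY) _ (hHm f f.2 y hyY)) (hPM f (hHF f.2) _ hz)
    let act : MulAction H X :=
      { smul := fun f z => ⟨(f : G) * z.1 * (f : G)⁻¹, hst f z.1 z.2⟩
        one_smul := fun z => by
          apply Subtype.ext
          change ((1 : H) : G) * z.1 * ((1 : H) : G)⁻¹ = z.1
          simp
        mul_smul := fun f g z => by
          apply Subtype.ext
          change ((f * g : H) : G) * z.1 * ((f * g : H) : G)⁻¹ =
            (f : G) * ((g : G) * z.1 * (g : G)⁻¹) * (f : G)⁻¹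
          push_cast
          group }
    have hXc : Nat.card X = Nat.card M := Nat.card_congr
      { toFun := fun z => ⟨y⁻¹ * z.1, z.2⟩
        invFun := fun m => ⟨y * m.1, by simp⟩
        left_inv := fun z => by simp
        right_inv := fun m => by simp }
    have hFp : IsPGroup p H := fun f => ⟨1, by
      rw [pow_one]
      exact Subtype.ext (hPp f (hHF f.2))⟩
    obtain ⟨⟨t, ht⟩, hfx⟩ :=
      hFp.nonempty_fixed_point_of_prime_not_dvd_card X (by rw [hXc]; exact hpM)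
    refine ⟨t, ?_, ?_, ?_⟩
    · have := mul_mem hyY (hMQ.le ht)
      rwa [mul_inv_cancel_left] at this
    · intro htm
      apply hyM
      have h1 := mul_mem htm (inv_mem ht)
      have h2 : t * (y⁻¹ * t)⁻¹ = y := by group
      rwa [h2] at h1
    · intro f hf
      have h3 : f * t * f⁻¹ = t := congrArg Subtype.val (hfx ⟨f, hf⟩)
      exact (mul_inv_eq_iff_eq_mul.1 h3).symm
  have hHb : H ∈ ApB p G := by
    by_cases h : H = ⊥
    · exact Or.inl h
    · exact Or.inr (mem_ApS_of_le ⟨hF0, hPc, hPp⟩ hHF h)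
  have hsup : F = H ⊔ zpowers a := by
    refine le_antisymm ?_ (sup_le hHF (zpowers_le.2 haF))
    intro b hb
    obtain ⟨j, hj⟩ := hcov b hb
    have h1 : b = b * a ^ j * (a ^ j)⁻¹ := by group
    rw [h1]
    exact mul_mem (mem_sup_left hj) (mem_sup_right (inv_mem (pow_mem (mem_zpowers a) j)))
  have hinf : H ⊓ zpowers a = ⊥ := by
    rw [eq_bot_iff]
    rintro x ⟨hx, hxa⟩
    obtain ⟨k, rfl⟩ := mem_zpowers_iff.1 hxa
    refine hone _ hx fun z hz => ?_
    exact (Commute.zpow_left (show Commute a z from hac z hz) k)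
  refine ⟨H, hHb, a, haF, t, htY, hsup, hinf, ha1, hac, ?_, htH, ?_, hone⟩
  · intro z hz
    refine ⟨hnorm t htY z hz, ?_⟩
    have h1 := hnorm _ (inv_mem htY) z hz
    rwa [inv_inv] at h1
  · intro hta
    have h1 : t * a * t⁻¹ * a⁻¹ ∈ F := mul_mem hta (inv_mem haF)
    have h2 : t * a * t⁻¹ * a⁻¹ ∈ Y := by
      have h3 := hn a haF _ (inv_mem htY)
      have h4 := mul_mem htY h3
      have h5 : t * (a * t⁻¹ * a⁻¹) = t * a * t⁻¹ * a⁻¹ := by group
      rwa [h5] at h4
    have h3 := r4_eq_one hY h2 (hPp _ h1)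
    have h4 : t * a * t⁻¹ = a := by rw [mul_inv_eq_one] at h3; exact h3
    have h5 : t * a = a * t := mul_inv_eq_iff_eq_mul.1 h4
    refine htM (hfix a haF haH t htY ?_)
    rw [← h5, mul_inv_cancel_right, mul_inv_cancel]
    exact one_mem _

end

end Vale.Agent.P240.K
end

section

/-!
P240-R3. The coefficient at `φ` of a shuffle product.

By bilinearity (`map_mem`, `eq_of_Sp`, `sh_single`, `mem_Sp`) it is enough to show for a strictly decreasing list `s` in `Ain p H` with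
`s.length = φ.length` and a strictly decreasing list `t` in `Ain p (M ⊓ centralizer F)`:
`cf φ (pi (shL s t)) = if s = φ then (-1) ^ (φ.length * t.length) • single (t.map (F ⊔ ·)) 1 else 0`
(then sum over `s` in the support of `α`; `(sg^[r]) (single t 1) = (-1) ^ (r * t.length) • single t 1` by `sg_single`).
If `φ = []` then `F = ⊥`, `s = []`, `shL [] t = single t 1`: clear. Let `φ = F :: φ'`, `F ≠ ⊥` (`card`, or: `φ` is in the support of `α`, so its elements
are in `ApS`); all elements of `φ` are `≤ F`. By definition of `shL` (K/Shuffle.lean: `shL (a :: s) (b :: t) = cons (a ⊔ b) (shL s (b :: t) +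
(-1) ^ (s.length + 1) • shL (a :: s) t)`), with `s = a :: s'`:
(i) every list in the support of `shL s'' (b :: t'')` has an element containing some member of `b :: t''` in its last `s''.length + 1` entries; more
simply: prove by induction on `s''.length + t''.length` that a list `l` in the support of `shL s'' t''` with `t'' ≠ []` and `s''.length < φ.length`
is not of the form `l' ++ φ`: indeed among its last `φ.length > s''.length` entries there is one that contains a member of `t''`, which is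
a nontrivial subgroup of `M`, while the entries of `φ` are `≤ F` and `F ⊓ M = ⊥`.
(ii) So in `shL (a :: s') (b :: t')` only the terms `cons (a ⊔ b) ((-1) ^ (s'.length + 1) • shL (a :: s') t')` contribute, and by induction on `t`
the only list that contributes is `(t.map (a ⊔ ·)) ++ (a :: s')`, which ends with `φ` iff `a :: s' = φ` (equal lengths).
(iii) `pi` (K/Chains2.lean, `pi_single`) keeps the list `t.map (F ⊔ ·) ++ φ`, since it is strictly decreasing: `(F ⊔ B) ⊓ M = B` for `B ≤ M ⊓ centralizer F`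
(an element of `F ⊔ B` is `f * b`, and `f ∈ F ⊓ M = ⊥` if it lies in `M`), so `B' < B` implies `F ⊔ B' < F ⊔ B`, and `F < F ⊔ B`.
-/

namespace Vale.Agent.P240.K

open Finsupp Subgroup

universe u v

variable {𝕜 : Type v} [Field 𝕜]

/-! ### Lists with an entry above a member of `T` -/

section lists
variable {α : Type*}

/-- among the last `n + 1` entries of `l` there is one which is above a member of `T` -/
def r3_Q [LE α] (T : Set α) (n : ℕ) (l : List α) : Prop :=
  ∃ l1 x l2, l = l1 ++ x :: l2 ∧ l2.length ≤ n ∧ ∃ b ∈ T, b ≤ x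

lemma r3_Q_cons [LE α] {T : Set α} {m n : ℕ} (h : m ≤ n) (y : α) (l : List α) (hl : r3_Q T m l) :
    r3_Q T n (y :: l) := by
  obtain ⟨l1, x, l2, rfl, h2, hb⟩ := hl
  exact ⟨y :: l1, x, l2, rfl, h2.trans h, hb⟩

lemma r3_Q_not [LE α] {T : Set α} {n : ℕ} {φ : List α} (hn : n < φ.length)
    (hφ : ∀ x ∈ φ, ∀ b ∈ T, ¬ b ≤ x) (l : List α) : ¬ r3_Q T n (l ++ φ) := by
  rintro ⟨l1, x, l2, h, h2, b, hb, hbx⟩
  refine hφ x ?_ b hb hbx
  have h3 : (l ++ φ).drop l.length = φ := List.drop_left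
  have h4 : l.length ≤ l1.length := by
    have := congrArg List.length h
    simp only [List.length_append, List.length_cons] at this
    omega
  rw [h, List.drop_append_of_le_length h4] at h3
  rw [← h3]
  simp

lemma r3_shL [SemilatticeSup α] {T : Set α} (s : List α) : ∀ t : List α, t ≠ [] →
    (∀ b ∈ t, b ∈ T) → shL (𝕜 := 𝕜) s t ∈ Sp 𝕜 (r3_Q T s.length) := by
  induction s with
  | nil =>
    intro t ht hT
    rw [shL]
    refine single_mem_Sp ?_ _
    refine ⟨t.dropLast, t.getLast ht, [], ?_, le_refl _, t.getLast ht, hT _ (List.getLast_mem ht),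
      le_refl _⟩
    exact (List.dropLast_append_getLast ht).symm
  | cons a s ih =>
    intro t
    induction t with
    | nil => intro h; exact absurd rfl h
    | cons b t iht =>
      intro _ hT
      rw [shL]
      have h1 : shL (𝕜 := 𝕜) s (b :: t) ∈ Sp 𝕜 (r3_Q T s.length) :=
        ih (b :: t) (by simp) hT
      rw [map_add, map_smul]
      refine Submodule.add_mem _ (cons_mem (fun l hl => r3_Q_cons (by simp) _ l hl) h1)
        (Submodule.smul_mem _ _ ?_)
      rcases t with _ | ⟨b', t⟩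
      · rw [shL, cons_single]
        refine single_mem_Sp ?_ _
        exact ⟨[], a ⊔ b, a :: s, rfl, le_refl _, b, hT b (by simp), le_sup_right⟩
      · refine cons_mem (fun l hl => r3_Q_cons (le_refl _) _ l hl) ?_
        exact iht (by simp) fun x hx => hT x (List.mem_cons_of_mem _ hx)

lemma r3_cf_zero {φ : List α} {P : List α → Prop} (hP : ∀ l, ¬ P (l ++ φ)) {c : Ch 𝕜 α}
    (hc : c ∈ Sp 𝕜 P) : cf φ c = 0 := by
  ext l
  rw [cf_apply, Finsupp.zero_apply]
  by_contra h
  exact hP l (mem_Sp.1 hc _ (Finsupp.mem_support_iff.2 h))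

lemma r3_cf_cons {φ : List α} {y : α} (hy : y ∉ φ) (c : Ch 𝕜 α) :
    cf φ (cons y c) = cons y (cf φ c) := by
  have := lin_ext_apply (f := (cf (𝕜 := 𝕜) φ).comp (cons y)) (g := (cons y).comp (cf (𝕜 := 𝕜) φ))
    (fun m => by
      simp only [LinearMap.comp_apply, cons_single]
      ext l
      rw [cf_apply]
      rcases l with _ | ⟨z, l⟩
      · have h1 : cons y (cf φ (single m (1 : 𝕜))) ([] : List α) = 0 := by
          rw [cons, Finsupp.lmapDomain_apply]
          refine Finsupp.mapDomain_of_notMem_range _ _ ?_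
          rintro ⟨l, hl⟩
          exact absurd hl (by simp)
        rw [h1, List.nil_append]
        refine Finsupp.single_eq_of_ne ?_
        intro h
        apply hy
        rw [h]
        simp
      · by_cases hz : z = y
        · subst hz
          have h1 : cons z (cf φ (single m (1 : 𝕜))) (z :: l) = cf φ (single m (1 : 𝕜)) l := by
            rw [cons, Finsupp.lmapDomain_apply]
            exact Finsupp.mapDomain_apply (List.cons_injective) _ l
          rw [h1, cf_apply, List.cons_append]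
          by_cases h : m = l ++ φ
          · rw [h, Finsupp.single_eq_same, Finsupp.single_eq_same]
          · rw [Finsupp.single_eq_of_ne (fun h' => h (List.cons_injective h').symm),
              Finsupp.single_eq_of_ne (fun h' => h h'.symm)]
        · have h1 : cons y (cf φ (single m (1 : 𝕜))) (z :: l) = 0 := by
            rw [cons, Finsupp.lmapDomain_apply]
            refine Finsupp.mapDomain_of_notMem_range _ _ ?_
            rintro ⟨l, hl⟩
            exact hz (List.cons.inj hl).1.symm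
          rw [h1, List.cons_append]
          refine Finsupp.single_eq_of_ne ?_
          intro h
          exact hz (List.cons.inj h).1) c
  simpa using this

open Classical in
lemma r3_cf_single {φ : List α} {s : List α} (hs : s.length = φ.length) :
    cf φ (single s (1 : 𝕜)) = if s = φ then single [] 1 else 0 := by
  ext l
  rw [cf_apply]
  split_ifs with h
  · subst h
    rcases l with _ | ⟨z, l⟩
    · simp
    · rw [Finsupp.single_eq_of_ne, Finsupp.single_eq_of_ne]
      · simp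
      · intro h
        have := congrArg List.length h
        simp only [List.cons_append, List.length_cons, List.length_append] at this
        omega
  · rw [Finsupp.zero_apply]
    refine Finsupp.single_eq_of_ne ?_
    intro h'
    have := congrArg List.length h'
    rw [List.length_append] at this
    have hl : l = [] := List.length_eq_zero_iff.1 (by omega)
    rw [hl, List.nil_append] at h'
    exact h h'.symm

open Classical in
lemma r3_cf_shL [SemilatticeSup α] {T : Set α} {φ : List α}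
    (hφ : ∀ x ∈ φ, ∀ b ∈ T, ¬ b ≤ x) (a : α) (s : List α) (hs : (a :: s).length = φ.length) :
    ∀ t : List α, (∀ b ∈ t, b ∈ T) → cf φ (shL (𝕜 := 𝕜) (a :: s) t) =
      if a :: s = φ then (-1 : 𝕜) ^ (φ.length * t.length) • single (t.map (fun B => a ⊔ B)) 1
      else 0 := by
  intro t
  induction t with
  | nil =>
    intro _
    rw [shL, r3_cf_single hs]
    split_ifs <;> simp
  | cons b t ih =>
    intro hT
    have h1 : a ⊔ b ∉ φ := fun h => hφ _ h b (hT b (by simp)) le_sup_right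
    have h2 : cf φ (shL (𝕜 := 𝕜) s (b :: t)) = 0 := by
      refine r3_cf_zero (P := r3_Q T s.length) (fun l => r3_Q_not ?_ hφ l)
        (r3_shL s (b :: t) (by simp) hT)
      rw [← hs]
      simp
    rw [shL, r3_cf_cons h1, map_add, map_smul, h2, zero_add,
      ih fun x hx => hT x (List.mem_cons_of_mem _ hx)]
    split_ifs with h
    · have h3 : s.length + 1 = φ.length := by simpa using hs
      rw [h3, map_smul, map_smul, cons_single, smul_smul, ← pow_add, List.map_cons,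
        List.length_cons]
      congr 2
      ring
    · rw [smul_zero, map_zero]

open Classical in
lemma r3_pi_apply [LT α] (c : Ch 𝕜 α) (l : List α) :
    pi c l = if l.Pairwise (· > ·) then c l else 0 := by
  by_cases hl : l.Pairwise (· > ·)
  · rw [if_pos hl]
    exact lin_ext_apply (f := (Finsupp.lapply l).comp (pi (𝕜 := 𝕜) (α := α)))
      (g := Finsupp.lapply l) (fun m => by
        simp only [LinearMap.comp_apply, Finsupp.lapply_apply, pi_single]
        split_ifs with h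
        · rfl
        · rw [Finsupp.zero_apply, Finsupp.single_eq_of_ne]
          rintro rfl
          exact h hl) c
  · rw [if_neg hl]
    exact lin_ext_apply (f := (Finsupp.lapply l).comp (pi (𝕜 := 𝕜) (α := α)))
      (g := (0 : Ch 𝕜 α →ₗ[𝕜] 𝕜)) (fun m => by
        simp only [LinearMap.comp_apply, Finsupp.lapply_apply, pi_single, LinearMap.zero_apply]
        split_ifs with h
        · rw [Finsupp.single_eq_of_ne]
          rintro rfl
          exact hl h
        · rfl) c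

lemma r3_cf_pi_zero [LT α] {φ : List α} {c : Ch 𝕜 α} (h : cf φ c = 0) : cf φ (pi c) = 0 := by
  classical
  ext l
  have h1 : c (l ++ φ) = 0 := by
    rw [← cf_apply, h, Finsupp.zero_apply]
  rw [cf_apply, r3_pi_apply, h1, ite_self, Finsupp.zero_apply]

lemma r3_cf_pi_single [LT α] {φ m : List α} {k : 𝕜} {c : Ch 𝕜 α} (h : cf φ c = k • single m 1)
    (hm : (m ++ φ).Pairwise (· > ·)) : cf φ (pi c) = k • single m 1 := by
  classical
  ext l
  have h1 : c (l ++ φ) = (k • single m (1 : 𝕜)) l := by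
    rw [← cf_apply, h]
  rw [cf_apply, r3_pi_apply, h1]
  by_cases hl : l = m
  · subst hl
    rw [if_pos hm]
  · rw [Finsupp.smul_apply, Finsupp.single_eq_of_ne hl, smul_zero, ite_self]

lemma r3_sg_iter (r : ℕ) (t : List α) :
    ((⇑(sg (𝕜 := 𝕜) (α := α)))^[r] (single t (1 : 𝕜))) =
      (-1 : 𝕜) ^ (r * t.length) • single t (1 : 𝕜) := by
  induction r with
  | zero => simp
  | succ r ih =>
    rw [Function.iterate_succ_apply', ih, map_smul, sg_single, smul_smul, ← pow_add]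
    congr 2
    ring

end lists

section
variable {G : Type u} [Group G] {p : ℕ}

lemma r3_mem_sup {F B : Subgroup G} (h : B ≤ centralizer (F : Set G)) {x : G} (hx : x ∈ F ⊔ B) :
    ∃ f ∈ F, ∃ b ∈ B, x = f * b :=
  mem_sup_comm (fun a ha _ hb => Subgroup.mem_centralizer_iff.1 (h hb) a ha) hx

lemma r3_lt {M F B B' : Subgroup G} (hFM : F ⊓ M = ⊥) (hB : B ≤ M ⊓ centralizer (F : Set G))
    (hlt : B' < B) : F ⊔ B' < F ⊔ B := by
  refine lt_of_le_of_ne (sup_le_sup_left hlt.le F) fun he => hlt.not_ge fun b hb => ?_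
  have h1 : b ∈ F ⊔ B' := by rw [he]; exact Subgroup.mem_sup_right hb
  obtain ⟨f, hf, b', hb', rfl⟩ := r3_mem_sup (hlt.le.trans (hB.trans inf_le_right)) h1
  have h2 : f ∈ F ⊓ M := by
    refine ⟨hf, ?_⟩
    have h3 := M.mul_mem (hB hb).1 (M.inv_mem (hB (hlt.le hb')).1)
    rwa [mul_inv_cancel_right] at h3
  rw [hFM, Subgroup.mem_bot] at h2
  rw [h2, one_mul]
  exact hb'

theorem cf_sh [Finite G] {M H F : Subgroup G} (hFM : F ⊓ M = ⊥) {α : Ch 𝕜 (Subgroup G)}
    {φ : List (Subgroup G)} (hα : TopCycle 𝕜 p H F α φ) {b : Ch 𝕜 (Subgroup G)}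
    (hb : b ∈ Sp 𝕜 (st (Ain p (M ⊓ centralizer (F : Set G))))) :
    cf φ (pi (sh α ((⇑(sg (𝕜 := 𝕜) (α := Subgroup G)))^[φ.length] b))) =
      α φ • mp (fun B => F ⊔ B) b := by
  classical
  have hφst : st (Ain p H) φ := (mem_Sp.1 hα.mem φ (Finsupp.mem_support_iff.2 hα.ne)).1
  -- the formula on lists
  have key : ∀ s : List (Subgroup G), s.length = φ.length → ∀ t : List (Subgroup G),
      st (Ain p (M ⊓ centralizer (F : Set G))) t →
      cf φ (pi (shL (𝕜 := 𝕜) s t)) =
        if s = φ then (-1 : 𝕜) ^ (φ.length * t.length) • single (t.map (fun B => F ⊔ B)) 1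
        else 0 := by
    intro s hs t ht
    rcases hα.top with ⟨h1, h2⟩ | ⟨φ', h1⟩
    · subst h1 h2
      have hs' : s = [] := List.length_eq_zero_iff.1 hs
      subst hs'
      rw [shL, pi_single, if_pos ht.1]
      have h3 : t.map (fun B => (⊥ : Subgroup G) ⊔ B) = t := by
        simp
      rw [h3]
      ext l
      rw [cf_apply]
      simp
    · have hne : φ ≠ [] := by rw [h1]; simp
      rcases s with _ | ⟨a, s⟩
      · exfalso
        apply hne
        exact List.length_eq_zero_iff.1 hs.symm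
      have hle : ∀ x ∈ φ, x ≤ F := by
        intro x hx
        rw [h1] at hx
        rcases List.mem_cons.1 hx with rfl | hx
        · exact le_refl _
        · have := hφst.1
          rw [h1, List.pairwise_cons] at this
          exact (this.1 x hx).le
      have hφ : ∀ x ∈ φ, ∀ B ∈ Ain p (M ⊓ centralizer (F : Set G)), ¬ B ≤ x := by
        intro x hx B hB hBx
        apply hB.1.1
        rw [eq_bot_iff, ← hFM]
        exact le_inf (hBx.trans (hle x hx)) (hB.2.trans inf_le_left)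
      have h2 := r3_cf_shL (𝕜 := 𝕜) hφ a s hs t ht.2
      split_ifs at h2 ⊢ with h
      · have haF : a = F := by
          rw [h1] at h
          exact (List.cons.inj h).1
        subst haF
        refine r3_cf_pi_single h2 ?_
        rw [List.pairwise_append]
        refine ⟨?_, hφst.1, ?_⟩
        · rw [List.pairwise_map]
          exact ht.1.imp_of_mem fun {x y} hx hy hxy => r3_lt hFM (ht.2 x hx).2 hxy
        · intro x hx y hy
          obtain ⟨B, hB, rfl⟩ := List.mem_map.1 hx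
          refine lt_of_le_of_lt (hle y hy) (lt_of_le_of_ne le_sup_left fun he => ?_)
          refine hφ a ?_ B (ht.2 B hB) ?_
          · rw [h1]; simp
          · conv_rhs => rw [he]
            exact le_sup_right
      · exact r3_cf_pi_zero h2
  -- linearity in `b`
  have key2 : ∀ s : List (Subgroup G), s.length = φ.length →
      cf φ (pi (sh (single s (1 : 𝕜)) ((⇑(sg (𝕜 := 𝕜) (α := Subgroup G)))^[φ.length] b))) =
        if s = φ then mp (fun B => F ⊔ B) b else 0 := by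
    intro s hs
    have h1 := eq_of_Sp (𝕜 := 𝕜)
      (F := (cf φ).comp (pi.comp ((sh (single s (1 : 𝕜))).comp
        ((sg (𝕜 := 𝕜) (α := Subgroup G) : Module.End 𝕜 (Ch 𝕜 (Subgroup G))) ^ φ.length))))
      (G := if s = φ then mp (fun B => F ⊔ B) else 0) (fun t ht => by
        simp only [LinearMap.comp_apply]
        rw [Module.End.pow_apply, r3_sg_iter, map_smul, map_smul, map_smul, sh_single,
          key s hs t ht]
        split_ifs with h
        · rw [smul_smul, ← pow_add, ← two_mul, pow_mul, neg_one_sq, one_pow, one_smul, mp_single]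
        · rw [smul_zero, LinearMap.zero_apply]) hb
    simp only [LinearMap.comp_apply] at h1
    rw [Module.End.pow_apply] at h1
    rw [h1]
    split_ifs <;> rfl
  -- linearity in `α`
  have h1 := eq_of_Sp (𝕜 := 𝕜)
    (F := (cf φ).comp (pi.comp ((sh (𝕜 := 𝕜) (α := Subgroup G)).flip
      ((⇑(sg (𝕜 := 𝕜) (α := Subgroup G)))^[φ.length] b))))
    (G := (Finsupp.lapply φ : Ch 𝕜 (Subgroup G) →ₗ[𝕜] 𝕜).smulRight (mp (fun B => F ⊔ B) b))
    (fun s hs => by
      simp only [LinearMap.comp_apply, LinearMap.flip_apply, LinearMap.smulRight_apply,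
        Finsupp.lapply_apply]
      rw [key2 s hs.2]
      split_ifs with h
      · rw [h, Finsupp.single_eq_same, one_smul]
      · rw [Finsupp.single_eq_of_ne (fun h' => h h'.symm), zero_smul]) hα.mem
  exact h1

end

end Vale.Agent.P240.K
end

section

/-!
P240-R5. Top cycles (Quillen's theorem for solvable groups, with explicit cycles, over any field).

`topCycle_mul`: let `A = zpowers a`, `A' = zpowers (t * a * t⁻¹)`, `K = M ⊔ H`. `a` commutes with `M` and with `H ≤ F`, so with `K`;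
`t * a * t⁻¹` commutes with `M` (`t⁻¹ y t ∈ M`) and with `H` (`t` commutes with `H`), so with `K`. Put
`β = single [A] 1 - single [A'] 1` (so `bd β = single [] 1 - single [] 1 = 0`), `α' = pi (sh α β)`, `φ' = F :: φ`.
`sh α β` lies in `Sp (wk (Ain p (Y ⊔ F)))` (`sh_mem`, `sup_mem_ApS`), so `bd α' = pi (bd (sh α β)) = 0` (`bd_pi`, `bd_sh`), and `α'` is in
`Sp (st ..)` by `pi_mem`; its lists have length `φ.length + 1` (lists in the support of `shL s t` have length `s.length + t.length`; `pi` keeps or kills lists,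
`pi_mem'`). The coefficient at `φ'`: `φ'` is strictly decreasing (`φ` is in the support of `α`, so it is strictly decreasing in `Ain p K`,
and its head is `H < F`), so `pi` does not change it. For a list `s` with `s.length = φ.length` and `B = A` or `A'` the coefficient of `shL s [B]` at
`F :: φ` is: if `s = []` then `φ = []`, `H = ⊥`, `shL [] [B] = single [B] 1`, coefficient `1` if `B = F` (true for `B = A`), else `0` (`A' ≠ F` as `t a t⁻¹ ∉ F`).
If `s = E :: s'` then `shL (E :: s') [B] = cons (E ⊔ B) (shL s' [B] + (-1) ^ (s'.length + 1) • single (E :: s') 1)`; the lists in `shL s' [B]` have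
a head that contains `B`, while the head of `φ` is `H`, and `B ≤ H` is false (`H ⊓ A = ⊥`, `A ≠ ⊥`; `t a t⁻¹ ∉ F ≥ H`), so the coefficient is
`± 1` if `E :: s' = φ` and `E ⊔ B = F`, and `0` otherwise; for `s = φ`, `E = H` and `H ⊔ A = F`, while `H ⊔ A' ≠ F` as `t a t⁻¹ ∉ F`. So
`α' φ' = ± α φ ≠ 0`. `Nat.card F = Nat.card H * p` since `H ⊓ A = ⊥`, `F = H ⊔ A`, `A` of order `p` commutes with `H`.

`quillen_cycle`: strong induction on `Nat.card Y` for all `F`. If `F = ⊥` take `α = single [] 1`, `φ = []`. Otherwise `quillen_group`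
gives `M < Y` (solvable, `p ∤ |M|`, normalized by `F`): in the first case use the induction hypothesis for `M`, `F` (monotonicity: a `TopCycle` for
`M ⊔ F` is one for `Y ⊔ F`); in the second case the induction hypothesis for `M`, `H` and `topCycle_mul`.
-/

namespace Vale.Agent.P240.K

open Finsupp Subgroup

universe u v

variable {𝕜 : Type v} [Field 𝕜]

/-- lengths of the lists of a shuffle product -/
lemma r5_shL_len {α : Type*} [Max α] (n : ℕ) : ∀ s t : List α, s.length + t.length = n →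
    shL (𝕜 := 𝕜) s t ∈ Sp 𝕜 (fun l => l.length = n) := by
  induction n with
  | zero =>
    intro s t h
    have hs : s = [] := List.length_eq_zero_iff.1 (by omega)
    have ht : t = [] := List.length_eq_zero_iff.1 (by omega)
    subst hs ht
    rw [shL]
    refine single_mem_Sp ?_ _
    rfl
  | succ n ih =>
    intro s t h
    rcases s with _ | ⟨a, s⟩
    · rw [shL]
      exact single_mem_Sp (by simpa using h) _
    rcases t with _ | ⟨b, t⟩
    · rw [shL]
      exact single_mem_Sp (by simpa using h) _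
    rw [shL]
    refine cons_mem (P := fun l => l.length = n) (fun l hl => by simp [hl]) ?_
    exact Submodule.add_mem _ (ih s (b :: t) (by simp only [List.length_cons] at h ⊢; omega))
      (Submodule.smul_mem _ _ (ih (a :: s) t (by simp only [List.length_cons] at h ⊢; omega)))

open Classical in
/-- the coefficient of `shL s [B]` at `F :: φ` -/
lemma r5_coef {α : Type*} [SemilatticeSup α] [OrderBot α] {φ : List α} {H F B : α}
    (htop : (φ = [] ∧ H = ⊥) ∨ ∃ φ', φ = H :: φ')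
    (hB : ∀ x ∈ φ, ¬ B ≤ x) (s : List α) (hs : s.length = φ.length) :
    shL (𝕜 := 𝕜) s [B] (F :: φ) = if s = φ ∧ H ⊔ B = F then (-1 : 𝕜) ^ φ.length else 0 := by
  rcases htop with ⟨rfl, rfl⟩ | ⟨φ', h⟩
  · have hs' : s = [] := List.length_eq_zero_iff.1 hs
    subst hs'
    rw [shL, bot_sup_eq]
    by_cases h : B = F
    · subst h
      simp
    · rw [Finsupp.single_eq_of_ne (fun h' => h (List.cons.inj h').1.symm), if_neg (fun h' => h h'.2)]
  · rcases s with _ | ⟨a, s⟩
    · rw [h] at hs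
      simp at hs
    · have h2 := r3_cf_shL (𝕜 := 𝕜) (T := {B}) (φ := φ)
        (fun x hx b hb => by rw [Set.mem_singleton_iff.1 hb]; exact hB x hx) a s hs [B] (by simp)
      have h3 : shL (𝕜 := 𝕜) (a :: s) [B] (F :: φ) = cf φ (shL (𝕜 := 𝕜) (a :: s) [B]) [F] := by
        rw [cf_apply]
        rfl
      rw [h3, h2]
      by_cases h4 : a :: s = φ
      · have h5 : a = H := by
          rw [h] at h4
          exact (List.cons.inj h4).1
        subst h5
        rw [if_pos h4]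
        by_cases h6 : a ⊔ B = F
        · rw [if_pos ⟨h4, h6⟩]
          simp [h6]
        · rw [if_neg (fun h => h6 h.2), Finsupp.smul_apply, Finsupp.single_eq_of_ne, smul_zero]
          intro h7
          apply h6
          simpa using h7.symm
      · rw [if_neg h4, if_neg (fun h => h4 h.1), Finsupp.zero_apply]

lemma r5_sh_coef {α : Type*} [SemilatticeSup α] [OrderBot α] {φ : List α} {H F A A' : α}
    (htop : (φ = [] ∧ H = ⊥) ∨ ∃ φ', φ = H :: φ')
    (hA : ∀ x ∈ φ, ¬ A ≤ x) (hA' : ∀ x ∈ φ, ¬ A' ≤ x) (h1 : H ⊔ A = F) (h2 : H ⊔ A' ≠ F)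
    {x : Ch 𝕜 α} (hx : x ∈ Sp 𝕜 (fun l => l.length = φ.length)) :
    sh x (single [A] (1 : 𝕜) - single [A'] (1 : 𝕜)) (F :: φ) = (-1 : 𝕜) ^ φ.length * x φ := by
  classical
  have := eq_of_Sp (𝕜 := 𝕜)
    (F := (Finsupp.lapply (F :: φ) : Ch 𝕜 α →ₗ[𝕜] 𝕜).comp
      ((sh (𝕜 := 𝕜) (α := α)).flip (single [A] (1 : 𝕜) - single [A'] (1 : 𝕜))))
    (G := ((-1 : 𝕜) ^ φ.length) • (Finsupp.lapply φ : Ch 𝕜 α →ₗ[𝕜] 𝕜))
    (fun s hs => by
      rw [LinearMap.comp_apply, LinearMap.flip_apply, map_sub, sh_single, sh_single,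
        LinearMap.smul_apply, Finsupp.lapply_apply, Finsupp.lapply_apply, Finsupp.sub_apply,
        r5_coef htop hA s hs, r5_coef htop hA' s hs,
        if_neg (fun h : s = φ ∧ H ⊔ A' = F => h2 h.2), sub_zero]
      by_cases h : s = φ
      · subst h
        rw [if_pos ⟨rfl, h1⟩]
        simp
      · rw [if_neg (fun h' => h h'.1), Finsupp.single_eq_of_ne (fun h' => h h'.symm), smul_zero])
    hx
  simpa using this

section
variable {G : Type u} [Group G] {p : ℕ}

lemma r5_mono {K L F : Subgroup G} (h : K ≤ L) {α : Ch 𝕜 (Subgroup G)} {φ : List (Subgroup G)}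
    (hα : TopCycle 𝕜 p K F α φ) : TopCycle 𝕜 p L F α φ :=
  ⟨Sp_mono (fun l hl => ⟨st_mono (S := Ain p K) (T := Ain p L)
    (fun _ hE => ⟨hE.1, hE.2.trans h⟩) l hl.1, hl.2⟩) hα.mem,
    hα.cyc, hα.ne, hα.top, hα.card⟩

lemma r5_card [hp : Fact p.Prime] [Finite G] {H : Subgroup G} {a : G}
    (hc : ∀ x ∈ H, x * a = a * x) (hHa : H ⊓ zpowers a = ⊥) (ha : a ≠ 1) (hap : a ^ p = 1) :
    Nat.card (H ⊔ zpowers a : Subgroup G) = Nat.card H * p := by
  have hcc : ∀ x ∈ H, ∀ y ∈ zpowers a, x * y = y * x := by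
    intro x hx y hy
    obtain ⟨k, rfl⟩ := mem_zpowers_iff.1 hy
    exact (show Commute x a from hc x hx).zpow_right k
  have hinj : Function.Injective (fun g : H × (zpowers a) => (g.1 * g.2 : G)) :=
    Subgroup.mul_injective_of_disjoint (disjoint_iff.2 hHa)
  have hmem : ∀ g : H × (zpowers a), (g.1 * g.2 : G) ∈ H ⊔ zpowers a := fun g =>
    mul_mem (Subgroup.mem_sup_left g.1.2) (Subgroup.mem_sup_right g.2.2)
  have hbij : Function.Bijective
      (fun g : H × (zpowers a) => (⟨(g.1 * g.2 : G), hmem g⟩ : (H ⊔ zpowers a : Subgroup G))) := by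
    constructor
    · intro g g' h
      exact hinj (congrArg Subtype.val h)
    · rintro ⟨x, hx⟩
      obtain ⟨h, hh, b, hb, rfl⟩ := mem_sup_comm hcc hx
      exact ⟨(⟨h, hh⟩, ⟨b, hb⟩), rfl⟩
  rw [← Nat.card_congr (Equiv.ofBijective _ hbij), Nat.card_prod, Nat.card_zpowers,
    orderOf_eq_prime hap ha]

theorem topCycle_mul [hp : Fact p.Prime] [Finite G] {Y M H F : Subgroup G} {a t : G}
    {α : Ch 𝕜 (Subgroup G)} {φ : List (Subgroup G)} (hα : TopCycle 𝕜 p (M ⊔ H) H α φ)
    (hF : F ∈ ApS p G) (hH : H ∈ ApB p G) (hMY : M ≤ Y) (ht : t ∈ Y) (hFH : F = H ⊔ zpowers a)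
    (hHa : H ⊓ zpowers a = ⊥) (ha : a ≠ 1) (haM : ∀ y ∈ M, a * y = y * a)
    (htM : ∀ y ∈ M, t * y * t⁻¹ ∈ M ∧ t⁻¹ * y * t ∈ M) (htH : ∀ x ∈ H, t * x = x * t)
    (hta : t * a * t⁻¹ ∉ F) :
    ∃ (α' : Ch 𝕜 (Subgroup G)) (φ' : List (Subgroup G)), TopCycle 𝕜 p (Y ⊔ F) F α' φ' := by
  classical
  set A : Subgroup G := zpowers a with hAdef
  set A' : Subgroup G := zpowers (t * a * t⁻¹) with hA'def
  have hHF : H ≤ F := by rw [hFH]; exact le_sup_left
  have hAF : A ≤ F := by rw [hFH]; exact le_sup_right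
  have haF : a ∈ F := hAF (mem_zpowers a)
  have hap : a ^ p = 1 := hF.2.2 a haF
  have hA : A ∈ ApS p G := mem_ApS_of_le hF hAF (by rw [hAdef]; exact zpowers_ne_bot.2 ha)
  have hta1 : t * a * t⁻¹ ≠ 1 := by
    intro h
    apply ha
    have := conj_eq_one_iff.1 h
    exact this
  have htap : (t * a * t⁻¹) ^ p = 1 := by
    rw [conj_pow, hap, mul_one, mul_inv_cancel]
  have hA' : A' ∈ ApS p G := by
    refine ⟨zpowers_ne_bot.2 hta1, ?_, ?_⟩
    · intro x hx y hy
      obtain ⟨k, rfl⟩ := mem_zpowers_iff.1 hx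
      obtain ⟨m, rfl⟩ := mem_zpowers_iff.1 hy
      rw [← zpow_add, ← zpow_add, add_comm]
    · intro x hx
      obtain ⟨k, rfl⟩ := mem_zpowers_iff.1 hx
      rw [← zpow_natCast, ← zpow_mul, mul_comm, zpow_mul, zpow_natCast, htap, one_zpow]
  -- commutation
  have hKa : M ⊔ H ≤ centralizer ({a} : Set G) := by
    refine sup_le ?_ ?_
    · intro y hy
      rw [mem_centralizer_singleton_iff]
      exact (haM y hy).symm
    · intro y hy
      rw [mem_centralizer_singleton_iff]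
      exact hF.2.1 y (hHF hy) a haF
  have hKta : M ⊔ H ≤ centralizer ({t * a * t⁻¹} : Set G) := by
    refine sup_le ?_ ?_
    · intro y hy
      rw [mem_centralizer_singleton_iff]
      have h1 := haM _ (htM y hy).2
      calc y * (t * a * t⁻¹) = t * ((t⁻¹ * y * t) * a) * t⁻¹ := by group
        _ = t * (a * (t⁻¹ * y * t)) * t⁻¹ := by rw [h1]
        _ = t * a * t⁻¹ * y := by group
    · intro y hy
      rw [mem_centralizer_singleton_iff]
      have h1 := htH y hy
      have h2 := hF.2.1 y (hHF hy) a haF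
      have h3 : t⁻¹ * y = y * t⁻¹ := by
        have : Commute t y := h1
        exact this.inv_left
      calc y * (t * a * t⁻¹) = (y * t) * a * t⁻¹ := by group
        _ = (t * y) * a * t⁻¹ := by rw [h1]
        _ = t * (y * a) * t⁻¹ := by group
        _ = t * (a * y) * t⁻¹ := by rw [h2]
        _ = t * a * (y * t⁻¹) := by group
        _ = t * a * (t⁻¹ * y) := by rw [h3]
        _ = t * a * t⁻¹ * y := by group
  have hcomm : ∀ B ∈ ({A, A'} : Set (Subgroup G)), ∀ x ∈ M ⊔ H, ∀ y ∈ B, x * y = y * x := by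
    intro B hB x hx y hy
    rcases hB with rfl | hB
    · obtain ⟨k, rfl⟩ := mem_zpowers_iff.1 hy
      exact (show Commute x a from mem_centralizer_singleton_iff.1 (hKa hx)).zpow_right k
    · rw [Set.mem_singleton_iff] at hB
      subst hB
      obtain ⟨k, rfl⟩ := mem_zpowers_iff.1 hy
      exact (show Commute x (t * a * t⁻¹) from
        mem_centralizer_singleton_iff.1 (hKta hx)).zpow_right k
  have hA'Y : A' ≤ Y ⊔ F := by
    rw [hA'def, zpowers_le]
    exact mul_mem (mul_mem (mem_sup_left ht) (mem_sup_right haF)) (inv_mem (mem_sup_left ht))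
  have hKY : M ⊔ H ≤ Y ⊔ F := sup_le_sup hMY hHF
  have hBS : ({A, A'} : Set (Subgroup G)) ⊆ Ain p (Y ⊔ F) := by
    rintro B (rfl | hB)
    · exact ⟨hA, hAF.trans le_sup_right⟩
    · rw [Set.mem_singleton_iff] at hB
      subst hB
      exact ⟨hA', hA'Y⟩
  -- the chain
  set β : Ch 𝕜 (Subgroup G) := single [A] (1 : 𝕜) - single [A'] (1 : 𝕜) with hβ
  have hβwk : β ∈ Sp 𝕜 (wk ({A, A'} : Set (Subgroup G))) := by
    refine Submodule.sub_mem _ (single_mem_Sp ⟨by simp, by simp⟩ _)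
      (single_mem_Sp ⟨by simp, by simp⟩ _)
  have hbβ : bd β = 0 := by
    rw [hβ, map_sub, bd_single_cons, bd_single_cons]
    simp
  have hz : sh α β ∈ Sp 𝕜 (wk (Ain p (Y ⊔ F))) := by
    refine sh_mem (A := Ain p (M ⊔ H)) (B := {A, A'}) (S := Ain p (Y ⊔ F)) (fun E hE => ⟨hE.1, hE.2.trans hKY⟩) hBS ?_
      (Sp_mono (fun l hl => st_wk l hl.1) hα.mem) hβwk
    intro E hE B hB
    exact ⟨sup_mem_ApS hE.1 (hBS hB).1 fun x hx y hy => hcomm B hB x (hE.2 hx) y hy,
      sup_le (hE.2.trans hKY) (hBS hB).2⟩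
  have hαlen : α ∈ Sp 𝕜 (fun l => l.length = φ.length) := Sp_mono (fun l hl => hl.2) hα.mem
  have hzlen : sh α β ∈ Sp 𝕜 (fun l => l.length = (F :: φ).length) := by
    refine map_mem ((sh (𝕜 := 𝕜) (α := Subgroup G)).flip β) (fun s hs => ?_) hαlen
    rw [LinearMap.flip_apply, hβ, map_sub, sh_single, sh_single]
    have h1 : ∀ B : Subgroup G, s.length + [B].length = (F :: φ).length := by
      intro B
      simp [hs]
    exact Submodule.sub_mem _ (r5_shL_len _ s [A] (h1 A)) (r5_shL_len _ s [A'] (h1 A'))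
  have hφst : st (Ain p (M ⊔ H)) φ := (mem_Sp.1 hα.mem φ (Finsupp.mem_support_iff.2 hα.ne)).1
  have hle : ∀ x ∈ φ, x ≤ H := by
    intro x hx
    rcases hα.top with ⟨h1, -⟩ | ⟨φ', h1⟩
    · rw [h1] at hx
      simp at hx
    · rw [h1] at hx
      rcases List.mem_cons.1 hx with rfl | hx
      · exact le_refl _
      · have := hφst.1
        rw [h1, List.pairwise_cons] at this
        exact (this.1 x hx).le
  have hAH : ¬ A ≤ H := by
    intro h
    apply hA.1
    rw [eq_bot_iff, ← hHa]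
    exact le_inf h le_rfl
  have hA'F : ¬ A' ≤ F := fun h => hta (h (mem_zpowers _))
  have hHltF : H < F := lt_of_le_of_ne hHF fun h => hAH (h ▸ hAF)
  refine ⟨pi (sh α β), F :: φ, ⟨mem_Sp_inf (pi_mem hz) (pi_mem' hzlen), ?_, ?_, Or.inr ⟨φ, rfl⟩, ?_⟩⟩
  · rw [bd_pi hz, bd_sh, hα.cyc, hbβ]
    simp
  · rw [r3_pi_apply, if_pos, r5_sh_coef (H := H) hα.top (fun x hx h => hAH (h.trans (hle x hx)))
      (fun x hx h => hA'F (h.trans ((hle x hx).trans hHF))) hFH.symm
      (fun h => hA'F (h ▸ le_sup_right)) hαlen]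
    · exact mul_ne_zero (pow_ne_zero _ (neg_ne_zero.2 one_ne_zero)) hα.ne
    · rw [List.pairwise_cons]
      exact ⟨fun x hx => lt_of_le_of_lt (hle x hx) hHltF, hφst.1⟩
  · rw [hFH, r5_card (fun x hx => hF.2.1 x (hHF hx) a haF) hHa ha hap, hα.card, List.length_cons,
      pow_succ]

theorem quillen_cycle [hp : Fact p.Prime] [Finite G] {Y F : Subgroup G} (hF : F ∈ ApB p G)
    (hsol : Group.IsSolvable Y) (hY : ¬ p ∣ Nat.card Y) (hn : ∀ x ∈ F, ∀ y ∈ Y, x * y * x⁻¹ ∈ Y)
    (hfaith : ∀ x ∈ F, (∀ y ∈ Y, x * y = y * x) → x = 1) :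
    ∃ (α : Ch 𝕜 (Subgroup G)) (φ : List (Subgroup G)), TopCycle 𝕜 p (Y ⊔ F) F α φ := by
  obtain ⟨n, hn'⟩ : ∃ n, Nat.card Y = n := ⟨_, rfl⟩
  induction n using Nat.strong_induction_on generalizing Y F with
  | _ n ih =>
    by_cases hF0 : F = ⊥
    · subst hF0
      refine ⟨single [] 1, [], single_mem_Sp ⟨⟨List.Pairwise.nil, by simp⟩, rfl⟩ _, by simp,
        by simp, Or.inl ⟨rfl, rfl⟩, by simp⟩
    · have hFS : F ∈ ApS p G := hF.resolve_left hF0
      obtain ⟨M, hMY, hFM, h⟩ := quillen_group hFS hsol hY hn hfaith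
      have hMsol : Group.IsSolvable M :=
        Group.isSolvable_of_isSolvable_injective (Subgroup.inclusion_injective hMY.le)
      have hMp : ¬ p ∣ Nat.card M := fun h => hY (h.trans (Subgroup.card_dvd_of_le hMY.le))
      have hMn : Nat.card M < n := by
        rw [← hn']
        refine lt_of_le_of_ne (Nat.le_of_dvd Nat.card_pos (Subgroup.card_dvd_of_le hMY.le)) ?_
        intro h
        exact hMY.ne (Subgroup.eq_of_le_of_card_ge hMY.le h.ge)
      rcases h with h | ⟨H, hH, a, haF, t, htY, hFH, hHa, ha, haM, htM, htH, hta, hfH⟩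
      · obtain ⟨α, φ, hα⟩ := ih _ hMn hF hMsol hMp hFM h rfl
        exact ⟨α, φ, r5_mono (sup_le_sup_right hMY.le F) hα⟩
      · have hHF : H ≤ F := by rw [hFH]; exact le_sup_left
        obtain ⟨α, φ, hα⟩ := ih _ hMn hH hMsol hMp (fun x hx => hFM x (hHF hx)) hfH rfl
        exact topCycle_mul hα hFS hH hMY.le htY hFH hHa ha haM htM htH hta

end

end Vale.Agent.P240.K
end

section

/-!
P240-R1. Coefficients at the lists that end with `φ` (pure chain computation).

`bd_cf`: by `eq_of_Sp` it suffices to take `c = single m 1` with `st S m` (strictly decreasing list in `S`).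
`bd (single m 1) = ∑ i ∈ range m.length, (-1) ^ i • single (m.eraseIdx i) 1` (definition of `bd`, K/Defs.lean; or use
`bd_single_cons` of K/Chains.lean and induct), and `cf φ (single m 1) = single l 1` if `m = l ++ φ`, else `0`.
(a) `m = l ++ φ`. For `i < l.length` the list `m.eraseIdx i` is `l.eraseIdx i ++ φ`. For `i ≥ l.length` the list `m.eraseIdx i`
is `l ++ φ.eraseIdx (i - l.length)`, and it is not of the form `l' ++ φ`: comparing lengths, `l'.length + 1 = l.length`, so the last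
element of `l` would be the head of `φ`, contradicting that `m` is strictly decreasing (if `l = []` the length is too small).
(b) `m` is not of the form `l ++ φ`. If `m.eraseIdx i = l' ++ φ` then `i > l'.length` (otherwise the last `φ.length` elements
of `m` form `φ`), so the element of `m` at position `l'.length` is the head of `φ`, and `m.drop l'.length` is a strictly decreasing list
in `S` of length `φ.length + 1` all of whose elements are `≤` the head of `φ`, contradicting `hlen`.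
(Alternatively prove it by induction on `m` with `bd_single_cons`.)
`cf_mem`: if `l ++ φ` is strictly decreasing in `S`, then `l` is strictly decreasing and its elements are larger than those of `φ`;
use `mem_Sp` (K/Chains2.lean) and `cf_apply`.
-/

namespace Vale.Agent.P240.K

open Finsupp Subgroup

universe u v

variable {𝕜 : Type v} [Field 𝕜]

lemma r1_cf_single {α : Type*} (φ l m : List α) (r : 𝕜) :
    cf φ (single m r) l = single m r (l ++ φ) := rfl

lemma r1_cf_append {α : Type*} (φ l : List α) (r : 𝕜) :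
    cf φ (single (l ++ φ) r) = single l r := by
  ext k
  rw [r1_cf_single]
  by_cases h : l = k
  · subst h
    simp
  · rw [Finsupp.single_eq_of_ne (by
      intro h'
      exact h (List.append_cancel_right h').symm), Finsupp.single_eq_of_ne (Ne.symm h)]

lemma r1_cf_zero {α : Type*} (φ m : List α) (r : 𝕜) (h : ∀ l, m ≠ l ++ φ) :
    cf φ (single m r) = 0 := by
  ext k
  rw [r1_cf_single, Finsupp.single_eq_of_ne (Ne.symm (h k))]
  rfl

lemma r1_cf_cons {α : Type*} (φ : List α) (x : α) (c : Ch 𝕜 α) :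
    cf φ (cons x c) = cons x (cf φ c) + (cons x c φ) • single ([] : List α) (1 : 𝕜) := by
  have key : ∀ m : List α, cf φ (cons x (single m (1 : 𝕜))) =
      cons x (cf φ (single m 1)) + (cons x (single m (1 : 𝕜)) φ) • single ([] : List α) (1 : 𝕜) := by
    intro m
    rw [cons_single]
    by_cases h : ∃ l, m = l ++ φ
    · obtain ⟨l, rfl⟩ := h
      have h1 : cf φ (single (x :: (l ++ φ)) (1 : 𝕜)) = single (x :: l) 1 :=
        r1_cf_append φ (x :: l) 1
      have h2 : (single (x :: (l ++ φ)) (1 : 𝕜) : Ch 𝕜 α) φ = 0 := by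
        apply Finsupp.single_eq_of_ne
        intro h'
        have := congrArg List.length h'
        simp at this
        omega
      rw [h1, h2, r1_cf_append, cons_single, zero_smul, add_zero]
    · push Not at h
      rw [r1_cf_zero φ m 1 h, map_zero, zero_add]
      by_cases h' : x :: m = φ
      · subst h'
        have h1 := r1_cf_append (𝕜 := 𝕜) (x :: m) [] 1
        rw [List.nil_append] at h1
        rw [h1]
        simp
      · rw [Finsupp.single_eq_of_ne (Ne.symm h'), zero_smul]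
        apply r1_cf_zero
        intro l hl
        cases l with
        | nil => exact h' hl
        | cons y l =>
          rw [List.cons_append] at hl
          exact h l (List.cons.inj hl).2
  have := lin_ext_apply (f := (cf φ).comp (cons x))
    (g := (cons x).comp (cf φ) + (((Finsupp.lapply φ).comp (cons x)).smulRight
      (single ([] : List α) (1 : 𝕜))))
    (fun m => by
      simp only [LinearMap.comp_apply, LinearMap.add_apply, LinearMap.smulRight_apply,
        Finsupp.lapply_apply]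
      exact key m) c
  simpa only [LinearMap.comp_apply, LinearMap.add_apply, LinearMap.smulRight_apply,
        Finsupp.lapply_apply] using this

lemma r1_cons_apply {α : Type*} (x : α) (c : Ch 𝕜 α) (φ : List α) (h : cons x c φ ≠ 0) :
    ∃ φ', φ = x :: φ' ∧ c φ' ≠ 0 := by
  cases φ with
  | nil =>
    exfalso
    apply h
    have : cons x c [] = 0 := by
      rw [cons, Finsupp.lmapDomain_apply]
      apply Finsupp.mapDomain_of_notMem_range
      rintro ⟨l, hl⟩
      exact List.cons_ne_nil _ _ hl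
    exact this
  | cons y φ' =>
    by_cases hy : y = x
    · subst hy
      refine ⟨φ', rfl, ?_⟩
      rw [cons, Finsupp.lmapDomain_apply,
        Finsupp.mapDomain_apply (List.cons_injective)] at h
      exact h
    · exfalso
      apply h
      rw [cons, Finsupp.lmapDomain_apply]
      apply Finsupp.mapDomain_of_notMem_range
      rintro ⟨l, hl⟩
      exact hy (List.cons.inj hl).1.symm

lemma r1_bd_length {α : Type*} (m k : List α) (h : bd (single m (1 : 𝕜)) k ≠ 0) :
    m.length = k.length + 1 := by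
  by_contra hne
  apply h
  rw [bd_single, one_smul, Finsupp.finsetSum_apply]
  apply Finset.sum_eq_zero
  intro i hi
  rw [Finset.mem_range] at hi
  rw [Finsupp.smul_apply, Finsupp.single_eq_of_ne, smul_zero]
  intro hk
  apply hne
  rw [hk, List.length_eraseIdx_of_lt hi]
  omega

theorem bd_cf {α : Type*} [PartialOrder α] {S : Set α} (φ : List α)
    (hlen : ∀ m, st S m → (∀ y ∈ m, ∃ f ∈ φ, y ≤ f) → m.length ≤ φ.length)
    {c : Ch 𝕜 α} (hc : c ∈ Sp 𝕜 (st S)) : bd (cf φ c) = cf φ (bd c) := by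
  refine eq_of_Sp (F := bd.comp (cf φ)) (G := (cf φ).comp bd) (fun m hm => ?_) hc
  simp only [LinearMap.comp_apply]
  induction m with
  | nil =>
    rw [bd_single_nil, map_zero]
    by_cases h : φ = []
    · subst h
      have := r1_cf_append (𝕜 := 𝕜) ([] : List α) [] 1
      rw [List.append_nil] at this
      rw [this, bd_single_nil]
    · rw [r1_cf_zero, map_zero]
      intro l hl
      exact h (List.append_eq_nil_iff.mp hl.symm).2
  | cons x m ih =>
    have hm' : st S m := st_sub _ _ (List.sublist_cons_self x m) hm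
    have ih' := ih hm'
    have e1 : (single (x :: m) (1 : 𝕜) : Ch 𝕜 α) = cons x (single m 1) := by rw [cons_single]
    have hz : cons x (bd (single m (1 : 𝕜))) φ = 0 := by
      by_contra hne
      obtain ⟨φ', h1, h2⟩ := r1_cons_apply x _ φ hne
      have h3 := r1_bd_length m φ' h2
      have h4 := hlen (x :: m) hm (by
        intro y hy
        refine ⟨x, by rw [h1]; exact List.mem_cons_self, ?_⟩
        rcases List.mem_cons.mp hy with rfl | hy
        · exact le_refl _
        · exact (List.rel_of_pairwise_cons hm.1 hy).le)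
      rw [h1, List.length_cons, List.length_cons] at h4
      omega
    rw [e1, bd_cons, r1_cf_cons, map_add, map_smul, bd_single_nil, smul_zero, add_zero, bd_cons,
      ih', map_sub, r1_cf_cons, hz, zero_smul, add_zero]

theorem cf_mem {α : Type*} [PartialOrder α] {S : Set α} (φ : List α) {c : Ch 𝕜 α}
    (hc : c ∈ Sp 𝕜 (st S)) : cf φ c ∈ Sp 𝕜 (st {x | x ∈ S ∧ ∀ f ∈ φ, f < x}) := by
  rw [mem_Sp] at hc ⊢
  intro l hl
  rw [Finsupp.mem_support_iff, cf_apply] at hl
  have h := hc (l ++ φ) (Finsupp.mem_support_iff.mpr hl)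
  obtain ⟨h1, h2⟩ := h
  rw [List.pairwise_append] at h1
  exact ⟨h1.1, fun a ha => ⟨h2 a (List.mem_append_left _ ha), fun f hf => h1.2.2 a ha f hf⟩⟩

end Vale.Agent.P240.K
end

section

/-!
P240-R2. Upper links.

`up_lift`: induction on `(S \ X).ncard`, exactly as in `not_NA_attach_all` (K/Acyclic.lean): if `S ≠ X` take a minimal element `T`
of `S \ X` (it is minimal in `S`), apply `exact_split` (K/Exact.lean) with `P = {T}`, `z = bd c` (in `Sp (st (S \ {T}))` since
`X ⊆ S \ {T}`): `bd c = bd c0 + ∑ X ∈ s, e X`, each `e X` being a cycle in `{Y ∈ S | T < Y}`, hence the boundary of a chain in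
`{Y ∈ S | T < Y} ⊆ S \ {T}` (`not_NA_iff`, `hlk`). So `bd c = bd c'` with `c'` in `S \ {T}`; apply the induction hypothesis to `S \ {T}`
(the sets `{x ∈ S \ {T} | T' < x}` and `{x ∈ S | T' < x}` agree, see the end of the proof of `not_NA_attach_all`).

For the other two: let `C = M ⊓ centralizer F`, `S = {X ∈ ApS | F < X}`, `X0 = {X ∈ S | X ⊓ M ≠ ⊥}` (upwards closed in `S`).
If `X ∈ S` then `F < X` and `X` is abelian, so `X ⊓ M ≤ C`; `X ⊓ M ∈ Ain p C` for `X ∈ X0` (`mem_ApS_of_le`, K/Groups.lean).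
If `B ∈ Ain p C` then `F ⊔ B ∈ X0` (`sup_mem_ApS`; `F = ⊥` or `F ∈ ApS`) and `(F ⊔ B) ⊓ M = B` (an element of `F ⊔ B` is `f * b`
with `f ∈ F`, `b ∈ B` since `F` and `B` commute; if it lies in `M` then `f ∈ F ⊓ M = ⊥`).
`link_acyclic`: `not_NA_attach_all` (elements of `S` outside `X0` are the `T` with `T ⊓ M = ⊥`; `{x ∈ S | T < x} = {X ∈ ApS | T < X}`)
reduces to `¬ NA 𝕜 X0`; `X0` retracts downwards (`not_NA_down`, `ρ X = F ⊔ (X ⊓ M) ≤ X`) to the set `{F ⊔ B | B ∈ Ain p C}`, which is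
isomorphic to `Ain p C` (`NA_image` with `f B = F ⊔ B`; strictness from `(F ⊔ B) ⊓ M = B`).
`link_lift`: `up_lift` gives `c0` in `X0` with `bd c0 = mp (F ⊔ ·) b`. Put `d = pi (mp (· ⊓ M) c0)` (`mp_wk`, `pi_mem`, `bd_pi`, `bd_mp`,
`mp_mp`, `mp_eq_self`, `pi_of_st`).
-/

namespace Vale.Agent.P240.K

open Finsupp Subgroup

universe u v

variable {𝕜 : Type v} [Field 𝕜]

theorem up_lift {α : Type*} [PartialOrder α] {S : Set α} (hS : S.Finite) {X : Set α} (hXS : X ⊆ S)
    (hup : ∀ x ∈ X, ∀ y ∈ S, x ≤ y → y ∈ X)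
    (hlk : ∀ T ∈ S, T ∉ X → ¬ NA 𝕜 {x | x ∈ S ∧ T < x})
    {c : Ch 𝕜 α} (hc : c ∈ Sp 𝕜 (st S)) (hb : bd c ∈ Sp 𝕜 (st X)) :
    ∃ d ∈ Sp 𝕜 (st X), bd d = bd c := by
  classical
  have key : ∀ n : ℕ, ∀ S : Set α, S.Finite → X ⊆ S → (S \ X).ncard = n →
      (∀ x ∈ X, ∀ y ∈ S, x ≤ y → y ∈ X) →
      (∀ T ∈ S, T ∉ X → ¬ NA 𝕜 {x | x ∈ S ∧ T < x}) → ∀ c ∈ Sp 𝕜 (st S),
      bd c ∈ Sp 𝕜 (st X) → ∃ d ∈ Sp 𝕜 (st X), bd d = bd c := by
    intro n
    induction n with
    | zero =>
      intro S hS hXS hn _ _ c hc _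
      rw [Set.ncard_eq_zero (hS.subset Set.sdiff_subset)] at hn
      have : S = X := Set.Subset.antisymm (Set.sdiff_eq_empty.1 hn) hXS
      subst this
      exact ⟨c, hc, rfl⟩
    | succ n ih =>
      intro S hS hXS hn hup hlk c hc hb
      have hfin : (S \ X).Finite := hS.subset Set.sdiff_subset
      have hne : (S \ X).Nonempty := by
        rw [Set.nonempty_iff_ne_empty]
        intro h
        rw [h, Set.ncard_empty] at hn
        omega
      obtain ⟨T, hT⟩ := hfin.exists_minimal hne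
      have hTS : T ∈ S := hT.prop.1
      have hTX : T ∉ X := hT.prop.2
      have hmin : ∀ x ∈ S, ¬ x < T := by
        intro x hx hlt
        by_cases hxX : x ∈ X
        · exact hTX (hup x hxX T hTS hlt.le)
        · exact hlt.not_ge (hT.2 (show x ∈ S \ X from ⟨hx, hxX⟩) hlt.le)
      have hXT : X ⊆ S \ {T} := fun x hx => ⟨hXS hx, fun h => hTX (h ▸ hx)⟩
      obtain ⟨c0, hc0, s, e, hs, he, hsum⟩ := exact_split (S := S) (P := {T}) (c := c)
        (z := bd c) (by
          intro X' hX' Y hY hle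
          rw [Set.mem_singleton_iff] at hX'
          subst hX'
          rcases hle.lt_or_eq with h | h
          · exact absurd h (hmin Y hY)
          · exact h) hc (Sp_mono (st_mono hXT) hb) rfl
      have hlkT := not_NA_iff.1 (hlk T hTS hTX)
      have hex : ∀ Y, ∃ g : Ch 𝕜 α, Y ∈ s → g ∈ Sp 𝕜 (st {x | x ∈ S ∧ T < x}) ∧ bd g = e Y := by
        intro Y
        by_cases hY : Y ∈ s
        · have hYT : Y = T := (hs Y hY).1
          have h1 := he Y hY
          rw [hYT] at h1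
          obtain ⟨g, hg, hge⟩ := hlkT (e T) h1.1 h1.2
          refine ⟨g, fun _ => ⟨hg, ?_⟩⟩
          rw [hge, hYT]
        · exact ⟨0, fun h => absurd h hY⟩
      choose g hg using hex
      have hLk : {x | x ∈ S ∧ T < x} ⊆ S \ {T} := by
        rintro x ⟨h1, h2⟩
        exact ⟨h1, fun h => h2.ne' h⟩
      have hc' : c0 + ∑ Y ∈ s, g Y ∈ Sp 𝕜 (st (S \ {T})) :=
        Submodule.add_mem _ hc0 (Submodule.sum_mem _ fun Y hY =>
          Sp_mono (st_mono hLk) (hg Y hY).1)
      have hbc : bd (c0 + ∑ Y ∈ s, g Y) = bd c := by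
        rw [map_add, map_sum, hsum]
        congr 1
        exact Finset.sum_congr rfl fun Y hY => (hg Y hY).2
      obtain ⟨d, hd, hdb⟩ := ih (S \ {T}) (hS.subset Set.sdiff_subset) hXT (by
          have : (S \ {T}) \ X = (S \ X) \ {T} := by
            ext x
            simp only [Set.mem_sdiff, Set.mem_singleton_iff]
            tauto
          rw [this, Set.ncard_sdiff_singleton_of_mem (show T ∈ S \ X from ⟨hTS, hTX⟩), hn]
          rfl) (fun x hx y hy hxy => hup x hx y hy.1 hxy) (by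
          intro T' hT' hT'X
          have : {x | x ∈ S \ {T} ∧ T' < x} = {x | x ∈ S ∧ T' < x} := by
            ext x
            constructor
            · rintro ⟨h1, h2⟩
              exact ⟨h1.1, h2⟩
            · rintro ⟨h1, h2⟩
              refine ⟨⟨h1, ?_⟩, h2⟩
              rintro rfl
              exact hmin T' hT'.1 h2
          rw [this]
          exact hlk T' hT'.1 hT'X) _ hc' (by rw [hbc]; exact hb)
      exact ⟨d, hd, by rw [hdb, hbc]⟩
  exact key _ S hS hXS rfl hup hlk c hc hb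

section
variable {G : Type u} [Group G] {p : ℕ}

lemma r2_comm {M F B : Subgroup G} (hB : B ∈ Ain p (M ⊓ centralizer (F : Set G))) :
    ∀ x ∈ F, ∀ y ∈ B, x * y = y * x := fun x hx y hy =>
  (Subgroup.mem_centralizer_iff.1 (hB.2 hy).2) x hx

lemma r2_sup {M F B : Subgroup G} (hFM : F ⊓ M = ⊥)
    (hB : B ∈ Ain p (M ⊓ centralizer (F : Set G))) : (F ⊔ B) ⊓ M = B := by
  have hBM : B ≤ M := fun x hx => (hB.2 hx).1
  refine le_antisymm ?_ (le_inf le_sup_right hBM)
  have hcm := r2_comm hB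
  let P : Subgroup G :=
    { carrier := {x | ∃ f ∈ F, ∃ b ∈ B, f * b = x}
      one_mem' := ⟨1, one_mem _, 1, one_mem _, one_mul _⟩
      mul_mem' := by
        rintro _ _ ⟨f, hf, b, hb, rfl⟩ ⟨f', hf', b', hb', rfl⟩
        refine ⟨f * f', mul_mem hf hf', b * b', mul_mem hb hb', ?_⟩
        have h := hcm f' hf' b hb
        calc f * f' * (b * b') = f * (f' * b) * b' := by group
          _ = f * (b * f') * b' := by rw [h]
          _ = f * b * (f' * b') := by group
      inv_mem' := by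
        rintro _ ⟨f, hf, b, hb, rfl⟩
        refine ⟨f⁻¹, inv_mem hf, b⁻¹, inv_mem hb, ?_⟩
        rw [mul_inv_rev]
        exact hcm _ (inv_mem hf) _ (inv_mem hb) }
  have hle : F ⊔ B ≤ P := sup_le
    (fun x hx => ⟨x, hx, 1, one_mem _, mul_one _⟩)
    (fun x hx => ⟨1, one_mem _, x, hx, one_mul _⟩)
  rintro x ⟨hx, hxM⟩
  obtain ⟨f, hf, b, hb, rfl⟩ := hle hx
  have hfM : f ∈ F ⊓ M := by
    refine ⟨hf, ?_⟩
    have h1 : f * b * b⁻¹ ∈ M := M.mul_mem hxM (M.inv_mem (hBM hb))
    rwa [mul_inv_cancel_right] at h1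
  rw [hFM, Subgroup.mem_bot] at hfM
  rw [hfM, one_mul]
  exact hb

lemma r2_inf_mem {M F X : Subgroup G} (hX : X ∈ ApS p G) (hFX : F ≤ X) (hXM : X ⊓ M ≠ ⊥) :
    X ⊓ M ∈ Ain p (M ⊓ centralizer (F : Set G)) := by
  refine ⟨mem_ApS_of_le hX inf_le_left hXM, fun x hx => ⟨hx.2, ?_⟩⟩
  exact Subgroup.mem_centralizer_iff.2 fun y hy => hX.2.1 y (hFX hy) x hx.1

lemma r2_sup_mem {M F B : Subgroup G} (hF : F ∈ ApB p G) (hFM : F ⊓ M = ⊥)
    (hB : B ∈ Ain p (M ⊓ centralizer (F : Set G))) :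
    F ⊔ B ∈ {X | (X ∈ ApS p G ∧ F < X) ∧ X ⊓ M ≠ ⊥} := by
  refine ⟨⟨?_, ?_⟩, ?_⟩
  · rcases hF with h | h
    · rw [h, bot_sup_eq]
      exact hB.1
    · exact sup_mem_ApS h hB.1 (r2_comm hB)
  · refine lt_of_le_of_ne le_sup_left fun h => ?_
    have h1 : B ≤ F := by
      rw [h]
      exact le_sup_right
    have h2 : B ≤ F ⊓ M := le_inf h1 fun x hx => (hB.2 hx).1
    rw [hFM, le_bot_iff] at h2
    exact hB.1.1 h2
  · rw [r2_sup hFM hB]
    exact hB.1.1

lemma r2_lt {M F B B' : Subgroup G} (hFM : F ⊓ M = ⊥)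
    (hB : B ∈ Ain p (M ⊓ centralizer (F : Set G)))
    (hB' : B' ∈ Ain p (M ⊓ centralizer (F : Set G))) : B < B' ↔ F ⊔ B < F ⊔ B' := by
  have hle : F ⊔ B ≤ F ⊔ B' → B ≤ B' := fun h => by
    rw [← r2_sup hFM hB, ← r2_sup hFM hB']
    exact inf_le_inf_right _ h
  constructor
  · intro h
    refine lt_of_le_not_ge (sup_le_sup_left h.le _) fun h' => ?_
    refine h.not_ge ?_
    rw [← r2_sup hFM hB, ← r2_sup hFM hB']
    exact inf_le_inf_right _ h'
  · intro h
    refine lt_of_le_not_ge (hle h.le) fun h' => ?_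
    exact h.not_ge (sup_le_sup_left h' _)

theorem link_acyclic [Finite G] (M : Subgroup G) {F : Subgroup G} (hF : F ∈ ApB p G)
    (hFM : F ⊓ M = ⊥)
    (hlk : ∀ T ∈ ApS p G, F < T → T ⊓ M = ⊥ → ¬ NA 𝕜 {X | X ∈ ApS p G ∧ T < X})
    (hac : ¬ NA 𝕜 (Ain p (M ⊓ centralizer (F : Set G)))) :
    ¬ NA 𝕜 {X | X ∈ ApS p G ∧ F < X} := by
  refine not_NA_attach_all (S := {X | X ∈ ApS p G ∧ F < X}) (Set.toFinite _)
    (X := {X | (X ∈ ApS p G ∧ F < X) ∧ X ⊓ M ≠ ⊥}) (fun X hX => hX.1) ?_ ?_ ?_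
  · intro x hx y hy hxy
    refine ⟨hy, fun h => hx.2 ?_⟩
    rw [← le_bot_iff, ← h]
    exact inf_le_inf_right _ hxy
  · refine not_NA_down (R := (fun B => F ⊔ B) '' (Ain p (M ⊓ centralizer (F : Set G))))
      (ρ := fun X => F ⊔ (X ⊓ M)) ?_ ?_ ?_ ?_ ?_
    · rintro _ ⟨B, hB, rfl⟩
      exact r2_sup_mem hF hFM hB
    · intro X hX
      exact ⟨X ⊓ M, r2_inf_mem hX.1.1 hX.1.2.le hX.2, rfl⟩
    · intro X hX
      exact sup_le hX.1.2.le inf_le_left
    · intro X _ Y _ hXY
      exact sup_le_sup_left (inf_le_inf_right _ hXY) _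
    · rw [NA_image]
      · exact hac
      · intro B hB B' hB' h
        have h' : F ⊔ B = F ⊔ B' := h
        rw [← r2_sup hFM hB, ← r2_sup hFM hB', h']
      · intro B hB B' hB'
        exact r2_lt hFM hB hB'
  · intro T hT hTX
    have hTM : T ⊓ M = ⊥ := by
      by_contra h
      exact hTX ⟨hT, h⟩
    have : {x | x ∈ {X | X ∈ ApS p G ∧ F < X} ∧ T < x} = {X | X ∈ ApS p G ∧ T < X} := by
      ext x
      constructor
      · rintro ⟨h1, h2⟩
        exact ⟨h1.1, h2⟩
      · rintro ⟨h1, h2⟩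
        exact ⟨⟨h1, hT.2.trans h2⟩, h2⟩
    rw [this]
    exact hlk T hT.1 hT.2 hTM

theorem link_lift [Finite G] (M : Subgroup G) {F : Subgroup G} (hF : F ∈ ApB p G)
    (hFM : F ⊓ M = ⊥)
    (hlk : ∀ T ∈ ApS p G, F < T → T ⊓ M = ⊥ → ¬ NA 𝕜 {X | X ∈ ApS p G ∧ T < X})
    {b : Ch 𝕜 (Subgroup G)} (hb : b ∈ Sp 𝕜 (st (Ain p (M ⊓ centralizer (F : Set G)))))
    {c : Ch 𝕜 (Subgroup G)} (hc : c ∈ Sp 𝕜 (st {X | X ∈ ApS p G ∧ F < X}))
    (hcb : bd c = mp (fun B => F ⊔ B) b) :
    ∃ d ∈ Sp 𝕜 (st (Ain p (M ⊓ centralizer (F : Set G)))), bd d = b := by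
  obtain ⟨c0, hc0, hbc0⟩ := up_lift (S := {X | X ∈ ApS p G ∧ F < X}) (Set.toFinite _)
    (X := {X | (X ∈ ApS p G ∧ F < X) ∧ X ⊓ M ≠ ⊥}) (fun X hX => hX.1) (by
      intro x hx y hy hxy
      refine ⟨hy, fun h => hx.2 ?_⟩
      rw [← le_bot_iff, ← h]
      exact inf_le_inf_right _ hxy) (by
      intro T hT hTX
      have hTM : T ⊓ M = ⊥ := by
        by_contra h
        exact hTX ⟨hT, h⟩
      have : {x | x ∈ {X | X ∈ ApS p G ∧ F < X} ∧ T < x} = {X | X ∈ ApS p G ∧ T < X} := by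
        ext x
        constructor
        · rintro ⟨h1, h2⟩
          exact ⟨h1.1, h2⟩
        · rintro ⟨h1, h2⟩
          exact ⟨⟨h1, hT.2.trans h2⟩, h2⟩
      rw [this]
      exact hlk T hT.1 hT.2 hTM) hc (by
      rw [hcb]
      exact mp_mem (st_map (fun B hB => r2_sup_mem hF hFM hB)
        fun B hB B' hB' h => (r2_lt hFM hB hB').1 h) hb)
  have h1 : mp (fun X => X ⊓ M) c0 ∈ Sp 𝕜 (wk (Ain p (M ⊓ centralizer (F : Set G)))) :=
    mp_wk (fun X hX => r2_inf_mem hX.1.1 hX.1.2.le hX.2)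
      (fun X _ Y _ hXY => inf_le_inf_right _ hXY) hc0
  refine ⟨pi (mp (fun X => X ⊓ M) c0), pi_mem h1, ?_⟩
  have h2 : mp ((fun X => X ⊓ M) ∘ fun B => F ⊔ B) b = b :=
    mp_eq_self (P := st (Ain p (M ⊓ centralizer (F : Set G))))
      (fun l hl a ha => r2_sup hFM (hl.2 a ha)) hb
  rw [bd_pi h1, bd_mp, hbc0, hcb, mp_mp, h2, pi_of_st hb]

end

end Vale.Agent.P240.K
end

section

/-!
P240-R6. The main reduction step (from R1, R2, R3 as black boxes).

`HQ_iff`, `HQ_sub_iff` (K/Groups.lean): assume `NA 𝕜 (Ain p M)` and, for contradiction, `¬ NA 𝕜 (ApS p G)`. Call `F ∈ ApB p G` faithful if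
`F ⊓ M = ⊥`. `⊥` is faithful and `M ⊓ centralizer ⊥ = M`, so there is a maximal (finite set) faithful `F` with
`NA 𝕜 (Ain p (M ⊓ centralizer F))`.
(1) For every faithful `T > F`: `¬ NA 𝕜 {X ∈ ApS | T < X}`, by downward induction (`Set.Finite`, well-founded `>` on subgroups of a finite group) using
`link_acyclic` for `T` (the hypothesis `hac` holds by maximality of `F`, `hlk` by induction; `T > F ≥ ⊥` lies in `ApS`).
(2) Let `H, α, φ` be given by `hα` for `F` and let `b` be a cycle of `Ain p (M ⊓ centralizer F)` that is not a boundary; let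
`b' = sg^[φ.length] b`, a cycle (`bd_sg`) in the same span (`sg_mem`). `c = sh α b'` lies in `Sp (wk (ApS p G))`
(`sh_mem` with `A = Ain p H`, `B = Ain p (M ⊓ centralizer F)`, `sup_mem_ApS`), and `bd c = 0` (`bd_sh`). So
`pi c` is a cycle (`bd_pi`) in `Sp (st (ApS p G))`, and `pi c = bd γ` with `γ ∈ Sp (st (ApS p G))` (`not_NA_iff`).
(3) `bd (cf φ γ) = cf φ (bd γ) = cf φ (pi c) = α φ • mp (F ⊔ ·) b` (`bd_cf`, `cf_sh`). `hlen` for `bd_cf`: a strictly decreasing list `m` in `ApS p G` whose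
elements are `≤` an element of `φ`, so `≤ F`: the orders of its elements are powers of `p`, strictly decreasing, at least `p` and at most
`|F| = p ^ φ.length`, so `m.length ≤ φ.length` (prove by induction on the list: if `m` is strictly decreasing in `ApS` with all elements `≤ E` and
`Nat.card E = p ^ k` then `m.length ≤ k`). By `cf_mem`, `cf φ γ` lies in `Sp (st {X ∈ ApS | ∀ f ∈ φ, f < X})`, contained in
`Sp (st {X ∈ ApS | F < X})` (`F` is the head of `φ`, or `F = ⊥`).
(4) `link_lift` for `α φ • b` gives `d` with `bd d = α φ • b`, so `b = bd ((α φ)⁻¹ • d)`: contradiction.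
-/

namespace Vale.Agent.P240.K

open Finsupp Subgroup

universe u v

variable {𝕜 : Type v} [Field 𝕜]

section
variable {G : Type u} [Group G] {p : ℕ}

/-- a strictly decreasing list of nontrivial subgroups of a group of order `p ^ k` -/
private lemma r6_len [hp : Fact p.Prime] [Finite G] (m : List (Subgroup G)) :
    st (ApS p G) m → ∀ (E : Subgroup G) (k : ℕ), Nat.card E = p ^ k → (∀ y ∈ m, y ≤ E) →
      m.length ≤ k := by
  induction m with
  | nil => intro _ E k _ _; exact Nat.zero_le _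
  | cons x m ih =>
    intro hm E k hE hle
    have hp2 := List.pairwise_cons.1 hm.1
    have hxS : x ∈ ApS p G := hm.2 x (by simp)
    have hxE : x ≤ E := hle x (by simp)
    have hm' : st (ApS p G) m := ⟨hp2.2, fun a ha => hm.2 a (by simp [ha])⟩
    obtain ⟨j, hjk, hj⟩ := (Nat.dvd_prime_pow hp.out).1 (hE ▸ Subgroup.card_dvd_of_le hxE)
    have hj0 : j ≠ 0 := by
      rintro rfl
      rw [pow_zero] at hj
      exact hxS.1 (Subgroup.eq_bot_of_card_eq x hj)
    rcases m with _ | ⟨y, m⟩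
    · simp only [List.length_cons, List.length_nil]
      omega
    · have hyx : y < x := hp2.1 y (by simp)
      obtain ⟨i, hij, hi⟩ := (Nat.dvd_prime_pow hp.out).1 (hj ▸ Subgroup.card_dvd_of_le hyx.le)
      have hne : i ≠ j := by
        rintro rfl
        apply hyx.ne
        exact Subgroup.eq_of_le_of_card_ge hyx.le (by rw [hi, hj])
      have h1 := ih hm' y i hi (fun a ha => by
        rcases List.mem_cons.1 ha with h | ha
        · rw [h]
        · exact le_of_lt ((List.pairwise_cons.1 hp2.2).1 a ha))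
      rw [List.length_cons]
      omega

theorem faithful_main [hp : Fact p.Prime] [Finite G] (M : Subgroup G)
    (hα : ∀ F ∈ ApB p G, F ⊓ M = ⊥ → ∃ (H : Subgroup G) (α : Ch 𝕜 (Subgroup G))
      (φ : List (Subgroup G)), TopCycle 𝕜 p H F α φ ∧
        ∀ x ∈ H, ∀ y ∈ M ⊓ centralizer (F : Set G), x * y = y * x)
    (h : HQ 𝕜 p M) : HQ 𝕜 p G := by
  rw [HQ_sub_iff] at h
  rw [HQ_iff]
  by_contra hG
  have hne : (⊥ : Subgroup G) ∈ {F : Subgroup G | F ∈ ApB p G ∧ F ⊓ M = ⊥ ∧
      NA 𝕜 (Ain p (M ⊓ centralizer (F : Set G)))} := by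
    refine ⟨Or.inl rfl, bot_inf_eq _, ?_⟩
    have e : M ⊓ centralizer ((⊥ : Subgroup G) : Set G) = M := by
      refine inf_eq_left.2 fun x _ => ?_
      rw [Subgroup.mem_centralizer_iff]
      intro y hy
      have hy1 : y = 1 := by simpa using hy
      rw [hy1, one_mul, mul_one]
    rw [e]
    exact h
  obtain ⟨F, hF⟩ := (Set.toFinite {F : Subgroup G | F ∈ ApB p G ∧ F ⊓ M = ⊥ ∧
    NA 𝕜 (Ain p (M ⊓ centralizer (F : Set G)))}).exists_maximal ⟨⊥, hne⟩
  obtain ⟨hFB, hFM, b, hb, hbd, hbne⟩ := hF.prop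
  -- (1) upper links
  have hlk : ∀ T : Subgroup G, T ∈ ApS p G → F < T → T ⊓ M = ⊥ →
      ¬ NA 𝕜 {X | X ∈ ApS p G ∧ T < X} := by
    intro T
    induction T using WellFoundedGT.induction with
    | ind T ih =>
      intro hT hFT hTM
      refine link_acyclic M (Or.inr hT) hTM (fun T' hT' hTT' hT'M =>
        ih T' hTT' hT' (hFT.trans hTT') hT'M) fun hna => ?_
      exact hF.not_gt (y := T) ⟨Or.inr hT, hTM, hna⟩ hFT
  -- (2) the shuffle product
  obtain ⟨H, α, φ, hT, hcomm⟩ := hα F hFB hFM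
  have hb' : ∀ k : ℕ, (⇑(sg (𝕜 := 𝕜) (α := Subgroup G)))^[k] b ∈
      Sp 𝕜 (st (Ain p (M ⊓ centralizer (F : Set G)))) ∧
      bd ((⇑(sg (𝕜 := 𝕜) (α := Subgroup G)))^[k] b) = 0 := by
    intro k
    induction k with
    | zero => exact ⟨hb, hbd⟩
    | succ k ih =>
      rw [Function.iterate_succ_apply']
      exact ⟨sg_mem ih.1, by rw [bd_sg, ih.2, map_zero, neg_zero]⟩
  obtain ⟨hb1, hb2⟩ := hb' φ.length
  have hcm : sh α ((⇑(sg (𝕜 := 𝕜) (α := Subgroup G)))^[φ.length] b) ∈
      Sp 𝕜 (wk (ApS p G)) := by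
    refine sh_mem (A := Ain p H) (B := Ain p (M ⊓ centralizer (F : Set G)))
      (fun E hE => hE.1) (fun E hE => hE.1) (fun a ha b hb => sup_mem_ApS ha.1 hb.1
        fun x hx y hy => hcomm x (ha.2 hx) y (hb.2 hy)) ?_ ?_
    · exact Sp_mono (fun l hl => st_wk l hl.1) hT.mem
    · exact Sp_mono (fun l hl => st_wk l hl) hb1
  have hcb : bd (sh α ((⇑(sg (𝕜 := 𝕜) (α := Subgroup G)))^[φ.length] b)) = 0 := by
    rw [bd_sh, hT.cyc, hb2, map_zero, map_zero, LinearMap.zero_apply, add_zero]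
  obtain ⟨γ, hγ, hbγ⟩ := (not_NA_iff.1 hG) _ (pi_mem hcm) (by rw [bd_pi hcm, hcb, map_zero])
  -- the elements of `φ`
  have hφF : ∀ f ∈ φ, f ≤ F := by
    have hst : st (Ain p H) φ :=
      ((mem_Sp.1 hT.mem) φ (Finsupp.mem_support_iff.2 hT.ne)).1
    rcases hT.top with ⟨h1, -⟩ | ⟨φ', h1⟩
    · intro f hf
      rw [h1] at hf
      exact absurd hf (by simp)
    · intro f hf
      rw [h1] at hf hst
      rcases List.mem_cons.1 hf with h2 | h2
      · rw [h2]
      · exact le_of_lt ((List.pairwise_cons.1 hst.1).1 f h2)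
  have hlen : ∀ m, st (ApS p G) m → (∀ y ∈ m, ∃ f ∈ φ, y ≤ f) → m.length ≤ φ.length := by
    intro m hm hmφ
    refine r6_len m hm F φ.length hT.card fun y hy => ?_
    obtain ⟨f, hf, hyf⟩ := hmφ y hy
    exact hyf.trans (hφF f hf)
  have h3 : bd (cf φ γ) = mp (fun B => F ⊔ B) (α φ • b) := by
    rw [bd_cf φ hlen hγ, hbγ, cf_sh hFM hT hb, map_smul]
  have h4 : cf φ γ ∈ Sp 𝕜 (st {X | X ∈ ApS p G ∧ F < X}) := by
    refine Sp_mono (fun l hl => st_mono ?_ l hl) (cf_mem φ hγ)
    rintro x ⟨hx1, hx2⟩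
    refine ⟨hx1, ?_⟩
    rcases hT.top with ⟨-, h1⟩ | ⟨φ', h1⟩
    · rw [h1]
      exact bot_lt_iff_ne_bot.2 hx1.1
    · exact hx2 F (by rw [h1]; simp)
  obtain ⟨d, hd, hdb⟩ := link_lift M hFB hFM hlk (Submodule.smul_mem _ (α φ) hb) h4 h3
  refine hbne ((α φ)⁻¹ • d) (Submodule.smul_mem _ _ hd) ?_
  rw [map_smul, hdb, smul_smul, inv_mul_cancel₀ hT.ne, one_smul]

end

end Vale.Agent.P240.K
end

section

namespace Vale.Agent.P240.K

open Finsupp Subgroup

universe u v

variable {𝕜 : Type v} [Field 𝕜]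

section
variable {G : Type u} [Group G] {p : ℕ}

theorem reduce_cent [hp : Fact p.Prime] [Finite G] (N : Subgroup G)
    (hN : ¬ p ∣ Nat.card N) (hsol : SolvableFaithful p N)
    (h : HQ 𝕜 p (centralizer (N : Set G))) : HQ 𝕜 p G := by
  refine faithful_main (centralizer (N : Set G)) ?_ h
  intro F hF hFM
  obtain ⟨Y, hYN, hs, hn, hf⟩ : ∃ Y ≤ N, Group.IsSolvable Y ∧
      (∀ x ∈ F, ∀ y ∈ Y, x * y * x⁻¹ ∈ Y) ∧ ∀ x ∈ F, (∀ y ∈ Y, x * y = y * x) → x = 1 := by
    rcases hF with hb | hF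
    · subst hb
      refine ⟨⊥, bot_le, inferInstance, ?_, ?_⟩
      · intro x hx y hy
        rw [Subgroup.mem_bot] at hx hy ⊢
        rw [hx, hy]
        group
      · intro x hx _
        exact Subgroup.mem_bot.1 hx
    · exact hsol F hF hFM
  obtain ⟨α, φ, hα⟩ := quillen_cycle (𝕜 := 𝕜) hF hs
    (fun hd => hN (hd.trans (Subgroup.card_dvd_of_le hYN))) hn hf
  refine ⟨Y ⊔ F, α, φ, hα, ?_⟩
  intro x hx y hy
  obtain ⟨hy1, hy2⟩ := Subgroup.mem_inf.1 hy
  have h1 : Y ⊔ F ≤ centralizer {y} := by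
    refine sup_le ?_ ?_
    · intro a ha
      rw [mem_centralizer_singleton_iff]
      exact (mem_centralizer_iff.1 hy1) a (hYN ha)
    · intro a ha
      rw [mem_centralizer_singleton_iff]
      exact (mem_centralizer_iff.1 hy2) a ha
  exact mem_centralizer_singleton_iff.1 (h1 hx)

end

end Vale.Agent.P240.K
end

section

/-!
P240-R8a. Quillen's homology statement passes from a central quotient of order prime to `p`.
-/

namespace Vale.Agent.P240.K

open Finsupp Subgroup

universe u v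

variable {𝕜 : Type v} [Field 𝕜]

section
variable {G : Type u} [Group G] {p : ℕ}

lemma r8a_pow_eq_one [hp : Fact p.Prime] [Finite G] {Z : Subgroup G}
    (hpZ : ¬ p ∣ Nat.card Z) {z : G} (hz : z ∈ Z) (h : z ^ p = 1) : z = 1 := by
  have h1 : orderOf z ∣ p := orderOf_dvd_of_pow_eq_one h
  have h2 : orderOf z ∣ Nat.card Z := by
    have : orderOf (⟨z, hz⟩ : Z) ∣ Nat.card Z := orderOf_dvd_natCard _
    rwa [Subgroup.orderOf_mk] at this
  have h3 : Nat.Coprime p (Nat.card Z) := (Nat.Prime.coprime_iff_not_dvd hp.out).2 hpZ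
  have h4 : orderOf z = 1 := Nat.eq_one_of_dvd_coprimes h3 h1 h2
  exact orderOf_eq_one_iff.1 h4

/-- membership in `E` is seen in the quotient -/
lemma r8a_mem_iff [hp : Fact p.Prime] [Finite G] {Z : Subgroup G} [Z.Normal]
    (hZ : ∀ z ∈ Z, ∀ g : G, z * g = g * z) (hpZ : ¬ p ∣ Nat.card Z) {E : Subgroup G}
    (hE : E ∈ ApS p G) (x : G) :
    x ∈ E ↔ x ^ p = 1 ∧ QuotientGroup.mk' Z x ∈ E.map (QuotientGroup.mk' Z) := by
  constructor
  · intro hx
    exact ⟨hE.2.2 x hx, Subgroup.mem_map_of_mem _ hx⟩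
  · rintro ⟨h1, e, he, h2⟩
    have h3 : e⁻¹ * x ∈ Z := by
      rw [← QuotientGroup.eq]
      exact h2
    have h4 : x = (e⁻¹ * x) * e := by
      rw [hZ _ h3 e]
      group
    have h5 : (e⁻¹ * x) ^ p = 1 := by
      have hc : Commute (e⁻¹ * x) e := hZ _ h3 e
      have := hc.mul_pow p
      rw [← h4, h1, hE.2.2 e he, mul_one] at this
      exact this.symm
    have h6 : e⁻¹ * x = 1 := r8a_pow_eq_one hpZ h3 h5
    have h7 : x = e := by
      rw [h4, h6, one_mul]
    rw [h7]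
    exact he

lemma r8a_map_mem [hp : Fact p.Prime] [Finite G] {Z : Subgroup G} [Z.Normal]
    (hpZ : ¬ p ∣ Nat.card Z) {E : Subgroup G}
    (hE : E ∈ ApS p G) : E.map (QuotientGroup.mk' Z) ∈ ApS p (G ⧸ Z) := by
  refine ⟨?_, ?_, ?_⟩
  · intro h
    apply hE.1
    rw [eq_bot_iff]
    intro x hx
    have h1 : QuotientGroup.mk' Z x ∈ E.map (QuotientGroup.mk' Z) := Subgroup.mem_map_of_mem _ hx
    rw [h, Subgroup.mem_bot] at h1
    have h2 : x ∈ Z := by
      rw [← QuotientGroup.eq_one_iff]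
      exact h1
    rw [Subgroup.mem_bot]
    exact r8a_pow_eq_one hpZ h2 (hE.2.2 x hx)
  · rintro _ ⟨x, hx, rfl⟩ _ ⟨y, hy, rfl⟩
    rw [← map_mul, ← map_mul, hE.2.1 x hx y hy]
  · rintro _ ⟨x, hx, rfl⟩
    rw [← map_pow, hE.2.2 x hx, map_one]

lemma r8a_comm [hp : Fact p.Prime] [Finite G] {Z : Subgroup G} [Z.Normal]
    (hZ : ∀ z ∈ Z, ∀ g : G, z * g = g * z) (hpZ : ¬ p ∣ Nat.card Z) {X : Subgroup (G ⧸ Z)}
    (hX : X ∈ ApS p (G ⧸ Z)) {x y : G} (hx : QuotientGroup.mk' Z x ∈ X)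
    (hy : QuotientGroup.mk' Z y ∈ X) : x * y = y * x := by
  have hxp : x ^ p ∈ Z := by
    rw [← QuotientGroup.eq_one_iff]
    have := hX.2.2 _ hx
    rw [← map_pow] at this
    exact this
  have hc : (y * x)⁻¹ * (x * y) ∈ Z := by
    rw [← QuotientGroup.eq]
    have := hX.2.1 _ hy _ hx
    rw [← map_mul, ← map_mul] at this
    exact this
  set c := (y * x)⁻¹ * (x * y) with hcdef
  have h1 : x * y = c * (y * x) := by
    rw [hZ c hc (y * x), hcdef]
    group
  -- conjugation of `x` by `y`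
  have h2 : y⁻¹ * x * y = c * x := by
    have : x * y = y * (c * x) := by
      rw [h1, ← mul_assoc, hZ c hc y, mul_assoc]
    rw [mul_assoc, this]
    group
  have h3 : y⁻¹ * x ^ p * y = c ^ p * x ^ p := by
    have hcx : Commute c x := hZ c hc x
    have h4 : (y⁻¹ * x * y) ^ p = y⁻¹ * x ^ p * y := by
      have := conj_pow (i := p) (a := y⁻¹) (b := x)
      rw [inv_inv] at this
      exact this
    rw [← h4, h2, hcx.mul_pow]
  have h5 : c ^ p = 1 := by
    have h6 : y⁻¹ * x ^ p * y = x ^ p := by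
      rw [mul_assoc, hZ _ hxp y]
      group
    rw [h6] at h3
    exact mul_eq_right.1 h3.symm
  have h7 : c = 1 := r8a_pow_eq_one hpZ hc h5
  rw [h1, h7, one_mul]

lemma r8a_surj [hp : Fact p.Prime] [Finite G] {Z : Subgroup G} [Z.Normal]
    (hZ : ∀ z ∈ Z, ∀ g : G, z * g = g * z) (hpZ : ¬ p ∣ Nat.card Z) {X : Subgroup (G ⧸ Z)}
    (hX : X ∈ ApS p (G ⧸ Z)) : ∃ E ∈ ApS p G, E.map (QuotientGroup.mk' Z) = X := by
  have hcop : Nat.Coprime p (Nat.card Z) := (Nat.Prime.coprime_iff_not_dvd hp.out).2 hpZ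
  obtain ⟨m, hm1, hm2⟩ := Nat.chineseRemainder hcop 1 0
  let E : Subgroup G :=
    { carrier := {x | QuotientGroup.mk' Z x ∈ X ∧ x ^ p = 1}
      one_mem' := ⟨by rw [map_one]; exact one_mem _, one_pow _⟩
      mul_mem' := by
        rintro x y ⟨hx, hx'⟩ ⟨hy, hy'⟩
        refine ⟨by rw [map_mul]; exact mul_mem hx hy, ?_⟩
        have : Commute x y := r8a_comm hZ hpZ hX hx hy
        rw [this.mul_pow, hx', hy', one_mul]
      inv_mem' := by
        rintro x ⟨hx, hx'⟩
        exact ⟨by rw [map_inv]; exact inv_mem hx, by rw [inv_pow, hx', inv_one]⟩ }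
  have hE : ∀ x, x ∈ E ↔ QuotientGroup.mk' Z x ∈ X ∧ x ^ p = 1 := fun x => Iff.rfl
  have hmap : E.map (QuotientGroup.mk' Z) = X := by
    apply le_antisymm
    · rintro _ ⟨x, hx, rfl⟩
      exact ((hE x).1 hx).1
    · intro q hq
      obtain ⟨x, rfl⟩ := QuotientGroup.mk'_surjective Z q
      have hxp : x ^ p ∈ Z := by
        rw [← QuotientGroup.eq_one_iff]
        have := hX.2.2 _ hq
        rw [← map_pow] at this
        exact this
      have h1 : QuotientGroup.mk' Z (x ^ m) = QuotientGroup.mk' Z x := by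
        have hqp : (QuotientGroup.mk' Z x) ^ p = 1 := hX.2.2 _ hq
        rw [map_pow]
        have h2 : m % p = 1 % p := hm1
        have h3 : (QuotientGroup.mk' Z x) ^ m = (QuotientGroup.mk' Z x) ^ (m % p) :=
          pow_eq_pow_mod m hqp
        have h4 : (QuotientGroup.mk' Z x) ^ (1 : ℕ) = (QuotientGroup.mk' Z x) ^ (1 % p) :=
          pow_eq_pow_mod 1 hqp
        rw [h3, h2, ← h4, pow_one]
      refine ⟨x ^ m, (hE _).2 ⟨by rw [h1]; exact hq, ?_⟩, h1⟩
      have h5 : Nat.card Z ∣ m := (Nat.modEq_zero_iff_dvd).1 hm2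
      obtain ⟨t, ht⟩ := h5
      have h6 : (x ^ p) ^ Nat.card Z = 1 := by
        have : (⟨x ^ p, hxp⟩ : Z) ^ Nat.card Z = 1 := pow_card_eq_one'
        have h7 : (((⟨x ^ p, hxp⟩ : Z) ^ Nat.card Z : Z) : G) = ((1 : Z) : G) :=
          congrArg Subtype.val this
        rwa [Subgroup.coe_pow, Subgroup.coe_one] at h7
      rw [← pow_mul, mul_comm m p, pow_mul, ht, pow_mul, h6, one_pow]
  refine ⟨E, ⟨?_, ?_, ?_⟩, hmap⟩
  · intro h
    apply hX.1
    rw [← hmap, h, Subgroup.map_bot]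
  · intro x hx y hy
    exact r8a_comm hZ hpZ hX ((hE x).1 hx).1 ((hE y).1 hy).1
  · intro x hx
    exact ((hE x).1 hx).2

theorem HQ_central [hp : Fact p.Prime] [Finite G] (Z : Subgroup G) [Z.Normal]
    (hZ : ∀ z ∈ Z, ∀ g : G, z * g = g * z) (hpZ : ¬ p ∣ Nat.card Z) (h : HQ 𝕜 p (G ⧸ Z)) :
    HQ 𝕜 p G := by
  rw [HQ_iff] at h ⊢
  have himg : (fun E : Subgroup G => E.map (QuotientGroup.mk' Z)) '' (ApS p G)
      = ApS p (G ⧸ Z) := by
    ext X
    constructor
    · rintro ⟨E, hE, rfl⟩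
      exact r8a_map_mem hpZ hE
    · intro hX
      obtain ⟨E, hE, h2⟩ := r8a_surj hZ hpZ hX
      exact ⟨E, hE, h2⟩
  rw [← himg] at h
  have hle : ∀ E ∈ ApS p G, ∀ F ∈ ApS p G,
      E.map (QuotientGroup.mk' Z) ≤ F.map (QuotientGroup.mk' Z) → E ≤ F := by
    intro E hE F hF hEF x hx
    rw [r8a_mem_iff hZ hpZ hF]
    exact ⟨hE.2.2 x hx, hEF (Subgroup.mem_map_of_mem _ hx)⟩
  refine (NA_image ?_ ?_).1 h
  · intro E hE F hF hEF
    exact le_antisymm (hle E hE F hF (le_of_eq hEF)) (hle F hF E hE (ge_of_eq hEF))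
  · intro E hE F hF
    constructor
    · intro hlt
      refine lt_of_le_of_ne (Subgroup.map_mono hlt.le) fun heq => hlt.ne ?_
      exact le_antisymm hlt.le (hle F hF E hE (ge_of_eq heq))
    · intro hlt
      refine lt_of_le_of_ne (hle E hE F hF hlt.le) ?_
      rintro rfl
      exact lt_irrefl _ hlt

end

end Vale.Agent.P240.K
end

section

/-!
P240-R8b. The reduced group `centralizer N / (N ⊓ centralizer N)` has trivial `O_p` and trivial `O_p'`.
-/

namespace Vale.Agent.P240.K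

open Subgroup

universe u

/-- central quotients of order prime to `p` -/
theorem r8b_op {C : Type u} [Group C] {p : ℕ} [hp : Fact p.Prime] [Finite C]
    (hO : OpTrivial p C) (Z : Subgroup C) [Z.Normal] (hZ : ∀ z ∈ Z, ∀ c : C, z * c = c * z)
    (hpZ : ¬ p ∣ Nat.card Z) : OpTrivial p (C ⧸ Z) := by
  intro X hX hXp
  by_contra hne
  set P : Subgroup C := X.comap (QuotientGroup.mk' Z) with hP
  have hPn : P.Normal := hX.comap _
  let f : P →* X := (QuotientGroup.mk' Z).subgroupComap X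
  have hf : Function.Surjective f := by
    rintro ⟨x, hx⟩
    obtain ⟨y, rfl⟩ := QuotientGroup.mk'_surjective Z x
    exact ⟨⟨y, hx⟩, rfl⟩
  have hker : f.ker ≤ center P := by
    intro y hy
    rw [MonoidHom.mem_ker] at hy
    have h1 : (QuotientGroup.mk' Z) (y : C) = 1 := congrArg Subtype.val hy
    have h2 : (y : C) ∈ Z := (QuotientGroup.eq_one_iff _).1 h1
    rw [mem_center_iff]
    intro g
    exact Subtype.ext (hZ _ h2 g).symm
  have hXnil : Group.IsNilpotent X := hXp.isNilpotent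
  have hPnil : Group.IsNilpotent P := Subgroup.isNilpotent_of_ker_le_center f hker
  have hpX : p ∣ Nat.card X := by
    obtain ⟨k, hk⟩ := IsPGroup.iff_card.1 hXp
    rcases Nat.eq_zero_or_pos k with rfl | hk0
    · exfalso
      apply hne
      rw [pow_zero] at hk
      exact (Subgroup.card_eq_one).1 hk
    · rw [hk]
      exact dvd_pow_self p hk0.ne'
  have hpP : p ∣ Nat.card P := hpX.trans (Subgroup.card_dvd_of_surjective f hf)
  obtain ⟨x, hx⟩ := exists_prime_orderOf_dvd_card' p hpP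
  have hxp : IsPGroup p (zpowers x) := by
    apply IsPGroup.of_card (n := 1)
    rw [Nat.card_zpowers, hx, pow_one]
  obtain ⟨Q, hQ⟩ := hxp.exists_le_sylow
  have hQn : (Q : Subgroup P).Normal := by
    have := (Group.isNilpotent_of_finite_tfae (G := P)).out 0 3
    exact this.1 hPnil p hp Q
  have hQc : (Q : Subgroup P).Characteristic := Sylow.characteristic_of_normal Q hQn
  have h3 : ((Q : Subgroup P).map P.subtype).Normal := inferInstance
  have h4 := hO _ h3 (Q.isPGroup'.map _)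
  have h5 : (Q : Subgroup P) = ⊥ := (map_eq_bot_iff_of_injective _ P.subtype_injective).1 h4
  have h6 : x ∈ (Q : Subgroup P) := hQ (mem_zpowers x)
  rw [h5, mem_bot] at h6
  rw [h6, orderOf_one] at hx
  exact hp.out.one_lt.ne hx

/-- normal `p'`-subgroups of a normal subgroup -/
theorem r8b_pp {G : Type u} [Group G] {p : ℕ} [hp : Fact p.Prime] [Finite G]
    (C N : Subgroup G) [C.Normal]
    (hmax : ∀ X : Subgroup G, X.Normal → ¬ p ∣ Nat.card X → X ≤ N)
    (P : Subgroup C) (hPn : P.Normal) (hpP : ¬ p ∣ Nat.card P) : P.map C.subtype ≤ N := by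
  let S : Set (Subgroup C) := {W | W.Normal ∧ ¬ p ∣ Nat.card W}
  have hfin : S.Finite := Set.toFinite S
  obtain ⟨W, hPW, hW⟩ := hfin.exists_le_maximal (a := P) ⟨hPn, hpP⟩
  have hsup : ∀ V ∈ S, V ≤ W := by
    intro V hV
    have hmem : V ⊔ W ∈ S := by
      have hWn := hW.prop.1
      have hVn := hV.1
      refine ⟨inferInstance, ?_⟩
      intro hd
      have h1 : W.relIndex (V ⊔ W) = W.relIndex V := relIndex_sup_right V W
      have h2 : Nat.card W * W.relIndex (V ⊔ W) = Nat.card (V ⊔ W : Subgroup C) := by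
        rw [← relIndex_bot_left, ← relIndex_bot_left]
        exact relIndex_mul_relIndex _ _ _ bot_le le_sup_right
      rw [← h2, h1] at hd
      rcases (Nat.Prime.dvd_mul hp.out).1 hd with h3 | h3
      · exact hW.prop.2 h3
      · exact hV.2 (h3.trans (relIndex_dvd_card _ _))
    exact le_trans le_sup_left (hW.le_of_ge hmem le_sup_right)
  have hWc : W.Characteristic := by
    rw [characteristic_iff_map_le]
    intro φ
    apply hsup
    refine ⟨hW.prop.1.map _ φ.surjective, ?_⟩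
    have : Nat.card (W.map φ.toMonoidHom) = Nat.card W :=
      Nat.card_congr (W.equivMapOfInjective φ.toMonoidHom φ.injective).symm.toEquiv
    rw [this]
    exact hW.prop.2
  have h3 : (W.map C.subtype).Normal := inferInstance
  have h4 : W.map C.subtype ≤ N := by
    apply hmax _ h3
    have : Nat.card (W.map C.subtype) = Nat.card W :=
      Nat.card_congr (W.equivMapOfInjective C.subtype C.subtype_injective).symm.toEquiv
    rw [this]
    exact hW.prop.2
  exact (map_mono hPW).trans h4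

section
variable {G : Type u} [Group G] {p : ℕ}

theorem r8b_card [Finite G] (N C : Subgroup G) (hN : ¬ p ∣ Nat.card N) :
    ¬ p ∣ Nat.card (N.subgroupOf C) := by
  intro h
  exact hN (h.trans (card_comap_dvd_of_injective N C.subtype C.subtype_injective))

theorem reduced_op [hp : Fact p.Prime] [Finite G] (hO : OpTrivial p G) (N : Subgroup G) [N.Normal]
    (hN : ¬ p ∣ Nat.card N) :
    OpTrivial p (centralizer (N : Set G) ⧸ N.subgroupOf (centralizer (N : Set G))) := by
  have hCn : (centralizer (N : Set G)).Normal := inferInstance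
  have hOC : OpTrivial p (centralizer (N : Set G)) :=
    opTrivial_of_opIn
      (OpIn.descend le_top (fun m _ h hh => hCn.conj_mem _ hh m) (opIn_top hO))
  apply r8b_op hOC _ _ (r8b_card N _ hN)
  intro z hz c
  have h1 : (z : G) ∈ N := hz
  exact Subtype.ext ((mem_centralizer_iff.1 c.2) _ h1)

theorem reduced_op' [hp : Fact p.Prime] [Finite G] (N : Subgroup G) [N.Normal]
    (hN : ¬ p ∣ Nat.card N) (hmax : ∀ X : Subgroup G, X.Normal → ¬ p ∣ Nat.card X → X ≤ N)
    (X : Subgroup (centralizer (N : Set G) ⧸ N.subgroupOf (centralizer (N : Set G))))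
    (hX : X.Normal) (hpX : ¬ p ∣ Nat.card X) : X = ⊥ := by
  have hCn : (centralizer (N : Set G)).Normal := inferInstance
  revert X
  generalize centralizer (N : Set G) = C at hCn
  intro X hX hpX
  set Z := N.subgroupOf C with hZ
  set P : Subgroup C := X.comap (QuotientGroup.mk' Z) with hP
  have hPn : P.Normal := hX.comap _
  have hcard : Nat.card P = Nat.card X * Nat.card Z := by
    let f : P →* X := (QuotientGroup.mk' Z).subgroupComap X
    have hf : Function.Surjective f := by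
      rintro ⟨x, hx⟩
      obtain ⟨y, rfl⟩ := QuotientGroup.mk'_surjective Z x
      exact ⟨⟨y, hx⟩, rfl⟩
    have h1 : Nat.card (P ⧸ f.ker) = Nat.card X :=
      Nat.card_congr (QuotientGroup.quotientKerEquivOfSurjective f hf).toEquiv
    have h2 : Nat.card f.ker = Nat.card Z := by
      have hZP : Z ≤ P := by
        intro z hz
        have : (QuotientGroup.mk' Z) z = 1 := (QuotientGroup.eq_one_iff z).2 hz
        rw [hP, mem_comap, this]
        exact X.one_mem
      refine Nat.card_congr ⟨fun y => ⟨y.1.1, ?_⟩, fun z => ⟨⟨z.1, hZP z.2⟩, ?_⟩, ?_, ?_⟩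
      · have hy := y.2
        rw [MonoidHom.mem_ker] at hy
        exact (QuotientGroup.eq_one_iff _).1 (congrArg Subtype.val hy)
      · rw [MonoidHom.mem_ker]
        exact Subtype.ext ((QuotientGroup.eq_one_iff z.1).2 z.2)
      · intro y
        rfl
      · intro z
        rfl
    have h3 := Subgroup.card_eq_card_quotient_mul_card_subgroup f.ker
    rw [h3, h1, h2]
  have hpP : ¬ p ∣ Nat.card P := by
    rw [hcard]
    intro h
    rcases (Nat.Prime.dvd_mul hp.out).1 h with h3 | h3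
    · exact hpX h3
    · exact r8b_card N C hN h3
  have key := r8b_pp C N hmax P hPn hpP
  rw [eq_bot_iff]
  intro x hx
  obtain ⟨y, rfl⟩ := QuotientGroup.mk'_surjective Z x
  have h1 : (y : G) ∈ N := key ⟨y, hx, rfl⟩
  rw [mem_bot]
  exact (QuotientGroup.eq_one_iff y).2 h1

end

end Vale.Agent.P240.K
end

section

/-!
P240-R8. Central quotients, and the reduced group.

`HQ_central`: `HQ_iff` twice, then `NA_image` (K/NonAcyclic.lean) with `S = ApS p G`, `f = Subgroup.map (QuotientGroup.mk' Z)`: `f '' ApS p G = ApS p (G ⧸ Z)`.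
An `E ∈ ApS p G` meets `Z` trivially (`p ∤ |Z|`), and `E` is the set of elements of order dividing `p` of `E ⊔ Z` (if `e z` has
`(e z) ^ p = 1` then `z ^ p = 1` as `z` is central, so `z = 1`), which gives injectivity and `E < E' ↔ f E < f E'`. Surjectivity: let
`X ∈ ApS p (G ⧸ Z)`, `P = X.comap (mk' Z)`; let `m` be a natural number with `m ≡ 1 mod p`, `m ≡ 0 mod |Z|`. For `x ∈ P` we have `x ^ p ∈ Z`. The
elements of `P` of order dividing `p` form a subgroup `E`: for `x y ∈ P` the commutator `[x, y] ∈ Z` is central with `[x, y] ^ p = [x ^ p, y] = 1`, so `[x, y] = 1`,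
so `P` is abelian; and `x ^ m` maps to the same element of `X` as `x` with `(x ^ m) ^ p = 1` (`x ^ p ∈ Z`, `|Z|` divides `m`), so `E` maps onto `X`.

`reduced_quotient`: let `C = centralizer N`, `Z = N.subgroupOf C` (central in `C`, of order prime to `p`). Let `X` be a normal subgroup of `C ⧸ Z`
and `P = X.comap (mk' Z)` its preimage in `C`.
(a) If `X` is a `p`-group: `Z` is central of order prime to `p` and `P/Z` is a `p`-group, so the elements of `p`-power order of `P` form a normal Sylow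
`p`-subgroup `Q` (for example: a Sylow `p`-subgroup `Q` of `P` satisfies `P = Q ⊔ Z`, so it is normal in `P`, `Sylow.normal`/characteristic).
The subgroup of `G` generated by ALL such `Q`: more precisely, we need that `O_p(C) = ⊥`. Let `W` be the subgroup of `C` generated by all normal
`p`-subgroups of `C`; it is a `p`-group, characteristic in `C`, so its image in `G` is normal in `G` (`C` is normal in `G`), so trivial by `hO`.
(The library has `opTrivial` lemmas: see K/Minimal.lean, `OpIn.descend`, `opTrivial_of_opIn`, `opIn_top`, and `V/L2Rest.lean`.) So `Q = ⊥`, `P = Z`, `X = ⊥`.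
(b) If `p ∤ |X|` then `p ∤ |P|`, `P` is a normal `p'`-subgroup of `C`. The product of all normal `p'`-subgroups of `C` is a normal `p'`-subgroup of `C`,
characteristic in `C`, so its image in `G` is a normal `p'`-subgroup of `G`, so contained in `N` by `hmax`. So `P ≤ Z`, `X = ⊥`. (A simpler way: the
normal closure in `G` of the image of `P`: it is generated by the conjugates of the image of `P`, which are normal `p'`-subgroups of `C`; a product of
normal `p'`-subgroups of `C` is a `p'`-subgroup: induct; see V/L2Rest.lean for a similar argument.)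
-/
end

section

namespace Vale.Agent.P240.K

open Finsupp Subgroup

universe u v

variable {𝕜 : Type v} [Field 𝕜]

section
variable {G : Type u} [Group G] {p : ℕ}

theorem reduce_all [hp : Fact p.Prime] [Finite G] (N : Subgroup G) [N.Normal]
    (hN : ¬ p ∣ Nat.card N) (hsol : SolvableFaithful p N) (h : HQ 𝕜 p (Reduced N)) :
    HQ 𝕜 p G := by
  refine reduce_cent N hN hsol ?_
  refine HQ_central (N.subgroupOf (centralizer (N : Set G))) ?_ ?_ h
  · intro z hz g
    rw [mem_subgroupOf] at hz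
    exact Subtype.ext ((mem_centralizer_iff.1 g.2) z hz)
  · intro hd
    refine hN (hd.trans ?_)
    have h1 : Nat.card ((N.subgroupOf (centralizer (N : Set G))).map
        (centralizer (N : Set G)).subtype) = Nat.card (N.subgroupOf (centralizer (N : Set G))) :=
      card_map_of_injective (subtype_injective _)
    rw [← h1]
    refine card_dvd_of_le ?_
    rw [subgroupOf_map_subtype]
    exact inf_le_left

end

end Vale.Agent.P240.K
end
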